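import Vale.Agent.P334.Defs

/-!
List versions of cost and feasibility, and small programming tools with their specifications.
-/

namespace Vale.Agent.P334

open Vale.Agent.Lib.TM Vale.Agent.P049

/-- A table with `n` entries. -/
def tab {β : Type} (n : ℕ) (f : ℕ → β) : List β := (List.range n).map f

/-- The first element of `l` (or `a`) with the least value of `f`. -/
def argmin {β : Type} (f : β → ℚ) (l : List β) (a : β) : β :=
  l.foldl (fun s x => bif decide (f x < f s) then x else s) a

/-- The least value of `f` on a nonempty list. -/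
def minL (f : ℕ → ℚ) (l : List ℕ) : ℚ := f (argmin f l (l.headD 0))

/-- All lists of length at most `t` with entries in `l`. -/
def subs {β : Type} (l : List β) : ℕ → List (List β)
  | 0 => [[]]
  | t + 1 => [] :: l.flatMap fun x => (subs l t).map fun r => x :: r

/-- Membership test. -/
def memB (x : ℕ) (l : List ℕ) : Bool := l.any fun y => y == x

/-- Distance from a point to a list of points. -/
def dS (I : Inst) (S : List ℕ) (j : ℕ) : ℚ := minL (I.d j) S

/-- Cost of a list of facilities. -/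
def costL (I : Inst) (S : List ℕ) : ℚ := (I.J.map (dS I S)).sum

/-- The points that matter. -/
def Pt (I : Inst) (x : ℕ) : Prop := x ∈ I.J ∨ x ∈ I.F

/-- Pseudometric on clients and facilities, a nonempty facility list, and `1 ≤ k`. -/
structure WF (I : Inst) : Prop where
  self : ∀ x, Pt I x → I.d x x = 0
  nonneg : ∀ x y, Pt I x → Pt I y → 0 ≤ I.d x y
  symm : ∀ x y, Pt I x → Pt I y → I.d x y = I.d y x
  tri : ∀ x y z, Pt I x → Pt I y → Pt I z → I.d x z ≤ I.d x y + I.d y z
  F_ne : I.F ≠ []
  k_pos : 1 ≤ I.k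

/-- A nonempty list of at most `k + c` facilities. -/
def Feas (c : ℕ) (I : Inst) (S : List ℕ) : Prop :=
  S ≠ [] ∧ (∀ i ∈ S, i ∈ I.F) ∧ S.length ≤ I.k + c

/-- Test for `Feas`. -/
def feasB (c : ℕ) (I : Inst) (S : List ℕ) : Bool :=
  !S.isEmpty && (S.all fun i => memB i I.F) && decide (S.length ≤ I.k + c)

/-- The best feasible list among the candidates and one single facility. -/
def best (c : ℕ) (I : Inst) (L : List (List ℕ)) : List ℕ :=
  argmin (costL I) (L.filter (feasB c I)) [I.F.headD 0]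

/-- Approximation with factor `α` that opens at most `c` extra facilities. -/
def PApprox (α : ℝ) (c : ℕ) (A : Inst → List ℕ) : Prop :=
  ∀ I, WF I → Feas c I (A I) ∧ ∀ O, Feas 0 I O → (costL I (A I) : ℝ) ≤ α * costL I O

section spec

variable {β : Type}

@[simp] lemma length_tab (n : ℕ) (f : ℕ → β) : (tab n f).length = n := by simp [tab]

lemma getD_tab {n i : ℕ} (f : ℕ → β) (a : β) (h : i < n) : (tab n f).getD i a = f i := by
  simp [tab, List.getD_eq_getElem?_getD, h]

lemma getD_tab_ge {n i : ℕ} (f : ℕ → β) (a : β) (h : n ≤ i) : (tab n f).getD i a = a := by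
  simp [tab, List.getD_eq_getElem?_getD, h]

lemma sum_tab {M : Type} [AddCommMonoid M] (n : ℕ) (f : ℕ → M) :
    (tab n f).sum = ∑ i ∈ Finset.range n, f i := by
  induction n with
  | zero => simp [tab]
  | succ n ih =>
    unfold tab at *
    rw [List.range_succ, List.map_append, List.sum_append, ih, Finset.sum_range_succ]
    simp

lemma argmin_spec (f : β → ℚ) (l : List β) : ∀ a : β,
    (argmin f l a = a ∨ argmin f l a ∈ l) ∧ f (argmin f l a) ≤ f a ∧
      ∀ x ∈ l, f (argmin f l a) ≤ f x := by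
  induction l with
  | nil => intro a; simp [argmin]
  | cons y l ih =>
    intro a
    by_cases h : f y < f a
    · have e : argmin f (y :: l) a = argmin f l y := by simp [argmin, h]
      obtain ⟨h1, h2, h3⟩ := ih y
      rw [e]
      refine ⟨Or.inr ?_, h2.trans h.le, fun x hx => ?_⟩
      · rcases h1 with h1 | h1
        · simp [h1]
        · exact List.mem_cons_of_mem _ h1
      · rcases List.mem_cons.1 hx with rfl | hx
        · exact h2
        · exact h3 x hx
    · have e : argmin f (y :: l) a = argmin f l a := by simp [argmin, h]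
      obtain ⟨h1, h2, h3⟩ := ih a
      rw [e]
      refine ⟨h1.imp id (List.mem_cons_of_mem _), h2, fun x hx => ?_⟩
      rcases List.mem_cons.1 hx with rfl | hx
      · exact h2.trans (not_lt.1 h)
      · exact h3 x hx

lemma argmin_mem (f : β → ℚ) {l : List β} {a : β} (ha : a ∈ l) : argmin f l a ∈ l := by
  rcases (argmin_spec f l a).1 with h | h
  · rwa [h]
  · exact h

lemma argmin_le (f : β → ℚ) {l : List β} (a : β) {x : β} (hx : x ∈ l) :
    f (argmin f l a) ≤ f x := (argmin_spec f l a).2.2 x hx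

lemma minL_le (f : ℕ → ℚ) {l : List ℕ} {x : ℕ} (hx : x ∈ l) : minL f l ≤ f x :=
  argmin_le f _ hx

lemma headD_mem {l : List β} (h : l ≠ []) (a : β) : l.headD a ∈ l := by
  cases l with
  | nil => exact absurd rfl h
  | cons x l => simp

lemma minL_mem (f : ℕ → ℚ) {l : List ℕ} (h : l ≠ []) : ∃ x ∈ l, minL f l = f x :=
  ⟨_, argmin_mem f (headD_mem h 0), rfl⟩

lemma le_minL (f : ℕ → ℚ) {l : List ℕ} (h : l ≠ []) {c : ℚ} (hc : ∀ x ∈ l, c ≤ f x) :
    c ≤ minL f l := by
  obtain ⟨x, hx, e⟩ := minL_mem f h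
  exact e ▸ hc x hx

lemma mem_subs {l : List β} : ∀ {t : ℕ} {r : List β},
    r ∈ subs l t ↔ r.length ≤ t ∧ ∀ x ∈ r, x ∈ l := by
  intro t
  induction t with
  | zero => intro r; cases r <;> simp [subs]
  | succ t ih =>
    intro r
    cases r with
    | nil => simp [subs]
    | cons y r =>
      simp only [subs, List.mem_cons, List.mem_flatMap, List.mem_map, List.cons.injEq,
        List.length_cons, forall_eq_or_imp, reduceCtorEq, false_or]
      constructor
      · rintro ⟨x, hx, r', hr, rfl, rfl⟩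
        exact ⟨Nat.succ_le_succ (ih.1 hr).1, hx, (ih.1 hr).2⟩
      · rintro ⟨h1, h2, h3⟩
        exact ⟨y, h2, r, ih.2 ⟨by omega, h3⟩, rfl, rfl⟩

@[simp] lemma memB_iff {x : ℕ} {l : List ℕ} : memB x l = true ↔ x ∈ l := by simp [memB]

lemma feasB_iff {c : ℕ} {I : Inst} {S : List ℕ} : feasB c I S = true ↔ Feas c I S := by
  simp [feasB, Feas, and_assoc]

lemma dS_le (I : Inst) {S : List ℕ} (j : ℕ) {i : ℕ} (h : i ∈ S) : dS I S j ≤ I.d j i :=
  minL_le _ h

lemma dS_mem (I : Inst) {S : List ℕ} (h : S ≠ []) (j : ℕ) : ∃ i ∈ S, dS I S j = I.d j i :=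
  minL_mem _ h

lemma dS_mono (I : Inst) {S T : List ℕ} (h : S ≠ []) (hST : ∀ i ∈ S, i ∈ T) (j : ℕ) :
    dS I T j ≤ dS I S j := by
  obtain ⟨i, hi, e⟩ := dS_mem I h j
  exact e ▸ dS_le I j (hST i hi)

lemma costL_mono (I : Inst) {S T : List ℕ} (h : S ≠ []) (hST : ∀ i ∈ S, i ∈ T) :
    costL I T ≤ costL I S :=
  List.sum_le_sum fun j _ => dS_mono I h hST j

lemma dS_nonneg {I : Inst} (h : WF I) {S : List ℕ} (hS : S ≠ []) (hF : ∀ i ∈ S, i ∈ I.F) {j : ℕ}
    (hj : Pt I j) : 0 ≤ dS I S j :=
  le_minL _ hS fun i hi => h.nonneg _ _ hj (Or.inr (hF i hi))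

lemma costL_nonneg {I : Inst} (h : WF I) {S : List ℕ} (hS : S ≠ []) (hF : ∀ i ∈ S, i ∈ I.F) :
    0 ≤ costL I S :=
  List.sum_nonneg fun x hx => by
    obtain ⟨j, hj, rfl⟩ := List.mem_map.1 hx
    exact dS_nonneg h hS hF (Or.inl hj)

lemma best_spec {c : ℕ} {I : Inst} (h : WF I) (L : List (List ℕ)) :
    Feas c I (best c I L) ∧ ∀ S ∈ L, Feas c I S → costL I (best c I L) ≤ costL I S := by
  refine ⟨?_, fun S hS hF => argmin_le _ _ (List.mem_filter.2 ⟨hS, feasB_iff.2 hF⟩)⟩
  rcases (argmin_spec (costL I) (L.filter (feasB c I)) [I.F.headD 0]).1 with e | e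
  · unfold best
    rw [e]
    have := h.k_pos
    exact ⟨by simp, by simpa using headD_mem h.F_ne 0, by simp; omega⟩
  · exact feasB_iff.1 (List.mem_filter.1 e).2

end spec

section code

attribute [local irreducible] CT

variable {α β : Type} [Enc α] [Enc β] {e : ℕ}

theorem ct_tab {n : α → ℕ} {f : α → ℕ → β} (hn : CT e n) (hB : Bd 0 n)
    (hf : CT e fun p : α × ℕ => f p.1 p.2) : CT e fun a => tab (n a) (f a) :=
  CT.map hf (hn.range hB)

@[fun_prop]
theorem ct_argmin {f : α → β → ℚ} {l : α → List β} {x : α → β}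
    (hf : CT e fun p : α × β => f p.1 p.2) (hl : CT e l) (hx : CT e x) :
    CT e fun a => argmin (f a) (l a) (x a) := by
  have h1 : CT e fun p : α × β × β => f p.1 p.2.2 :=
    hf.comp (g := fun p : α × β × β => (p.1, p.2.2)) (by fun_prop)
  have h2 : CT e fun p : α × β × β => f p.1 p.2.1 :=
    hf.comp (g := fun p : α × β × β => (p.1, p.2.1)) (by fun_prop)
  refine CT.foldl (g := fun a s y => bif decide (f a y < f a s) then y else s)
    (G := fun p => sz p.2) ((ct_qlt h1 h2).cond (by fun_prop) (by fun_prop)) hx hl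
    (CT.snd (e := 0) CT.id).size fun a s y => ?_
  cases decide (f a y < f a s) <;> simp

@[fun_prop]
theorem ct_minL {f : α → ℕ → ℚ} {l : α → List ℕ}
    (hf : CT e fun p : α × ℕ => f p.1 p.2) (hl : CT e l) : CT e fun a => minL (f a) (l a) :=
  hf.comp (g := fun a => (a, argmin (f a) (l a) ((l a).headD 0)))
    (CT.id.mk (ct_argmin hf hl (by fun_prop)))

@[fun_prop]
theorem ct_subs (t : ℕ) {l : α → List β} (hl : CT e l) : CT e fun a => subs (l a) t := by
  induction t with
  | zero => exact CT.const _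
  | succ t ih =>
    have h1 : CT e fun p : α × β => subs (l p.1) t := ih.comp (g := fun p : α × β => p.1) (by fun_prop)
    exact (CT.const []).cons (CT.flatMap (f := fun a x => (subs (l a) t).map fun r => x :: r)
      (CT.map (f := fun (p : α × β) (r : List β) => p.2 :: r) (by fun_prop) h1) hl)

@[fun_prop]
theorem ct_memB {x : α → ℕ} {l : α → List ℕ} (hx : CT e x) (hl : CT e l) :
    CT e fun a => memB (x a) (l a) := by
  unfold memB; fun_prop

@[fun_prop]
theorem ct_d {I : α → Inst} {x y : α → ℕ} (hI : CT e I) (hx : CT e x) (hy : CT e y) :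
    CT e fun a => (I a).d (x a) (y a) := by
  unfold Inst.d; fun_prop

@[fun_prop]
theorem ct_J {I : α → Inst} (hI : CT e I) : CT e fun a => (I a).J := by
  unfold Inst.J; fun_prop

@[fun_prop]
theorem ct_F {I : α → Inst} (hI : CT e I) : CT e fun a => (I a).F := by
  unfold Inst.F; fun_prop

@[fun_prop]
theorem ct_k {I : α → Inst} (hI : CT e I) : CT e fun a => (I a).k := by
  unfold Inst.k; fun_prop

@[fun_prop]
theorem ct_dS {I : α → Inst} {S : α → List ℕ} {j : α → ℕ} (hI : CT e I) (hS : CT e S)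
    (hj : CT e j) : CT e fun a => dS (I a) (S a) (j a) := by
  unfold dS; fun_prop

@[fun_prop]
theorem ct_costL {I : α → Inst} {S : α → List ℕ} (hI : CT e I) (hS : CT e S) :
    CT e fun a => costL (I a) (S a) := by
  unfold costL; fun_prop

@[fun_prop]
theorem ct_feasB (c : ℕ) {I : α → Inst} {S : α → List ℕ} (hI : CT e I) (hS : CT e S) :
    CT e fun a => feasB c (I a) (S a) := by
  unfold feasB; fun_prop

@[fun_prop]
theorem ct_best (c : ℕ) {I : α → Inst} {L : α → List (List ℕ)} (hI : CT e I) (hL : CT e L) :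
    CT e fun a => best c (I a) (L a) := by
  unfold best; fun_prop

@[fun_prop]
theorem ct_qmin {x y : α → ℚ} (hx : CT e x) (hy : CT e y) : CT e fun a => min (x a) (y a) :=
  ((ct_qle hx hy).cond hx hy).of_eq fun a => by
    by_cases h : x a ≤ y a <;> simp [h, min_def]

@[fun_prop]
theorem ct_qmax {x y : α → ℚ} (hx : CT e x) (hy : CT e y) : CT e fun a => max (x a) (y a) :=
  ((ct_qle hx hy).cond hy hx).of_eq fun a => by
    by_cases h : x a ≤ y a <;> simp [h, max_def]

@[fun_prop]
theorem ct_qfloor {x : α → ℚ} (hx : CT e x) : CT e fun a => ⌊x a⌋₊ :=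
  ((ct_toNat (ct_num hx)).div (ct_den hx)).of_eq fun a => by
    rw [← Int.floor_toNat, Rat.floor_def']
    rcases le_or_gt 0 (x a).num with h | h
    · obtain ⟨m, hm⟩ := Int.eq_ofNat_of_zero_le h
      rw [hm]
      simp only [Int.toNat_natCast]
      rw [← Int.natCast_div, Int.toNat_natCast]
    · have h1 : (x a).num / ((x a).den : ℤ) < 0 :=
        Int.ediv_neg_of_neg_of_pos h (by exact_mod_cast (x a).den_pos)
      rw [Int.toNat_of_nonpos h.le, Int.toNat_of_nonpos h1.le]
      simp

end code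

end Vale.Agent.P334
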