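import Vale.Agent.P334.Stmt

/-!
The program computes the real potential; rounding down costs little.
-/

namespace Vale.Agent.P334

open Finset

namespace Bridge

lemma s_pos (C : Core) : 1 ≤ C.s := by unfold Core.s; omega

lemma NN_ge {q : ℕ} (C : Core) (hq : 2000 ≤ q) : 100000 ≤ NN q C := by
  unfold NN
  have h1 : 2000 ^ 4 ≤ q ^ 4 := Nat.pow_le_pow_left hq 4
  have h2 : 1 ≤ C.s ^ 5 := Nat.one_le_pow _ _ (s_pos C)
  nlinarith

lemma pp_ge {q : ℕ} (hq : 2000 ≤ q) : 2 ≤ pp q := by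
  unfold pp
  nlinarith

lemma rhoOK (h1 : RhoS) {q : ℕ} (C : Core) (hq : 2000 ≤ q) :
    RhoOK (1 / q) (rhoR q C) (rho1 (thN (NN q C))) ∧ ∀ M : ℕ, 1 ≤ M →
      rhoR q C (M / NN q C) = 3 + 1 / q - 2 * NN q C *
        (1 - (NN q C : ℝ) ^ M / (NN q C + 1) ^ M) / M := by
  have hq' : (2000 : ℝ) ≤ q := by exact_mod_cast hq
  obtain ⟨a, -, b⟩ := h1 (NN q C) (1 / q) (NN_ge C hq) (by positivity)
    (one_div_le_one_div_of_le (by norm_num) hq')
  exact ⟨a, b⟩

lemma cast_powB {B : ℕ} (hB : 1 ≤ B) (a : ℕ) :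
    (powB B a : ℝ) = Real.exp (a * Real.log (1 + 1 / (B : ℝ))) := by
  have h : (0 : ℝ) < B := by exact_mod_cast hB
  rw [Real.exp_nat_mul, Real.exp_log (by positivity)]
  unfold powB
  push_cast
  rw [← div_pow]
  congr 1
  field_simp

lemma thC_bounds {q : ℕ} (C : Core) (hq : 2000 ≤ q) :
    1 / (32 * (pp q : ℝ) ^ 2) ≤ thC q C ∧ thC q C ≤ 1 / (16 * (pp q : ℝ) ^ 2) := by
  have hN : (100000 : ℝ) ≤ NN q C := by exact_mod_cast NN_ge C hq
  have hp : (2 : ℝ) ≤ pp q := by exact_mod_cast pp_ge hq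
  have hB : (BB q C : ℝ) = 16 * (pp q : ℝ) ^ 2 * NN q C := by unfold BB; push_cast; ring
  have hB1 : (1 : ℝ) ≤ BB q C := by rw [hB]; nlinarith
  have h0 : (0 : ℝ) < 1 + 1 / (BB q C : ℝ) := by positivity
  have h1 := Real.log_le_sub_one_of_pos h0
  have h2 := Real.one_sub_inv_le_log_of_pos h0
  have h3 : 1 / (2 * (BB q C : ℝ)) ≤ 1 - (1 + 1 / (BB q C : ℝ))⁻¹ := by
    have : 1 - (1 + 1 / (BB q C : ℝ))⁻¹ = 1 / (BB q C + 1) := by field_simp; ring
    rw [this]
    exact one_div_le_one_div_of_le (by positivity) (by linarith)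
  unfold thC
  constructor
  · calc 1 / (32 * (pp q : ℝ) ^ 2) = NN q C * (1 / (2 * (BB q C : ℝ))) := by
          rw [hB]; field_simp; ring
      _ ≤ _ := mul_le_mul_of_nonneg_left (h3.trans h2) (by positivity)
  · calc (NN q C : ℝ) * Real.log (1 + 1 / (BB q C : ℝ)) ≤ NN q C * (1 / (BB q C : ℝ)) :=
          mul_le_mul_of_nonneg_left (by linarith) (by positivity)
      _ = _ := by rw [hB]; field_simp

lemma cast_Mt (q : ℕ) (C : Core) (σ : PS) (j τ : ℕ) :
    (Mt q C σ j τ : ℝ) / NN q C =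
      ∑ i ∈ range C.n, if xc q C j i < τ then uR q C σ j i else 0 := by
  unfold Mt
  rw [sum_tab]
  push_cast
  rw [sum_div]
  refine sum_congr rfl fun i _ => ?_
  by_cases h : xc q C j i < τ <;> simp [h, uR]

lemma cast_At (q : ℕ) (C : Core) (σ : PS) (j τ : ℕ) :
    (At q C σ j τ : ℝ) / NN q C =
      ∑ i ∈ range C.n, (if xc q C j i < τ then uR q C σ j i else 0) * (xc q C j i : ℝ) := by
  unfold At
  rw [sum_tab]
  push_cast
  rw [sum_div]
  refine sum_congr rfl fun i _ => ?_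
  by_cases h : xc q C j i < τ
  · simp only [h, decide_true, cond_true, if_true, uR]
    push_cast
    ring
  · simp [h]

lemma Mt_le {q : ℕ} {C : Core} {σ : PS} (hσ : Good q C σ) {j : ℕ} (hj : j < C.m) (τ : ℕ) :
    Mt q C σ j τ ≤ NN q C := by
  refine le_trans ?_ (hσ.row_le j hj)
  unfold Mt
  rw [sum_tab]
  refine sum_le_sum fun i _ => ?_
  by_cases h : xc q C j i < τ <;> simp [h]

lemma At_zero {q : ℕ} {C : Core} {σ : PS} {j τ : ℕ} (h : Mt q C σ j τ = 0) :
    At q C σ j τ = 0 := by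
  unfold Mt at h
  unfold At
  rw [sum_tab] at *
  refine sum_eq_zero fun i hi => ?_
  have := sum_eq_zero_iff.1 h i hi
  by_cases h : xc q C j i < τ
  · simp only [h, decide_true, cond_true] at this ⊢
    rw [this, zero_mul]
  · simp [h]

lemma cast_Ft (h1 : RhoS) {q : ℕ} {C : Core} (hq : 2000 ≤ q) {σ : PS} (hσ : Good q C σ) {j : ℕ}
    (hj : j < C.m) (τ : ℕ) : (Ft q C σ j τ : ℝ) = FtR q C σ.1 j (uR q C σ j) τ := by
  unfold Ft FtR Fc
  rw [← cast_Mt, ← cast_At]
  push_cast [cast_gm]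
  rw [mul_one_div]
  congr 1
  rcases Nat.eq_zero_or_pos (Mt q C σ j τ) with h | h
  · rw [At_zero h]; simp
  · congr 1
    rw [(rhoOK h1 C hq).2 _ h]
    unfold rhoQ powB
    rw [min_eq_left (Mt_le hσ hj τ)]
    push_cast
    rw [one_div_div]

lemma cast_Fj (h1 : RhoS) {q : ℕ} {C : Core} (hq : 2000 ≤ q) {σ : PS} (hσ : Good q C σ) {j : ℕ}
    (hj : j < C.m) : (Fj q C σ j : ℝ) = FR q C σ.1 j (uR q C σ j) := by
  unfold Fj FR
  refine le_antisymm (le_inf' _ _ fun τ hτ => ?_) ?_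
  · rw [← cast_Ft h1 hq hσ hj]
    exact_mod_cast minL_le _ (List.mem_range.2 (mem_range.1 hτ))
  · obtain ⟨τ, hτ, e⟩ := minL_mem (Ft q C σ j) (l := List.range (DD q C + 2)) (by simp)
    rw [e, cast_Ft h1 hq hσ hj]
    exact inf'_le _ (mem_range.2 (List.mem_range.1 hτ))

lemma cast_sumY (q : ℕ) (C : Core) (σ : PS) :
    (sumY C σ : ℝ) / NN q C = ∑ i ∈ range C.n, yR q C σ i := by
  unfold sumY
  rw [sum_tab]
  push_cast
  rw [sum_div]
  rfl

lemma cast_lamP {q : ℕ} {C : Core} (hq : 2000 ≤ q) {σ : PS} (hσ : Good q C σ) :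
    (lamP q C σ : ℝ) =
      Real.exp (thC q C * (σ.1.length + ∑ i ∈ range C.n, yR q C σ i - (C.k + 1))) := by
  have hN := NN_ge C hq
  have hN' : (100000 : ℝ) ≤ NN q C := by exact_mod_cast hN
  have hB : 1 ≤ BB q C := by
    have := pp_ge hq
    unfold BB
    have h2 : 1 ≤ pp q ^ 2 := Nat.one_le_pow _ _ (by omega)
    nlinarith
  have hl : σ.1.length ≤ C.n := by
    have := hσ.S_nodup.subperm (l₂ := List.range C.n)
      (fun i hi => List.mem_range.2 (hσ.S_lt i hi))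
    simpa using this.length_le
  have hk : C.k ≤ C.n := min_le_right _ _
  have hs : C.n ≤ C.s := by unfold Core.s; omega
  have hmin : NN q C * σ.1.length + sumY C σ ≤ 2 * NN q C * C.s := by
    have := hσ.sum_le
    nlinarith
  unfold lamP
  rw [min_eq_left hmin]
  push_cast
  rw [cast_powB hB, cast_powB hB, ← Real.exp_sub, ← cast_sumY]
  congr 1
  unfold thC
  push_cast
  field_simp

lemma Dj_bounds {q : ℕ} {C : Core} (hC : CoreWF q C) {S : List ℕ} (hS : S ≠ [])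
    (hlt : ∀ i ∈ S, i < C.n) {j : ℕ} (hj : j < C.m) :
    (0 : ℝ) ≤ Dj q C S j ∧ (Dj q C S j : ℝ) ≤ DD q C := by
  obtain ⟨i, hi, e⟩ := minL_mem (fun i => (xc q C j i : ℚ)) hS
  unfold Dj
  rw [e]
  have : xc q C j i ≤ DD q C := by
    unfold xc DD
    exact Nat.mul_le_mul_left _ (hC.dc_le j hj i (hlt i hi))
  exact ⟨by positivity, by exact_mod_cast this⟩

lemma Fc_round {ι : Type} {η c D Δ δ : ℝ} {ρ R1 : ℝ → ℝ} (hρ : RhoOK η ρ R1) (hη : 0 ≤ η)
    (hc0 : 0 ≤ c) (hc : c ≤ 1) (s : Finset ι) (d u u' : ι → ℝ) (hd : ∀ i ∈ s, 0 ≤ d i)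
    (hu : ∀ i ∈ s, 0 ≤ u' i ∧ u' i ≤ u i ∧ u i - δ ≤ u' i) (h1 : ∑ i ∈ s, u i ≤ 1)
    (hD : 0 ≤ D) (hΔ : D ≤ Δ) : Fc ρ c s d u' D ≤ Fc ρ c s d u D + 2 * s.card * Δ * δ := by
  unfold Fc
  have a0 : 0 ≤ ∑ i ∈ s, u' i := sum_nonneg fun i hi => (hu i hi).1
  have a1 : ∑ i ∈ s, u' i ≤ ∑ i ∈ s, u i := sum_le_sum fun i hi => (hu i hi).2.1
  have a2 : ∑ i ∈ s, u i - s.card * δ ≤ ∑ i ∈ s, u' i := by
    have := sum_le_sum fun i hi => (hu i hi).2.2
    rwa [sum_sub_distrib, sum_const, nsmul_eq_mul] at this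
  have b0 : 0 ≤ ∑ i ∈ s, u' i * d i := sum_nonneg fun i hi => mul_nonneg (hu i hi).1 (hd i hi)
  have b1 : ∑ i ∈ s, u' i * d i ≤ ∑ i ∈ s, u i * d i :=
    sum_le_sum fun i hi => mul_le_mul_of_nonneg_right (hu i hi).2.1 (hd i hi)
  generalize ∑ i ∈ s, u' i = m' at *
  generalize ∑ i ∈ s, u i = m at *
  generalize ∑ i ∈ s, u' i * d i = A' at *
  generalize ∑ i ∈ s, u i * d i = A at *
  have r1 := hρ.tan m (m - m') (by linarith) (by linarith) h1
  rw [sub_sub_cancel] at r1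
  have r2 := hρ.R1_nonneg m (by linarith) h1
  have r3 := hρ.low m (by linarith) h1
  have r4 : ρ m' ≤ ρ m := by nlinarith
  have r5 : ρ m' * A' ≤ ρ m * A :=
    (mul_le_mul_of_nonneg_right r4 b0).trans (mul_le_mul_of_nonneg_left b1 (by linarith))
  have g1 : gm c m' ≤ gm c m + 2 * (m - m') := by
    unfold gm
    have : c * (m + m' - 1) ≤ 1 := by nlinarith
    nlinarith
  have g2 : gm c m' * D ≤ (gm c m + 2 * (m - m')) * D := mul_le_mul_of_nonneg_right g1 hD
  have g3 : (m - m') * D ≤ (s.card * δ) * Δ :=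
    mul_le_mul (by linarith) hΔ hD (by linarith)
  nlinarith

end Bridge

open Bridge in
theorem bridgeS (h1 : RhoS) : BridgeS := by
  intro q C hq hC
  have hq' : (2000 : ℝ) ≤ q := by exact_mod_cast hq
  have hN : (100000 : ℝ) ≤ NN q C := by exact_mod_cast NN_ge C hq
  have hp : (2 : ℝ) ≤ pp q := by exact_mod_cast pp_ge hq
  refine ⟨fun σ hσ => ?_, fun S y y' u u' hS hlt hy hu hu1 => ?_, thC_bounds C hq⟩
  · unfold WW WR
    rw [sum_tab]
    push_cast
    rw [cast_lamP hq hσ, cast_sumY]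
    congr 1
    exact sum_congr rfl fun j hj => cast_Fj h1 hq hσ (mem_range.1 hj)
  · have hF : ∀ j ∈ range C.m, FR q C S j (u' j) ≤
        FR q C S j (u j) + 2 * C.n * DD q C * (1 / NN q C) := by
      intro j hj
      have hj' := mem_range.1 hj
      obtain ⟨τ, hτ, e⟩ := exists_mem_eq_inf' (s := range (DD q C + 2)) ⟨0, by simp⟩
        (FtR q C S j (u j))
      have h2 : FR q C S j (u j) = FtR q C S j (u j) τ := e
      rw [h2]
      refine (inf'_le _ hτ).trans ?_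
      obtain ⟨d0, d1⟩ := Dj_bounds hC hS hlt hj'
      have h3 := Fc_round (δ := 1 / NN q C) (c := 2 * (1 / pp q)) (rhoOK h1 C hq).1
        (by positivity) (by positivity) (by rw [mul_one_div, div_le_one (by linarith)]; exact hp)
        (range C.n) (fun i => xc q C j i) (fun i => if xc q C j i < τ then u j i else 0)
        (fun i => if xc q C j i < τ then u' j i else 0) (fun i _ => by positivity)
        (fun i hi => ?_) (le_trans (sum_le_sum fun i hi => ?_) (hu1 j hj')) d0 d1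
      · rw [card_range] at h3
        exact h3
      · by_cases h : xc q C j i < τ
        · simp only [h, if_true]
          exact hu j hj' i (mem_range.1 hi)
        · simp only [h, if_false]
          refine ⟨le_rfl, le_rfl, ?_⟩
          have : (0 : ℝ) ≤ 1 / NN q C := by positivity
          linarith
      · obtain ⟨a, b, -⟩ := hu j hj' i (mem_range.1 hi)
        split_ifs
        · exact le_rfl
        · exact a.trans b
    have h2 := sum_le_sum hF
    rw [sum_add_distrib, sum_const, card_range, nsmul_eq_mul] at h2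
    have h3 : ∑ i ∈ range C.n, y' i ≤ ∑ i ∈ range C.n, y i :=
      sum_le_sum fun i hi => hy i (mem_range.1 hi)
    have h4 : 0 ≤ thC q C := le_trans (by positivity) (thC_bounds C hq).1
    unfold WR
    have h5 : (LL q C : ℝ) / q * ((∑ i ∈ range C.n, y' i) / (C.k + 1) +
        Real.exp (thC q C * (S.length + ∑ i ∈ range C.n, y' i - (C.k + 1)))) ≤
        (LL q C : ℝ) / q * ((∑ i ∈ range C.n, y i) / (C.k + 1) +
        Real.exp (thC q C * (S.length + ∑ i ∈ range C.n, y i - (C.k + 1)))) := by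
      gcongr
    have h6 : (C.m : ℝ) * (2 * C.n * DD q C * (1 / NN q C)) =
        2 * C.n * C.m * DD q C / NN q C := by ring
    linarith

end Vale.Agent.P334
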