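import Vale.Agent.P334.CertDefs

/-!
Data of the dual certificate, checked cell by cell.
-/

namespace Vale.Agent.P334.Cert

noncomputable section

def R14 : Reg := ⟨⟨0, 0, 0, 0, 0, 0, 0⟩, ⟨1, 0, 0, 0, 0, 0, 0⟩, ⟨0, 0, 0, 0, 0, 0, 0⟩, ⟨1, 0, 0, 0, 0, 0, 1⟩, ⟨0, 0, 0, 0, 0, 0, 0⟩, ⟨0, 0, 0, 0, 1, 0, 0⟩, ⟨3, 0, 0, 0, 0, 0, 3⟩, ⟨1, 0, 0, 0, 0, 0, 0⟩, ⟨0, 0, 0, 0, 0, 0, 0⟩, ⟨0, 0, 0, 0, 1, 0, 0⟩⟩

def a0_14 : SF := mu 0 0 0 0 0 405807 831572 0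

def e0_14 : SF := mu 0 0 0 0 2796475 0 0 2553679

def a1_14 : SF := mu 0 0 0 0 222321 0 7195 0

def e1_14 : SF := mu 0 0 0 0 2134306 0 0 1964391

theorem lin14 : chkLin R14 a0_14 e0_14 a1_14 e1_14 = true := by decide +kernel

def o00_14 : T3 :=
(.s 0 8 0 0 0 0 0 14
(.s 0 1 0 0 0 0 0 1
(.s 1 0 0 1 0 0 0 0
(.s 0 1 0 0 0 0 0 2
(.lf 2 true 0 true false 0 0) (.s 1 0 4 12 0 0 0 6
(.lf 1 true 0 true false 0 0) (.lf 2 true 0 true false 0 0))) (.lf 3 true 0 false false 0 0)) (.s 1 0 4 12 0 0 0 6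
(.lf 1 true 0 true false 0 0) (.lf 2 true 0 true false 0 0))) (.s 0 5 0 0 0 0 0 7
(.s 1 0 4 12 0 0 0 6
(.lf 1 false 0 true false 0 0) (.lf 2 false 0 true false 0 0)) (.lf 1 false 0 true false 0 0)))

theorem ho00_14 : chk3 (leafO 10500000 3 a0_14 e0_14 R14.x0.ap R14.x0.m) o00_14 (full R14) = true := by
  decide +kernel

def o01_14 : T3 :=
(.s 0 8 0 0 0 0 0 14
(.s 0 1 0 0 0 0 0 1
(.s 1 0 0 1 0 0 0 0
(.s 0 1 0 0 0 0 0 2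
(.lf 2 true 0 true false 0 0) (.s 1 0 4 12 0 0 0 6
(.lf 1 true 0 true false 0 0) (.lf 2 true 0 true false 0 0))) (.lf 3 true 0 false false 0 0)) (.s 1 0 4 12 0 0 0 6
(.lf 1 true 0 true false 0 0) (.lf 2 true 0 true false 0 0))) (.s 0 5 0 0 0 0 0 7
(.s 1 0 4 12 0 0 0 6
(.lf 1 false 0 true false 0 0) (.lf 2 false 0 true false 0 0)) (.lf 1 false 0 true false 0 0)))

theorem ho01_14 : chk3 (leafO 10500000 3 a0_14 e0_14 R14.x1.ap R14.x1.m) o01_14 (full R14) = true := by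
  decide +kernel

def o10_14 : T3 :=
(.s 0 8 0 0 0 0 0 14
(.s 0 1 0 0 0 0 0 1
(.s 1 0 0 1 0 0 0 0
(.s 0 1 0 0 0 0 0 2
(.s 1 0 0 1 0 0 0 1
(.lf 2 true 0 true false 0 0) (.lf 2 true 0 true false 0 0)) (.s 1 0 4 12 0 0 0 6
(.lf 1 true 0 true false 0 0) (.s 1 0 4 19 0 0 0 13
(.lf 2 true 0 true false 0 0) (.lf 2 true 0 true false 0 0)))) (.s 2 0 0 1 0 0 0 0
(.lf 3 true 0 true false 0 0) (.lf 3 true 0 false false 0 0))) (.s 1 0 4 12 0 0 0 6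
(.lf 1 true 0 true false 0 0) (.lf 2 true 0 true false 0 0))) (.s 0 5 0 0 0 0 0 7
(.s 1 0 4 12 0 0 0 6
(.lf 1 false 0 true false 0 0) (.lf 2 false 0 true false 0 0)) (.lf 1 false 0 true false 0 0)))

theorem ho10_14 : chk3 (leafO 5554500 1 a1_14 e1_14 R14.x0.ap R14.x0.m) o10_14 (full R14) = true := by
  decide +kernel

def o11_14 : T3 :=
(.s 0 8 0 0 0 0 0 14
(.s 0 1 0 0 0 0 0 1
(.s 1 0 0 1 0 0 0 0
(.s 0 1 0 0 0 0 0 2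
(.s 1 0 0 1 0 0 0 1
(.lf 2 true 0 true false 0 0) (.lf 2 true 0 true false 0 0)) (.s 1 0 4 12 0 0 0 6
(.s 0 2 0 0 0 0 0 4
(.lf 1 true 0 true false 0 0) (.lf 1 true 0 true false 0 0)) (.s 1 0 4 19 0 0 0 13
(.s 0 2 0 0 0 0 0 4
(.s 1 0 12 43 0 0 0 27
(.lf 2 true 0 true false 0 0) (.s 1 0 20 81 0 0 0 55
(.lf 2 true 0 true false 0 0) (.lf 2 true 0 true false 0 0))) (.s 1 0 12 43 0 0 0 27
(.s 0 9 0 0 0 0 0 19
(.lf 2 true 0 true false 0 0) (.lf 2 true 0 true false 0 0)) (.lf 2 true 0 true false 0 0))) (.lf 2 true 0 true false 0 0)))) (.s 2 0 0 1 0 0 0 0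
(.lf 3 true 0 true false 0 0) (.lf 3 true 0 false false 0 0))) (.s 1 0 4 12 0 0 0 6
(.lf 1 true 0 true false 0 0) (.lf 2 true 0 true false 0 0))) (.s 0 5 0 0 0 0 0 7
(.s 1 0 4 12 0 0 0 6
(.lf 1 false 0 true false 0 0) (.lf 2 false 0 true false 0 0)) (.lf 1 false 0 true false 0 0)))

theorem ho11_14 : chk3 (leafO 5554500 1 a1_14 e1_14 R14.x1.ap R14.x1.m) o11_14 (full R14) = true := by
  decide +kernel

def t0_14_0 : T3 :=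
(.s 0 8 0 0 0 0 0 14
(.s 0 1 0 0 0 0 0 1
(.s 1 0 0 1 0 0 0 0
(.s 0 1 0 0 0 0 0 2
(.s 0 1 0 0 0 0 0 3
(.s 3 1 0 0 1 0 0 0
(.lf 2 true 1 true false 0 0) (.s 4 1000 0 0 1000 0 0 2736
(.lf 2 true 1 true false 0 0) (.lf 2 true 1 false false 0 0))) (.s 4 1000 0 0 1000 0 0 2736
(.lf 2 true 1 true false 0 0) (.lf 2 true 1 false false 0 0))) (.s 1 0 4 12 0 0 0 6
(.lf 1 true 1 false false 0 0) (.lf 2 true 1 false false 0 0))) (.s 0 1 0 0 0 0 0 3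
(.s 3 1 0 0 1 0 0 0
(.lf 3 true 1 true false 0 0) (.s 4 1000 0 0 1000 0 0 2736
(.lf 3 true 1 true false 0 0) (.lf 3 true 1 false false 0 0))) (.s 4 1000 0 0 1000 0 0 2736
(.lf 3 true 1 true false 0 0) (.lf 3 true 1 false false 0 0)))) (.s 1 0 4 12 0 0 0 6
(.lf 1 true 1 false false 0 0) (.lf 2 true 1 false false 0 0))) (.s 0 5 0 0 0 0 0 7
(.s 1 0 4 12 0 0 0 6
(.lf 1 false 1 false false 0 0) (.lf 2 false 1 false false 0 0)) (.lf 1 false 0 false false 0 0)))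

def t0_14_1 : T3 :=
(.s 0 8 0 0 0 0 0 14
(.s 0 1 0 0 0 0 0 1
(.s 1 0 0 1 0 0 0 0
(.s 0 1 0 0 0 0 0 2
(.lf 2 true 1 false false 0 0) (.s 1 0 4 12 0 0 0 6
(.lf 1 true 1 false false 0 0) (.lf 2 true 1 false false 0 0))) (.lf 3 true 1 false false 0 0)) (.s 1 0 4 12 0 0 0 6
(.lf 1 true 1 false false 0 0) (.lf 2 true 1 false false 0 0))) (.s 0 5 0 0 0 0 0 7
(.s 1 0 4 12 0 0 0 6
(.lf 1 false 1 false false 0 0) (.lf 2 false 1 false false 0 0)) (.lf 1 false 0 true false 0 0)))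

def i0_14 : T2 :=
(.s 3 0 0 1000 0 2736
(.k 741897 0 0 1508000 26206 0 t0_14_0) (.k 1028783 0 0 1947408 0 25804 t0_14_1))

theorem hi0_14 : chk2 (leaf0 a0_14 e0_14) 0 i0_14 R14 = true := by
  decide +kernel

def R14_1a : Reg := hi R14 (Nat.succ 3) ⟨0, 0, 0, 0, 4, 0, 10⟩

def R14_1b : Reg := lo R14 (Nat.succ 3) ⟨0, 0, 0, 0, 4, 0, 10⟩

def t1_14a_0 : T3 :=
(.s 0 8 0 0 0 0 0 14
(.s 0 1 0 0 0 0 0 1
(.s 1 0 0 1 0 0 0 0
(.s 0 1 0 0 0 0 0 2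
(.s 3 9 0 0 0 0 0 9
(.s 0 1 0 0 0 0 0 4
(.s 4 0 0 0 0 4000 0 16158
(.lf 2 true 1 true false 0 2) (.s 4 0 0 0 0 4938 0 16158
(.lf 2 true 1 true false 0 2) (.s 4 0 0 0 0 5407 0 16158
(.lf 2 true 1 true false 0 2) (.s 0 32411 0 0 0 0 0 807949
(.lf 2 true 1 true false 0 1) (.s 3 80795 0 0 80795 0 0 86170
(.s 0 1 0 0 0 0 0 9
(.lf 2 true 1 true false 0 1) (.lf 2 true 1 true false 0 1)) (.s 0 47 0 0 0 0 0 1099
(.s 4 0 10 10 0 11 0 0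
(.lf 2 true 1 true false 0 0) (.lf 2 true 1 true false 0 1)) (.s 3 110 0 0 110 0 0 116
(.s 4 0 10 10 0 11 0 0
(.lf 2 true 1 true false 0 0) (.lf 2 true 1 true false 0 1)) (.lf 2 true 1 true false 0 0)))))))) (.s 1 0 0 1 0 0 0 1
(.lf 2 true 1 true false 0 2) (.lf 2 true 1 true false 0 2))) (.s 3 19 0 0 0 0 0 19
(.s 0 1 0 0 0 0 0 99
(.s 3 10 0 0 10 0 0 10
(.lf 2 true 1 true false 0 1) (.s 3 110 0 0 110 0 0 116
(.s 4 0 10 10 0 11 0 0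
(.lf 2 true 1 true false 0 0) (.lf 2 true 1 true false 0 1)) (.lf 2 true 1 true false 0 0))) (.s 0 47 0 0 0 0 0 1099
(.s 3 110 0 0 110 0 0 116
(.s 4 0 10 10 0 11 0 0
(.lf 2 true 1 true false 0 0) (.lf 2 true 1 true false 0 1)) (.lf 2 true 1 true false 0 0)) (.lf 2 true 1 true false 0 0))) (.lf 2 true 1 true false 0 0))) (.s 1 0 4 12 0 0 0 6
(.s 0 2 0 0 0 0 0 4
(.lf 1 true 1 false false 0 0) (.s 0 9 0 0 0 0 0 19
(.lf 1 true 1 true false 0 0) (.lf 1 true 1 false false 0 0))) (.s 1 0 4 19 0 0 0 13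
(.s 0 2 0 0 0 0 0 4
(.s 0 3 0 0 0 0 0 7
(.lf 2 true 1 true false 0 0) (.lf 2 true 1 true false 0 0)) (.s 0 9 0 0 0 0 0 19
(.lf 2 true 1 true false 0 0) (.lf 2 true 1 true false 0 0))) (.lf 2 true 1 true false 0 0)))) (.s 0 7 0 0 0 0 0 39
(.s 3 10 0 0 10 0 0 10
(.lf 3 true 1 true false 0 1) (.s 3 110 0 0 110 0 0 116
(.s 4 0 10 10 0 11 0 0
(.lf 3 true 1 true false 0 0) (.lf 3 true 1 true false 0 1)) (.lf 3 true 1 true false 0 0))) (.s 0 89 0 0 0 0 0 439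
(.s 3 110 0 0 110 0 0 116
(.s 4 0 10 10 0 11 0 0
(.lf 3 true 1 true false 0 0) (.lf 3 true 1 true false 0 1)) (.lf 3 true 1 true false 0 0)) (.lf 3 true 1 true false 0 0)))) (.s 1 0 4 12 0 0 0 6
(.lf 1 true 1 false false 0 0) (.lf 2 true 1 true false 0 0))) (.s 0 5 0 0 0 0 0 7
(.s 1 0 4 12 0 0 0 6
(.lf 1 false 2 false false 0 0) (.lf 2 false 1 true false 0 0)) (.lf 1 false 2 false false 0 0)))

def i1_14a : T2 :=
(.k 27180 0 0 0 0 32359 t1_14a_0)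

theorem hi1_14a : chk2 (leaf1 a1_14 e1_14) 10000 i1_14a R14_1a = true := by
  decide +kernel

def R14_1ba : Reg := hi R14_1b (Nat.succ 3) ⟨0, 0, 0, 0, 1000, 0, 2736⟩

def R14_1bb : Reg := lo R14_1b (Nat.succ 3) ⟨0, 0, 0, 0, 1000, 0, 2736⟩

def t1_14ba_0 : T3 :=
(.s 0 8 0 0 0 0 0 14
(.s 0 1 0 0 0 0 0 1
(.s 1 0 0 1 0 0 0 0
(.s 0 1 0 0 0 0 0 2
(.s 0 5469 0 0 0 0 0 36937
(.s 3 110 0 0 110 0 0 116
(.lf 2 true 1 true false 1 1) (.s 3 27370 0 0 27370 0 0 29106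
(.s 4 0 10 10 0 11 0 0
(.lf 2 true 1 true false 1 0) (.lf 2 true 1 true false 1 1)) (.s 0 13 0 0 0 0 0 2749
(.s 3 1 0 0 1 0 0 0
(.lf 2 true 1 true false 1 0) (.s 4 1000 0 0 1000 0 0 2736
(.lf 2 true 1 false false 1 0) (.lf 2 true 1 false false 1 0))) (.s 3 2750 0 0 2750 0 0 2736
(.s 3 1 0 0 1 0 0 0
(.lf 2 true 1 true false 1 0) (.s 4 1000 0 0 1000 0 0 2736
(.lf 2 true 1 false false 1 0) (.lf 2 true 1 false false 1 0))) (.lf 2 true 1 false false 1 0))))) (.s 1 5469 0 0 0 0 0 36937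
(.s 0 1 0 0 0 0 0 3
(.lf 2 true 1 false false 1 2) (.lf 2 true 1 false false 1 0)) (.lf 2 true 1 false false 1 2))) (.s 1 0 4 12 0 0 0 6
(.s 0 186035 0 0 0 0 0 443255
(.lf 1 true 1 false true 1 0) (.s 1 5469 0 0 0 0 0 36937
(.lf 1 true 1 true true 1 0) (.lf 1 true 2 false false 1 0))) (.s 0 186035 0 0 0 0 0 443255
(.s 1 5469 0 0 0 0 0 36937
(.lf 2 true 1 false false 1 0) (.lf 2 true 1 false false 1 0)) (.lf 2 true 2 false false 1 0)))) (.s 0 1 0 0 0 0 0 3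
(.s 0 5469 0 0 0 0 0 36937
(.s 1 5469 0 0 0 0 0 36937
(.s 3 110 0 0 110 0 0 116
(.lf 3 true 1 true false 1 1) (.s 3 27370 0 0 27370 0 0 29106
(.s 4 0 10 10 0 11 0 0
(.lf 3 true 1 true false 1 0) (.lf 3 true 1 true false 1 1)) (.s 0 13 0 0 0 0 0 2749
(.s 3 1 0 0 1 0 0 0
(.lf 3 true 1 true false 1 0) (.s 4 1000 0 0 1000 0 0 2736
(.lf 3 true 1 false false 1 0) (.lf 3 true 1 false false 1 0))) (.s 3 2750 0 0 2750 0 0 2736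
(.s 3 1 0 0 1 0 0 0
(.lf 3 true 1 true false 1 0) (.s 4 1000 0 0 1000 0 0 2736
(.lf 3 true 1 false false 1 0) (.lf 3 true 1 false false 1 0))) (.lf 3 true 1 false false 1 0))))) (.lf 3 true 1 false false 1 2)) (.lf 3 true 1 false false 1 2)) (.lf 3 true 1 false false 1 0))) (.s 1 0 4 12 0 0 0 6
(.s 1 5469 0 0 0 0 0 36937
(.lf 1 true 1 false true 1 0) (.lf 1 true 2 false false 1 0)) (.lf 2 true 2 false false 1 0))) (.s 0 5 0 0 0 0 0 7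
(.s 1 0 4 12 0 0 0 6
(.s 1 5469 0 0 0 0 0 36937
(.lf 1 false 1 false true 1 0) (.lf 1 false 2 false false 1 0)) (.lf 2 false 2 false false 1 0)) (.s 1 5469 0 0 0 0 0 36937
(.lf 1 false 0 false true 1 0) (.lf 1 false 2 false false 1 0))))

def i1_14ba : T2 :=
(.k 989857 0 0 0 0 1957714 t1_14ba_0)

theorem hi1_14ba : chk2 (leaf1 a1_14 e1_14) 10000 i1_14ba R14_1ba = true := by
  decide +kernel

def R14_1bba : Reg := hi R14_1bb (Nat.succ 3) ⟨0, 0, 0, 0, 11, 0, 20⟩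

def R14_1bbb : Reg := lo R14_1bb (Nat.succ 3) ⟨0, 0, 0, 0, 11, 0, 20⟩

def t1_14bba_0 : T3 :=
(.s 0 8 0 0 0 0 0 14
(.s 0 1 0 0 0 0 0 1
(.s 1 0 0 1 0 0 0 0
(.s 0 1 0 0 0 0 0 2
(.s 1 0 0 1 0 0 0 1
(.s 1 0 0 1 0 0 0 3
(.s 0 22159 0 0 0 0 0 109479
(.s 3 27370 0 0 27370 0 0 29106
(.lf 2 true 1 false false 1 1) (.s 3 21 0 0 21 0 0 21
(.s 4 0 10 10 0 11 0 0
(.lf 2 true 1 false false 1 0) (.lf 2 true 1 false false 1 1)) (.lf 2 true 1 false false 1 0))) (.s 0 3 0 0 0 0 0 13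
(.s 3 21 0 0 21 0 0 21
(.s 4 0 10 10 0 11 0 0
(.lf 2 true 1 false false 1 0) (.lf 2 true 1 false false 1 1)) (.lf 2 true 1 false false 1 0)) (.s 0 5211 0 0 0 0 0 19158
(.s 3 49 0 0 49 0 0 38
(.lf 2 true 1 false false 1 0) (.s 4 7 0 0 7 0 4 2
(.lf 2 true 1 false false 1 0) (.lf 2 true 1 false true 1 0))) (.s 3 19159 0 0 19159 0 0 13947
(.s 3 49 0 0 49 0 0 38
(.lf 2 true 1 false false 1 0) (.s 4 7 0 0 7 0 4 2
(.lf 2 true 1 false false 1 0) (.lf 2 true 1 false true 1 0))) (.lf 2 true 1 false true 1 0))))) (.s 3 9 0 0 0 0 0 9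
(.s 0 1 0 0 0 0 0 4
(.s 0 11737 0 0 0 0 0 273699
(.lf 2 true 1 false false 1 1) (.s 3 27370 0 0 27370 0 0 29106
(.lf 2 true 1 false false 1 1) (.s 0 2 0 0 0 0 0 34
(.s 4 0 10 10 0 11 0 0
(.lf 2 true 1 false false 1 0) (.lf 2 true 1 false false 1 1)) (.s 3 21 0 0 21 0 0 21
(.s 4 0 10 10 0 11 0 0
(.lf 2 true 1 false false 1 0) (.lf 2 true 1 false false 1 1)) (.lf 2 true 1 false false 1 0))))) (.lf 2 true 1 false false 1 2)) (.s 0 1 0 0 0 0 0 4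
(.s 0 11737 0 0 0 0 0 273699
(.s 3 27370 0 0 27370 0 0 29106
(.lf 2 true 1 false false 1 1) (.s 3 21 0 0 21 0 0 21
(.s 4 0 10 10 0 11 0 0
(.lf 2 true 1 false false 1 0) (.lf 2 true 1 false false 1 1)) (.lf 2 true 1 false false 1 0))) (.s 0 2 0 0 0 0 0 34
(.s 3 21 0 0 21 0 0 21
(.s 4 0 10 10 0 11 0 0
(.lf 2 true 1 false false 1 0) (.lf 2 true 1 false false 2 1)) (.lf 2 true 1 false false 1 0)) (.lf 2 true 1 false false 1 0))) (.s 2 0 0 0 0 1 0 1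
(.s 3 19 0 0 0 0 0 19
(.lf 2 true 1 false false 1 0) (.s 0 1 0 0 0 0 0 3
(.s 2 0 0 0 0 1 0 3
(.s 3 39 0 0 0 0 0 39
(.lf 2 true 1 false false 1 0) (.s 4 0 0 0 0 1043 0 2345
(.lf 2 true 1 false false 1 0) (.s 4 0 0 0 0 5301 0 10947
(.lf 2 true 1 false false 1 0) (.s 1 0 0 3 0 0 0 7
(.s 0 9 0 0 0 0 0 39
(.s 1 0 0 5 0 0 0 15
(.s 0 21 0 0 0 0 0 99
(.lf 2 true 1 false false 1 0) (.s 0 16941 0 0 0 0 0 76635
(.s 3 49 0 0 49 0 0 38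
(.lf 2 true 1 false false 1 0) (.s 4 7 0 0 7 0 4 2
(.lf 2 true 1 false false 1 0) (.lf 2 true 1 false true 1 0))) (.s 3 76636 0 0 76636 0 0 59694
(.s 0 439 0 0 0 0 0 1959
(.s 3 49 0 0 49 0 0 38
(.lf 2 true 1 false false 1 0) (.s 4 7 0 0 7 0 4 2
(.lf 2 true 1 false false 1 0) (.lf 2 true 1 false true 1 0))) (.s 4 7 0 0 7 0 4 2
(.lf 2 true 1 false false 1 0) (.lf 2 true 1 false true 1 0))) (.lf 2 true 1 false true 1 0)))) (.s 0 21 0 0 0 0 0 99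
(.lf 2 true 1 false false 1 0) (.s 0 16941 0 0 0 0 0 76635
(.s 3 49 0 0 49 0 0 38
(.lf 2 true 1 false false 1 0) (.s 4 7 0 0 7 0 4 2
(.lf 2 true 1 false false 1 0) (.lf 2 true 1 false true 1 0))) (.s 3 76636 0 0 76636 0 0 59694
(.s 0 439 0 0 0 0 0 1959
(.s 3 49 0 0 49 0 0 38
(.lf 2 true 1 false false 1 0) (.s 4 7 0 0 7 0 4 2
(.lf 2 true 1 false false 1 0) (.lf 2 true 1 false true 1 0))) (.s 4 7 0 0 7 0 4 2
(.lf 2 true 1 false false 1 0) (.lf 2 true 1 false true 1 0))) (.lf 2 true 1 false true 1 0))))) (.s 0 147467 0 0 0 0 0 613087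
(.s 3 76636 0 0 76636 0 0 59694
(.s 4 7 0 0 7 0 4 2
(.lf 2 true 1 false false 1 0) (.lf 2 true 1 false true 1 0)) (.lf 2 true 1 false true 1 0)) (.lf 2 true 1 false true 1 0))) (.s 0 9 0 0 0 0 0 39
(.lf 2 true 1 false false 1 0) (.lf 2 true 1 false true 1 0)))))) (.lf 2 true 1 false false 1 0)) (.s 4 0 0 0 0 1043 0 2345
(.s 0 3 0 0 0 0 0 9
(.lf 2 true 1 false false 1 0) (.lf 2 true 1 false true 1 0)) (.s 1 0 0 3 0 0 0 7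
(.lf 2 true 1 false true 1 0) (.lf 2 true 1 false true 1 0))))) (.lf 2 true 1 false false 1 0))))) (.s 0 22159 0 0 0 0 0 109479
(.s 3 27370 0 0 27370 0 0 29106
(.s 0 1 0 0 0 0 0 9
(.lf 2 true 1 false false 1 1) (.lf 2 true 1 false false 1 1)) (.s 3 21 0 0 21 0 0 21
(.s 4 0 10 10 0 11 0 0
(.lf 2 true 1 false false 1 0) (.lf 2 true 1 false false 1 1)) (.lf 2 true 1 false false 1 0))) (.s 0 3 0 0 0 0 0 13
(.s 3 21 0 0 21 0 0 21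
(.s 4 0 10 10 0 11 0 0
(.lf 2 true 1 false false 2 0) (.lf 2 true 1 false false 1 1)) (.lf 2 true 1 false false 1 0)) (.lf 2 true 1 false false 1 0)))) (.s 1 0 4 12 0 0 0 6
(.s 1 0 2 6 0 0 0 6
(.lf 1 true 1 false true 1 0) (.s 0 2476081 0 0 0 0 0 5203495
(.s 0 8281535 0 0 0 0 0 18170363
(.lf 1 true 1 false true 1 0) (.s 1 317821 0 0 0 0 0 1514196
(.lf 1 true 1 true true 1 0) (.s 2 317821 0 0 0 0 1300874 213322
(.lf 1 true 1 false true 1 0) (.lf 1 true 2 false false 1 0)))) (.s 1 317821 0 0 0 0 0 1300873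
(.s 1 317821 0 0 0 0 0 1514196
(.lf 1 true 1 false true 1 0) (.s 2 317821 0 0 0 0 1300874 213322
(.lf 1 true 1 false true 1 0) (.lf 1 true 2 false false 1 0))) (.lf 1 true 2 false false 1 0)))) (.s 1 0 4 19 0 0 0 13
(.s 0 2 0 0 0 0 0 4
(.s 1 0 12 43 0 0 0 27
(.lf 2 true 1 false true 1 0) (.s 3 9 0 0 0 0 0 9
(.lf 2 true 1 false false 1 0) (.s 0 4826495 0 0 0 0 0 12358302
(.s 0 10506282 0 0 0 0 0 28769742
(.lf 2 true 1 false true 1 0) (.s 1 317821 0 0 0 0 0 1514196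
(.lf 2 true 1 false true 1 0) (.s 2 317821 0 0 0 0 1300874 213322
(.lf 2 true 1 false true 1 0) (.lf 2 true 2 false false 1 0)))) (.s 1 317821 0 0 0 0 0 1300873
(.s 1 317821 0 0 0 0 0 1514196
(.lf 2 true 1 false true 1 0) (.s 2 317821 0 0 0 0 1300874 213322
(.lf 2 true 1 false true 1 0) (.lf 2 true 2 false false 1 0))) (.lf 2 true 2 false false 1 0))))) (.s 0 2476081 0 0 0 0 0 5203495
(.s 1 317821 0 0 0 0 0 1300873
(.s 0 8281535 0 0 0 0 0 18170363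
(.s 1 317821 0 0 0 0 0 1514196
(.lf 2 true 1 false true 1 0) (.s 2 317821 0 0 0 0 1300874 213322
(.lf 2 true 1 false true 1 0) (.lf 2 true 2 false false 1 0))) (.s 2 317821 0 0 0 0 1300874 213322
(.lf 2 true 1 false true 1 0) (.lf 2 true 2 false false 1 0))) (.lf 2 true 2 false false 1 0)) (.lf 2 true 2 false false 1 0))) (.lf 2 true 1 false false 1 0)))) (.s 0 1 0 0 0 0 0 3
(.s 1 1 0 2 0 0 0 3
(.s 1 1 0 6 0 0 0 7
(.s 1 1 0 14 0 0 0 15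
(.s 1 1 0 30 0 0 0 31
(.s 0 22159 0 0 0 0 0 109479
(.s 3 27370 0 0 27370 0 0 29106
(.s 0 1 0 0 0 0 0 9
(.lf 3 true 1 false false 1 1) (.lf 3 true 1 false false 1 1)) (.s 3 21 0 0 21 0 0 21
(.s 4 0 10 10 0 11 0 0
(.lf 3 true 1 false false 1 0) (.lf 3 true 1 false false 1 1)) (.lf 3 true 1 false false 1 0))) (.s 0 3 0 0 0 0 0 13
(.s 3 21 0 0 21 0 0 21
(.s 4 0 10 10 0 11 0 0
(.lf 3 true 1 false false 2 0) (.lf 3 true 1 false false 1 1)) (.lf 3 true 1 false false 1 0)) (.lf 3 true 1 false false 1 0))) (.lf 3 true 1 false false 1 2)) (.lf 3 true 1 false false 1 2)) (.lf 3 true 1 false false 1 2)) (.lf 3 true 1 false false 1 2)) (.lf 3 true 1 false false 1 0))) (.s 1 0 4 12 0 0 0 6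
(.s 1 317821 0 0 0 0 0 1300873
(.s 1 317821 0 0 0 0 0 1514196
(.lf 1 true 1 false true 1 0) (.s 2 317821 0 0 0 0 1300874 213322
(.lf 1 true 1 false true 1 0) (.lf 1 true 2 false false 1 0))) (.lf 1 true 2 false false 1 0)) (.lf 2 true 2 false false 1 0))) (.s 0 5 0 0 0 0 0 7
(.s 1 0 4 12 0 0 0 6
(.s 1 317821 0 0 0 0 0 1300873
(.s 1 317821 0 0 0 0 0 1514196
(.lf 1 false 1 true true 1 0) (.s 2 317821 0 0 0 0 1300874 213322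
(.lf 1 false 1 true true 1 0) (.lf 1 false 2 false false 1 0))) (.lf 1 false 2 false false 1 0)) (.lf 2 false 2 false false 1 0)) (.s 1 317821 0 0 0 0 0 1300873
(.s 1 317821 0 0 0 0 0 1514196
(.lf 1 false 0 true true 1 0) (.s 2 317821 0 0 0 0 1300874 213322
(.lf 1 false 0 true true 1 0) (.lf 1 false 2 false false 1 0))) (.lf 1 false 2 false false 1 0))))

def i1_14bba : T2 :=
(.k 1017821 0 0 213323 0 1300874 t1_14bba_0)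

theorem hi1_14bba : chk2 (leaf1 a1_14 e1_14) 10000 i1_14bba R14_1bba = true := by
  decide +kernel

def R14_1bbba : Reg := hi R14_1bbb (Nat.succ 0) ⟨1, 0, 0, 0, 0, 0, 3⟩

def R14_1bbbb : Reg := lo R14_1bbb (Nat.succ 0) ⟨1, 0, 0, 0, 0, 0, 3⟩

def R14_1bbbaa : Reg := hi R14_1bbba (Nat.succ 3) ⟨0, 0, 0, 0, 3, 0, 3⟩

def R14_1bbbab : Reg := lo R14_1bbba (Nat.succ 3) ⟨0, 0, 0, 0, 3, 0, 3⟩

def R14_1bbbaaa : Reg := hi R14_1bbbaa (Nat.succ 2) ⟨9, 0, 0, 0, 0, 0, 9⟩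

def R14_1bbbaab : Reg := lo R14_1bbbaa (Nat.succ 2) ⟨9, 0, 0, 0, 0, 0, 9⟩

def t1_14bbbaaa_0 : T3 :=
(.s 0 8 0 0 0 0 0 14
(.s 0 1 0 0 0 0 0 3
(.s 1 0 0 1 0 0 0 0
(.s 1 0 0 1 0 0 0 1
(.s 1 0 0 1 0 0 0 3
(.s 3 4 0 0 0 0 0 4
(.lf 2 true 1 false false 1 2) (.s 3 17 0 0 0 0 0 19
(.lf 2 true 1 false false 2 2) (.s 3 7 0 0 0 0 0 7
(.lf 2 true 1 false false 1 2) (.s 0 1 0 0 0 0 0 11
(.s 0 2 0 0 0 0 0 34
(.lf 2 true 1 false false 2 1) (.s 3 21 0 0 21 0 0 21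
(.lf 2 true 1 false false 2 1) (.s 0 31 0 0 0 0 0 399
(.s 4 0 10 10 0 11 0 0
(.lf 2 true 1 false false 2 0) (.lf 2 true 1 false false 2 1)) (.s 3 40 0 0 40 0 0 40
(.s 4 0 10 10 0 11 0 0
(.lf 2 true 1 false false 2 0) (.lf 2 true 1 false false 2 1)) (.lf 2 true 1 false false 2 0))))) (.s 0 33 0 0 0 0 0 319
(.s 3 40 0 0 40 0 0 40
(.s 4 0 10 10 0 11 0 0
(.lf 2 true 1 false false 2 0) (.lf 2 true 1 false false 2 1)) (.lf 2 true 1 false false 2 0)) (.lf 2 true 1 false false 2 0)))))) (.s 3 4 0 0 0 0 0 4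
(.lf 2 true 1 false false 1 2) (.s 0 11 0 0 0 0 0 55
(.s 3 17 0 0 0 0 0 19
(.lf 2 true 1 false false 2 2) (.s 3 7 0 0 0 0 0 7
(.lf 2 true 1 false false 2 2) (.s 0 1 0 0 0 0 0 11
(.s 0 2 0 0 0 0 0 34
(.lf 2 true 1 false false 2 1) (.s 3 21 0 0 21 0 0 21
(.lf 2 true 1 false false 2 1) (.s 0 31 0 0 0 0 0 399
(.s 4 0 10 10 0 11 0 0
(.lf 2 true 1 false false 2 0) (.lf 2 true 1 false false 2 1)) (.s 3 40 0 0 40 0 0 40
(.s 4 0 10 10 0 11 0 0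
(.lf 2 true 1 false false 2 0) (.lf 2 true 1 false false 2 1)) (.lf 2 true 1 false false 2 0))))) (.s 0 33 0 0 0 0 0 319
(.s 3 40 0 0 40 0 0 40
(.s 4 0 10 10 0 11 0 0
(.lf 2 true 1 false false 2 0) (.lf 2 true 1 false false 2 1)) (.lf 2 true 1 false false 2 0)) (.lf 2 true 1 false false 2 0))))) (.s 3 28 0 0 28 0 0 24
(.lf 2 true 1 false false 2 0) (.s 4 7 0 0 7 0 4 2
(.lf 2 true 1 false false 2 0) (.lf 2 true 1 false true 2 0)))))) (.s 0 1 0 0 0 0 0 9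
(.s 0 1 0 0 0 0 0 19
(.lf 2 true 1 false false 2 1) (.s 0 2 0 0 0 0 0 34
(.lf 2 true 1 false false 2 1) (.s 3 21 0 0 21 0 0 21
(.lf 2 true 1 false false 2 1) (.s 0 31 0 0 0 0 0 399
(.s 4 0 10 10 0 11 0 0
(.lf 2 true 1 false false 2 0) (.lf 2 true 1 false false 2 1)) (.s 3 40 0 0 40 0 0 40
(.s 4 0 10 10 0 11 0 0
(.lf 2 true 1 false false 2 0) (.lf 2 true 1 false false 2 1)) (.lf 2 true 1 false false 2 0)))))) (.s 1 0 0 3 0 0 0 3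
(.s 1 0 0 5 0 0 0 7
(.s 0 1 0 0 0 0 0 4
(.lf 2 true 1 false false 2 2) (.lf 2 true 1 false false 2 2)) (.lf 2 true 1 false false 2 2)) (.lf 2 true 1 false false 2 2)))) (.s 0 1 0 0 0 0 0 9
(.s 0 1 0 0 0 0 0 19
(.lf 3 true 1 false false 2 1) (.s 0 2 0 0 0 0 0 34
(.lf 3 true 1 false false 2 1) (.s 3 21 0 0 21 0 0 21
(.lf 3 true 1 false false 2 1) (.s 0 31 0 0 0 0 0 399
(.s 4 0 10 10 0 11 0 0
(.lf 3 true 1 false false 2 0) (.lf 3 true 1 false false 2 1)) (.s 3 40 0 0 40 0 0 40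
(.s 4 0 10 10 0 11 0 0
(.lf 3 true 1 false false 2 0) (.lf 3 true 1 false false 2 1)) (.lf 3 true 1 false false 2 0)))))) (.lf 3 true 1 false false 2 2))) (.s 0 1 0 0 0 0 0 2
(.s 1 1 0 0 0 0 0 9
(.s 1 1 0 0 0 0 0 19
(.lf 2 true 1 false false 2 0) (.s 0 3 0 0 0 0 0 9
(.lf 2 true 1 false false 2 0) (.lf 2 true 1 false true 1 0))) (.s 1 1 0 0 0 0 0 4
(.s 1 3 0 0 0 0 0 19
(.s 0 13 0 0 0 0 0 39
(.lf 2 true 1 false false 2 0) (.s 3 4 0 0 4 0 0 2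
(.lf 2 true 1 false true 1 0) (.s 4 1 0 0 1 0 0 0
(.lf 2 true 1 false true 1 0) (.lf 2 true 0 false true 2 0)))) (.lf 2 true 1 false false 2 0)) (.lf 2 true 1 false false 2 0))) (.s 0 23 0 0 0 0 0 47
(.s 1 0 4 12 0 0 0 6
(.s 1 0 2 6 0 0 0 6
(.lf 1 true 1 true true 1 0) (.s 0 10664027 0 0 0 0 0 23957795
(.lf 1 true 1 false true 1 0) (.s 1 382585 0 0 0 0 0 1996482
(.lf 1 true 1 false true 1 0) (.s 0 10473299 0 0 0 0 0 23385611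
(.s 2 0 382585 0 0 1996483 0 47681
(.lf 1 true 2 false false 1 0) (.lf 1 true 0 false true 1 0)) (.s 1 382585 0 0 0 0 0 1948800
(.s 2 0 382585 0 0 1996483 0 47681
(.lf 1 true 2 false false 1 0) (.lf 1 true 1 false true 1 0)) (.lf 1 true 2 false false 1 0)))))) (.s 0 10664027 0 0 0 0 0 23957795
(.s 1 382585 0 0 0 0 0 1996482
(.lf 2 true 1 false true 1 0) (.s 1 382585 0 0 0 0 0 1948800
(.s 2 0 382585 0 0 1996483 0 47681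
(.lf 2 true 2 false false 1 0) (.lf 2 true 1 false true 1 0)) (.lf 2 true 2 false false 1 0))) (.s 0 10473299 0 0 0 0 0 23385611
(.s 1 382585 0 0 0 0 0 1948800
(.s 2 0 382585 0 0 1996483 0 47681
(.lf 2 true 2 false false 1 0) (.lf 2 true 0 false true 1 0)) (.lf 2 true 2 false false 1 0)) (.lf 2 true 2 false false 1 0)))) (.s 1 382585 0 0 0 0 0 1996482
(.lf 1 true 1 false true 1 0) (.s 1 382585 0 0 0 0 0 1948800
(.s 2 0 382585 0 0 1996483 0 47681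
(.lf 1 true 2 false false 1 0) (.lf 1 true 1 true true 1 0)) (.lf 1 true 2 false false 1 0)))))) (.s 1 382585 0 0 0 0 0 1996482
(.lf 1 false 0 false true 1 0) (.s 1 382585 0 0 0 0 0 1948800
(.s 2 0 382585 0 0 1996483 0 47681
(.lf 1 false 2 false false 1 0) (.lf 1 false 0 true true 1 0)) (.lf 1 false 2 true false 1 0))))

def i1_14bbbaaa : T2 :=
(.k 1082585 0 47682 0 0 1996483 t1_14bbbaaa_0)

theorem hi1_14bbbaaa : chk2 (leaf1 a1_14 e1_14) 10000 i1_14bbbaaa R14_1bbbaaa = true := by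
  decide +kernel

def R14_1bbbaaba : Reg := hi R14_1bbbaab (Nat.succ 3) ⟨0, 0, 0, 0, 3, 0, 4⟩

def R14_1bbbaabb : Reg := lo R14_1bbbaab (Nat.succ 3) ⟨0, 0, 0, 0, 3, 0, 4⟩

def t1_14bbbaaba_0 : T3 :=
(.s 0 8 0 0 0 0 0 14
(.s 0 1 0 0 0 0 0 3
(.s 1 0 0 1 0 0 0 0
(.s 0 1 0 0 0 0 0 9
(.s 0 2 0 0 0 0 0 34
(.s 3 21 0 0 21 0 0 21
(.s 0 1 0 0 0 0 0 39
(.lf 2 true 1 false false 2 1) (.lf 2 true 1 false false 2 1)) (.s 3 25 0 0 25 0 0 25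
(.s 4 0 10 10 0 11 0 0
(.lf 2 true 1 false false 1 0) (.lf 2 true 1 false false 2 1)) (.lf 2 true 1 false false 1 0))) (.s 0 8 0 0 0 0 0 124
(.s 3 25 0 0 25 0 0 25
(.s 4 0 10 10 0 11 0 0
(.lf 2 true 1 false false 2 0) (.lf 2 true 1 false false 2 1)) (.lf 2 true 1 false false 2 0)) (.lf 2 true 1 false false 2 0))) (.s 1 0 0 1 0 0 0 1
(.s 1 0 0 1 0 0 0 3
(.s 1 0 0 1 0 0 0 7
(.lf 2 true 1 false false 2 0) (.lf 2 true 1 false false 2 0)) (.lf 2 true 1 false false 2 0)) (.lf 2 true 1 false false 2 0))) (.s 0 1 0 0 0 0 0 9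
(.s 1 1 0 4 0 0 0 7
(.s 1 1 0 12 0 0 0 15
(.s 1 1 0 28 0 0 0 31
(.s 0 2 0 0 0 0 0 34
(.s 3 21 0 0 21 0 0 21
(.s 0 1 0 0 0 0 0 39
(.lf 3 true 1 false false 2 1) (.lf 3 true 1 false false 2 1)) (.s 3 25 0 0 25 0 0 25
(.s 4 0 10 10 0 11 0 0
(.lf 3 true 1 false false 1 0) (.lf 3 true 1 false false 2 1)) (.lf 3 true 1 false false 1 0))) (.s 0 8 0 0 0 0 0 124
(.s 3 25 0 0 25 0 0 25
(.s 4 0 10 10 0 11 0 0
(.lf 3 true 1 false false 2 0) (.lf 3 true 1 false false 2 1)) (.lf 3 true 1 false false 2 0)) (.lf 3 true 1 false false 2 0))) (.lf 3 true 1 false false 2 2)) (.lf 3 true 1 false false 2 2)) (.lf 3 true 1 false false 2 2)) (.lf 3 true 1 false false 2 0))) (.s 0 1 0 0 0 0 0 2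
(.s 1 1 0 0 0 0 0 9
(.lf 2 true 1 false true 1 0) (.lf 2 true 1 false false 2 0)) (.s 0 23 0 0 0 0 0 47
(.s 1 0 4 12 0 0 0 6
(.s 0 12742495 0 0 0 0 0 31239503
(.s 0 14785411 0 0 0 0 0 37368251
(.lf 1 true 1 false true 1 0) (.s 1 332761 0 0 0 0 0 3114020
(.lf 1 true 1 true true 1 0) (.s 2 332761 0 0 0 0 2603292 510728
(.lf 1 true 1 true true 1 0) (.lf 1 true 2 false false 1 0)))) (.s 1 332761 0 0 0 0 0 2603291
(.s 1 332761 0 0 0 0 0 3114020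
(.lf 1 true 1 false true 1 0) (.s 2 332761 0 0 0 0 2603292 510728
(.lf 1 true 1 true true 1 0) (.lf 1 true 2 true false 1 0))) (.lf 1 true 2 false false 1 0))) (.s 0 12742495 0 0 0 0 0 31239503
(.s 1 332761 0 0 0 0 0 2603291
(.s 0 14785411 0 0 0 0 0 37368251
(.s 1 332761 0 0 0 0 0 3114020
(.lf 2 true 1 false true 1 0) (.s 2 332761 0 0 0 0 2603292 510728
(.lf 2 true 1 false true 1 0) (.lf 2 true 2 false false 1 0))) (.s 2 332761 0 0 0 0 2603292 510728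
(.lf 2 true 1 false true 1 0) (.lf 2 true 2 false false 1 0))) (.lf 2 true 2 false false 1 0)) (.lf 2 true 2 false false 1 0))) (.s 1 1 0 0 0 0 0 9
(.lf 1 true 0 true true 1 0) (.s 1 332761 0 0 0 0 0 2603291
(.s 1 332761 0 0 0 0 0 3114020
(.lf 1 true 1 false true 1 0) (.s 2 332761 0 0 0 0 2603292 510728
(.lf 1 true 1 false true 1 0) (.lf 1 true 2 true false 1 0))) (.lf 1 true 2 true false 1 0)))))) (.s 1 1 0 0 0 0 0 9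
(.lf 1 false 0 true true 1 0) (.s 1 332761 0 0 0 0 0 2603291
(.s 1 332761 0 0 0 0 0 3114020
(.lf 1 false 0 true true 1 0) (.s 2 332761 0 0 0 0 2603292 510728
(.lf 1 false 0 true true 1 0) (.lf 1 false 2 false false 1 0))) (.lf 1 false 2 true false 1 0))))

def i1_14bbbaaba : T2 :=
(.k 1032761 0 0 510729 0 2603292 t1_14bbbaaba_0)

theorem hi1_14bbbaaba : chk2 (leaf1 a1_14 e1_14) 10000 i1_14bbbaaba R14_1bbbaaba = true := by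
  decide +kernel

def R14_1bbbaabba : Reg := hi R14_1bbbaabb (Nat.succ 0) ⟨1, 0, 0, 0, 0, 0, 9⟩

def R14_1bbbaabbb : Reg := lo R14_1bbbaabb (Nat.succ 0) ⟨1, 0, 0, 0, 0, 0, 9⟩

def R14_1bbbaabbaa : Reg := hi R14_1bbbaabba (Nat.succ 2) ⟨19, 0, 0, 0, 0, 0, 19⟩

def R14_1bbbaabbab : Reg := lo R14_1bbbaabba (Nat.succ 2) ⟨19, 0, 0, 0, 0, 0, 19⟩

def t1_14bbbaabbaa_0 : T3 :=
(.s 0 8 0 0 0 0 0 14
(.s 0 1 0 0 0 0 0 9
(.s 1 0 0 1 0 0 0 0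
(.s 0 8 0 0 0 0 0 124
(.s 0 3 0 0 0 0 0 249
(.lf 2 true 1 false false 2 1) (.s 3 25 0 0 25 0 0 25
(.lf 2 true 1 false false 2 1) (.s 0 21 0 0 0 0 0 799
(.s 4 0 10 10 0 11 0 0
(.lf 2 true 1 false false 2 0) (.lf 2 true 1 false false 2 1)) (.s 3 40 0 0 40 0 0 40
(.s 4 0 10 10 0 11 0 0
(.lf 2 true 1 false false 2 0) (.lf 2 true 1 false false 2 1)) (.lf 2 true 1 false false 2 0))))) (.s 0 31 0 0 0 0 0 399
(.s 3 40 0 0 40 0 0 40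
(.s 4 0 10 10 0 11 0 0
(.lf 2 true 1 false false 2 0) (.lf 2 true 1 false false 2 1)) (.lf 2 true 1 false false 2 0)) (.s 1 0 0 1 0 0 0 1
(.lf 2 true 1 false false 2 0) (.lf 2 true 1 false false 2 0)))) (.s 1 1 0 10 0 0 0 19
(.s 0 1 0 0 0 0 0 19
(.s 0 3 0 0 0 0 0 249
(.lf 3 true 1 false false 2 1) (.s 3 25 0 0 25 0 0 25
(.lf 3 true 1 false false 2 1) (.s 0 21 0 0 0 0 0 799
(.s 4 0 10 10 0 11 0 0
(.lf 3 true 1 false false 2 0) (.lf 3 true 1 false false 2 1)) (.s 3 40 0 0 40 0 0 40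
(.s 4 0 10 10 0 11 0 0
(.lf 3 true 1 false false 2 0) (.lf 3 true 1 false false 2 1)) (.lf 3 true 1 false false 2 0))))) (.s 0 8 0 0 0 0 0 124
(.s 3 25 0 0 25 0 0 25
(.lf 3 true 1 false false 2 1) (.s 3 40 0 0 40 0 0 40
(.s 4 0 10 10 0 11 0 0
(.lf 3 true 1 false false 2 0) (.lf 3 true 1 false false 2 1)) (.lf 3 true 1 false false 2 0))) (.s 0 31 0 0 0 0 0 399
(.s 3 40 0 0 40 0 0 40
(.s 4 0 10 10 0 11 0 0
(.lf 3 true 1 false false 2 0) (.lf 3 true 1 false false 2 1)) (.lf 3 true 1 false false 2 0)) (.lf 3 true 1 false false 2 0)))) (.lf 3 true 1 false false 2 2))) (.s 0 1 0 0 0 0 0 2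
(.s 1 1 0 0 0 0 0 19
(.s 0 1 0 0 0 0 0 3
(.lf 2 true 1 false false 2 0) (.lf 2 true 1 false true 2 0)) (.lf 2 true 1 false false 2 0)) (.s 0 47 0 0 0 0 0 119
(.s 1 0 4 12 0 0 0 6
(.lf 1 true 1 false true 2 0) (.lf 2 true 1 false true 2 0)) (.lf 1 true 0 true true 2 0)))) (.lf 1 false 0 true true 2 0))

def i1_14bbbaabbaa : T2 :=
(.k 1049151 0 0 400769 0 2911541 t1_14bbbaabbaa_0)

theorem hi1_14bbbaabbaa : chk2 (leaf1 a1_14 e1_14) 10000 i1_14bbbaabbaa R14_1bbbaabbaa = true := by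
  decide +kernel

def t1_14bbbaabbab_0 : T3 :=
(.s 0 8 0 0 0 0 0 14
(.s 0 1 0 0 0 0 0 9
(.s 1 0 0 1 0 0 0 0
(.s 0 3 0 0 0 0 0 249
(.s 3 25 0 0 25 0 0 25
(.lf 2 true 1 false false 2 1) (.s 3 40 0 0 40 0 0 40
(.s 4 0 10 10 0 11 0 0
(.lf 2 true 1 false false 2 0) (.lf 2 true 1 false false 2 1)) (.lf 2 true 1 false false 2 0))) (.s 0 21 0 0 0 0 0 799
(.s 3 40 0 0 40 0 0 40
(.s 4 0 10 10 0 11 0 0
(.lf 2 true 1 false false 2 0) (.lf 2 true 1 false false 2 1)) (.lf 2 true 1 false false 2 0)) (.lf 2 true 1 false false 2 0))) (.s 0 3 0 0 0 0 0 249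
(.s 3 25 0 0 25 0 0 25
(.lf 3 true 1 false false 2 1) (.s 3 40 0 0 40 0 0 40
(.s 4 0 10 10 0 11 0 0
(.lf 3 true 1 false false 2 0) (.lf 3 true 1 false false 2 1)) (.lf 3 true 1 false false 2 0))) (.s 0 21 0 0 0 0 0 799
(.s 3 40 0 0 40 0 0 40
(.s 4 0 10 10 0 11 0 0
(.lf 3 true 1 false false 2 0) (.lf 3 true 1 false false 2 1)) (.lf 3 true 1 false false 2 0)) (.lf 3 true 1 false false 2 0)))) (.s 0 1 0 0 0 0 0 2
(.s 1 1 0 0 0 0 0 19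
(.s 0 1 0 0 0 0 0 3
(.s 0 1 0 0 0 0 0 4
(.s 0 6 0 0 0 0 0 34
(.s 0 17 0 0 0 0 0 111
(.s 0 3 0 0 0 0 0 27
(.lf 2 true 1 false false 2 0) (.s 3 28 0 0 28 0 0 24
(.lf 2 true 1 false false 2 0) (.s 4 7 0 0 7 0 4 2
(.lf 2 true 1 false false 2 0) (.lf 2 true 1 false true 2 0)))) (.s 4 7 0 0 7 0 4 2
(.lf 2 true 1 false false 2 0) (.lf 2 true 1 false true 2 0))) (.s 3 35 0 0 35 0 0 28
(.s 4 7 0 0 7 0 4 2
(.lf 2 true 1 false false 2 0) (.lf 2 true 1 false true 2 0)) (.lf 2 true 1 false true 2 0))) (.lf 2 true 1 false true 2 0)) (.lf 2 true 1 false true 2 0)) (.lf 2 true 1 false false 2 0)) (.s 0 47 0 0 0 0 0 119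
(.s 1 0 4 12 0 0 0 6
(.s 1 0 2 6 0 0 0 6
(.lf 1 true 1 false true 2 0) (.s 4 1 0 0 1 0 0 0
(.s 0 9 0 0 0 0 0 24
(.lf 1 true 1 true true 2 0) (.lf 1 true 1 false false 2 0)) (.s 0 9 0 0 0 0 0 24
(.lf 1 true 0 true true 2 0) (.lf 1 true 0 false false 2 0)))) (.s 4 1 0 0 1 0 0 0
(.lf 2 true 1 false false 2 0) (.lf 2 true 0 false false 2 0))) (.s 1 1 0 0 0 0 0 19
(.lf 1 true 0 true true 2 0) (.lf 1 true 0 false false 2 0))))) (.s 1 1 0 0 0 0 0 19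
(.lf 1 false 0 true true 2 0) (.lf 1 false 0 false false 2 0)))

def i1_14bbbaabbab : T2 :=
(.k 981629 0 0 1297431 0 3264912 t1_14bbbaabbab_0)

theorem hi1_14bbbaabbab : chk2 (leaf1 a1_14 e1_14) 10000 i1_14bbbaabbab R14_1bbbaabbab = true := by
  decide +kernel

def i1_14bbbaabba : T2 := .s 2 19 0 0 0 19 i1_14bbbaabbaa i1_14bbbaabbab

theorem hi1_14bbbaabba : chk2 (leaf1 a1_14 e1_14) 10000 i1_14bbbaabba R14_1bbbaabba = true := chk2_s hi1_14bbbaabbaa hi1_14bbbaabbab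

def t1_14bbbaabbb_0 : T3 :=
(.s 0 8 0 0 0 0 0 14
(.s 0 1 0 0 0 0 0 9
(.lf 3 true 1 false false 2 2) (.s 0 1 0 0 0 0 0 3
(.s 1 0 0 1 0 0 0 0
(.lf 2 true 1 false false 2 0) (.lf 3 true 1 false false 2 0)) (.s 0 47 0 0 0 0 0 119
(.s 1 561 0 0 0 0 0 4999
(.lf 2 true 1 false true 2 0) (.lf 2 true 2 false false 2 0)) (.s 0 23 0 0 0 0 0 47
(.s 1 0 4 12 0 0 0 6
(.lf 1 true 0 true false 2 0) (.lf 2 true 0 false false 2 0)) (.lf 1 true 0 true false 2 0))))) (.lf 1 false 0 true false 2 0))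

def i1_14bbbaabbb : T2 :=
(.k 1261000 0 0 0 0 5000000 t1_14bbbaabbb_0)

theorem hi1_14bbbaabbb : chk2 (leaf1 a1_14 e1_14) 10000 i1_14bbbaabbb R14_1bbbaabbb = true := by
  decide +kernel

def i1_14bbbaabb : T2 := .s 0 1 0 0 0 9 i1_14bbbaabba i1_14bbbaabbb

theorem hi1_14bbbaabb : chk2 (leaf1 a1_14 e1_14) 10000 i1_14bbbaabb R14_1bbbaabb = true := chk2_s hi1_14bbbaabba hi1_14bbbaabbb

def i1_14bbbaab : T2 := .s 3 0 0 3 0 4 i1_14bbbaaba i1_14bbbaabb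

theorem hi1_14bbbaab : chk2 (leaf1 a1_14 e1_14) 10000 i1_14bbbaab R14_1bbbaab = true := chk2_s hi1_14bbbaaba hi1_14bbbaabb

def i1_14bbbaa : T2 := .s 2 9 0 0 0 9 i1_14bbbaaa i1_14bbbaab

theorem hi1_14bbbaa : chk2 (leaf1 a1_14 e1_14) 10000 i1_14bbbaa R14_1bbbaa = true := chk2_s hi1_14bbbaaa hi1_14bbbaab

def R14_1bbbaba : Reg := hi R14_1bbbab (Nat.succ 2) ⟨9, 0, 0, 0, 0, 0, 9⟩

def R14_1bbbabb : Reg := lo R14_1bbbab (Nat.succ 2) ⟨9, 0, 0, 0, 0, 0, 9⟩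

def t1_14bbbaba_0 : T3 :=
(.s 0 8 0 0 0 0 0 14
(.s 0 1 0 0 0 0 0 3
(.s 1 0 0 1 0 0 0 0
(.s 1 0 0 1 0 0 0 1
(.s 3 4 0 0 0 0 0 4
(.lf 2 true 1 false false 2 2) (.s 0 1 0 0 0 0 0 9
(.s 0 31 0 0 0 0 0 399
(.lf 2 true 1 false false 2 1) (.s 3 40 0 0 40 0 0 40
(.lf 2 true 1 false false 2 1) (.s 4 0 10 10 0 11 0 0
(.lf 2 true 1 false false 2 0) (.lf 2 true 1 false false 2 1)))) (.s 1 0 0 1 0 0 0 3
(.s 0 1 0 0 0 0 0 4
(.s 3 1 0 0 1 0 0 0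
(.s 0 9 0 0 0 0 0 49
(.s 3 40 0 0 40 0 0 40
(.lf 2 true 1 false false 2 1) (.s 4 0 10 10 0 11 0 0
(.lf 2 true 1 false false 2 0) (.lf 2 true 1 false false 2 1))) (.s 4 0 10 10 0 11 0 0
(.lf 2 true 1 false false 2 0) (.lf 2 true 1 false false 2 1))) (.s 4 1 0 0 1 0 0 0
(.lf 2 true 1 false false 2 0) (.lf 2 true 0 false true 2 0))) (.s 4 1 0 0 1 0 0 0
(.lf 2 true 1 false false 2 0) (.lf 2 true 0 false true 2 0))) (.s 0 1 0 0 0 0 0 4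
(.s 3 1 0 0 1 0 0 0
(.s 0 9 0 0 0 0 0 49
(.s 3 40 0 0 40 0 0 40
(.lf 2 true 1 false false 2 1) (.s 4 0 10 10 0 11 0 0
(.lf 2 true 1 false false 2 0) (.lf 2 true 1 false false 2 1))) (.s 4 0 10 10 0 11 0 0
(.lf 2 true 1 false false 2 0) (.lf 2 true 1 false false 2 1))) (.s 4 1 0 0 1 0 0 0
(.s 0 11 0 0 0 0 0 55
(.s 4 7 0 0 7 0 4 2
(.lf 2 true 1 false false 2 0) (.lf 2 true 1 false true 2 0)) (.s 3 28 0 0 28 0 0 24
(.s 4 7 0 0 7 0 4 2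
(.lf 2 true 1 false false 2 0) (.lf 2 true 1 false true 2 0)) (.lf 2 true 1 false true 2 0))) (.lf 2 true 0 false true 2 0))) (.s 4 1 0 0 1 0 0 0
(.s 3 28 0 0 28 0 0 24
(.s 4 7 0 0 7 0 4 2
(.lf 2 true 1 false false 2 0) (.lf 2 true 1 false true 2 0)) (.lf 2 true 1 false true 2 0)) (.lf 2 true 0 false true 2 0)))))) (.s 0 1 0 0 0 0 0 9
(.s 0 31 0 0 0 0 0 399
(.lf 2 true 1 false false 2 1) (.s 3 40 0 0 40 0 0 40
(.lf 2 true 1 false false 2 1) (.s 4 0 10 10 0 11 0 0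
(.lf 2 true 1 false false 2 0) (.lf 2 true 1 false false 2 1)))) (.s 1 0 0 3 0 0 0 3
(.s 3 1 0 0 1 0 0 0
(.s 0 37 0 0 0 0 0 159
(.s 3 40 0 0 40 0 0 40
(.lf 2 true 1 false false 2 1) (.s 4 0 10 10 0 11 0 0
(.lf 2 true 1 false false 2 0) (.lf 2 true 1 false false 2 1))) (.s 4 0 10 10 0 11 0 0
(.lf 2 true 1 false false 2 0) (.lf 2 true 1 false false 2 1))) (.s 4 1 0 0 1 0 0 0
(.s 0 1 0 0 0 0 0 4
(.lf 2 true 1 false false 2 0) (.lf 2 true 1 false false 2 0)) (.s 0 1 0 0 0 0 0 4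
(.lf 2 true 0 false true 2 0) (.lf 2 true 0 false false 2 0)))) (.s 0 37 0 0 0 0 0 159
(.s 3 40 0 0 40 0 0 40
(.lf 2 true 1 false false 2 1) (.s 3 1 0 0 1 0 0 0
(.s 4 0 10 10 0 11 0 0
(.lf 2 true 1 false false 2 0) (.lf 2 true 1 false false 2 1)) (.lf 2 true 1 false false 2 0))) (.s 3 1 0 0 1 0 0 0
(.s 4 0 10 10 0 11 0 0
(.lf 2 true 1 false false 2 0) (.lf 2 true 1 false false 2 1)) (.lf 2 true 1 false false 2 0)))))) (.s 0 1 0 0 0 0 0 9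
(.s 0 31 0 0 0 0 0 399
(.lf 3 true 1 false false 2 1) (.s 3 40 0 0 40 0 0 40
(.lf 3 true 1 false false 2 1) (.s 4 0 10 10 0 11 0 0
(.lf 3 true 1 false false 2 0) (.lf 3 true 1 false false 2 1)))) (.s 0 37 0 0 0 0 0 159
(.s 3 40 0 0 40 0 0 40
(.lf 3 true 1 false false 2 1) (.s 3 1 0 0 1 0 0 0
(.s 4 0 10 10 0 11 0 0
(.lf 3 true 1 false false 2 0) (.lf 3 true 1 false false 2 1)) (.lf 3 true 1 false false 2 0))) (.s 3 1 0 0 1 0 0 0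
(.s 4 0 10 10 0 11 0 0
(.lf 3 true 1 false false 2 0) (.lf 3 true 1 false false 2 1)) (.lf 3 true 1 false false 2 0))))) (.s 0 1 0 0 0 0 0 2
(.s 1 1 0 0 0 0 0 9
(.s 3 4 0 0 0 0 0 4
(.lf 2 true 1 false false 2 0) (.lf 2 true 1 false true 2 0)) (.s 0 13 0 0 0 0 0 39
(.s 4 1 0 0 1 0 0 0
(.lf 2 true 1 false false 2 0) (.lf 2 true 0 false false 2 0)) (.s 3 4 0 0 4 0 0 2
(.s 4 1 0 0 1 0 0 0
(.lf 2 true 1 false false 2 0) (.lf 2 true 0 false false 2 0)) (.lf 2 true 0 false false 2 0)))) (.s 0 23 0 0 0 0 0 47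
(.s 1 0 4 12 0 0 0 6
(.lf 1 true 0 false false 2 0) (.s 0 1254406 0 0 0 0 0 2844614
(.s 1 174972 0 0 0 0 0 948204
(.lf 2 true 1 false true 2 0) (.s 1 87486 0 0 0 0 0 457354
(.s 2 0 174972 0 0 948205 0 33494
(.lf 2 true 2 false false 2 0) (.lf 2 true 1 false true 2 0)) (.lf 2 true 2 false false 2 0))) (.s 0 1220911 0 0 0 0 0 2744129
(.s 1 87486 0 0 0 0 0 457354
(.s 2 0 174972 0 0 948205 0 33494
(.lf 2 true 2 false false 2 0) (.lf 2 true 0 true true 2 0)) (.lf 2 true 2 false false 2 0)) (.lf 2 true 2 false false 2 0)))) (.lf 1 true 0 false false 2 0)))) (.lf 1 false 0 false false 2 0))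

def i1_14bbbaba : T2 :=
(.k 1049944 0 66990 0 0 1896410 t1_14bbbaba_0)

theorem hi1_14bbbaba : chk2 (leaf1 a1_14 e1_14) 10000 i1_14bbbaba R14_1bbbaba = true := by
  decide +kernel

def R14_1bbbabba : Reg := hi R14_1bbbabb (Nat.succ 0) ⟨1, 0, 0, 0, 0, 0, 9⟩

def R14_1bbbabbb : Reg := lo R14_1bbbabb (Nat.succ 0) ⟨1, 0, 0, 0, 0, 0, 9⟩

def R14_1bbbabbaa : Reg := hi R14_1bbbabba (Nat.succ 3) ⟨0, 0, 0, 0, 9, 0, 9⟩

def R14_1bbbabbab : Reg := lo R14_1bbbabba (Nat.succ 3) ⟨0, 0, 0, 0, 9, 0, 9⟩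

def R14_1bbbabbaaa : Reg := hi R14_1bbbabbaa (Nat.succ 3) ⟨0, 0, 0, 0, 4, 0, 4⟩

def R14_1bbbabbaab : Reg := lo R14_1bbbabbaa (Nat.succ 3) ⟨0, 0, 0, 0, 4, 0, 4⟩

def R14_1bbbabbaaaa : Reg := hi R14_1bbbabbaaa (Nat.succ 2) ⟨19, 0, 0, 0, 0, 0, 19⟩

def R14_1bbbabbaaab : Reg := lo R14_1bbbabbaaa (Nat.succ 2) ⟨19, 0, 0, 0, 0, 0, 19⟩

def t1_14bbbabbaaaa_0 : T3 :=
(.s 0 8 0 0 0 0 0 14
(.s 0 1 0 0 0 0 0 9
(.s 1 0 0 1 0 0 0 0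
(.s 0 31 0 0 0 0 0 399
(.s 0 21 0 0 0 0 0 799
(.lf 2 true 1 false false 2 1) (.s 3 40 0 0 40 0 0 40
(.lf 2 true 1 false false 2 1) (.s 0 31 0 0 0 0 0 999
(.s 4 0 10 10 0 11 0 0
(.lf 2 true 1 false false 2 0) (.lf 2 true 1 false false 2 1)) (.s 3 50 0 0 50 0 0 50
(.s 4 0 10 10 0 11 0 0
(.lf 2 true 1 false false 2 0) (.lf 2 true 1 false false 2 1)) (.lf 2 true 1 false false 2 0))))) (.s 0 41 0 0 0 0 0 499
(.s 3 50 0 0 50 0 0 50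
(.s 4 0 10 10 0 11 0 0
(.lf 2 true 1 false false 2 0) (.lf 2 true 1 false false 2 1)) (.lf 2 true 1 false false 2 0)) (.s 1 0 0 1 0 0 0 1
(.lf 2 true 1 false false 2 0) (.lf 2 true 1 false false 2 0)))) (.s 1 1 0 10 0 0 0 19
(.s 0 1 0 0 0 0 0 19
(.s 0 21 0 0 0 0 0 799
(.lf 3 true 1 false false 2 1) (.s 3 40 0 0 40 0 0 40
(.lf 3 true 1 false false 2 1) (.s 0 31 0 0 0 0 0 999
(.s 4 0 10 10 0 11 0 0
(.lf 3 true 1 false false 2 0) (.lf 3 true 1 false false 2 1)) (.s 3 50 0 0 50 0 0 50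
(.s 4 0 10 10 0 11 0 0
(.lf 3 true 1 false false 2 0) (.lf 3 true 1 false false 2 1)) (.lf 3 true 1 false false 2 0))))) (.s 0 31 0 0 0 0 0 399
(.s 3 40 0 0 40 0 0 40
(.lf 3 true 1 false false 2 1) (.s 3 50 0 0 50 0 0 50
(.s 4 0 10 10 0 11 0 0
(.lf 3 true 1 false false 2 0) (.lf 3 true 1 false false 2 1)) (.lf 3 true 1 false false 2 0))) (.s 0 41 0 0 0 0 0 499
(.s 3 50 0 0 50 0 0 50
(.s 4 0 10 10 0 11 0 0
(.lf 3 true 1 false false 2 0) (.lf 3 true 1 false false 2 1)) (.lf 3 true 1 false false 2 0)) (.lf 3 true 1 false false 2 0)))) (.lf 3 true 1 false false 2 2))) (.s 0 1 0 0 0 0 0 2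
(.s 0 1 0 0 0 0 0 3
(.s 0 1 0 0 0 0 0 4
(.s 1 1 0 0 0 0 0 19
(.s 0 3 0 0 0 0 0 19
(.lf 2 true 1 false false 2 0) (.s 0 7 0 0 0 0 0 39
(.lf 2 true 1 false false 2 0) (.lf 2 true 1 false true 2 0))) (.s 0 3 0 0 0 0 0 19
(.lf 2 true 1 false false 2 0) (.s 0 7 0 0 0 0 0 39
(.s 1 3 0 0 0 0 0 39
(.lf 2 true 1 false false 2 0) (.lf 2 true 1 false false 2 0)) (.s 3 37 0 0 0 0 0 39
(.lf 2 true 1 false false 2 0) (.lf 2 true 1 false true 2 0))))) (.lf 2 true 1 false true 2 0)) (.lf 2 true 1 false true 2 0)) (.s 0 47 0 0 0 0 0 119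
(.s 1 0 4 12 0 0 0 6
(.lf 1 true 0 true true 2 0) (.lf 2 true 0 false true 2 0)) (.lf 1 true 0 true true 2 0)))) (.lf 1 false 0 true true 2 0))

def i1_14bbbabbaaaa : T2 :=
(.k 1023078 0 1824007 0 0 2643400 t1_14bbbabbaaaa_0)

theorem hi1_14bbbabbaaaa : chk2 (leaf1 a1_14 e1_14) 10000 i1_14bbbabbaaaa R14_1bbbabbaaaa = true := by
  decide +kernel

def t1_14bbbabbaaab_0 : T3 :=
(.s 0 8 0 0 0 0 0 14
(.s 0 1 0 0 0 0 0 9
(.s 1 0 0 1 0 0 0 0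
(.s 0 21 0 0 0 0 0 799
(.s 3 40 0 0 40 0 0 40
(.lf 2 true 1 false false 2 1) (.s 3 50 0 0 50 0 0 50
(.s 4 0 10 10 0 11 0 0
(.lf 2 true 1 false false 2 0) (.lf 2 true 1 false false 2 1)) (.lf 2 true 1 false false 2 0))) (.s 0 31 0 0 0 0 0 999
(.s 3 50 0 0 50 0 0 50
(.s 4 0 10 10 0 11 0 0
(.lf 2 true 1 false false 2 0) (.lf 2 true 1 false false 2 1)) (.lf 2 true 1 false false 2 0)) (.lf 2 true 1 false false 2 0))) (.s 0 21 0 0 0 0 0 799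
(.s 3 40 0 0 40 0 0 40
(.lf 3 true 1 false false 2 1) (.s 3 50 0 0 50 0 0 50
(.s 4 0 10 10 0 11 0 0
(.lf 3 true 1 false false 2 0) (.lf 3 true 1 false false 2 1)) (.lf 3 true 1 false false 2 0))) (.s 0 31 0 0 0 0 0 999
(.s 3 50 0 0 50 0 0 50
(.s 4 0 10 10 0 11 0 0
(.lf 3 true 1 false false 2 0) (.lf 3 true 1 false false 2 1)) (.lf 3 true 1 false false 2 0)) (.lf 3 true 1 false false 2 0)))) (.s 0 1 0 0 0 0 0 2
(.s 2 0 0 0 0 1 0 1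
(.s 1 1 0 0 0 0 0 19
(.s 0 1 0 0 0 0 0 3
(.s 0 1 0 0 0 0 0 4
(.s 0 3 0 0 0 0 0 19
(.s 1 1 0 0 0 0 0 39
(.s 0 3 0 0 0 0 0 27
(.s 3 35 0 0 35 0 0 31
(.lf 2 true 1 false false 2 0) (.s 4 7 0 0 7 0 4 2
(.lf 2 true 1 false false 2 0) (.lf 2 true 1 false true 2 0))) (.s 3 28 0 0 28 0 0 24
(.s 0 23 0 0 0 0 0 174
(.s 3 35 0 0 35 0 0 31
(.lf 2 true 1 false false 2 0) (.s 4 7 0 0 7 0 4 2
(.lf 2 true 1 false false 2 0) (.lf 2 true 1 false true 2 0))) (.s 4 7 0 0 7 0 4 2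
(.lf 2 true 1 false false 2 0) (.lf 2 true 1 false true 2 0))) (.lf 2 true 1 false true 2 0))) (.lf 2 true 1 false false 2 0)) (.lf 2 true 1 false true 2 0)) (.lf 2 true 1 false true 2 0)) (.lf 2 true 1 false true 2 0)) (.s 3 39 0 0 0 0 0 39
(.s 0 1 0 0 0 0 0 3
(.lf 2 true 1 false false 2 0) (.s 2 0 0 0 0 1 0 3
(.lf 2 true 1 false false 2 0) (.lf 2 true 1 false true 2 0))) (.s 1 255438 0 0 0 0 0 3027978
(.s 0 1 0 0 0 0 0 3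
(.s 0 1 0 0 0 0 0 4
(.s 0 3 0 0 0 0 0 19
(.lf 2 true 1 false false 2 0) (.lf 2 true 1 false true 2 0)) (.lf 2 true 1 false true 2 0)) (.lf 2 true 1 false true 2 0)) (.s 2 0 255438 0 0 3027979 0 2735131
(.lf 2 true 1 false false 2 0) (.s 0 1 0 0 0 0 0 3
(.lf 2 true 1 false false 2 0) (.lf 2 true 1 false true 2 0)))))) (.s 0 1 0 0 0 0 0 3
(.s 0 1 0 0 0 0 0 4
(.s 0 3 0 0 0 0 0 19
(.s 1 1 0 0 0 0 0 19
(.s 0 3 0 0 0 0 0 27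
(.s 3 35 0 0 35 0 0 31
(.lf 2 true 1 false false 2 0) (.s 4 7 0 0 7 0 4 2
(.lf 2 true 1 false false 2 0) (.lf 2 true 1 false true 2 0))) (.s 3 28 0 0 28 0 0 24
(.s 0 23 0 0 0 0 0 174
(.s 3 35 0 0 35 0 0 31
(.lf 2 true 1 false false 2 0) (.s 4 7 0 0 7 0 4 2
(.lf 2 true 1 false false 2 0) (.lf 2 true 1 false true 2 0))) (.s 4 7 0 0 7 0 4 2
(.lf 2 true 1 false false 2 0) (.lf 2 true 1 false true 2 0))) (.lf 2 true 1 false true 2 0))) (.s 0 3 0 0 0 0 0 27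
(.s 3 35 0 0 35 0 0 31
(.lf 2 true 1 false false 2 0) (.s 4 7 0 0 7 0 4 2
(.lf 2 true 1 false false 2 0) (.lf 2 true 1 false true 2 0))) (.s 3 28 0 0 28 0 0 24
(.s 0 23 0 0 0 0 0 174
(.s 3 35 0 0 35 0 0 31
(.lf 2 true 1 false false 2 0) (.s 4 7 0 0 7 0 4 2
(.lf 2 true 1 false false 2 0) (.lf 2 true 1 false true 2 0))) (.s 4 7 0 0 7 0 4 2
(.lf 2 true 1 false false 2 0) (.lf 2 true 1 false true 2 0))) (.lf 2 true 1 false true 2 0)))) (.lf 2 true 1 false true 2 0)) (.lf 2 true 1 false true 2 0)) (.lf 2 true 1 false true 2 0))) (.s 0 47 0 0 0 0 0 119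
(.s 1 0 4 12 0 0 0 6
(.lf 1 true 0 false false 2 0) (.lf 2 true 0 false false 2 0)) (.lf 1 true 0 false false 2 0)))) (.lf 1 false 0 false false 2 0))

def i1_14bbbabbaaab : T2 :=
(.k 955438 0 2735132 0 0 3027979 t1_14bbbabbaaab_0)

theorem hi1_14bbbabbaaab : chk2 (leaf1 a1_14 e1_14) 10000 i1_14bbbabbaaab R14_1bbbabbaaab = true := by
  decide +kernel

def i1_14bbbabbaaa : T2 := .s 2 19 0 0 0 19 i1_14bbbabbaaaa i1_14bbbabbaaab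

theorem hi1_14bbbabbaaa : chk2 (leaf1 a1_14 e1_14) 10000 i1_14bbbabbaaa R14_1bbbabbaaa = true := chk2_s hi1_14bbbabbaaaa hi1_14bbbabbaaab

def t1_14bbbabbaab_0 : T3 :=
(.s 0 8 0 0 0 0 0 14
(.s 0 1 0 0 0 0 0 9
(.s 1 0 0 1 0 0 0 0
(.s 0 1 0 0 0 0 0 19
(.s 3 50 0 0 50 0 0 50
(.lf 2 true 1 false false 2 1) (.s 3 100 0 0 100 0 0 100
(.s 4 0 10 10 0 11 0 0
(.lf 2 true 1 false false 2 0) (.lf 2 true 1 false false 2 1)) (.lf 2 true 1 false false 2 0))) (.s 3 19 0 0 0 0 0 19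
(.s 1 0 0 1 0 0 0 1
(.s 0 41 0 0 0 0 0 499
(.s 3 50 0 0 50 0 0 50
(.lf 2 true 1 false false 2 1) (.s 3 100 0 0 100 0 0 100
(.s 4 0 10 10 0 11 0 0
(.lf 2 true 1 false false 2 0) (.lf 2 true 1 false false 2 1)) (.lf 2 true 1 false false 2 0))) (.s 0 91 0 0 0 0 0 999
(.s 3 100 0 0 100 0 0 100
(.s 4 0 10 10 0 11 0 0
(.lf 2 true 1 false false 2 0) (.lf 2 true 1 false false 2 1)) (.lf 2 true 1 false false 2 0)) (.lf 2 true 1 false false 2 0))) (.s 0 41 0 0 0 0 0 499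
(.s 3 50 0 0 50 0 0 50
(.lf 2 true 1 false false 2 1) (.s 3 100 0 0 100 0 0 100
(.s 4 0 10 10 0 11 0 0
(.lf 2 true 1 false false 2 0) (.lf 2 true 1 false false 2 1)) (.lf 2 true 1 false false 2 0))) (.s 0 91 0 0 0 0 0 999
(.s 3 100 0 0 100 0 0 100
(.s 4 0 10 10 0 11 0 0
(.lf 2 true 1 false false 2 0) (.lf 2 true 1 false false 2 1)) (.lf 2 true 1 false false 2 0)) (.lf 2 true 1 false false 2 0)))) (.s 1 0 0 1 0 0 0 1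
(.s 0 3 0 0 0 0 0 39
(.s 3 70 0 0 70 0 0 66
(.lf 2 true 1 false false 2 0) (.s 4 7 0 0 7 0 4 2
(.lf 2 true 1 false false 2 0) (.lf 2 true 1 false true 2 0))) (.s 3 39 0 0 0 0 0 39
(.s 0 127 0 0 0 0 0 1399
(.s 3 70 0 0 70 0 0 66
(.lf 2 true 1 false false 2 0) (.s 4 7 0 0 7 0 4 2
(.lf 2 true 1 false false 2 0) (.lf 2 true 1 false true 2 0))) (.s 4 7 0 0 7 0 4 2
(.lf 2 true 1 false false 2 0) (.lf 2 true 1 false true 2 0))) (.s 0 3 0 0 0 0 0 34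
(.s 4 7 0 0 7 0 4 2
(.lf 2 true 1 false false 2 0) (.lf 2 true 1 false true 2 0)) (.s 3 35 0 0 35 0 0 31
(.s 4 7 0 0 7 0 4 2
(.s 1 0 0 1 0 0 0 3
(.lf 2 true 1 false false 2 0) (.lf 2 true 1 false false 2 0)) (.s 1 0 0 1 0 0 0 3
(.lf 2 true 1 false true 2 0) (.lf 2 true 1 false true 2 0))) (.s 1 0 0 1 0 0 0 3
(.lf 2 true 1 false true 2 0) (.lf 2 true 1 false true 2 0)))))) (.s 0 3 0 0 0 0 0 34
(.s 3 70 0 0 70 0 0 66
(.lf 2 true 1 false false 2 0) (.s 4 7 0 0 7 0 4 2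
(.lf 2 true 1 false false 2 0) (.lf 2 true 1 false true 2 0))) (.s 3 35 0 0 35 0 0 31
(.s 0 127 0 0 0 0 0 1399
(.s 3 70 0 0 70 0 0 66
(.lf 2 true 1 false false 2 0) (.s 4 7 0 0 7 0 4 2
(.lf 2 true 1 false false 2 0) (.lf 2 true 1 false true 2 0))) (.s 4 7 0 0 7 0 4 2
(.lf 2 true 1 false false 2 0) (.lf 2 true 1 false true 2 0))) (.lf 2 true 1 false true 2 0)))))) (.s 0 41 0 0 0 0 0 499
(.s 3 50 0 0 50 0 0 50
(.lf 3 true 1 false false 2 1) (.s 3 100 0 0 100 0 0 100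
(.s 4 0 10 10 0 11 0 0
(.lf 3 true 1 false false 2 0) (.lf 3 true 1 false false 2 1)) (.lf 3 true 1 false false 2 0))) (.s 0 91 0 0 0 0 0 999
(.s 3 100 0 0 100 0 0 100
(.s 4 0 10 10 0 11 0 0
(.lf 3 true 1 false false 2 0) (.lf 3 true 1 false false 2 1)) (.lf 3 true 1 false false 2 0)) (.lf 3 true 1 false false 2 0)))) (.s 0 1 0 0 0 0 0 2
(.s 0 1 0 0 0 0 0 3
(.s 0 1 0 0 0 0 0 4
(.s 0 3 0 0 0 0 0 19
(.s 3 10 0 0 10 0 0 8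
(.s 1 1 0 0 0 0 0 19
(.s 3 181 0 0 100 0 0 179
(.s 1 1 0 0 0 0 0 39
(.lf 2 true 1 false false 2 0) (.lf 2 true 1 false false 2 0)) (.s 3 35 0 0 35 0 0 31
(.s 4 7 0 0 7 0 4 2
(.s 1 1 0 0 0 0 0 39
(.lf 2 true 1 false false 2 0) (.lf 2 true 1 false false 2 0)) (.s 1 1 0 0 0 0 0 39
(.lf 2 true 1 false true 2 0) (.lf 2 true 1 false true 2 0))) (.s 1 1 0 0 0 0 0 39
(.lf 2 true 1 false true 2 0) (.lf 2 true 1 false true 2 0)))) (.s 3 35 0 0 35 0 0 31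
(.s 0 97 0 0 0 0 0 699
(.s 3 70 0 0 70 0 0 66
(.lf 2 true 1 false false 2 0) (.s 4 7 0 0 7 0 4 2
(.lf 2 true 1 false false 2 0) (.lf 2 true 1 false true 2 0))) (.s 4 7 0 0 7 0 4 2
(.lf 2 true 1 false false 2 0) (.lf 2 true 1 false true 2 0))) (.lf 2 true 1 false true 2 0))) (.s 4 1 0 0 1 0 0 0
(.s 0 1 0 0 0 0 0 7
(.lf 2 true 1 false true 2 0) (.lf 2 true 1 false true 2 0)) (.lf 2 true 0 false true 2 0))) (.s 3 19 0 0 0 0 0 19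
(.s 0 7 0 0 0 0 0 39
(.s 3 35 0 0 35 0 0 31
(.s 4 7 0 0 7 0 4 2
(.s 1 1 0 0 0 0 0 19
(.lf 2 true 1 false false 2 0) (.lf 2 true 1 false false 2 0)) (.s 1 1 0 0 0 0 0 19
(.lf 2 true 1 false true 2 0) (.lf 2 true 1 false true 2 0))) (.s 1 1 0 0 0 0 0 19
(.lf 2 true 1 false true 2 0) (.lf 2 true 1 false true 2 0))) (.lf 2 true 1 false true 2 0)) (.lf 2 true 1 false true 2 0))) (.lf 2 true 1 false true 2 0)) (.lf 2 true 1 false true 2 0)) (.s 0 47 0 0 0 0 0 119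
(.s 1 0 4 12 0 0 0 6
(.lf 1 true 0 true true 2 0) (.lf 2 true 0 false true 2 0)) (.lf 1 true 0 true true 2 0)))) (.lf 1 false 0 false true 2 0))

def i1_14bbbabbaab : T2 :=
(.k 969020 0 1690182 0 0 1631096 t1_14bbbabbaab_0)

theorem hi1_14bbbabbaab : chk2 (leaf1 a1_14 e1_14) 10000 i1_14bbbabbaab R14_1bbbabbaab = true := by
  decide +kernel

def i1_14bbbabbaa : T2 := .s 3 0 0 4 0 4 i1_14bbbabbaaa i1_14bbbabbaab

theorem hi1_14bbbabbaa : chk2 (leaf1 a1_14 e1_14) 10000 i1_14bbbabbaa R14_1bbbabbaa = true := chk2_s hi1_14bbbabbaaa hi1_14bbbabbaab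

def t1_14bbbabbab_0 : T3 :=
(.s 0 8 0 0 0 0 0 14
(.s 0 1 0 0 0 0 0 9
(.s 1 0 0 1 0 0 0 0
(.s 0 1 0 0 0 0 0 19
(.s 3 100 0 0 100 0 0 100
(.lf 2 true 1 false false 2 1) (.s 3 1 0 0 1 0 0 0
(.s 4 0 10 10 0 11 0 0
(.lf 2 true 1 false false 2 0) (.lf 2 true 1 false false 2 1)) (.lf 2 true 1 false false 2 0))) (.s 3 19 0 0 0 0 0 19
(.s 1 0 0 1 0 0 0 1
(.s 3 1 0 0 1 0 0 0
(.s 0 91 0 0 0 0 0 999
(.s 3 100 0 0 100 0 0 100
(.lf 2 true 1 false false 2 1) (.s 4 0 10 10 0 11 0 0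
(.lf 2 true 1 false false 2 0) (.lf 2 true 1 false false 2 1))) (.s 4 0 10 10 0 11 0 0
(.lf 2 true 1 false false 2 0) (.lf 2 true 1 false false 2 1))) (.s 4 1 0 0 1 0 0 0
(.s 1 0 0 1 0 0 0 3
(.lf 2 true 1 false false 2 0) (.lf 2 true 1 false false 2 0)) (.lf 2 true 0 false true 2 0))) (.s 0 91 0 0 0 0 0 999
(.s 3 100 0 0 100 0 0 100
(.lf 2 true 1 false false 2 1) (.s 3 1 0 0 1 0 0 0
(.s 4 0 10 10 0 11 0 0
(.lf 2 true 1 false false 2 0) (.lf 2 true 1 false false 2 1)) (.lf 2 true 1 false false 2 0))) (.s 3 1 0 0 1 0 0 0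
(.s 4 0 10 10 0 11 0 0
(.lf 2 true 1 false false 2 0) (.lf 2 true 1 false false 2 1)) (.lf 2 true 1 false false 2 0)))) (.s 4 1 0 0 1 0 0 0
(.s 1 0 0 1 0 0 0 1
(.s 0 127 0 0 0 0 0 1399
(.s 3 70 0 0 70 0 0 66
(.s 4 7 0 0 7 0 4 2
(.s 0 3 0 0 0 0 0 39
(.lf 2 true 1 false false 2 0) (.lf 2 true 1 false false 2 0)) (.s 0 3 0 0 0 0 0 39
(.lf 2 true 1 false true 2 0) (.lf 2 true 1 false true 2 0))) (.s 0 3 0 0 0 0 0 39
(.lf 2 true 1 false true 2 0) (.lf 2 true 1 false true 2 0))) (.lf 2 true 1 false true 2 0)) (.lf 2 true 1 false false 2 0)) (.lf 2 true 0 false true 2 0)))) (.s 0 91 0 0 0 0 0 999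
(.s 3 100 0 0 100 0 0 100
(.lf 3 true 1 false false 2 1) (.s 3 1 0 0 1 0 0 0
(.s 4 0 10 10 0 11 0 0
(.lf 3 true 1 false false 2 0) (.lf 3 true 1 false false 2 1)) (.lf 3 true 1 false false 2 0))) (.s 3 1 0 0 1 0 0 0
(.s 4 0 10 10 0 11 0 0
(.lf 3 true 1 false false 2 0) (.lf 3 true 1 false false 2 1)) (.lf 3 true 1 false false 2 0)))) (.s 0 1 0 0 0 0 0 2
(.s 0 1 0 0 0 0 0 3
(.s 0 1 0 0 0 0 0 4
(.s 0 3 0 0 0 0 0 19
(.s 3 19 0 0 0 0 0 19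
(.s 1 1 0 0 0 0 0 19
(.s 0 97 0 0 0 0 0 699
(.s 3 70 0 0 70 0 0 66
(.s 4 7 0 0 7 0 4 2
(.lf 2 true 1 false false 2 0) (.lf 2 true 1 false true 2 0)) (.lf 2 true 1 false true 2 0)) (.lf 2 true 1 false true 2 0)) (.s 0 97 0 0 0 0 0 699
(.s 3 70 0 0 70 0 0 66
(.s 4 7 0 0 7 0 4 2
(.lf 2 true 1 false false 2 0) (.lf 2 true 1 false true 2 0)) (.lf 2 true 1 false true 2 0)) (.lf 2 true 1 false true 2 0))) (.lf 2 true 1 false true 2 0)) (.lf 2 true 1 false true 2 0)) (.lf 2 true 0 false true 2 0)) (.lf 2 true 0 false true 2 0)) (.s 0 47 0 0 0 0 0 119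
(.s 1 0 4 12 0 0 0 6
(.lf 1 true 0 true true 2 0) (.lf 2 true 0 false true 2 0)) (.lf 1 true 0 true true 2 0)))) (.lf 1 false 0 true true 2 0))

def i1_14bbbabbab : T2 :=
(.k 975823 0 0 538097 0 1595812 t1_14bbbabbab_0)

theorem hi1_14bbbabbab : chk2 (leaf1 a1_14 e1_14) 10000 i1_14bbbabbab R14_1bbbabbab = true := by
  decide +kernel

def i1_14bbbabba : T2 := .s 3 0 0 9 0 9 i1_14bbbabbaa i1_14bbbabbab

theorem hi1_14bbbabba : chk2 (leaf1 a1_14 e1_14) 10000 i1_14bbbabba R14_1bbbabba = true := chk2_s hi1_14bbbabbaa hi1_14bbbabbab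

def t1_14bbbabbb_0 : T3 :=
(.s 0 8 0 0 0 0 0 14
(.s 0 1 0 0 0 0 0 9
(.lf 3 true 1 false false 2 2) (.s 0 1 0 0 0 0 0 3
(.s 1 0 0 1 0 0 0 0
(.s 4 1 0 0 1 0 0 0
(.lf 2 true 1 false false 2 0) (.lf 2 true 0 false false 2 0)) (.lf 3 true 1 false false 2 0)) (.s 0 47 0 0 0 0 0 119
(.s 1 561 0 0 0 0 0 4999
(.lf 2 true 1 false true 2 0) (.lf 2 true 2 false false 2 0)) (.s 0 23 0 0 0 0 0 47
(.s 1 0 4 12 0 0 0 6
(.lf 1 true 0 false false 2 0) (.lf 2 true 0 false false 2 0)) (.lf 1 true 0 false false 2 0))))) (.lf 1 false 0 true false 2 0))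

def i1_14bbbabbb : T2 :=
(.k 1261000 0 0 0 0 5000000 t1_14bbbabbb_0)

theorem hi1_14bbbabbb : chk2 (leaf1 a1_14 e1_14) 10000 i1_14bbbabbb R14_1bbbabbb = true := by
  decide +kernel

def i1_14bbbabb : T2 := .s 0 1 0 0 0 9 i1_14bbbabba i1_14bbbabbb

theorem hi1_14bbbabb : chk2 (leaf1 a1_14 e1_14) 10000 i1_14bbbabb R14_1bbbabb = true := chk2_s hi1_14bbbabba hi1_14bbbabbb

def i1_14bbbab : T2 := .s 2 9 0 0 0 9 i1_14bbbaba i1_14bbbabb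

theorem hi1_14bbbab : chk2 (leaf1 a1_14 e1_14) 10000 i1_14bbbab R14_1bbbab = true := chk2_s hi1_14bbbaba hi1_14bbbabb

def i1_14bbba : T2 := .s 3 0 0 3 0 3 i1_14bbbaa i1_14bbbab

theorem hi1_14bbba : chk2 (leaf1 a1_14 e1_14) 10000 i1_14bbba R14_1bbba = true := chk2_s hi1_14bbbaa hi1_14bbbab

def t1_14bbbb_0 : T3 :=
(.s 0 8 0 0 0 0 0 14
(.s 0 1 0 0 0 0 0 3
(.s 3 1 0 0 1 0 0 0
(.lf 3 true 1 false false 2 2) (.s 4 1 0 0 1 0 0 0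
(.s 1 1146658 0 0 0 0 0 3671314
(.s 0 10 0 0 0 0 0 48
(.s 4 7 0 0 7 0 4 2
(.lf 3 true 1 false false 2 0) (.lf 3 true 1 false true 2 0)) (.s 3 49 0 0 49 0 0 38
(.s 4 7 0 0 7 0 4 2
(.lf 3 true 1 false false 1 0) (.lf 3 true 1 false true 1 0)) (.lf 3 true 1 false true 1 0))) (.lf 3 true 1 false false 2 0)) (.s 1 1146658 0 0 0 0 0 3671314
(.lf 3 true 0 false true 2 0) (.lf 3 true 0 false false 2 0)))) (.s 0 1 0 0 0 0 0 1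
(.s 1 0 0 1 0 0 0 0
(.s 0 23 0 0 0 0 0 47
(.s 0 1146658 0 0 0 0 0 3671314
(.s 3 49 0 0 49 0 0 38
(.s 4 7 0 0 7 0 4 2
(.lf 2 true 1 false false 1 0) (.lf 2 true 1 false true 1 0)) (.lf 2 true 1 false true 1 0)) (.s 1 1146658 0 0 0 0 0 3671314
(.s 0 79 0 0 0 0 0 195
(.s 3 49 0 0 49 0 0 38
(.s 4 7 0 0 7 0 4 2
(.lf 2 true 1 false false 1 0) (.lf 2 true 1 false true 1 0)) (.lf 2 true 1 false true 1 0)) (.lf 2 true 1 false true 1 0)) (.s 0 79 0 0 0 0 0 195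
(.s 3 49 0 0 49 0 0 38
(.s 4 7 0 0 7 0 4 2
(.lf 2 true 1 false false 2 0) (.lf 2 true 2 false false 2 0)) (.lf 2 true 2 false false 1 0)) (.lf 2 true 2 false false 1 0)))) (.s 1 0 4 12 0 0 0 6
(.lf 1 true 1 false true 1 0) (.s 1 1146658 0 0 0 0 0 3671314
(.lf 2 true 1 false true 1 0) (.lf 2 true 2 false false 1 0)))) (.s 0 10 0 0 0 0 0 20
(.s 4 1 0 0 1 0 0 0
(.s 0 2 0 0 0 0 0 4
(.s 1 2146658 0 0 1250000 0 0 3671314
(.s 0 3 0 0 0 0 0 9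
(.s 1 1146658 0 0 0 0 0 3671314
(.s 3 49 0 0 49 0 0 38
(.s 4 7 0 0 7 0 4 2
(.lf 3 true 1 false false 1 0) (.lf 3 true 1 false true 1 0)) (.lf 3 true 1 false true 1 0)) (.lf 3 true 1 false false 2 0)) (.lf 3 true 1 false false 2 0)) (.lf 3 true 2 false false 2 0)) (.lf 3 true 2 false false 1 0)) (.s 0 1146658 0 0 0 0 0 3671314
(.s 1 1146658 0 0 0 0 0 3671314
(.lf 3 true 0 false true 2 0) (.lf 3 true 2 false false 2 0)) (.lf 3 true 2 false false 2 0))) (.s 3 21 0 0 21 0 0 10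
(.s 4 1 0 0 1 0 0 0
(.lf 3 true 2 false false 2 0) (.lf 3 true 0 false false 2 0)) (.lf 3 true 0 false false 2 0)))) (.s 1 0 4 12 0 0 0 6
(.s 0 3785311 0 0 0 0 0 7342629
(.lf 1 true 1 false true 1 0) (.s 1 1146658 0 0 0 0 0 3671314
(.lf 1 true 1 false true 1 0) (.lf 1 true 2 false false 1 0))) (.s 0 3785311 0 0 0 0 0 7342629
(.s 1 1146658 0 0 0 0 0 3671314
(.lf 2 true 1 false true 1 0) (.lf 2 true 2 false false 1 0)) (.lf 2 true 2 false false 1 0))))) (.s 0 5 0 0 0 0 0 7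
(.s 1 0 4 12 0 0 0 6
(.s 1 1146658 0 0 0 0 0 3671314
(.lf 1 false 0 false true 1 0) (.lf 1 false 2 false false 1 0)) (.lf 2 false 2 false false 2 0)) (.s 1 1146658 0 0 0 0 0 3671314
(.lf 1 false 0 false true 1 0) (.lf 1 false 2 false false 1 0))))

def i1_14bbbb : T2 :=
(.k 1846658 0 0 0 0 3671315 t1_14bbbb_0)

theorem hi1_14bbbb : chk2 (leaf1 a1_14 e1_14) 10000 i1_14bbbb R14_1bbbb = true := by
  decide +kernel

def i1_14bbb : T2 := .s 0 1 0 0 0 3 i1_14bbba i1_14bbbb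

theorem hi1_14bbb : chk2 (leaf1 a1_14 e1_14) 10000 i1_14bbb R14_1bbb = true := chk2_s hi1_14bbba hi1_14bbbb

def i1_14bb : T2 := .s 3 0 0 11 0 20 i1_14bba i1_14bbb

theorem hi1_14bb : chk2 (leaf1 a1_14 e1_14) 10000 i1_14bb R14_1bb = true := chk2_s hi1_14bba hi1_14bbb

def i1_14b : T2 := .s 3 0 0 1000 0 2736 i1_14ba i1_14bb

theorem hi1_14b : chk2 (leaf1 a1_14 e1_14) 10000 i1_14b R14_1b = true := chk2_s hi1_14ba hi1_14bb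

def i1_14 : T2 := .s 3 0 0 4 0 10 i1_14a i1_14b

theorem hi1_14 : chk2 (leaf1 a1_14 e1_14) 10000 i1_14 R14 = true := chk2_s hi1_14a hi1_14b

theorem ok14 : CellOk R14 a0_14 e0_14 a1_14 e1_14 :=
  ⟨lin14, ⟨_, ho00_14⟩, ⟨_, ho01_14⟩, ⟨_, ho10_14⟩, ⟨_, ho11_14⟩, ⟨_, hi0_14⟩, ⟨_, hi1_14⟩⟩

def R43 : Reg := ⟨⟨0, 0, 0, 0, 0, 0, 0⟩, ⟨1, 0, 0, 0, 0, 0, 0⟩, ⟨0, 0, 0, 0, 0, 0, 0⟩, ⟨1, 0, 0, 0, 0, 0, 0⟩, ⟨0, 0, 0, 0, 0, 0, 0⟩, ⟨0, 0, 0, 0, 1, 0, 0⟩, ⟨1, 0, 0, 0, 0, 0, 0⟩, ⟨2, 0, 0, 0, 0, 0, 0⟩, ⟨0, 0, 0, 0, 0, 0, 0⟩, ⟨0, 0, 0, 0, 1, 0, 0⟩⟩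

def a0_43 : SF := mu 0 646037 646037 0 429903 0 73 0

def e0_43 : SF := mu 0 359570 359570 0 1463725 0 0 588532

def a1_43 : SF := mu 0 85847 85847 0 300932 0 30 0

def e1_43 : SF := mu 0 251678 251678 0 1065354 0 0 452740

theorem lin43 : chkLin R43 a0_43 e0_43 a1_43 e1_43 = true := by decide +kernel

def o00_43 : T3 :=
(.s 0 8 0 0 0 0 0 14
(.s 1 0 0 1 0 0 0 0
(.s 0 1 0 0 0 0 0 2
(.lf 2 true 0 true false 0 0) (.s 1 0 4 12 0 0 0 6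
(.lf 1 true 0 true false 0 0) (.lf 2 true 0 true false 0 0))) (.s 2 0 0 1 0 0 0 0
(.lf 3 true 0 true false 0 0) (.lf 3 true 0 false false 0 0))) (.s 1 0 0 1 0 0 0 0
(.s 0 4 0 0 0 0 0 4
(.s 1 0 4 12 0 0 0 6
(.lf 1 false 0 true false 0 0) (.lf 2 false 0 true false 0 0)) (.lf 0 false 0 true false 0 0)) (.s 0 4 0 0 0 0 0 4
(.s 2 0 0 1 0 0 0 0
(.s 0 7 0 0 0 0 0 9
(.s 0 3 0 0 0 0 0 4
(.lf 3 false 0 true false 0 0) (.s 0 13 0 0 0 0 0 19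
(.lf 3 false 0 true false 0 0) (.lf 3 false 0 true false 0 0))) (.lf 3 false 0 true false 0 0)) (.s 0 7 0 0 0 0 0 9
(.s 0 3 0 0 0 0 0 4
(.lf 3 false 0 false false 0 0) (.s 0 13 0 0 0 0 0 19
(.lf 3 false 0 false false 0 0) (.lf 3 false 0 false false 0 0))) (.lf 3 false 0 false false 0 0))) (.s 0 11 0 0 0 0 0 11
(.s 1 0 4 12 0 0 0 6
(.s 2 0 0 1 0 0 0 0
(.lf 0 false 0 true false 0 0) (.lf 0 false 0 false false 0 0)) (.s 2 0 0 1 0 0 0 0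
(.lf 0 false 0 true false 0 0) (.lf 0 false 0 false false 0 0))) (.s 2 0 0 1 0 0 0 0
(.lf 0 false 0 true false 0 0) (.lf 0 false 0 false false 0 0))))))

theorem ho00_43 : chk3 (leafO 10500000 3 a0_43 e0_43 R43.x0.ap R43.x0.m) o00_43 (full R43) = true := by
  decide +kernel

def o01_43 : T3 :=
(.s 0 8 0 0 0 0 0 14
(.s 1 0 0 1 0 0 0 0
(.s 0 1 0 0 0 0 0 2
(.lf 2 true 0 true false 0 0) (.s 1 0 4 12 0 0 0 6
(.lf 1 true 0 true false 0 0) (.lf 2 true 0 true false 0 0))) (.lf 3 true 0 false false 0 0)) (.s 1 0 0 1 0 0 0 0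
(.s 0 4 0 0 0 0 0 4
(.s 1 0 4 12 0 0 0 6
(.lf 1 false 0 true false 0 0) (.lf 2 false 0 true false 0 0)) (.lf 0 false 0 true false 0 0)) (.s 0 4 0 0 0 0 0 4
(.s 2 0 0 1 0 0 0 0
(.lf 3 false 0 true false 0 0) (.lf 3 false 0 false false 0 0)) (.s 0 11 0 0 0 0 0 11
(.s 1 0 4 12 0 0 0 6
(.lf 0 false 0 true false 0 0) (.s 2 0 0 1 0 0 0 0
(.lf 0 false 0 true false 0 0) (.lf 0 false 0 false false 0 0))) (.lf 0 false 0 true false 0 0)))))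

theorem ho01_43 : chk3 (leafO 10500000 3 a0_43 e0_43 R43.x1.ap R43.x1.m) o01_43 (full R43) = true := by
  decide +kernel

def o10_43 : T3 :=
(.s 0 8 0 0 0 0 0 14
(.s 1 0 0 1 0 0 0 0
(.s 0 1 0 0 0 0 0 2
(.lf 2 true 0 true false 0 0) (.s 1 0 4 12 0 0 0 6
(.lf 1 true 0 true false 0 0) (.lf 2 true 0 true false 0 0))) (.s 2 0 0 1 0 0 0 0
(.lf 3 true 0 true false 0 0) (.lf 3 true 0 false false 0 0))) (.s 1 0 0 1 0 0 0 0
(.s 0 4 0 0 0 0 0 4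
(.s 1 0 4 12 0 0 0 6
(.lf 1 false 0 true false 0 0) (.lf 2 false 0 true false 0 0)) (.lf 0 false 0 true false 0 0)) (.s 0 4 0 0 0 0 0 4
(.s 2 0 0 1 0 0 0 0
(.lf 3 false 0 true false 0 0) (.lf 3 false 0 false false 0 0)) (.s 0 11 0 0 0 0 0 11
(.s 1 0 4 12 0 0 0 6
(.lf 0 false 0 true false 0 0) (.lf 0 false 0 true false 0 0)) (.lf 0 false 0 true false 0 0)))))

theorem ho10_43 : chk3 (leafO 5554500 1 a1_43 e1_43 R43.x0.ap R43.x0.m) o10_43 (full R43) = true := by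
  decide +kernel

def o11_43 : T3 :=
(.s 0 8 0 0 0 0 0 14
(.s 1 0 0 1 0 0 0 0
(.s 0 1 0 0 0 0 0 2
(.lf 2 true 0 true false 0 0) (.s 1 0 4 12 0 0 0 6
(.lf 1 true 0 true false 0 0) (.lf 2 true 0 true false 0 0))) (.s 2 0 0 1 0 0 0 0
(.lf 3 true 0 true false 0 0) (.lf 3 true 0 false false 0 0))) (.s 1 0 0 1 0 0 0 0
(.s 0 4 0 0 0 0 0 4
(.s 1 0 4 12 0 0 0 6
(.lf 1 false 0 true false 0 0) (.lf 2 false 0 true false 0 0)) (.lf 0 false 0 true false 0 0)) (.s 0 4 0 0 0 0 0 4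
(.s 2 0 0 1 0 0 0 0
(.s 0 7 0 0 0 0 0 9
(.lf 3 false 0 true false 0 0) (.lf 3 false 0 true false 0 0)) (.s 0 7 0 0 0 0 0 9
(.lf 3 false 0 false false 0 0) (.lf 3 false 0 false false 0 0))) (.s 0 11 0 0 0 0 0 11
(.s 1 0 4 12 0 0 0 6
(.lf 0 false 0 true false 0 0) (.s 2 0 0 1 0 0 0 0
(.lf 0 false 0 true false 0 0) (.lf 0 false 0 false false 0 0))) (.lf 0 false 0 true false 0 0)))))

theorem ho11_43 : chk3 (leafO 5554500 1 a1_43 e1_43 R43.x1.ap R43.x1.m) o11_43 (full R43) = true := by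
  decide +kernel

def t0_43_0 : T3 :=
(.s 0 8 0 0 0 0 0 14
(.s 1 0 0 1 0 0 0 0
(.s 0 1 0 0 0 0 0 2
(.lf 2 true 1 false false 0 0) (.s 1 0 4 12 0 0 0 6
(.lf 1 true 1 false false 0 0) (.lf 2 true 1 false false 0 0))) (.lf 3 true 1 false false 0 0)) (.s 1 0 0 1 0 0 0 0
(.s 0 4 0 0 0 0 0 4
(.s 1 0 4 12 0 0 0 6
(.lf 1 false 1 false false 0 0) (.lf 2 false 1 false false 0 0)) (.lf 0 false 0 false false 0 0)) (.s 0 4 0 0 0 0 0 4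
(.lf 3 false 1 false false 0 0) (.s 0 11 0 0 0 0 0 11
(.s 1 0 4 12 0 0 0 6
(.lf 0 false 1 false false 0 0) (.lf 0 false 1 false false 0 0)) (.lf 0 false 0 false false 0 0)))))

def i0_43 : T2 :=
(.k 182520 0 0 411511 232690 0 t0_43_0)

theorem hi0_43 : chk2 (leaf0 a0_43 e0_43) 0 i0_43 R43 = true := by
  decide +kernel

def t1_43_0 : T3 :=
(.s 0 8 0 0 0 0 0 14
(.s 1 0 0 1 0 0 0 0
(.s 0 1 0 0 0 0 0 2
(.s 0 13 0 0 0 0 0 2749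
(.s 3 2750 0 0 2750 0 0 2736
(.lf 2 true 1 true false 0 0) (.s 4 1000 0 0 1000 0 0 2736
(.lf 2 true 1 true false 0 0) (.lf 2 true 1 false false 0 0))) (.s 4 1000 0 0 1000 0 0 2736
(.lf 2 true 1 true false 0 0) (.lf 2 true 1 false false 0 0))) (.s 1 0 4 12 0 0 0 6
(.lf 1 true 2 true false 0 0) (.lf 2 true 2 true false 0 0))) (.s 0 13 0 0 0 0 0 2749
(.s 3 2750 0 0 2750 0 0 2736
(.lf 3 true 1 true false 0 0) (.s 4 1000 0 0 1000 0 0 2736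
(.lf 3 true 1 true false 0 0) (.lf 3 true 1 false false 0 0))) (.s 4 1000 0 0 1000 0 0 2736
(.lf 3 true 1 true false 0 0) (.lf 3 true 1 false false 0 0)))) (.s 1 0 0 1 0 0 0 0
(.s 0 4 0 0 0 0 0 4
(.s 1 0 4 12 0 0 0 6
(.lf 1 false 2 false false 0 0) (.lf 2 false 2 true false 0 0)) (.lf 0 false 2 false false 0 0)) (.s 0 4 0 0 0 0 0 4
(.lf 3 false 2 true false 0 0) (.s 0 11 0 0 0 0 0 11
(.s 1 0 4 12 0 0 0 6
(.lf 0 false 2 false false 0 0) (.lf 0 false 2 false false 0 0)) (.lf 0 false 2 true false 0 0)))))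

def t1_43_1 : T3 :=
(.s 0 8 0 0 0 0 0 14
(.s 1 0 0 1 0 0 0 0
(.s 0 1 0 0 0 0 0 2
(.lf 2 true 1 false false 1 0) (.s 1 0 4 12 0 0 0 6
(.lf 1 true 2 true false 2 0) (.lf 2 true 2 false false 1 0))) (.s 1 652121 0 0 0 0 0 947270
(.s 0 1 0 0 0 0 0 3
(.lf 3 true 1 false false 1 0) (.lf 3 true 2 false false 2 0)) (.s 2 652121 0 0 0 36879 0 984149
(.lf 3 true 2 false false 1 0) (.lf 3 true 1 false true 1 0)))) (.s 1 0 0 1 0 0 0 0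
(.s 0 4 0 0 0 0 0 4
(.s 1 0 4 12 0 0 0 6
(.s 0 8353931 0 0 0 0 0 11367251
(.lf 1 false 2 false false 1 0) (.s 1 652121 0 0 0 0 0 947270
(.lf 1 false 2 false false 1 0) (.s 2 652121 0 0 0 36879 0 984149
(.lf 1 false 2 false false 1 0) (.lf 1 false 0 false true 1 0)))) (.s 0 8353931 0 0 0 0 0 11367251
(.s 0 652121 0 0 0 0 0 947270
(.lf 2 false 2 false false 1 0) (.s 1 652121 0 0 0 0 0 947270
(.lf 2 false 2 false false 1 0) (.s 2 652121 0 0 0 36879 0 984149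
(.lf 2 false 2 false false 1 0) (.lf 2 false 0 false true 1 0)))) (.s 2 652121 0 0 0 36879 0 984149
(.lf 2 false 2 false false 1 0) (.lf 2 false 0 false true 1 0)))) (.s 1 652121 0 0 0 0 0 947270
(.lf 0 false 2 false false 1 0) (.s 2 652121 0 0 0 36879 0 984149
(.lf 0 false 2 false false 1 0) (.lf 0 false 0 true true 1 0)))) (.s 0 4 0 0 0 0 0 4
(.s 0 652121 0 0 0 0 0 947270
(.s 1 652121 0 0 0 0 0 947270
(.lf 3 false 2 false false 1 0) (.s 2 652121 0 0 0 36879 0 984149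
(.lf 3 false 2 false false 1 0) (.lf 3 false 0 false true 1 0))) (.s 2 652121 0 0 0 36879 0 984149
(.lf 3 false 2 false false 1 0) (.lf 3 false 0 false true 1 0))) (.s 0 11 0 0 0 0 0 11
(.s 1 0 4 12 0 0 0 6
(.s 2 652121 0 0 0 36879 0 984149
(.lf 0 false 2 false false 1 0) (.lf 0 false 0 false true 1 0)) (.s 2 652121 0 0 0 36879 0 984149
(.lf 0 false 2 false false 1 0) (.lf 0 false 0 true true 1 0))) (.s 2 652121 0 0 0 36879 0 984149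
(.lf 0 false 2 false false 1 0) (.lf 0 false 0 true true 1 0))))))

def i1_43 : T2 :=
(.s 3 0 0 4 0 10
(.k 127454 0 0 0 0 116454 t1_43_0) (.k 47879 0 984150 0 0 36879 t1_43_1))

theorem hi1_43 : chk2 (leaf1 a1_43 e1_43) 10000 i1_43 R43 = true := by
  decide +kernel

theorem ok43 : CellOk R43 a0_43 e0_43 a1_43 e1_43 :=
  ⟨lin43, ⟨_, ho00_43⟩, ⟨_, ho01_43⟩, ⟨_, ho10_43⟩, ⟨_, ho11_43⟩, ⟨_, hi0_43⟩, ⟨_, hi1_43⟩⟩

end

end Vale.Agent.P334.Cert
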