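import Vale.Agent.P334.CertDefs

/-!
Data of the dual certificate, checked cell by cell.
-/

namespace Vale.Agent.P334.Cert

noncomputable section

def R19 : Reg := ⟨⟨0, 0, 0, 0, 0, 0, 0⟩, ⟨1, 0, 0, 0, 0, 0, 0⟩, ⟨1, 0, 0, 0, 0, 0, 1⟩, ⟨1, 0, 0, 0, 0, 0, 0⟩, ⟨0, 0, 0, 0, 1, 0, 0⟩, ⟨1, 0, 0, 0, 3, 0, 3⟩, ⟨1, 0, 0, 0, 0, 0, 1⟩, ⟨3, 0, 0, 0, 0, 0, 4⟩, ⟨0, 0, 0, 0, 0, 0, 0⟩, ⟨0, 0, 0, 0, 1, 0, 0⟩⟩

def a0_19 : SF := mu 4302479 0 0 6943243 0 0 0 0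

def e0_19 : SF := mu 0 13054861 22329730 0 485470 0 0 283191

def a1_19 : SF := mu 3120809 0 0 5078460 0 0 0 0

def e1_19 : SF := mu 0 9881500 16869271 0 339829 0 0 198233

theorem lin19 : chkLin R19 a0_19 e0_19 a1_19 e1_19 = true := by decide +kernel

def o00_19 : T3 :=
(.s 0 8 0 0 0 0 0 14
(.s 0 1 0 0 0 0 0 1
(.lf 3 true 0 false false 0 0) (.s 1 0 0 1 0 0 0 0
(.lf 2 true 0 false false 0 0) (.lf 3 true 0 false false 0 0))) (.s 1 0 0 1 0 0 0 0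
(.s 0 5 0 0 0 0 0 7
(.lf 2 false 0 true false 0 0) (.s 0 4 0 0 0 0 0 4
(.s 1 0 4 12 0 0 0 6
(.s 1 0 1 4 0 0 0 2
(.lf 1 false 0 true false 0 0) (.s 2 0 0 1 0 0 0 0
(.lf 1 false 0 true false 0 0) (.lf 1 false 0 false false 0 0))) (.s 2 0 0 1 0 0 0 0
(.lf 2 false 0 true false 0 0) (.lf 2 false 0 false false 0 0))) (.s 1 0 1 4 0 0 0 2
(.lf 0 false 0 true false 0 0) (.s 2 0 0 1 0 0 0 0
(.lf 0 false 0 true false 0 0) (.lf 0 false 0 false false 0 0))))) (.s 0 4 0 0 0 0 0 4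
(.lf 3 false 0 false false 0 0) (.s 0 11 0 0 0 0 0 11
(.s 1 0 4 12 0 0 0 6
(.lf 0 false 0 false false 0 0) (.lf 0 false 0 false false 0 0)) (.lf 0 false 0 false false 0 0)))))

theorem ho00_19 : chk3 (leafO 10500000 3 a0_19 e0_19 R19.x0.ap R19.x0.m) o00_19 (full R19) = true := by
  decide +kernel

def o01_19 : T3 :=
(.s 0 8 0 0 0 0 0 14
(.s 0 1 0 0 0 0 0 1
(.lf 3 true 0 false false 0 0) (.s 1 0 0 1 0 0 0 0
(.lf 2 true 0 false false 0 0) (.lf 3 true 0 false false 0 0))) (.s 1 0 0 1 0 0 0 0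
(.s 0 5 0 0 0 0 0 7
(.s 2 0 0 1 0 0 0 0
(.lf 2 false 0 true false 0 0) (.lf 2 false 0 false false 0 0)) (.s 0 4 0 0 0 0 0 4
(.s 1 0 4 12 0 0 0 6
(.s 1 0 1 4 0 0 0 2
(.lf 1 false 0 true false 0 0) (.s 2 0 0 1 0 0 0 0
(.lf 1 false 0 true false 0 0) (.lf 1 false 0 false false 0 0))) (.s 2 0 0 1 0 0 0 0
(.lf 2 false 0 true false 0 0) (.lf 2 false 0 false false 0 0))) (.s 1 0 1 4 0 0 0 2
(.lf 0 false 0 true false 0 0) (.s 2 0 0 1 0 0 0 0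
(.lf 0 false 0 true false 0 0) (.lf 0 false 0 false false 0 0))))) (.s 0 4 0 0 0 0 0 4
(.lf 3 false 0 false false 0 0) (.s 0 11 0 0 0 0 0 11
(.s 1 0 4 12 0 0 0 6
(.lf 0 false 0 false false 0 0) (.lf 0 false 0 false false 0 0)) (.lf 0 false 0 false false 0 0)))))

theorem ho01_19 : chk3 (leafO 10500000 3 a0_19 e0_19 R19.x1.ap R19.x1.m) o01_19 (full R19) = true := by
  decide +kernel

def o10_19 : T3 :=
(.s 0 8 0 0 0 0 0 14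
(.s 0 1 0 0 0 0 0 1
(.lf 3 true 0 false false 0 0) (.s 1 0 0 1 0 0 0 0
(.lf 2 true 0 false false 0 0) (.lf 3 true 0 false false 0 0))) (.s 1 0 0 1 0 0 0 0
(.s 0 5 0 0 0 0 0 7
(.lf 2 false 0 true false 0 0) (.s 0 4 0 0 0 0 0 4
(.s 1 0 4 12 0 0 0 6
(.s 1 0 1 4 0 0 0 2
(.lf 1 false 0 true false 0 0) (.s 2 0 0 1 0 0 0 0
(.lf 1 false 0 true false 0 0) (.lf 1 false 0 false false 0 0))) (.s 2 0 0 1 0 0 0 0
(.lf 2 false 0 true false 0 0) (.lf 2 false 0 false false 0 0))) (.s 1 0 1 4 0 0 0 2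
(.lf 0 false 0 true false 0 0) (.s 2 0 0 1 0 0 0 0
(.lf 0 false 0 true false 0 0) (.lf 0 false 0 false false 0 0))))) (.s 0 4 0 0 0 0 0 4
(.lf 3 false 0 false false 0 0) (.s 0 11 0 0 0 0 0 11
(.s 1 0 4 12 0 0 0 6
(.lf 0 false 0 false false 0 0) (.lf 0 false 0 false false 0 0)) (.lf 0 false 0 false false 0 0)))))

theorem ho10_19 : chk3 (leafO 5554500 1 a1_19 e1_19 R19.x0.ap R19.x0.m) o10_19 (full R19) = true := by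
  decide +kernel

def o11_19 : T3 :=
(.s 0 8 0 0 0 0 0 14
(.s 0 1 0 0 0 0 0 1
(.lf 3 true 0 false false 0 0) (.s 1 0 0 1 0 0 0 0
(.lf 2 true 0 false false 0 0) (.lf 3 true 0 false false 0 0))) (.s 1 0 0 1 0 0 0 0
(.s 0 5 0 0 0 0 0 7
(.lf 2 false 0 false false 0 0) (.s 0 4 0 0 0 0 0 4
(.s 1 0 4 12 0 0 0 6
(.lf 1 false 0 false false 0 0) (.lf 2 false 0 false false 0 0)) (.lf 0 false 0 false false 0 0))) (.s 0 4 0 0 0 0 0 4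
(.lf 3 false 0 false false 0 0) (.s 0 11 0 0 0 0 0 11
(.s 1 0 4 12 0 0 0 6
(.lf 0 false 0 false false 0 0) (.lf 0 false 0 false false 0 0)) (.lf 0 false 0 false false 0 0)))))

theorem ho11_19 : chk3 (leafO 5554500 1 a1_19 e1_19 R19.x1.ap R19.x1.m) o11_19 (full R19) = true := by
  decide +kernel

def t0_19_0 : T3 :=
(.s 0 8 0 0 0 0 0 14
(.s 0 1 0 0 0 0 0 1
(.lf 3 true 1 true false 0 0) (.s 1 0 0 1 0 0 0 0
(.lf 2 true 1 false false 0 0) (.lf 3 true 1 false false 0 0))) (.s 1 0 0 1 0 0 0 0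
(.s 0 5 0 0 0 0 0 7
(.lf 2 false 1 false false 0 0) (.s 0 4 0 0 0 0 0 4
(.s 1 0 4 12 0 0 0 6
(.lf 1 false 1 false false 0 0) (.lf 2 false 1 false false 0 0)) (.lf 0 false 0 false false 0 0))) (.s 0 4 0 0 0 0 0 4
(.lf 3 false 1 false false 0 0) (.s 0 11 0 0 0 0 0 11
(.s 1 0 4 12 0 0 0 6
(.lf 0 false 1 false false 0 0) (.lf 0 false 1 false false 0 0)) (.lf 0 false 0 false false 0 0)))))

def t0_19_1 : T3 :=
(.s 0 8 0 0 0 0 0 14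
(.s 0 1 0 0 0 0 0 1
(.lf 3 true 1 false false 0 0) (.s 1 0 0 1 0 0 0 0
(.lf 2 true 1 false false 0 0) (.lf 3 true 1 false false 0 0))) (.s 1 0 0 1 0 0 0 0
(.s 0 5 0 0 0 0 0 7
(.lf 2 false 1 false false 0 0) (.s 0 4 0 0 0 0 0 4
(.s 1 0 4 12 0 0 0 6
(.lf 1 false 0 true false 0 0) (.lf 2 false 1 false false 0 0)) (.lf 0 false 0 true false 0 0))) (.s 0 4 0 0 0 0 0 4
(.lf 3 false 1 false false 0 0) (.s 0 11 0 0 0 0 0 11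
(.s 1 0 4 12 0 0 0 6
(.lf 0 false 0 true false 0 0) (.lf 0 false 0 true false 0 0)) (.lf 0 false 0 true false 0 0)))))

def i0_19 : T2 :=
(.s 3 0 0 1000 0 2736
(.k 322997 0 0 2037706 1903139 0 t0_19_0) (.k 583359 0 0 1676353 1507924 0 t0_19_1))

theorem hi0_19 : chk2 (leaf0 a0_19 e0_19) 0 i0_19 R19 = true := by
  decide +kernel

def t1_19_0 : T3 :=
(.s 0 8 0 0 0 0 0 14
(.s 0 1 0 0 0 0 0 1
(.lf 3 true 1 true false 0 2) (.s 1 0 0 1 0 0 0 0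
(.lf 2 true 1 true false 0 0) (.lf 3 true 1 true false 0 0))) (.s 1 0 0 1 0 0 0 0
(.s 0 5 0 0 0 0 0 7
(.lf 2 false 1 true false 0 0) (.s 0 4 0 0 0 0 0 4
(.s 1 0 4 12 0 0 0 6
(.lf 1 false 2 false false 0 0) (.lf 2 false 1 true false 0 0)) (.lf 0 false 2 false false 0 0))) (.s 0 4 0 0 0 0 0 4
(.lf 3 false 1 true false 0 0) (.s 0 11 0 0 0 0 0 11
(.s 1 0 4 12 0 0 0 6
(.lf 0 false 2 false false 0 0) (.lf 0 false 2 false false 0 0)) (.lf 0 false 2 false false 0 0)))))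

def t1_19_1 : T3 :=
(.s 0 8 0 0 0 0 0 14
(.s 0 1 0 0 0 0 0 1
(.s 4 0 0 0 0 11 0 20
(.lf 3 true 1 false false 1 2) (.s 0 1 0 0 0 0 0 3
(.lf 3 true 1 false false 2 1) (.s 0 2 0 0 0 0 0 4
(.lf 3 true 1 false false 2 2) (.s 3 1 0 0 1 0 0 0
(.lf 3 true 1 false false 2 2) (.s 4 1 0 0 1 0 0 0
(.s 4 7 0 0 7 0 4 2
(.lf 3 true 1 false false 2 0) (.s 1 3806841 0 0 0 0 0 6562840
(.s 2 168053 0 0 0 5000000 0 4479052
(.lf 3 true 2 false false 2 0) (.lf 3 true 1 false true 2 0)) (.lf 3 true 2 false false 2 0))) (.s 1 3806841 0 0 0 0 0 6562840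
(.s 2 168053 0 0 0 5000000 0 4479052
(.lf 3 true 2 false false 2 0) (.lf 3 true 0 false true 2 0)) (.lf 3 true 2 false false 2 0))))))) (.s 1 0 0 1 0 0 0 0
(.s 4 7 0 0 7 0 4 2
(.lf 2 true 1 false false 2 0) (.s 2 168053 0 0 0 5000000 0 4479052
(.lf 2 true 2 false false 2 0) (.lf 2 true 1 false true 2 0))) (.s 4 7 0 0 7 0 4 2
(.lf 3 true 1 false false 2 0) (.s 1 3806841 0 0 0 0 0 6562840
(.s 2 168053 0 0 0 5000000 0 4479052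
(.lf 3 true 2 false false 2 0) (.lf 3 true 1 false true 2 0)) (.lf 3 true 2 false false 1 0))))) (.s 1 0 0 1 0 0 0 0
(.s 0 5 0 0 0 0 0 7
(.s 0 3806841 0 0 0 0 0 6562840
(.s 2 168053 0 0 0 5000000 0 4479052
(.lf 2 false 2 false false 1 0) (.s 4 0 0 0 0 11 0 20
(.lf 2 false 1 false false 1 0) (.lf 2 false 1 false true 1 0))) (.s 1 3806841 0 0 0 0 0 6562840
(.s 2 168053 0 0 0 5000000 0 4479052
(.lf 2 false 2 false false 1 0) (.lf 2 false 1 false true 1 0)) (.lf 2 false 2 false false 1 0))) (.s 0 4 0 0 0 0 0 4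
(.s 1 0 4 12 0 0 0 6
(.s 0 52899251 0 0 0 0 0 78754091
(.s 2 168053 0 0 0 5000000 0 4479052
(.lf 1 false 2 false false 1 0) (.lf 1 false 1 false true 1 0)) (.s 1 3806841 0 0 0 0 0 6562840
(.s 2 168053 0 0 0 5000000 0 4479052
(.lf 1 false 2 false false 1 0) (.lf 1 false 1 false true 1 0)) (.lf 1 false 2 false false 1 0))) (.s 4 0 0 0 0 15 0 21
(.s 0 52899251 0 0 0 0 0 78754091
(.s 1 3806841 0 0 0 0 0 6562840
(.s 2 168053 0 0 0 5000000 0 4479052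
(.lf 2 false 2 false false 1 0) (.lf 2 false 1 false true 1 0)) (.lf 2 false 2 false false 1 0)) (.lf 2 false 2 false false 1 0)) (.lf 2 false 0 false false 2 0))) (.s 1 3806841 0 0 0 0 0 6562840
(.s 2 168053 0 0 0 5000000 0 4479052
(.lf 0 false 2 false false 1 0) (.lf 0 false 0 false true 1 0)) (.lf 0 false 2 false false 1 0)))) (.s 0 4 0 0 0 0 0 4
(.s 0 3806841 0 0 0 0 0 6562840
(.s 1 3806841 0 0 0 0 0 6562840
(.s 2 168053 0 0 0 5000000 0 4479052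
(.lf 3 false 2 false false 1 0) (.s 4 0 0 0 0 11 0 20
(.lf 3 false 1 false false 1 0) (.lf 3 false 1 false true 1 0))) (.lf 3 false 2 false false 1 0)) (.lf 3 false 2 false false 1 0)) (.s 0 11 0 0 0 0 0 11
(.s 1 0 4 12 0 0 0 6
(.lf 0 false 2 false false 2 0) (.lf 0 false 2 false false 2 0)) (.lf 0 false 0 false false 2 0)))))

def i1_19 : T2 :=
(.s 3 0 0 4 0 10
(.k 180333 0 0 677333 508000 0 t1_19_0) (.k 531947 0 4479053 0 0 5000000 t1_19_1))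

theorem hi1_19 : chk2 (leaf1 a1_19 e1_19) 10000 i1_19 R19 = true := by
  decide +kernel

theorem ok19 : CellOk R19 a0_19 e0_19 a1_19 e1_19 :=
  ⟨lin19, ⟨_, ho00_19⟩, ⟨_, ho01_19⟩, ⟨_, ho10_19⟩, ⟨_, ho11_19⟩, ⟨_, hi0_19⟩, ⟨_, hi1_19⟩⟩

def R20 : Reg := ⟨⟨0, 0, 0, 0, 0, 0, 0⟩, ⟨1, 0, 0, 0, 0, 0, 0⟩, ⟨0, 0, 0, 0, 0, 0, 0⟩, ⟨1, 0, 0, 0, 0, 0, 1⟩, ⟨0, 0, 0, 0, 1, 0, 0⟩, ⟨1, 0, 0, 0, 7, 0, 7⟩, ⟨3, 0, 0, 0, 0, 0, 4⟩, ⟨3, 0, 0, 0, 0, 0, 3⟩, ⟨0, 0, 0, 0, 0, 0, 0⟩, ⟨0, 0, 0, 0, 1, 0, 0⟩⟩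

def a0_20 : SF := mu 0 0 0 0 73 0 734339 0

def e0_20 : SF := mu 0 0 0 0 3653020 0 0 4499582

def a1_20 : SF := mu 0 0 0 0 30 0 391853 0

def e1_20 : SF := mu 0 0 0 0 2557093 0 0 3208341

theorem lin20 : chkLin R20 a0_20 e0_20 a1_20 e1_20 = true := by decide +kernel

def o00_20 : T3 :=
(.s 0 8 0 0 0 0 0 14
(.s 0 1 0 0 0 0 0 1
(.s 1 0 0 1 0 0 0 0
(.s 0 1 0 0 0 0 0 2
(.s 0 1 0 0 0 0 0 7
(.s 2 0 0 1 0 0 0 0
(.s 1 0 0 1 0 0 0 1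
(.lf 2 true 0 true false 0 0) (.s 1 0 0 3 0 0 0 3
(.lf 2 true 0 true false 0 0) (.lf 2 true 0 true false 0 0))) (.s 1 0 0 1 0 0 0 1
(.lf 2 true 0 false false 0 0) (.s 1 0 0 3 0 0 0 3
(.lf 2 true 0 false false 0 0) (.lf 2 true 0 false false 0 0)))) (.s 1 0 1 8 0 0 0 6
(.lf 2 true 0 true false 0 0) (.s 2 0 0 1 0 0 0 0
(.s 1 0 1 15 0 0 0 13
(.s 0 1 0 0 0 0 0 3
(.s 0 1 0 0 0 0 0 4
(.lf 2 true 0 true false 0 0) (.lf 2 true 0 true false 0 0)) (.lf 2 true 0 true false 0 0)) (.s 1 0 1 29 0 0 0 27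
(.s 0 1 0 0 0 0 0 3
(.lf 2 true 0 true false 0 0) (.lf 2 true 0 true false 0 0)) (.lf 2 true 0 true false 0 0))) (.s 1 0 1 15 0 0 0 13
(.s 0 1 0 0 0 0 0 3
(.s 0 1 0 0 0 0 0 4
(.lf 2 true 0 false false 0 0) (.lf 2 true 0 false false 0 0)) (.lf 2 true 0 false false 0 0)) (.s 1 0 1 29 0 0 0 27
(.s 0 1 0 0 0 0 0 3
(.lf 2 true 0 false false 0 0) (.lf 2 true 0 false false 0 0)) (.lf 2 true 0 false false 0 0)))))) (.s 1 0 4 12 0 0 0 6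
(.lf 1 true 0 true false 0 0) (.s 1 0 1 8 0 0 0 6
(.lf 2 true 0 true false 0 0) (.s 2 0 0 1 0 0 0 0
(.lf 2 true 0 true false 0 0) (.lf 2 true 0 false false 0 0))))) (.lf 3 true 0 false false 0 0)) (.s 1 0 4 12 0 0 0 6
(.lf 1 true 0 true false 0 0) (.lf 2 true 0 true false 0 0))) (.s 0 5 0 0 0 0 0 7
(.s 1 0 4 12 0 0 0 6
(.lf 1 false 0 true false 0 0) (.lf 2 false 0 true false 0 0)) (.lf 1 false 0 true false 0 0)))

theorem ho00_20 : chk3 (leafO 10500000 3 a0_20 e0_20 R20.x0.ap R20.x0.m) o00_20 (full R20) = true := by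
  decide +kernel

def o01_20 : T3 :=
(.s 0 8 0 0 0 0 0 14
(.s 0 1 0 0 0 0 0 1
(.s 1 0 0 1 0 0 0 0
(.s 0 1 0 0 0 0 0 2
(.s 0 1 0 0 0 0 0 7
(.s 2 0 0 1 0 0 0 0
(.s 1 0 0 1 0 0 0 1
(.lf 2 true 0 true false 0 0) (.s 1 0 0 3 0 0 0 3
(.s 1 0 0 5 0 0 0 7
(.lf 2 true 0 true false 0 0) (.lf 2 true 0 true false 0 0)) (.lf 2 true 0 true false 0 0))) (.s 1 0 0 1 0 0 0 1
(.lf 2 true 0 false false 0 0) (.s 1 0 0 3 0 0 0 3
(.s 1 0 0 5 0 0 0 7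
(.lf 2 true 0 false false 0 0) (.lf 2 true 0 false false 0 0)) (.lf 2 true 0 false false 0 0)))) (.s 1 0 1 8 0 0 0 6
(.s 0 1 0 0 0 0 0 3
(.lf 2 true 0 true false 0 0) (.lf 2 true 0 true false 0 0)) (.s 2 0 0 1 0 0 0 0
(.s 1 0 1 15 0 0 0 13
(.s 0 1 0 0 0 0 0 3
(.s 1 0 3 31 0 0 0 27
(.s 0 1 0 0 0 0 0 4
(.lf 2 true 0 true false 0 0) (.lf 2 true 0 true false 0 0)) (.s 0 1 0 0 0 0 0 4
(.s 1 0 5 61 0 0 0 55
(.lf 2 true 0 true false 0 0) (.s 0 3 0 0 0 0 0 19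
(.lf 2 true 0 true false 0 0) (.s 0 7 0 0 0 0 0 39
(.lf 2 true 0 true false 0 0) (.lf 2 true 0 true false 0 0)))) (.s 1 0 5 61 0 0 0 55
(.s 0 9 0 0 0 0 0 39
(.lf 2 true 0 true false 0 0) (.lf 2 true 0 true false 0 0)) (.lf 2 true 0 true false 0 0)))) (.s 1 0 3 31 0 0 0 27
(.s 0 3 0 0 0 0 0 9
(.s 0 11 0 0 0 0 0 39
(.lf 2 true 0 true false 0 0) (.lf 2 true 0 true false 0 0)) (.lf 2 true 0 true false 0 0)) (.lf 2 true 0 true false 0 0))) (.s 0 1 0 0 0 0 0 3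
(.s 1 0 1 29 0 0 0 27
(.s 0 1 0 0 0 0 0 4
(.s 1 0 3 59 0 0 0 55
(.s 0 3 0 0 0 0 0 19
(.lf 2 true 0 true false 0 0) (.s 0 7 0 0 0 0 0 39
(.s 0 4 0 0 0 0 0 24
(.lf 2 true 0 true false 0 0) (.lf 2 true 0 true false 0 0)) (.lf 2 true 0 true false 0 0))) (.s 0 3 0 0 0 0 0 19
(.lf 2 true 0 true false 0 0) (.lf 2 true 0 true false 0 0))) (.lf 2 true 0 true false 0 0)) (.lf 2 true 0 true false 0 0)) (.lf 2 true 0 true false 0 0))) (.s 1 0 1 15 0 0 0 13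
(.s 0 1 0 0 0 0 0 3
(.s 1 0 3 31 0 0 0 27
(.s 0 1 0 0 0 0 0 4
(.lf 2 true 0 false false 0 0) (.lf 2 true 0 false false 0 0)) (.s 0 1 0 0 0 0 0 4
(.s 1 0 5 61 0 0 0 55
(.lf 2 true 0 false false 0 0) (.s 0 3 0 0 0 0 0 19
(.lf 2 true 0 false false 0 0) (.s 0 7 0 0 0 0 0 39
(.lf 2 true 0 false false 0 0) (.lf 2 true 0 false false 0 0)))) (.s 1 0 5 61 0 0 0 55
(.s 0 9 0 0 0 0 0 39
(.lf 2 true 0 false false 0 0) (.lf 2 true 0 false false 0 0)) (.lf 2 true 0 false false 0 0)))) (.s 1 0 3 31 0 0 0 27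
(.s 0 3 0 0 0 0 0 9
(.s 0 11 0 0 0 0 0 39
(.lf 2 true 0 false false 0 0) (.lf 2 true 0 false false 0 0)) (.lf 2 true 0 false false 0 0)) (.lf 2 true 0 false false 0 0))) (.s 0 1 0 0 0 0 0 3
(.s 1 0 1 29 0 0 0 27
(.s 0 1 0 0 0 0 0 4
(.s 1 0 3 59 0 0 0 55
(.s 0 3 0 0 0 0 0 19
(.lf 2 true 0 false false 0 0) (.s 0 7 0 0 0 0 0 39
(.s 0 4 0 0 0 0 0 24
(.lf 2 true 0 false false 0 0) (.lf 2 true 0 false false 0 0)) (.lf 2 true 0 false false 0 0))) (.s 0 3 0 0 0 0 0 19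
(.lf 2 true 0 false false 0 0) (.lf 2 true 0 false false 0 0))) (.lf 2 true 0 false false 0 0)) (.lf 2 true 0 false false 0 0)) (.lf 2 true 0 false false 0 0)))))) (.s 1 0 4 12 0 0 0 6
(.lf 1 true 0 true false 0 0) (.s 1 0 1 8 0 0 0 6
(.lf 2 true 0 true false 0 0) (.s 2 0 0 1 0 0 0 0
(.lf 2 true 0 true false 0 0) (.lf 2 true 0 false false 0 0))))) (.lf 3 true 0 false false 0 0)) (.s 1 0 4 12 0 0 0 6
(.lf 1 true 0 true false 0 0) (.lf 2 true 0 true false 0 0))) (.s 0 5 0 0 0 0 0 7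
(.s 1 0 4 12 0 0 0 6
(.lf 1 false 0 true false 0 0) (.lf 2 false 0 true false 0 0)) (.lf 1 false 0 true false 0 0)))

theorem ho01_20 : chk3 (leafO 10500000 3 a0_20 e0_20 R20.x1.ap R20.x1.m) o01_20 (full R20) = true := by
  decide +kernel

def o10_20 : T3 :=
(.s 0 8 0 0 0 0 0 14
(.s 0 1 0 0 0 0 0 1
(.s 1 0 0 1 0 0 0 0
(.s 0 1 0 0 0 0 0 2
(.s 0 1 0 0 0 0 0 7
(.s 2 0 0 1 0 0 0 0
(.s 1 0 0 1 0 0 0 1
(.lf 2 true 0 true false 0 0) (.s 1 0 0 3 0 0 0 3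
(.lf 2 true 0 true false 0 0) (.lf 2 true 0 true false 0 0))) (.s 1 0 0 1 0 0 0 1
(.lf 2 true 0 false false 0 0) (.s 1 0 0 3 0 0 0 3
(.lf 2 true 0 false false 0 0) (.lf 2 true 0 false false 0 0)))) (.s 1 0 1 8 0 0 0 6
(.lf 2 true 0 true false 0 0) (.s 2 0 0 1 0 0 0 0
(.s 1 0 1 15 0 0 0 13
(.s 0 1 0 0 0 0 0 3
(.lf 2 true 0 true false 0 0) (.lf 2 true 0 true false 0 0)) (.s 1 0 1 29 0 0 0 27
(.s 0 1 0 0 0 0 0 3
(.s 0 1 0 0 0 0 0 4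
(.lf 2 true 0 true false 0 0) (.lf 2 true 0 true false 0 0)) (.lf 2 true 0 true false 0 0)) (.lf 2 true 0 true false 0 0))) (.s 1 0 1 15 0 0 0 13
(.s 0 1 0 0 0 0 0 3
(.lf 2 true 0 false false 0 0) (.lf 2 true 0 false false 0 0)) (.s 1 0 1 29 0 0 0 27
(.s 0 1 0 0 0 0 0 3
(.s 0 1 0 0 0 0 0 4
(.lf 2 true 0 false false 0 0) (.lf 2 true 0 false false 0 0)) (.lf 2 true 0 false false 0 0)) (.lf 2 true 0 false false 0 0)))))) (.s 1 0 4 12 0 0 0 6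
(.lf 1 true 0 true false 0 0) (.s 1 0 1 8 0 0 0 6
(.lf 2 true 0 true false 0 0) (.s 2 0 0 1 0 0 0 0
(.lf 2 true 0 true false 0 0) (.lf 2 true 0 false false 0 0))))) (.lf 3 true 0 false false 0 0)) (.s 1 0 4 12 0 0 0 6
(.lf 1 true 0 true false 0 0) (.lf 2 true 0 true false 0 0))) (.s 0 5 0 0 0 0 0 7
(.s 1 0 4 12 0 0 0 6
(.lf 1 false 0 true false 0 0) (.lf 2 false 0 true false 0 0)) (.lf 1 false 0 true false 0 0)))

theorem ho10_20 : chk3 (leafO 5554500 1 a1_20 e1_20 R20.x0.ap R20.x0.m) o10_20 (full R20) = true := by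
  decide +kernel

def o11_20 : T3 :=
(.s 0 8 0 0 0 0 0 14
(.s 0 1 0 0 0 0 0 1
(.s 1 0 0 1 0 0 0 0
(.s 0 1 0 0 0 0 0 2
(.s 0 1 0 0 0 0 0 7
(.s 2 0 0 1 0 0 0 0
(.s 1 0 0 1 0 0 0 1
(.lf 2 true 0 true false 0 0) (.s 1 0 0 3 0 0 0 3
(.lf 2 true 0 true false 0 0) (.lf 2 true 0 true false 0 0))) (.s 1 0 0 1 0 0 0 1
(.lf 2 true 0 false false 0 0) (.s 1 0 0 3 0 0 0 3
(.lf 2 true 0 false false 0 0) (.lf 2 true 0 false false 0 0)))) (.s 1 0 1 8 0 0 0 6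
(.lf 2 true 0 true false 0 0) (.s 2 0 0 1 0 0 0 0
(.s 1 0 1 15 0 0 0 13
(.s 0 1 0 0 0 0 0 3
(.s 0 1 0 0 0 0 0 4
(.lf 2 true 0 true false 0 0) (.s 1 0 3 31 0 0 0 27
(.lf 2 true 0 true false 0 0) (.lf 2 true 0 true false 0 0))) (.s 1 0 3 31 0 0 0 27
(.lf 2 true 0 true false 0 0) (.lf 2 true 0 true false 0 0))) (.s 1 0 1 29 0 0 0 27
(.s 0 1 0 0 0 0 0 3
(.s 0 1 0 0 0 0 0 4
(.s 1 0 3 59 0 0 0 55
(.s 0 3 0 0 0 0 0 19
(.lf 2 true 0 true false 0 0) (.lf 2 true 0 true false 0 0)) (.s 0 3 0 0 0 0 0 19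
(.lf 2 true 0 true false 0 0) (.lf 2 true 0 true false 0 0))) (.lf 2 true 0 true false 0 0)) (.lf 2 true 0 true false 0 0)) (.lf 2 true 0 true false 0 0))) (.s 1 0 1 15 0 0 0 13
(.s 0 1 0 0 0 0 0 3
(.s 0 1 0 0 0 0 0 4
(.lf 2 true 0 false false 0 0) (.s 1 0 3 31 0 0 0 27
(.lf 2 true 0 false false 0 0) (.lf 2 true 0 false false 0 0))) (.s 1 0 3 31 0 0 0 27
(.lf 2 true 0 false false 0 0) (.lf 2 true 0 false false 0 0))) (.s 1 0 1 29 0 0 0 27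
(.s 0 1 0 0 0 0 0 3
(.s 0 1 0 0 0 0 0 4
(.s 1 0 3 59 0 0 0 55
(.s 0 3 0 0 0 0 0 19
(.lf 2 true 0 false false 0 0) (.lf 2 true 0 false false 0 0)) (.s 0 3 0 0 0 0 0 19
(.lf 2 true 0 false false 0 0) (.lf 2 true 0 false false 0 0))) (.lf 2 true 0 false false 0 0)) (.lf 2 true 0 false false 0 0)) (.lf 2 true 0 false false 0 0)))))) (.s 1 0 4 12 0 0 0 6
(.lf 1 true 0 true false 0 0) (.s 1 0 1 8 0 0 0 6
(.s 1 0 5 20 0 0 0 13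
(.lf 2 true 0 true false 0 0) (.s 0 2 0 0 0 0 0 4
(.lf 2 true 0 true false 0 0) (.lf 2 true 0 true false 0 0))) (.s 2 0 0 1 0 0 0 0
(.lf 2 true 0 true false 0 0) (.lf 2 true 0 false false 0 0))))) (.lf 3 true 0 false false 0 0)) (.s 1 0 4 12 0 0 0 6
(.lf 1 true 0 true false 0 0) (.s 1 0 1 8 0 0 0 6
(.lf 2 true 0 true false 0 0) (.s 2 0 0 1 0 0 0 0
(.lf 2 true 0 true false 0 0) (.lf 2 true 0 false false 0 0))))) (.s 0 5 0 0 0 0 0 7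
(.s 1 0 4 12 0 0 0 6
(.lf 1 false 0 true false 0 0) (.lf 2 false 0 true false 0 0)) (.lf 1 false 0 true false 0 0)))

theorem ho11_20 : chk3 (leafO 5554500 1 a1_20 e1_20 R20.x1.ap R20.x1.m) o11_20 (full R20) = true := by
  decide +kernel

def R20_0a : Reg := hi R20 (Nat.succ 3) ⟨0, 0, 0, 0, 1000, 0, 2736⟩

def R20_0b : Reg := lo R20 (Nat.succ 3) ⟨0, 0, 0, 0, 1000, 0, 2736⟩

def t0_20a_0 : T3 :=
(.s 0 8 0 0 0 0 0 14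
(.s 0 1 0 0 0 0 0 1
(.s 1 0 0 1 0 0 0 0
(.s 0 1 0 0 0 0 0 2
(.lf 2 true 1 true false 0 0) (.s 1 0 4 12 0 0 0 6
(.lf 1 true 1 false false 0 0) (.lf 2 true 1 true false 0 0))) (.s 0 1 0 0 0 0 0 3
(.lf 3 true 1 true false 0 0) (.lf 3 true 1 true false 0 0))) (.s 1 0 4 12 0 0 0 6
(.lf 1 true 1 true false 0 0) (.lf 2 true 1 false false 0 0))) (.s 0 5 0 0 0 0 0 7
(.s 1 0 4 12 0 0 0 6
(.lf 1 false 1 false false 0 0) (.lf 2 false 1 false false 0 0)) (.lf 1 false 0 false false 0 0)))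

def i0_20a : T2 :=
(.k 730000 0 0 2029577 1275869 0 t0_20a_0)

theorem hi0_20a : chk2 (leaf0 a0_20 e0_20) 0 i0_20a R20_0a = true := by
  decide +kernel

def R20_0ba : Reg := hi R20_0b (Nat.succ 3) ⟨0, 0, 0, 0, 3, 0, 3⟩

def R20_0bb : Reg := lo R20_0b (Nat.succ 3) ⟨0, 0, 0, 0, 3, 0, 3⟩

def R20_0baa : Reg := hi R20_0ba (Nat.succ 0) ⟨1, 0, 0, 0, 0, 0, 3⟩

def R20_0bab : Reg := lo R20_0ba (Nat.succ 0) ⟨1, 0, 0, 0, 0, 0, 3⟩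

def R20_0baaa : Reg := hi R20_0baa (Nat.succ 0) ⟨1, 0, 0, 0, 0, 0, 9⟩

def R20_0baab : Reg := lo R20_0baa (Nat.succ 0) ⟨1, 0, 0, 0, 0, 0, 9⟩

def t0_20baaa_0 : T3 :=
(.s 0 8 0 0 0 0 0 14
(.s 0 1 0 0 0 0 0 9
(.s 1 0 0 1 0 0 0 0
(.lf 2 true 1 true false 0 0) (.lf 3 true 1 true false 0 0)) (.s 0 1 0 0 0 0 0 2
(.lf 2 true 1 true false 0 0) (.s 0 47 0 0 0 0 0 119
(.s 1 0 4 12 0 0 0 6
(.lf 1 true 1 false false 0 0) (.lf 2 true 1 false false 0 0)) (.lf 1 true 1 false false 0 0)))) (.lf 1 false 0 false false 0 0))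

def t0_20baaa_1 : T3 :=
(.s 0 8 0 0 0 0 0 14
(.s 0 1 0 0 0 0 0 9
(.s 1 0 0 1 0 0 0 0
(.lf 2 true 1 true false 0 0) (.lf 3 true 1 true false 0 0)) (.s 0 1 0 0 0 0 0 2
(.lf 2 true 1 true false 0 0) (.s 0 47 0 0 0 0 0 119
(.s 1 0 4 12 0 0 0 6
(.lf 1 true 1 false false 0 0) (.lf 2 true 1 false false 0 0)) (.lf 1 true 1 false false 0 0)))) (.lf 1 false 0 false false 0 0))

def t0_20baaa_2 : T3 :=
(.s 0 8 0 0 0 0 0 14
(.s 0 1 0 0 0 0 0 9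
(.s 1 0 0 1 0 0 0 0
(.s 0 6101 0 0 0 0 0 79999
(.lf 2 true 1 true false 0 0) (.s 3 20000 0 0 20000 0 0 24632
(.lf 2 true 1 true false 0 0) (.s 4 1000 0 0 1000 0 0 2736
(.lf 2 true 1 true false 0 0) (.lf 2 true 1 false false 0 0)))) (.s 0 6101 0 0 0 0 0 79999
(.lf 3 true 1 true false 0 0) (.s 3 20000 0 0 20000 0 0 24632
(.lf 3 true 1 true false 0 0) (.s 4 1000 0 0 1000 0 0 2736
(.lf 3 true 1 true false 0 0) (.lf 3 true 1 false false 0 0))))) (.s 0 1 0 0 0 0 0 2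
(.lf 2 true 1 false false 0 0) (.s 0 47 0 0 0 0 0 119
(.s 1 0 4 12 0 0 0 6
(.lf 1 true 1 false false 0 0) (.lf 2 true 1 false false 0 0)) (.lf 1 true 1 false false 0 0)))) (.lf 1 false 0 true false 0 0))

def t0_20baaa_3 : T3 :=
(.s 0 8 0 0 0 0 0 14
(.s 0 1 0 0 0 0 0 9
(.s 1 0 0 1 0 0 0 0
(.s 0 841 0 0 0 0 0 19999
(.lf 2 true 1 true false 0 0) (.s 3 2000 0 0 2000 0 0 2736
(.lf 2 true 1 true false 0 0) (.s 4 1000 0 0 1000 0 0 2736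
(.lf 2 true 1 true false 0 0) (.lf 2 true 1 false false 0 0)))) (.s 0 841 0 0 0 0 0 19999
(.lf 3 true 1 true false 0 0) (.s 3 2000 0 0 2000 0 0 2736
(.lf 3 true 1 true false 0 0) (.s 4 1000 0 0 1000 0 0 2736
(.lf 3 true 1 true false 0 0) (.lf 3 true 1 false false 0 0))))) (.s 0 1 0 0 0 0 0 2
(.lf 2 true 1 false false 0 0) (.s 0 47 0 0 0 0 0 119
(.s 1 0 4 12 0 0 0 6
(.lf 1 true 1 false false 0 0) (.lf 2 true 1 false false 0 0)) (.lf 1 true 1 false false 0 0)))) (.lf 1 false 0 false false 0 0))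

def t0_20baaa_4 : T3 :=
(.s 0 8 0 0 0 0 0 14
(.s 0 1 0 0 0 0 0 9
(.s 1 0 0 1 0 0 0 0
(.lf 2 true 1 false false 0 0) (.lf 3 true 1 false false 0 0)) (.s 0 1 0 0 0 0 0 2
(.lf 2 true 1 false false 0 0) (.s 0 47 0 0 0 0 0 119
(.s 1 0 4 12 0 0 0 6
(.lf 1 true 1 false false 0 0) (.lf 2 true 1 false false 0 0)) (.lf 1 true 1 true false 0 0)))) (.lf 1 false 0 false false 0 0))

def t0_20baaa_5 : T3 :=
(.s 0 8 0 0 0 0 0 14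
(.s 0 1 0 0 0 0 0 9
(.s 1 0 0 1 0 0 0 0
(.lf 2 true 1 false false 0 0) (.lf 3 true 1 false false 0 0)) (.s 0 1 0 0 0 0 0 2
(.lf 2 true 1 false false 0 0) (.s 0 47 0 0 0 0 0 119
(.s 1 0 4 12 0 0 0 6
(.lf 1 true 1 false false 0 0) (.lf 2 true 1 false false 0 0)) (.lf 1 true 1 false false 0 0)))) (.lf 1 false 0 true false 0 0))

def i0_20baaa : T2 :=
(.s 3 0 0 1 0 1
(.s 3 0 0 9 0 19
(.s 3 0 0 2 0 4
(.k 344400 0 4193060 0 0 4456797 t0_20baaa_0) (.s 2 7 0 0 0 9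
(.k 700170 0 1842676 0 0 2445693 t0_20baaa_1) (.k 804171 0 1779979 0 0 2271783 t0_20baaa_2))) (.s 2 7 0 0 0 9
(.k 1532659 0 0 3690140 2319763 0 t0_20baaa_3) (.k 1526199 0 0 3162977 1988368 0 t0_20baaa_4))) (.k 1053854 0 870985 0 0 2258513 t0_20baaa_5))

theorem hi0_20baaa : chk2 (leaf0 a0_20 e0_20) 0 i0_20baaa R20_0baaa = true := by
  decide +kernel

def R20_0baaba : Reg := hi R20_0baab (Nat.succ 3) ⟨0, 0, 0, 0, 1, 0, 1⟩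

def R20_0baabb : Reg := lo R20_0baab (Nat.succ 3) ⟨0, 0, 0, 0, 1, 0, 1⟩

def R20_0baabaa : Reg := hi R20_0baaba (Nat.succ 3) ⟨0, 0, 0, 0, 9, 0, 19⟩

def R20_0baabab : Reg := lo R20_0baaba (Nat.succ 3) ⟨0, 0, 0, 0, 9, 0, 19⟩

def t0_20baabaa_0 : T3 :=
(.s 0 8 0 0 0 0 0 14
(.s 0 1 0 0 0 0 0 9
(.lf 3 true 1 true false 0 0) (.s 0 1 0 0 0 0 0 3
(.s 1 0 0 1 0 0 0 0
(.s 0 1789 0 0 0 0 0 9999
(.lf 2 true 1 true false 0 0) (.s 3 2500 0 0 2500 0 0 2736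
(.lf 2 true 1 true false 0 0) (.s 4 1000 0 0 1000 0 0 2736
(.lf 2 true 1 true false 0 0) (.lf 2 true 1 false false 0 0)))) (.s 0 1789 0 0 0 0 0 9999
(.lf 3 true 1 true false 0 0) (.s 3 2500 0 0 2500 0 0 2736
(.lf 3 true 1 true false 0 0) (.s 4 1000 0 0 1000 0 0 2736
(.lf 3 true 1 true false 0 0) (.lf 3 true 1 false false 0 0))))) (.s 0 47 0 0 0 0 0 119
(.s 3 7 0 0 0 0 0 9
(.lf 2 true 1 true false 0 0) (.lf 2 true 1 false false 0 0)) (.s 0 23 0 0 0 0 0 47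
(.s 1 0 4 12 0 0 0 6
(.lf 1 true 1 false false 0 0) (.lf 2 true 1 false false 0 0)) (.lf 1 true 1 true false 0 0))))) (.lf 1 false 0 false false 0 0))

def t0_20baabaa_1 : T3 :=
(.s 0 8 0 0 0 0 0 14
(.s 0 1 0 0 0 0 0 9
(.lf 3 true 1 true false 0 0) (.s 0 1 0 0 0 0 0 3
(.s 1 0 0 1 0 0 0 0
(.s 0 1 0 0 0 0 0 4
(.s 0 27569 0 0 0 0 0 199999
(.lf 2 true 1 true false 0 0) (.s 3 20000 0 0 20000 0 0 24632
(.lf 2 true 1 true false 0 0) (.s 4 1000 0 0 1000 0 0 2736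
(.lf 2 true 1 true false 0 0) (.lf 2 true 1 false false 0 0)))) (.s 0 5841 0 0 0 0 0 24999
(.s 3 20000 0 0 20000 0 0 24632
(.lf 2 true 1 true false 0 0) (.s 4 1000 0 0 1000 0 0 2736
(.lf 2 true 1 true false 0 0) (.lf 2 true 1 false false 0 0))) (.s 3 2500 0 0 2500 0 0 2736
(.s 3 20000 0 0 20000 0 0 24632
(.lf 2 true 1 true false 0 0) (.s 4 1000 0 0 1000 0 0 2736
(.lf 2 true 1 true false 0 0) (.lf 2 true 1 false false 0 0))) (.lf 2 true 1 false false 0 0)))) (.s 0 1 0 0 0 0 0 4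
(.s 0 27569 0 0 0 0 0 199999
(.lf 3 true 1 true false 0 0) (.s 3 20000 0 0 20000 0 0 24632
(.lf 3 true 1 true false 0 0) (.s 4 1000 0 0 1000 0 0 2736
(.lf 3 true 1 true false 0 0) (.lf 3 true 1 false false 0 0)))) (.s 0 5841 0 0 0 0 0 24999
(.s 3 20000 0 0 20000 0 0 24632
(.lf 3 true 1 true false 0 0) (.s 4 1000 0 0 1000 0 0 2736
(.lf 3 true 1 true false 0 0) (.lf 3 true 1 false false 0 0))) (.s 3 2500 0 0 2500 0 0 2736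
(.s 3 20000 0 0 20000 0 0 24632
(.lf 3 true 1 true false 0 0) (.s 4 1000 0 0 1000 0 0 2736
(.lf 3 true 1 true false 0 0) (.lf 3 true 1 false false 0 0))) (.lf 3 true 1 false false 0 0))))) (.s 0 47 0 0 0 0 0 119
(.lf 2 true 1 false false 0 0) (.s 0 23 0 0 0 0 0 47
(.s 1 0 4 12 0 0 0 6
(.lf 1 true 1 false false 0 0) (.lf 2 true 1 false false 0 0)) (.lf 1 true 1 true false 0 0))))) (.lf 1 false 0 true false 0 0))

def t0_20baabaa_2 : T3 :=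
(.s 0 8 0 0 0 0 0 14
(.s 0 1 0 0 0 0 0 9
(.s 0 6101 0 0 0 0 0 79999
(.lf 3 true 1 true false 0 0) (.s 3 20000 0 0 20000 0 0 24632
(.lf 3 true 1 true false 0 0) (.s 4 1000 0 0 1000 0 0 2736
(.lf 3 true 1 true false 0 0) (.lf 3 true 1 false false 0 0)))) (.s 0 1 0 0 0 0 0 3
(.s 1 0 0 1 0 0 0 0
(.s 0 5841 0 0 0 0 0 24999
(.s 0 1789 0 0 0 0 0 9999
(.s 0 27569 0 0 0 0 0 199999
(.s 3 20000 0 0 20000 0 0 24632
(.lf 2 true 1 true false 0 0) (.s 4 1000 0 0 1000 0 0 2736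
(.lf 2 true 1 true false 0 0) (.lf 2 true 1 false false 0 0))) (.s 4 1000 0 0 1000 0 0 2736
(.lf 2 true 1 true false 0 0) (.lf 2 true 1 false false 0 0))) (.s 3 2500 0 0 2500 0 0 2736
(.s 4 1000 0 0 1000 0 0 2736
(.lf 2 true 1 true false 0 0) (.lf 2 true 1 false false 0 0)) (.lf 2 true 1 false false 0 0))) (.lf 2 true 1 false false 0 0)) (.s 0 5841 0 0 0 0 0 24999
(.s 0 1789 0 0 0 0 0 9999
(.s 0 27569 0 0 0 0 0 199999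
(.s 3 20000 0 0 20000 0 0 24632
(.lf 3 true 1 true false 0 0) (.s 4 1000 0 0 1000 0 0 2736
(.lf 3 true 1 true false 0 0) (.lf 3 true 1 false false 0 0))) (.s 4 1000 0 0 1000 0 0 2736
(.lf 3 true 1 true false 0 0) (.lf 3 true 1 false false 0 0))) (.s 3 2500 0 0 2500 0 0 2736
(.s 4 1000 0 0 1000 0 0 2736
(.lf 3 true 1 true false 0 0) (.lf 3 true 1 false false 0 0)) (.lf 3 true 1 false false 0 0))) (.lf 3 true 1 false false 0 0))) (.s 0 47 0 0 0 0 0 119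
(.lf 2 true 1 false false 0 0) (.s 0 23 0 0 0 0 0 47
(.s 1 0 4 12 0 0 0 6
(.lf 1 true 1 true false 0 0) (.lf 2 true 1 false false 0 0)) (.lf 1 true 1 true false 0 0))))) (.lf 1 false 0 false false 0 0))

def i0_20baabaa : T2 :=
(.s 3 0 0 2 0 4
(.k 293792 0 4660475 0 0 4865785 t0_20baabaa_0) (.s 2 7 0 0 0 9
(.k 667064 0 2397670 0 0 2931312 t0_20baabaa_1) (.k 776360 0 1929442 0 0 2402563 t0_20baabaa_2)))

theorem hi0_20baabaa : chk2 (leaf0 a0_20 e0_20) 0 i0_20baabaa R20_0baabaa = true := by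
  decide +kernel

def t0_20baabab_0 : T3 :=
(.s 0 8 0 0 0 0 0 14
(.s 0 1 0 0 0 0 0 9
(.lf 3 true 1 false false 0 0) (.s 0 1 0 0 0 0 0 3
(.s 1 0 0 1 0 0 0 0
(.lf 2 true 1 false false 0 0) (.lf 3 true 1 false false 0 0)) (.s 0 47 0 0 0 0 0 119
(.lf 2 true 1 false false 0 0) (.s 0 23 0 0 0 0 0 47
(.s 1 0 4 12 0 0 0 6
(.lf 1 true 1 true false 0 0) (.lf 2 true 1 false false 0 0)) (.lf 1 true 1 true false 0 0))))) (.lf 1 false 0 false false 0 0))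

def i0_20baabab : T2 :=
(.k 1515126 0 0 3690140 2319763 0 t0_20baabab_0)

theorem hi0_20baabab : chk2 (leaf0 a0_20 e0_20) 0 i0_20baabab R20_0baabab = true := by
  decide +kernel

def i0_20baaba : T2 := .s 3 0 0 9 0 19 i0_20baabaa i0_20baabab

theorem hi0_20baaba : chk2 (leaf0 a0_20 e0_20) 0 i0_20baaba R20_0baaba = true := chk2_s hi0_20baabaa hi0_20baabab

def t0_20baabb_0 : T3 :=
(.s 0 8 0 0 0 0 0 14
(.s 0 1 0 0 0 0 0 9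
(.lf 3 true 1 false false 0 0) (.s 0 1 0 0 0 0 0 3
(.s 1 0 0 1 0 0 0 0
(.lf 2 true 1 false false 0 0) (.lf 3 true 1 false false 0 0)) (.s 0 47 0 0 0 0 0 119
(.lf 2 true 1 false false 0 0) (.s 0 23 0 0 0 0 0 47
(.s 1 0 4 12 0 0 0 6
(.lf 1 true 1 true false 0 0) (.lf 2 true 1 false false 0 0)) (.lf 1 true 1 true false 0 0))))) (.lf 1 false 0 false false 0 0))

def i0_20baabb : T2 :=
(.k 1665000 0 0 4592472 3085056 0 t0_20baabb_0)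

theorem hi0_20baabb : chk2 (leaf0 a0_20 e0_20) 0 i0_20baabb R20_0baabb = true := by
  decide +kernel

def i0_20baab : T2 := .s 3 0 0 1 0 1 i0_20baaba i0_20baabb

theorem hi0_20baab : chk2 (leaf0 a0_20 e0_20) 0 i0_20baab R20_0baab = true := chk2_s hi0_20baaba hi0_20baabb

def i0_20baa : T2 := .s 0 1 0 0 0 9 i0_20baaa i0_20baab

theorem hi0_20baa : chk2 (leaf0 a0_20 e0_20) 0 i0_20baa R20_0baa = true := chk2_s hi0_20baaa hi0_20baab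

def R20_0baba : Reg := hi R20_0bab (Nat.succ 3) ⟨0, 0, 0, 0, 1, 0, 1⟩

def R20_0babb : Reg := lo R20_0bab (Nat.succ 3) ⟨0, 0, 0, 0, 1, 0, 1⟩

def R20_0babaa : Reg := hi R20_0baba (Nat.succ 0) ⟨2, 0, 0, 0, 0, 0, 4⟩

def R20_0babab : Reg := lo R20_0baba (Nat.succ 0) ⟨2, 0, 0, 0, 0, 0, 4⟩

def R20_0babaaa : Reg := hi R20_0babaa (Nat.succ 0) ⟨3, 0, 0, 0, 0, 0, 9⟩

def R20_0babaab : Reg := lo R20_0babaa (Nat.succ 0) ⟨3, 0, 0, 0, 0, 0, 9⟩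

def t0_20babaaa_0 : T3 :=
(.s 0 8 0 0 0 0 0 14
(.s 0 1 0 0 0 0 0 3
(.lf 3 true 1 true false 0 0) (.s 0 3 0 0 0 0 0 9
(.s 1 0 0 1 0 0 0 0
(.lf 2 true 1 false false 0 0) (.lf 3 true 1 false false 0 0)) (.s 0 23 0 0 0 0 0 47
(.lf 2 true 1 false false 0 0) (.s 0 61 0 0 0 0 0 119
(.s 1 0 4 12 0 0 0 6
(.lf 1 true 1 false false 0 0) (.lf 2 true 1 false false 0 0)) (.lf 1 true 1 true false 0 0))))) (.lf 1 false 0 false false 0 0))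

def t0_20babaaa_1 : T3 :=
(.s 0 8 0 0 0 0 0 14
(.s 0 1 0 0 0 0 0 3
(.lf 3 true 1 true false 0 0) (.s 0 3 0 0 0 0 0 9
(.s 1 0 0 1 0 0 0 0
(.lf 2 true 1 true false 0 0) (.lf 3 true 1 true false 0 0)) (.s 0 23 0 0 0 0 0 47
(.lf 2 true 1 true false 0 0) (.s 0 61 0 0 0 0 0 119
(.s 1 0 4 12 0 0 0 6
(.lf 1 true 1 false false 0 0) (.lf 2 true 1 false false 0 0)) (.lf 1 true 1 true false 0 0))))) (.lf 1 false 0 false false 0 0))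

def t0_20babaaa_2 : T3 :=
(.s 0 8 0 0 0 0 0 14
(.s 0 1 0 0 0 0 0 3
(.s 0 79771 0 0 0 0 0 399999
(.lf 3 true 1 true false 0 0) (.s 3 20000 0 0 20000 0 0 24632
(.lf 3 true 1 true false 0 0) (.s 4 1000 0 0 1000 0 0 2736
(.lf 3 true 1 true false 0 0) (.lf 3 true 1 false false 0 0)))) (.s 0 3 0 0 0 0 0 9
(.s 1 0 0 1 0 0 0 0
(.lf 2 true 1 false false 0 0) (.lf 3 true 1 false false 0 0)) (.s 0 23 0 0 0 0 0 47
(.lf 2 true 1 false false 0 0) (.s 0 61 0 0 0 0 0 119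
(.s 1 0 4 12 0 0 0 6
(.lf 1 true 1 true false 0 0) (.lf 2 true 1 false false 0 0)) (.lf 1 true 1 true false 0 0))))) (.lf 1 false 0 false false 0 0))

def t0_20babaaa_3 : T3 :=
(.s 0 8 0 0 0 0 0 14
(.s 0 1 0 0 0 0 0 3
(.s 0 1 0 0 0 0 0 9
(.lf 3 true 1 true false 0 0) (.s 0 79771 0 0 0 0 0 399999
(.s 0 27569 0 0 0 0 0 199999
(.lf 3 true 1 true false 0 0) (.s 3 20000 0 0 20000 0 0 24632
(.lf 3 true 1 true false 0 0) (.s 4 1000 0 0 1000 0 0 2736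
(.lf 3 true 1 true false 0 0) (.lf 3 true 1 false false 0 0)))) (.s 4 1000 0 0 1000 0 0 2736
(.lf 3 true 1 true false 0 0) (.lf 3 true 1 false false 0 0)))) (.s 0 3 0 0 0 0 0 9
(.s 1 0 0 1 0 0 0 0
(.lf 2 true 1 false false 0 0) (.lf 3 true 1 false false 0 0)) (.s 0 23 0 0 0 0 0 47
(.lf 2 true 1 false false 0 0) (.s 0 61 0 0 0 0 0 119
(.s 1 0 4 12 0 0 0 6
(.lf 1 true 1 true false 0 0) (.lf 2 true 1 false false 0 0)) (.lf 1 true 1 false false 0 0))))) (.lf 1 false 0 false false 0 0))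

def t0_20babaaa_4 : T3 :=
(.s 0 8 0 0 0 0 0 14
(.s 0 1 0 0 0 0 0 3
(.s 0 1 0 0 0 0 0 9
(.s 0 841 0 0 0 0 0 19999
(.lf 3 true 1 true false 0 0) (.s 3 2000 0 0 2000 0 0 2736
(.lf 3 true 1 true false 0 0) (.s 4 1000 0 0 1000 0 0 2736
(.lf 3 true 1 true false 0 0) (.lf 3 true 1 false false 0 0)))) (.s 0 27569 0 0 0 0 0 199999
(.s 3 2000 0 0 2000 0 0 2736
(.lf 3 true 1 true false 0 0) (.s 4 1000 0 0 1000 0 0 2736
(.lf 3 true 1 true false 0 0) (.lf 3 true 1 false false 0 0))) (.s 3 20000 0 0 20000 0 0 24632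
(.s 0 1789 0 0 0 0 0 9999
(.s 3 2000 0 0 2000 0 0 2736
(.lf 3 true 1 true false 0 0) (.s 4 1000 0 0 1000 0 0 2736
(.lf 3 true 1 true false 0 0) (.lf 3 true 1 false false 0 0))) (.s 4 1000 0 0 1000 0 0 2736
(.lf 3 true 1 true false 0 0) (.lf 3 true 1 false false 0 0))) (.lf 3 true 1 false false 0 0)))) (.s 0 3 0 0 0 0 0 9
(.s 1 0 0 1 0 0 0 0
(.lf 2 true 1 false false 0 0) (.lf 3 true 1 false false 0 0)) (.s 0 23 0 0 0 0 0 47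
(.lf 2 true 1 false false 0 0) (.s 0 61 0 0 0 0 0 119
(.s 1 0 4 12 0 0 0 6
(.lf 1 true 1 false false 0 0) (.lf 2 true 1 false false 0 0)) (.lf 1 true 1 true false 0 0))))) (.lf 1 false 0 false false 0 0))

def t0_20babaaa_5 : T3 :=
(.s 0 8 0 0 0 0 0 14
(.s 0 1 0 0 0 0 0 3
(.lf 3 true 1 false false 0 0) (.s 0 3 0 0 0 0 0 9
(.s 1 0 0 1 0 0 0 0
(.lf 2 true 1 false false 0 0) (.lf 3 true 1 false false 0 0)) (.s 0 23 0 0 0 0 0 47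
(.lf 2 true 1 false false 0 0) (.s 0 61 0 0 0 0 0 119
(.s 1 0 4 12 0 0 0 6
(.lf 1 true 1 false false 0 0) (.lf 2 true 1 false false 0 0)) (.lf 1 true 1 true false 0 0))))) (.lf 1 false 0 false false 0 0))

def i0_20babaaa : T2 :=
(.s 2 7 0 0 0 9
(.s 3 0 0 9 0 19
(.s 2 13 0 0 0 19
(.s 1 1 0 15 0 15
(.k 2000000 0 240748 0 0 5000000 t0_20babaaa_0) (.s 3 0 0 2 0 4
(.k 267625 0 4813864 0 0 5000000 t0_20babaaa_1) (.k 466246 0 3901925 0 0 4247535 t0_20babaaa_2))) (.k 516626 0 3101700 0 0 3441251 t0_20babaaa_3)) (.k 739146 0 2356693 0 0 2971216 t0_20babaaa_4)) (.k 658380 0 2183102 0 0 2585531 t0_20babaaa_5))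

theorem hi0_20babaaa : chk2 (leaf0 a0_20 e0_20) 0 i0_20babaaa R20_0babaaa = true := by
  decide +kernel

def t0_20babaab_0 : T3 :=
(.s 0 8 0 0 0 0 0 14
(.s 0 3 0 0 0 0 0 9
(.s 0 1 0 0 0 0 0 3
(.s 0 1789 0 0 0 0 0 9999
(.s 3 2000 0 0 2000 0 0 2736
(.lf 3 true 1 true false 0 0) (.s 4 1000 0 0 1000 0 0 2736
(.lf 3 true 1 true false 0 0) (.lf 3 true 1 false false 0 0))) (.s 4 1000 0 0 1000 0 0 2736
(.lf 3 true 1 true false 0 0) (.lf 3 true 1 false false 0 0))) (.s 3 1 0 0 1 0 0 0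
(.s 4 1000 0 0 1000 0 0 2736
(.lf 3 true 1 true false 0 0) (.lf 3 true 1 false false 0 0)) (.lf 3 true 1 false false 0 0))) (.s 0 2 0 0 0 0 0 4
(.s 1 0 0 1 0 0 0 0
(.lf 2 true 1 false false 0 0) (.lf 3 true 1 false false 0 0)) (.s 0 61 0 0 0 0 0 119
(.lf 2 true 1 false false 0 0) (.s 1 0 4 12 0 0 0 6
(.lf 1 true 1 false false 0 0) (.lf 2 true 1 false false 0 0))))) (.s 0 17 0 0 0 0 0 29
(.s 1 0 4 12 0 0 0 6
(.lf 1 false 1 true false 0 0) (.lf 2 false 1 false false 0 0)) (.lf 1 false 0 false false 0 0)))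

def i0_20babaab : T2 :=
(.k 625696 0 2140587 0 0 2660883 t0_20babaab_0)

theorem hi0_20babaab : chk2 (leaf0 a0_20 e0_20) 0 i0_20babaab R20_0babaab = true := by
  decide +kernel

def i0_20babaa : T2 := .s 0 3 0 0 0 9 i0_20babaaa i0_20babaab

theorem hi0_20babaa : chk2 (leaf0 a0_20 e0_20) 0 i0_20babaa R20_0babaa = true := chk2_s hi0_20babaaa hi0_20babaab

def t0_20babab_0 : T3 :=
(.s 0 8 0 0 0 0 0 14
(.s 0 2 0 0 0 0 0 4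
(.s 0 1 0 0 0 0 0 3
(.s 0 1789 0 0 0 0 0 9999
(.s 3 2000 0 0 2000 0 0 2736
(.lf 3 true 1 true false 0 0) (.s 4 1000 0 0 1000 0 0 2736
(.lf 3 true 1 true false 0 0) (.lf 3 true 1 false false 0 0))) (.s 4 1000 0 0 1000 0 0 2736
(.lf 3 true 1 true false 0 0) (.lf 3 true 1 false false 0 0))) (.s 3 1 0 0 1 0 0 0
(.s 4 1000 0 0 1000 0 0 2736
(.lf 3 true 1 true false 0 0) (.lf 3 true 1 false false 0 0)) (.lf 3 true 1 false false 0 0))) (.s 0 1 0 0 0 0 0 1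
(.s 1 0 0 1 0 0 0 0
(.lf 2 true 1 false false 0 0) (.lf 3 true 1 false false 0 0)) (.lf 2 true 1 false false 0 0))) (.s 0 17 0 0 0 0 0 29
(.lf 2 false 1 false false 0 0) (.s 0 5 0 0 0 0 0 7
(.s 1 0 4 12 0 0 0 6
(.lf 1 false 1 false false 0 0) (.lf 2 false 1 false false 0 0)) (.lf 1 false 0 true false 0 0))))

def i0_20babab : T2 :=
(.k 555563 0 2503757 0 0 2978657 t0_20babab_0)

theorem hi0_20babab : chk2 (leaf0 a0_20 e0_20) 0 i0_20babab R20_0babab = true := by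
  decide +kernel

def i0_20baba : T2 := .s 0 2 0 0 0 4 i0_20babaa i0_20babab

theorem hi0_20baba : chk2 (leaf0 a0_20 e0_20) 0 i0_20baba R20_0baba = true := chk2_s hi0_20babaa hi0_20babab

def t0_20babb_0 : T3 :=
(.s 0 8 0 0 0 0 0 14
(.s 0 1 0 0 0 0 0 3
(.lf 3 true 1 false false 0 0) (.s 0 1 0 0 0 0 0 1
(.s 1 0 0 1 0 0 0 0
(.s 0 23 0 0 0 0 0 47
(.lf 2 true 1 false false 0 0) (.s 1 0 4 12 0 0 0 6
(.lf 1 true 1 false false 0 0) (.lf 2 true 1 false false 0 0))) (.lf 3 true 1 false false 0 0)) (.s 1 0 4 12 0 0 0 6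
(.lf 1 true 1 true false 0 0) (.lf 2 true 1 false false 0 0)))) (.s 0 5 0 0 0 0 0 7
(.s 1 0 4 12 0 0 0 6
(.lf 1 false 1 false false 0 0) (.lf 2 false 1 false false 0 0)) (.lf 1 false 0 false false 0 0)))

def i0_20babb : T2 :=
(.k 1849619 0 0 5000000 2699369 0 t0_20babb_0)

theorem hi0_20babb : chk2 (leaf0 a0_20 e0_20) 0 i0_20babb R20_0babb = true := by
  decide +kernel

def i0_20bab : T2 := .s 3 0 0 1 0 1 i0_20baba i0_20babb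

theorem hi0_20bab : chk2 (leaf0 a0_20 e0_20) 0 i0_20bab R20_0bab = true := chk2_s hi0_20baba hi0_20babb

def i0_20ba : T2 := .s 0 1 0 0 0 3 i0_20baa i0_20bab

theorem hi0_20ba : chk2 (leaf0 a0_20 e0_20) 0 i0_20ba R20_0ba = true := chk2_s hi0_20baa hi0_20bab

def t0_20bb_0 : T3 :=
(.s 0 8 0 0 0 0 0 14
(.s 0 1 0 0 0 0 0 1
(.s 1 0 0 1 0 0 0 0
(.s 0 1 0 0 0 0 0 2
(.lf 2 true 1 false false 0 0) (.s 1 0 4 12 0 0 0 6
(.lf 1 true 0 false false 0 0) (.lf 2 true 1 false false 0 0))) (.s 0 1 0 0 0 0 0 3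
(.lf 3 true 1 false false 0 0) (.lf 3 true 1 false false 0 0))) (.s 1 0 4 12 0 0 0 6
(.lf 1 true 0 false false 0 0) (.lf 2 true 1 false false 0 0))) (.s 0 5 0 0 0 0 0 7
(.s 1 0 4 12 0 0 0 6
(.lf 1 false 0 false false 0 0) (.lf 2 false 1 false false 0 0)) (.lf 1 false 0 false false 0 0)))

def i0_20bb : T2 :=
(.k 2000000 0 1705562 0 0 5000000 t0_20bb_0)

theorem hi0_20bb : chk2 (leaf0 a0_20 e0_20) 0 i0_20bb R20_0bb = true := by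
  decide +kernel

def i0_20b : T2 := .s 3 0 0 3 0 3 i0_20ba i0_20bb

theorem hi0_20b : chk2 (leaf0 a0_20 e0_20) 0 i0_20b R20_0b = true := chk2_s hi0_20ba hi0_20bb

def i0_20 : T2 := .s 3 0 0 1000 0 2736 i0_20a i0_20b

theorem hi0_20 : chk2 (leaf0 a0_20 e0_20) 0 i0_20 R20 = true := chk2_s hi0_20a hi0_20b

def t1_20_0 : T3 :=
(.s 0 8 0 0 0 0 0 14
(.s 0 1 0 0 0 0 0 1
(.s 1 0 0 1 0 0 0 0
(.s 0 1 0 0 0 0 0 2
(.s 0 1 0 0 0 0 0 4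
(.s 0 1 0 0 0 0 0 9
(.lf 2 true 1 true false 0 1) (.s 1 0 0 1 0 0 0 1
(.lf 2 true 1 true false 0 2) (.lf 2 true 1 true false 0 2))) (.s 1 0 0 1 0 0 0 1
(.lf 2 true 1 true false 0 2) (.lf 2 true 1 true false 0 2))) (.s 1 0 4 12 0 0 0 6
(.s 0 2 0 0 0 0 0 4
(.lf 1 true 1 false false 0 2) (.lf 1 true 1 false false 0 0)) (.s 1 0 4 19 0 0 0 13
(.s 0 2 0 0 0 0 0 4
(.s 0 3 0 0 0 0 0 7
(.lf 2 true 1 true false 0 2) (.lf 2 true 1 true false 0 0)) (.lf 2 true 1 true false 0 0)) (.lf 2 true 1 true false 0 2)))) (.lf 3 true 1 true false 0 2)) (.s 1 0 4 12 0 0 0 6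
(.lf 1 true 1 true false 0 0) (.lf 2 true 1 true false 0 0))) (.s 0 5 0 0 0 0 0 7
(.s 1 0 4 12 0 0 0 6
(.lf 1 false 2 false false 0 0) (.lf 2 false 1 true false 0 0)) (.lf 1 false 2 false false 0 0)))

def t1_20_1 : T3 :=
(.s 0 8 0 0 0 0 0 14
(.s 0 1 0 0 0 0 0 1
(.s 1 0 0 1 0 0 0 0
(.s 0 1 0 0 0 0 0 2
(.s 1 0 0 1 0 0 0 1
(.s 0 1 0 0 0 0 0 4
(.lf 2 true 1 false false 1 1) (.lf 2 true 1 false false 2 2)) (.s 0 1 0 0 0 0 0 4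
(.lf 2 true 1 false false 1 1) (.s 1 0 0 3 0 0 0 3
(.lf 2 true 1 false false 2 2) (.lf 2 true 1 false false 2 2)))) (.s 1 0 4 12 0 0 0 6
(.lf 1 true 1 false true 1 2) (.s 1 0 4 19 0 0 0 13
(.s 0 2 0 0 0 0 0 4
(.s 3 1 0 0 1 0 0 0
(.lf 2 true 1 false false 2 2) (.s 4 1 0 0 1 0 0 0
(.lf 2 true 1 false false 2 0) (.lf 2 true 0 false true 2 0))) (.s 4 1 0 0 1 0 0 0
(.lf 2 true 1 false true 1 0) (.lf 2 true 0 false true 2 0))) (.s 0 2 0 0 0 0 0 4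
(.s 3 1 0 0 1 0 0 0
(.lf 2 true 1 false false 2 2) (.s 4 1 0 0 1 0 0 0
(.lf 2 true 1 false false 2 0) (.lf 2 true 0 false true 2 0))) (.s 4 1 0 0 1 0 0 0
(.lf 2 true 1 false false 2 0) (.lf 2 true 0 false true 2 0)))))) (.s 0 1 0 0 0 0 0 3
(.s 0 1 0 0 0 0 0 9
(.lf 3 true 1 false false 1 1) (.lf 3 true 1 false false 2 2)) (.lf 3 true 1 false false 2 2))) (.s 1 0 4 12 0 0 0 6
(.lf 1 true 1 false true 1 0) (.lf 2 true 1 false true 1 0))) (.s 0 5 0 0 0 0 0 7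
(.s 1 0 4 12 0 0 0 6
(.lf 1 false 1 false true 1 0) (.lf 2 false 1 false true 1 0)) (.lf 1 false 0 true true 1 0)))

def i1_20 : T2 :=
(.s 3 0 0 4 0 10
(.k 62638 0 375181 0 0 478457 t1_20_0) (.k 1013214 0 0 16144 0 192190 t1_20_1))

theorem hi1_20 : chk2 (leaf1 a1_20 e1_20) 10000 i1_20 R20 = true := by
  decide +kernel

theorem ok20 : CellOk R20 a0_20 e0_20 a1_20 e1_20 :=
  ⟨lin20, ⟨_, ho00_20⟩, ⟨_, ho01_20⟩, ⟨_, ho10_20⟩, ⟨_, ho11_20⟩, ⟨_, hi0_20⟩, ⟨_, hi1_20⟩⟩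

def R29 : Reg := ⟨⟨0, 0, 0, 0, 0, 0, 0⟩, ⟨1, 0, 0, 0, 0, 0, 0⟩, ⟨0, 0, 0, 0, 0, 0, 0⟩, ⟨1, 0, 0, 0, 0, 0, 9⟩, ⟨1, 0, 0, 0, 3, 0, 3⟩, ⟨1, 0, 0, 0, 1, 0, 1⟩, ⟨3, 0, 0, 0, 0, 0, 3⟩, ⟨9, 0, 0, 0, 0, 0, 9⟩, ⟨0, 0, 0, 0, 0, 0, 0⟩, ⟨0, 0, 0, 0, 1, 0, 0⟩⟩

def a0_29 : SF := mu 0 32003 42768 0 0 0 320031 0

def e0_29 : SF := mu 0 847224 1010849 0 2475964 0 0 1476634

def a1_29 : SF := mu 0 17327 23143 0 0 0 173272 0

def e1_29 : SF := mu 0 593078 707594 0 1733175 0 0 1972689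

theorem lin29 : chkLin R29 a0_29 e0_29 a1_29 e1_29 = true := by decide +kernel

def o00_29 : T3 :=
(.s 0 8 0 0 0 0 0 14
(.s 0 1 0 0 0 0 0 9
(.s 1 0 0 1 0 0 0 0
(.lf 2 true 0 false false 0 0) (.lf 3 true 0 false false 0 0)) (.s 0 1 0 0 0 0 0 2
(.s 0 1 0 0 0 0 0 3
(.lf 2 true 0 false false 0 0) (.s 0 13 0 0 0 0 0 39
(.s 1 0 1 4 0 0 0 2
(.s 2 0 0 1 0 0 0 0
(.lf 2 true 0 true false 0 0) (.lf 2 true 0 false false 0 0)) (.lf 2 true 0 false false 0 0)) (.s 2 0 0 1 0 0 0 0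
(.lf 2 true 0 true false 0 0) (.lf 2 true 0 false false 0 0)))) (.s 0 47 0 0 0 0 0 119
(.s 1 0 4 12 0 0 0 6
(.s 2 0 0 1 0 0 0 0
(.lf 1 true 0 true false 0 0) (.lf 1 true 0 false false 0 0)) (.s 2 0 0 1 0 0 0 0
(.lf 2 true 0 true false 0 0) (.lf 2 true 0 false false 0 0))) (.s 0 1 0 0 0 0 0 1
(.s 2 0 0 1 0 0 0 0
(.lf 1 true 0 true false 0 0) (.lf 1 true 0 false false 0 0)) (.s 1 0 1 2 0 0 0 0
(.lf 1 true 0 true false 0 0) (.s 2 0 0 1 0 0 0 0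
(.lf 1 true 0 true false 0 0) (.lf 1 true 0 false false 0 0))))))) (.s 0 11 0 0 0 0 0 19
(.s 1 0 1 2 0 0 0 0
(.lf 1 false 0 true false 0 0) (.s 2 0 0 1 0 0 0 0
(.lf 1 false 0 true false 0 0) (.lf 1 false 0 false false 0 0))) (.lf 1 false 0 true false 0 0)))

theorem ho00_29 : chk3 (leafO 10500000 3 a0_29 e0_29 R29.x0.ap R29.x0.m) o00_29 (full R29) = true := by
  decide +kernel

def o01_29 : T3 :=
(.s 0 8 0 0 0 0 0 14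
(.s 0 1 0 0 0 0 0 9
(.s 1 0 0 1 0 0 0 0
(.lf 2 true 0 false false 0 0) (.lf 3 true 0 false false 0 0)) (.s 0 1 0 0 0 0 0 2
(.s 0 1 0 0 0 0 0 3
(.lf 2 true 0 false false 0 0) (.s 0 13 0 0 0 0 0 39
(.s 1 0 1 4 0 0 0 2
(.s 2 0 0 1 0 0 0 0
(.lf 2 true 0 true false 0 0) (.lf 2 true 0 false false 0 0)) (.lf 2 true 0 false false 0 0)) (.s 2 0 0 1 0 0 0 0
(.lf 2 true 0 true false 0 0) (.lf 2 true 0 false false 0 0)))) (.s 0 47 0 0 0 0 0 119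
(.s 1 0 4 12 0 0 0 6
(.s 2 0 0 1 0 0 0 0
(.lf 1 true 0 true false 0 0) (.lf 1 true 0 false false 0 0)) (.s 2 0 0 1 0 0 0 0
(.lf 2 true 0 true false 0 0) (.lf 2 true 0 false false 0 0))) (.s 0 1 0 0 0 0 0 1
(.s 2 0 0 1 0 0 0 0
(.lf 1 true 0 true false 0 0) (.lf 1 true 0 false false 0 0)) (.s 1 0 1 2 0 0 0 0
(.lf 1 true 0 true false 0 0) (.s 2 0 0 1 0 0 0 0
(.lf 1 true 0 true false 0 0) (.lf 1 true 0 false false 0 0))))))) (.s 0 11 0 0 0 0 0 19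
(.s 1 0 1 2 0 0 0 0
(.lf 1 false 0 true false 0 0) (.s 2 0 0 1 0 0 0 0
(.lf 1 false 0 true false 0 0) (.lf 1 false 0 false false 0 0))) (.lf 1 false 0 true false 0 0)))

theorem ho01_29 : chk3 (leafO 10500000 3 a0_29 e0_29 R29.x1.ap R29.x1.m) o01_29 (full R29) = true := by
  decide +kernel

def o10_29 : T3 :=
(.s 0 8 0 0 0 0 0 14
(.s 0 1 0 0 0 0 0 9
(.s 1 0 0 1 0 0 0 0
(.lf 2 true 0 false false 0 0) (.lf 3 true 0 false false 0 0)) (.s 0 1 0 0 0 0 0 2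
(.s 0 1 0 0 0 0 0 3
(.lf 2 true 0 false false 0 0) (.s 0 13 0 0 0 0 0 39
(.s 1 0 1 4 0 0 0 2
(.s 2 0 0 1 0 0 0 0
(.lf 2 true 0 false false 0 0) (.lf 2 true 0 false false 0 0)) (.lf 2 true 0 false false 0 0)) (.s 2 0 0 1 0 0 0 0
(.lf 2 true 0 true false 0 0) (.lf 2 true 0 false false 0 0)))) (.s 0 47 0 0 0 0 0 119
(.s 1 0 4 12 0 0 0 6
(.lf 1 true 0 true false 0 0) (.s 2 0 0 1 0 0 0 0
(.lf 2 true 0 true false 0 0) (.lf 2 true 0 false false 0 0))) (.lf 1 true 0 true false 0 0)))) (.lf 1 false 0 true false 0 0))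

theorem ho10_29 : chk3 (leafO 5554500 1 a1_29 e1_29 R29.x0.ap R29.x0.m) o10_29 (full R29) = true := by
  decide +kernel

def o11_29 : T3 :=
(.s 0 8 0 0 0 0 0 14
(.s 0 1 0 0 0 0 0 9
(.s 1 0 0 1 0 0 0 0
(.lf 2 true 0 false false 0 0) (.lf 3 true 0 false false 0 0)) (.s 0 1 0 0 0 0 0 2
(.lf 2 true 0 false false 0 0) (.s 0 47 0 0 0 0 0 119
(.s 1 0 4 12 0 0 0 6
(.lf 1 true 0 true false 0 0) (.s 2 0 0 1 0 0 0 0
(.lf 2 true 0 true false 0 0) (.lf 2 true 0 false false 0 0))) (.lf 1 true 0 true false 0 0)))) (.lf 1 false 0 true false 0 0))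

theorem ho11_29 : chk3 (leafO 5554500 1 a1_29 e1_29 R29.x1.ap R29.x1.m) o11_29 (full R29) = true := by
  decide +kernel

def R29_0a : Reg := hi R29 (Nat.succ 3) ⟨0, 0, 0, 0, 1000, 0, 2736⟩

def R29_0b : Reg := lo R29 (Nat.succ 3) ⟨0, 0, 0, 0, 1000, 0, 2736⟩

def t0_29a_0 : T3 :=
(.s 0 8 0 0 0 0 0 14
(.s 0 1 0 0 0 0 0 9
(.s 1 0 0 1 0 0 0 0
(.lf 2 true 1 true false 0 0) (.lf 3 true 1 true false 0 0)) (.s 0 1 0 0 0 0 0 2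
(.lf 2 true 1 true false 0 0) (.s 0 47 0 0 0 0 0 119
(.s 1 0 4 12 0 0 0 6
(.lf 1 true 1 false false 0 0) (.lf 2 true 1 true false 0 0)) (.lf 1 true 1 false false 0 0)))) (.lf 1 false 0 false false 0 0))

def i0_29a : T2 :=
(.k 961617 0 0 1917834 941919 0 t0_29a_0)

theorem hi0_29a : chk2 (leaf0 a0_29 e0_29) 0 i0_29a R29_0a = true := by
  decide +kernel

def t0_29b_0 : T3 :=
(.s 0 8 0 0 0 0 0 14
(.s 0 1 0 0 0 0 0 9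
(.s 1 0 0 1 0 0 0 0
(.lf 2 true 1 false false 0 0) (.lf 3 true 1 false false 0 0)) (.s 0 1 0 0 0 0 0 2
(.lf 2 true 1 false false 0 0) (.s 0 47 0 0 0 0 0 119
(.s 1 0 4 12 0 0 0 6
(.lf 1 true 1 true false 0 0) (.lf 2 true 1 false false 0 0)) (.lf 1 true 1 true false 0 0)))) (.lf 1 false 0 true false 0 0))

def t0_29b_1 : T3 :=
(.s 0 8 0 0 0 0 0 14
(.s 0 1 0 0 0 0 0 9
(.s 1 0 0 1 0 0 0 0
(.s 0 367 0 0 0 0 0 24999
(.lf 2 true 1 true false 0 0) (.s 3 2500 0 0 2500 0 0 2736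
(.lf 2 true 1 true false 0 0) (.s 4 1000 0 0 1000 0 0 2736
(.lf 2 true 1 true false 0 0) (.lf 2 true 1 false false 0 0)))) (.s 0 367 0 0 0 0 0 24999
(.lf 3 true 1 true false 0 0) (.s 3 2500 0 0 2500 0 0 2736
(.lf 3 true 1 true false 0 0) (.s 4 1000 0 0 1000 0 0 2736
(.lf 3 true 1 true false 0 0) (.lf 3 true 1 false false 0 0))))) (.s 0 1 0 0 0 0 0 2
(.s 0 1 0 0 0 0 0 3
(.s 3 1 0 0 1 0 0 0
(.s 0 1789 0 0 0 0 0 9999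
(.s 3 2500 0 0 2500 0 0 2736
(.lf 2 true 1 true false 0 0) (.s 4 1000 0 0 1000 0 0 2736
(.lf 2 true 1 true false 0 0) (.lf 2 true 1 false false 0 0))) (.s 4 1000 0 0 1000 0 0 2736
(.lf 2 true 1 true false 0 0) (.lf 2 true 1 false false 0 0))) (.lf 2 true 1 false false 0 0)) (.lf 2 true 1 false false 0 0)) (.s 0 47 0 0 0 0 0 119
(.s 1 0 4 12 0 0 0 6
(.lf 1 true 1 false false 0 0) (.lf 2 true 1 false false 0 0)) (.lf 1 true 1 false false 0 0)))) (.lf 1 false 0 true false 0 0))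

def t0_29b_2 : T3 :=
(.s 0 8 0 0 0 0 0 14
(.s 0 1 0 0 0 0 0 9
(.s 1 0 0 1 0 0 0 0
(.s 0 367 0 0 0 0 0 24999
(.s 3 20000 0 0 20000 0 0 24632
(.lf 2 true 1 true false 0 0) (.s 4 1000 0 0 1000 0 0 2736
(.lf 2 true 1 false false 0 0) (.lf 2 true 1 false false 0 0))) (.s 3 2500 0 0 2500 0 0 2736
(.s 0 6101 0 0 0 0 0 79999
(.s 3 20000 0 0 20000 0 0 24632
(.lf 2 true 1 true false 0 0) (.s 4 1000 0 0 1000 0 0 2736
(.lf 2 true 1 true false 0 0) (.lf 2 true 1 false false 0 0))) (.s 4 1000 0 0 1000 0 0 2736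
(.lf 2 true 1 true false 0 0) (.lf 2 true 1 false false 0 0))) (.lf 2 true 1 false false 0 0))) (.s 0 367 0 0 0 0 0 24999
(.s 3 20000 0 0 20000 0 0 24632
(.lf 3 true 1 true false 0 0) (.s 4 1000 0 0 1000 0 0 2736
(.lf 3 true 1 false false 0 0) (.lf 3 true 1 false false 0 0))) (.s 3 2500 0 0 2500 0 0 2736
(.s 0 6101 0 0 0 0 0 79999
(.s 3 20000 0 0 20000 0 0 24632
(.lf 3 true 1 true false 0 0) (.s 4 1000 0 0 1000 0 0 2736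
(.lf 3 true 1 true false 0 0) (.lf 3 true 1 false false 0 0))) (.s 4 1000 0 0 1000 0 0 2736
(.lf 3 true 1 true false 0 0) (.lf 3 true 1 false false 0 0))) (.lf 3 true 1 false false 0 0)))) (.s 0 1 0 0 0 0 0 2
(.lf 2 true 1 false false 0 0) (.s 0 47 0 0 0 0 0 119
(.s 1 0 4 12 0 0 0 6
(.lf 1 true 1 false false 0 0) (.lf 2 true 1 false false 0 0)) (.lf 1 true 1 false false 0 0)))) (.lf 1 false 0 false false 0 0))

def t0_29b_3 : T3 :=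
(.s 0 8 0 0 0 0 0 14
(.s 0 1 0 0 0 0 0 9
(.s 1 0 0 1 0 0 0 0
(.lf 2 true 1 false false 0 0) (.lf 3 true 1 false false 0 0)) (.s 0 1 0 0 0 0 0 2
(.lf 2 true 1 false false 0 0) (.s 0 47 0 0 0 0 0 119
(.s 1 0 4 12 0 0 0 6
(.lf 1 true 1 false false 0 0) (.lf 2 true 1 false false 0 0)) (.lf 1 true 1 false false 0 0)))) (.lf 1 false 0 false false 0 0))

def t0_29b_4 : T3 :=
(.s 0 8 0 0 0 0 0 14
(.s 0 1 0 0 0 0 0 9
(.s 1 0 0 1 0 0 0 0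
(.lf 2 true 1 false false 0 0) (.lf 3 true 1 false false 0 0)) (.s 0 1 0 0 0 0 0 2
(.lf 2 true 1 false false 0 0) (.s 0 47 0 0 0 0 0 119
(.s 1 0 4 12 0 0 0 6
(.lf 1 true 1 true false 0 0) (.lf 2 true 1 false false 0 0)) (.lf 1 true 1 true false 0 0)))) (.lf 1 false 0 false false 0 0))

def t0_29b_5 : T3 :=
(.s 0 8 0 0 0 0 0 14
(.s 0 1 0 0 0 0 0 9
(.s 1 0 0 1 0 0 0 0
(.lf 2 true 1 false false 0 0) (.lf 3 true 1 false false 0 0)) (.s 0 1 0 0 0 0 0 2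
(.lf 2 true 1 false false 0 0) (.s 0 47 0 0 0 0 0 119
(.s 1 0 4 12 0 0 0 6
(.lf 1 true 0 true false 0 0) (.lf 2 true 1 false false 0 0)) (.lf 1 true 0 true false 0 0)))) (.lf 1 false 0 true false 0 0))

def i0_29b : T2 :=
(.s 3 0 0 3 0 3
(.s 3 0 0 1 0 1
(.s 3 0 0 9 0 19
(.s 1 3 0 5 0 7
(.k 1249735 0 0 1444959 163373 0 t0_29b_0) (.s 3 0 0 2 0 4
(.k 1376126 0 0 1806681 407197 0 t0_29b_1) (.k 1104931 0 0 1150261 66540 0 t0_29b_2))) (.k 1504872 0 0 1846160 340097 0 t0_29b_3)) (.k 1296006 0 0 1284881 1160 0 t0_29b_4)) (.k 2000000 0 0 1839375 0 5000000 t0_29b_5))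

theorem hi0_29b : chk2 (leaf0 a0_29 e0_29) 0 i0_29b R29_0b = true := by
  decide +kernel

def i0_29 : T2 := .s 3 0 0 1000 0 2736 i0_29a i0_29b

theorem hi0_29 : chk2 (leaf0 a0_29 e0_29) 0 i0_29 R29 = true := chk2_s hi0_29a hi0_29b

def t1_29_0 : T3 :=
(.s 0 8 0 0 0 0 0 14
(.s 0 1 0 0 0 0 0 9
(.s 1 0 0 1 0 0 0 0
(.lf 2 true 1 true false 0 2) (.lf 3 true 1 true false 0 2)) (.s 0 1 0 0 0 0 0 2
(.lf 2 true 1 true false 0 2) (.s 0 47 0 0 0 0 0 119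
(.s 1 0 4 12 0 0 0 6
(.lf 1 true 1 false false 0 0) (.lf 2 true 1 true false 0 0)) (.lf 1 true 2 true false 0 0)))) (.lf 1 false 2 true false 0 0))

def t1_29_1 : T3 :=
(.s 0 8 0 0 0 0 0 14
(.s 0 1 0 0 0 0 0 9
(.s 1 0 0 1 0 0 0 0
(.lf 2 true 1 false false 2 2) (.lf 3 true 1 false false 2 2)) (.s 0 1 0 0 0 0 0 2
(.lf 2 true 1 false false 2 2) (.s 0 47 0 0 0 0 0 119
(.s 1 0 4 12 0 0 0 6
(.lf 1 true 1 false false 2 0) (.lf 2 true 1 false false 2 0)) (.s 1 115943 0 0 0 0 0 2478856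
(.s 2 137781 0 0 0 0 1000000 319237
(.lf 1 true 1 true true 1 0) (.lf 1 true 2 false false 1 0)) (.lf 1 true 2 false false 1 0))))) (.s 1 115943 0 0 0 0 0 2478856
(.s 2 137781 0 0 0 0 1000000 319237
(.lf 1 false 0 false true 1 0) (.lf 1 false 2 false false 1 0)) (.lf 1 false 2 false false 1 0)))

def i1_29 : T2 :=
(.s 3 0 0 4 0 10
(.k 227000 0 0 432000 216000 0 t1_29_0) (.k 1388905 0 0 1596190 0 5000000 t1_29_1))

theorem hi1_29 : chk2 (leaf1 a1_29 e1_29) 10000 i1_29 R29 = true := by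
  decide +kernel

theorem ok29 : CellOk R29 a0_29 e0_29 a1_29 e1_29 :=
  ⟨lin29, ⟨_, ho00_29⟩, ⟨_, ho01_29⟩, ⟨_, ho10_29⟩, ⟨_, ho11_29⟩, ⟨_, hi0_29⟩, ⟨_, hi1_29⟩⟩

def R31 : Reg := ⟨⟨0, 0, 0, 0, 0, 0, 0⟩, ⟨1, 0, 0, 0, 0, 0, 0⟩, ⟨1, 0, 0, 0, 0, 0, 9⟩, ⟨1, 0, 0, 0, 0, 0, 3⟩, ⟨0, 0, 0, 0, 1, 0, 0⟩, ⟨1, 0, 0, 0, 3, 0, 3⟩, ⟨4, 0, 0, 0, 0, 0, 4⟩, ⟨17, 0, 0, 0, 0, 0, 19⟩, ⟨0, 0, 0, 0, 0, 0, 0⟩, ⟨0, 0, 0, 0, 1, 0, 0⟩⟩

def a0_31 : SF := mu 0 28866 42316 0 0 43268 429276 0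

def e0_31 : SF := mu 0 571213 689351 0 2506448 0 0 1382813

def a1_31 : SF := mu 0 33180 56729 0 0 48811 218139 0

def e1_31 : SF := mu 0 122190 50083 0 2039046 0 0 1209799

theorem lin31 : chkLin R31 a0_31 e0_31 a1_31 e1_31 = true := by decide +kernel

def o00_31 : T3 :=
(.s 0 8 0 0 0 0 0 14
(.s 0 1 0 0 0 0 0 9
(.lf 3 true 0 false false 0 0) (.s 0 1 0 0 0 0 0 3
(.s 1 0 0 1 0 0 0 0
(.s 2 0 0 1 0 0 0 0
(.s 1 1 0 10 0 0 0 19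
(.s 0 1 0 0 0 0 0 4
(.s 0 3 0 0 0 0 0 19
(.lf 2 true 0 true false 0 0) (.s 1 3 0 10 0 0 0 39
(.lf 2 true 0 true false 0 0) (.lf 2 true 0 true false 0 0))) (.lf 2 true 0 true false 0 0)) (.lf 2 true 0 true false 0 0)) (.s 1 1 0 10 0 0 0 19
(.s 0 1 0 0 0 0 0 4
(.s 0 3 0 0 0 0 0 19
(.lf 2 true 0 false false 0 0) (.s 1 3 0 10 0 0 0 39
(.lf 2 true 0 false false 0 0) (.lf 2 true 0 false false 0 0))) (.lf 2 true 0 false false 0 0)) (.lf 2 true 0 false false 0 0))) (.lf 3 true 0 false false 0 0)) (.s 0 47 0 0 0 0 0 119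
(.s 0 13 0 0 0 0 0 39
(.s 2 0 0 1 0 0 0 0
(.s 1 1 0 0 0 0 0 4
(.s 1 3 0 0 0 0 0 19
(.lf 2 true 0 true false 0 0) (.s 0 3 0 0 0 0 0 9
(.lf 2 true 0 true false 0 0) (.lf 2 true 0 true false 0 0))) (.s 0 3 0 0 0 0 0 9
(.lf 2 true 0 true false 0 0) (.lf 2 true 0 true false 0 0))) (.s 1 1 0 0 0 0 0 4
(.s 1 3 0 0 0 0 0 19
(.lf 2 true 0 false false 0 0) (.s 0 3 0 0 0 0 0 9
(.lf 2 true 0 false false 0 0) (.lf 2 true 0 false false 0 0))) (.s 0 3 0 0 0 0 0 9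
(.lf 2 true 0 false false 0 0) (.lf 2 true 0 false false 0 0)))) (.s 1 0 1 4 0 0 0 2
(.lf 2 true 0 true false 0 0) (.s 2 0 0 1 0 0 0 0
(.s 1 0 1 16 0 0 0 23
(.lf 2 true 0 true false 0 0) (.lf 2 true 0 true false 0 0)) (.s 1 0 1 16 0 0 0 23
(.lf 2 true 0 false false 0 0) (.lf 2 true 0 false false 0 0))))) (.s 0 23 0 0 0 0 0 47
(.s 1 0 4 12 0 0 0 6
(.lf 1 true 0 true false 0 0) (.s 0 7 0 0 0 0 0 15
(.s 1 0 1 4 0 0 0 2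
(.lf 2 true 0 true false 0 0) (.s 2 0 0 1 0 0 0 0
(.lf 2 true 0 true false 0 0) (.lf 2 true 0 false false 0 0))) (.lf 2 true 0 true false 0 0))) (.lf 1 true 0 true false 0 0))))) (.lf 1 false 0 true false 0 0))

theorem ho00_31 : chk3 (leafO 10500000 3 a0_31 e0_31 R31.x0.ap R31.x0.m) o00_31 (full R31) = true := by
  decide +kernel

def o01_31 : T3 :=
(.s 0 8 0 0 0 0 0 14
(.s 0 1 0 0 0 0 0 9
(.lf 3 true 0 false false 0 0) (.s 0 1 0 0 0 0 0 3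
(.s 1 0 0 1 0 0 0 0
(.s 2 0 0 1 0 0 0 0
(.s 1 1 0 10 0 0 0 19
(.lf 2 true 0 true false 0 0) (.lf 2 true 0 true false 0 0)) (.s 1 1 0 10 0 0 0 19
(.lf 2 true 0 false false 0 0) (.lf 2 true 0 false false 0 0))) (.lf 3 true 0 false false 0 0)) (.s 0 47 0 0 0 0 0 119
(.s 0 13 0 0 0 0 0 39
(.s 2 0 0 1 0 0 0 0
(.s 1 1 0 0 0 0 0 4
(.s 1 3 0 0 0 0 0 19
(.lf 2 true 0 true false 0 0) (.lf 2 true 0 true false 0 0)) (.s 0 3 0 0 0 0 0 9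
(.lf 2 true 0 true false 0 0) (.lf 2 true 0 true false 0 0))) (.s 1 1 0 0 0 0 0 4
(.s 1 3 0 0 0 0 0 19
(.lf 2 true 0 false false 0 0) (.lf 2 true 0 false false 0 0)) (.s 0 3 0 0 0 0 0 9
(.lf 2 true 0 false false 0 0) (.lf 2 true 0 false false 0 0)))) (.s 1 0 1 4 0 0 0 2
(.lf 2 true 0 true false 0 0) (.s 2 0 0 1 0 0 0 0
(.s 1 0 1 16 0 0 0 23
(.lf 2 true 0 true false 0 0) (.lf 2 true 0 true false 0 0)) (.s 1 0 1 16 0 0 0 23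
(.lf 2 true 0 false false 0 0) (.lf 2 true 0 false false 0 0))))) (.s 0 23 0 0 0 0 0 47
(.s 1 0 4 12 0 0 0 6
(.lf 1 true 0 true false 0 0) (.s 0 7 0 0 0 0 0 15
(.s 1 0 1 4 0 0 0 2
(.lf 2 true 0 true false 0 0) (.s 2 0 0 1 0 0 0 0
(.lf 2 true 0 true false 0 0) (.lf 2 true 0 false false 0 0))) (.lf 2 true 0 true false 0 0))) (.lf 1 true 0 true false 0 0))))) (.lf 1 false 0 true false 0 0))

theorem ho01_31 : chk3 (leafO 10500000 3 a0_31 e0_31 R31.x1.ap R31.x1.m) o01_31 (full R31) = true := by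
  decide +kernel

def o10_31 : T3 :=
(.s 0 8 0 0 0 0 0 14
(.s 0 1 0 0 0 0 0 9
(.lf 3 true 0 false false 0 0) (.s 0 1 0 0 0 0 0 3
(.s 1 0 0 1 0 0 0 0
(.s 2 0 0 1 0 0 0 0
(.s 2 0 0 1 0 1 0 1
(.s 0 1 0 0 0 0 0 4
(.s 0 3 0 0 0 0 0 19
(.lf 2 true 0 true false 0 0) (.lf 2 true 0 true false 0 0)) (.lf 2 true 0 true false 0 0)) (.s 1 1 0 10 0 0 0 19
(.s 0 1 0 0 0 0 0 4
(.s 0 3 0 0 0 0 0 19
(.s 0 1 0 0 0 0 0 7
(.lf 2 true 0 true false 0 0) (.s 0 7 0 0 0 0 0 49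
(.lf 2 true 0 true false 0 0) (.lf 2 true 0 true false 0 0))) (.s 1 3 0 10 0 0 0 39
(.lf 2 true 0 true false 0 0) (.lf 2 true 0 true false 0 0))) (.lf 2 true 0 true false 0 0)) (.s 0 1 0 0 0 0 0 4
(.s 0 3 0 0 0 0 0 19
(.lf 2 true 0 true false 0 0) (.lf 2 true 0 true false 0 0)) (.s 0 9 0 0 0 0 0 39
(.lf 2 true 0 true false 0 0) (.lf 2 true 0 true false 0 0))))) (.s 2 1 0 4 0 3 0 7
(.s 2 1 0 12 0 3 0 15
(.s 2 1 0 28 0 3 0 31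
(.s 1 1 0 10 0 0 0 19
(.s 0 1 0 0 0 0 0 4
(.s 0 3 0 0 0 0 0 19
(.s 0 1 0 0 0 0 0 7
(.lf 2 true 0 false false 0 0) (.s 0 7 0 0 0 0 0 49
(.lf 2 true 0 false false 0 0) (.lf 2 true 0 false false 0 0))) (.s 1 3 0 10 0 0 0 39
(.lf 2 true 0 false false 0 0) (.lf 2 true 0 false false 0 0))) (.lf 2 true 0 false false 0 0)) (.s 0 1 0 0 0 0 0 4
(.s 0 3 0 0 0 0 0 19
(.lf 2 true 0 false false 0 0) (.lf 2 true 0 false false 0 0)) (.s 0 9 0 0 0 0 0 39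
(.lf 2 true 0 false false 0 0) (.lf 2 true 0 false false 0 0)))) (.lf 2 true 0 false false 0 0)) (.lf 2 true 0 false false 0 0)) (.lf 2 true 0 false false 0 0))) (.lf 3 true 0 false false 0 0)) (.s 0 47 0 0 0 0 0 119
(.s 0 13 0 0 0 0 0 39
(.s 2 0 0 1 0 0 0 0
(.s 1 1 0 0 0 0 0 4
(.lf 2 true 0 true false 0 0) (.s 1 9 0 0 0 0 0 39
(.lf 2 true 0 true false 0 0) (.s 0 3 0 0 0 0 0 9
(.lf 2 true 0 true false 0 0) (.lf 2 true 0 true false 0 0)))) (.s 1 1 0 0 0 0 0 4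
(.lf 2 true 0 false false 0 0) (.s 1 9 0 0 0 0 0 39
(.lf 2 true 0 false false 0 0) (.s 0 3 0 0 0 0 0 9
(.lf 2 true 0 false false 0 0) (.lf 2 true 0 false false 0 0))))) (.s 1 0 1 4 0 0 0 2
(.lf 2 true 0 true false 0 0) (.s 2 0 0 1 0 0 0 0
(.lf 2 true 0 true false 0 0) (.lf 2 true 0 false false 0 0)))) (.s 0 23 0 0 0 0 0 47
(.s 1 0 4 12 0 0 0 6
(.lf 1 true 0 true false 0 0) (.lf 2 true 0 true false 0 0)) (.lf 1 true 0 true false 0 0))))) (.lf 1 false 0 true false 0 0))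

theorem ho10_31 : chk3 (leafO 5554500 1 a1_31 e1_31 R31.x0.ap R31.x0.m) o10_31 (full R31) = true := by
  decide +kernel

def o11_31 : T3 :=
(.s 0 8 0 0 0 0 0 14
(.s 0 1 0 0 0 0 0 9
(.lf 3 true 0 false false 0 0) (.s 0 1 0 0 0 0 0 3
(.s 1 0 0 1 0 0 0 0
(.s 2 0 0 1 0 0 0 0
(.s 2 0 0 1 0 1 0 1
(.s 0 1 0 0 0 0 0 4
(.lf 2 true 0 true false 0 0) (.lf 2 true 0 true false 0 0)) (.s 1 1 0 10 0 0 0 19
(.s 0 1 0 0 0 0 0 4
(.s 0 3 0 0 0 0 0 19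
(.s 0 1 0 0 0 0 0 7
(.lf 2 true 0 true false 0 0) (.lf 2 true 0 true false 0 0)) (.s 1 3 0 10 0 0 0 39
(.lf 2 true 0 true false 0 0) (.lf 2 true 0 true false 0 0))) (.lf 2 true 0 true false 0 0)) (.s 0 1 0 0 0 0 0 4
(.lf 2 true 0 true false 0 0) (.s 0 9 0 0 0 0 0 39
(.lf 2 true 0 true false 0 0) (.lf 2 true 0 true false 0 0))))) (.s 2 1 0 4 0 3 0 7
(.s 2 1 0 12 0 3 0 15
(.s 2 1 0 28 0 3 0 31
(.s 1 1 0 10 0 0 0 19
(.s 0 1 0 0 0 0 0 4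
(.s 0 3 0 0 0 0 0 19
(.s 0 1 0 0 0 0 0 7
(.lf 2 true 0 false false 0 0) (.lf 2 true 0 false false 0 0)) (.s 1 3 0 10 0 0 0 39
(.lf 2 true 0 false false 0 0) (.lf 2 true 0 false false 0 0))) (.lf 2 true 0 false false 0 0)) (.s 0 1 0 0 0 0 0 4
(.lf 2 true 0 false false 0 0) (.s 0 9 0 0 0 0 0 39
(.lf 2 true 0 false false 0 0) (.lf 2 true 0 false false 0 0)))) (.lf 2 true 0 false false 0 0)) (.lf 2 true 0 false false 0 0)) (.lf 2 true 0 false false 0 0))) (.lf 3 true 0 false false 0 0)) (.s 0 47 0 0 0 0 0 119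
(.s 0 13 0 0 0 0 0 39
(.s 2 0 0 1 0 0 0 0
(.s 1 1 0 0 0 0 0 4
(.lf 2 true 0 true false 0 0) (.s 1 9 0 0 0 0 0 39
(.lf 2 true 0 true false 0 0) (.s 0 3 0 0 0 0 0 9
(.lf 2 true 0 true false 0 0) (.lf 2 true 0 true false 0 0)))) (.s 1 1 0 0 0 0 0 4
(.lf 2 true 0 false false 0 0) (.s 1 9 0 0 0 0 0 39
(.lf 2 true 0 false false 0 0) (.s 0 3 0 0 0 0 0 9
(.lf 2 true 0 false false 0 0) (.lf 2 true 0 false false 0 0))))) (.s 1 0 1 4 0 0 0 2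
(.lf 2 true 0 true false 0 0) (.s 2 0 0 1 0 0 0 0
(.lf 2 true 0 true false 0 0) (.lf 2 true 0 false false 0 0)))) (.s 0 23 0 0 0 0 0 47
(.s 1 0 4 12 0 0 0 6
(.lf 1 true 0 true false 0 0) (.lf 2 true 0 true false 0 0)) (.lf 1 true 0 true false 0 0))))) (.lf 1 false 0 true false 0 0))

theorem ho11_31 : chk3 (leafO 5554500 1 a1_31 e1_31 R31.x1.ap R31.x1.m) o11_31 (full R31) = true := by
  decide +kernel

def t0_31_0 : T3 :=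
(.s 0 8 0 0 0 0 0 14
(.s 0 1 0 0 0 0 0 9
(.lf 3 true 1 true false 0 0) (.s 0 1 0 0 0 0 0 3
(.s 1 0 0 1 0 0 0 0
(.s 0 1 0 0 0 0 0 4
(.s 0 3 0 0 0 0 0 19
(.lf 2 true 1 true false 0 0) (.s 3 1 0 0 1 0 0 0
(.lf 2 true 1 true false 0 0) (.s 4 1000 0 0 1000 0 0 2736
(.lf 2 true 1 true false 0 0) (.lf 2 true 1 false false 0 0)))) (.s 4 1000 0 0 1000 0 0 2736
(.lf 2 true 1 true false 0 0) (.lf 2 true 1 false false 0 0))) (.s 0 1 0 0 0 0 0 4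
(.s 0 3 0 0 0 0 0 19
(.lf 3 true 1 true false 0 0) (.s 3 1 0 0 1 0 0 0
(.lf 3 true 1 true false 0 0) (.s 4 1000 0 0 1000 0 0 2736
(.lf 3 true 1 true false 0 0) (.lf 3 true 1 false false 0 0)))) (.s 4 1000 0 0 1000 0 0 2736
(.lf 3 true 1 true false 0 0) (.lf 3 true 1 false false 0 0)))) (.s 0 47 0 0 0 0 0 119
(.lf 2 true 1 false false 0 0) (.s 0 23 0 0 0 0 0 47
(.s 1 0 4 12 0 0 0 6
(.lf 1 true 1 false false 0 0) (.lf 2 true 1 false false 0 0)) (.lf 1 true 1 false false 0 0))))) (.lf 1 false 0 false false 0 0))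

def t0_31_1 : T3 :=
(.s 0 8 0 0 0 0 0 14
(.s 0 1 0 0 0 0 0 9
(.lf 3 true 1 false false 0 0) (.s 0 1 0 0 0 0 0 3
(.s 1 0 0 1 0 0 0 0
(.lf 2 true 1 false false 0 0) (.lf 3 true 1 false false 0 0)) (.s 0 47 0 0 0 0 0 119
(.lf 2 true 1 false false 0 0) (.s 0 23 0 0 0 0 0 47
(.s 1 0 4 12 0 0 0 6
(.lf 1 true 1 false false 0 0) (.lf 2 true 1 false false 0 0)) (.lf 1 true 1 true false 0 0))))) (.lf 1 false 0 false false 0 0))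

def i0_31 : T2 :=
(.s 3 0 0 1000 0 2736
(.k 716904 0 0 0 0 2863615 t0_31_0) (.k 1231223 0 0 1038927 0 974672 t0_31_1))

theorem hi0_31 : chk2 (leaf0 a0_31 e0_31) 0 i0_31 R31 = true := by
  decide +kernel

def t1_31_0 : T3 :=
(.s 0 8 0 0 0 0 0 14
(.s 0 1 0 0 0 0 0 9
(.lf 3 true 1 true false 0 2) (.s 0 1 0 0 0 0 0 3
(.s 1 0 0 1 0 0 0 0
(.lf 2 true 1 true false 0 2) (.lf 3 true 1 true false 0 2)) (.s 0 47 0 0 0 0 0 119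
(.lf 2 true 1 true false 0 0) (.s 0 23 0 0 0 0 0 47
(.s 1 0 4 12 0 0 0 6
(.lf 1 true 1 false false 0 0) (.lf 2 true 1 true false 0 0)) (.lf 1 true 1 true false 0 0))))) (.lf 1 false 2 false false 0 0))

def t1_31_1 : T3 :=
(.s 0 8 0 0 0 0 0 14
(.s 0 1 0 0 0 0 0 9
(.s 3 33 0 0 0 0 0 39
(.lf 3 true 1 false false 2 1) (.lf 3 true 1 false false 2 2)) (.s 0 1 0 0 0 0 0 3
(.s 1 0 0 1 0 0 0 0
(.s 0 1 0 0 0 0 0 4
(.s 0 41 0 0 0 0 0 274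
(.s 3 110 0 0 110 0 0 116
(.lf 2 true 1 false false 2 1) (.s 4 0 10 10 0 11 0 0
(.lf 2 true 1 false false 2 0) (.lf 2 true 1 false false 2 1))) (.s 0 3 0 0 0 0 0 19
(.s 4 0 10 10 0 11 0 0
(.lf 2 true 1 false false 2 0) (.lf 2 true 1 false false 2 1)) (.s 3 1 0 0 1 0 0 0
(.s 4 0 10 10 0 11 0 0
(.lf 2 true 1 false false 2 0) (.lf 2 true 1 false false 2 1)) (.s 4 1 0 0 1 0 0 0
(.lf 2 true 1 false false 2 0) (.lf 2 true 0 false false 2 0))))) (.s 4 1 0 0 1 0 0 0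
(.s 0 9 0 0 0 0 0 39
(.lf 2 true 1 false false 2 0) (.s 0 6 0 0 0 0 0 24
(.s 4 7 0 0 7 0 4 2
(.lf 2 true 1 false false 2 0) (.s 2 466914 0 0 0 1675774 0 3208630
(.lf 2 true 1 false true 2 0) (.lf 2 true 2 false false 2 0))) (.s 4 7 0 0 7 0 4 2
(.lf 2 true 1 false false 2 0) (.s 2 466914 0 0 0 1675774 0 3208630
(.lf 2 true 1 false true 2 0) (.lf 2 true 2 false false 2 0))))) (.s 2 466914 0 0 0 1675774 0 3208630
(.lf 2 true 0 false true 2 0) (.lf 2 true 2 false false 2 0)))) (.s 0 1 0 0 0 0 0 4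
(.s 1 1 0 4 0 0 0 7
(.s 0 41 0 0 0 0 0 274
(.s 3 110 0 0 110 0 0 116
(.lf 3 true 1 false false 2 1) (.s 4 0 10 10 0 11 0 0
(.lf 3 true 1 false false 2 0) (.lf 3 true 1 false false 2 1))) (.s 0 3 0 0 0 0 0 19
(.s 4 0 10 10 0 11 0 0
(.lf 3 true 1 false false 2 0) (.lf 3 true 1 false false 2 1)) (.s 3 1 0 0 1 0 0 0
(.s 4 0 10 10 0 11 0 0
(.lf 3 true 1 false false 2 0) (.lf 3 true 1 false false 2 1)) (.s 4 1 0 0 1 0 0 0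
(.lf 3 true 1 false false 2 0) (.lf 3 true 0 false false 2 0))))) (.lf 3 true 1 false false 2 2)) (.s 4 1 0 0 1 0 0 0
(.s 0 9 0 0 0 0 0 39
(.lf 3 true 1 false false 2 0) (.s 0 6 0 0 0 0 0 24
(.s 4 7 0 0 7 0 4 2
(.lf 3 true 1 false false 2 0) (.s 2 466914 0 0 0 1675774 0 3208630
(.lf 3 true 1 false true 2 0) (.lf 3 true 2 false false 2 0))) (.s 4 7 0 0 7 0 4 2
(.lf 3 true 1 false false 2 0) (.s 2 466914 0 0 0 1675774 0 3208630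
(.lf 3 true 1 false true 2 0) (.lf 3 true 2 false false 2 0))))) (.s 2 466914 0 0 0 1675774 0 3208630
(.lf 3 true 0 false true 2 0) (.lf 3 true 2 false false 2 0))))) (.s 0 47 0 0 0 0 0 119
(.s 4 1 0 0 1 0 0 0
(.lf 2 true 1 false false 2 0) (.lf 2 true 0 false false 2 0)) (.s 0 23 0 0 0 0 0 47
(.s 1 0 4 12 0 0 0 6
(.s 2 466914 0 0 0 1675774 0 3208630
(.lf 1 true 1 false true 1 0) (.lf 1 true 2 false false 1 0)) (.s 4 1 0 0 1 0 0 0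
(.lf 2 true 1 false false 2 0) (.lf 2 true 0 false false 2 0))) (.s 2 466914 0 0 0 1675774 0 3208630
(.lf 1 true 1 false true 1 0) (.lf 1 true 2 false false 1 0)))))) (.s 2 466914 0 0 0 1675774 0 3208630
(.lf 1 false 0 true true 1 0) (.lf 1 false 2 false false 1 0)))

def i1_31 : T2 :=
(.s 3 0 0 4 0 10
(.k 133857 0 0 491430 368572 0 t1_31_0) (.k 1166914 0 0 3208631 1675774 0 t1_31_1))

theorem hi1_31 : chk2 (leaf1 a1_31 e1_31) 10000 i1_31 R31 = true := by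
  decide +kernel

theorem ok31 : CellOk R31 a0_31 e0_31 a1_31 e1_31 :=
  ⟨lin31, ⟨_, ho00_31⟩, ⟨_, ho01_31⟩, ⟨_, ho10_31⟩, ⟨_, ho11_31⟩, ⟨_, hi0_31⟩, ⟨_, hi1_31⟩⟩

def R46 : Reg := ⟨⟨0, 0, 0, 0, 0, 0, 0⟩, ⟨1, 0, 0, 0, 0, 0, 0⟩, ⟨0, 0, 0, 0, 0, 0, 0⟩, ⟨1, 0, 0, 0, 0, 0, 0⟩, ⟨1, 0, 0, 0, 1, 0, 1⟩, ⟨1, 0, 0, 0, 0, 0, 0⟩, ⟨1, 0, 0, 0, 0, 0, 0⟩, ⟨2, 0, 0, 0, 0, 0, 0⟩, ⟨0, 0, 0, 0, 0, 0, 0⟩, ⟨0, 0, 0, 0, 1, 0, 0⟩⟩

def a0_46 : SF := mu 0 218564 218636 0 0 0 427856 0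

def e0_46 : SF := mu 0 889058 1597091 0 1506000 0 0 1283569

def a1_46 : SF := mu 0 78176 78206 0 0 0 299499 0

def e1_46 : SF := mu 0 622361 1117964 0 1054200 0 0 898498

theorem lin46 : chkLin R46 a0_46 e0_46 a1_46 e1_46 = true := by decide +kernel

def o00_46 : T3 :=
(.s 0 8 0 0 0 0 0 14
(.s 1 0 0 1 0 0 0 0
(.s 0 1 0 0 0 0 0 2
(.lf 2 true 0 false false 0 0) (.s 1 0 4 12 0 0 0 6
(.s 0 1 0 0 0 0 0 1
(.lf 1 true 0 false false 0 0) (.s 1 0 1 2 0 0 0 0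
(.s 2 0 0 1 0 0 0 0
(.lf 1 true 0 true false 0 0) (.lf 1 true 0 false false 0 0)) (.lf 1 true 0 false false 0 0))) (.lf 2 true 0 false false 0 0))) (.lf 3 true 0 false false 0 0)) (.s 1 0 0 1 0 0 0 0
(.s 0 4 0 0 0 0 0 4
(.s 1 0 4 12 0 0 0 6
(.s 1 0 1 2 0 0 0 0
(.s 2 0 0 1 0 0 0 0
(.lf 1 false 0 true false 0 0) (.lf 1 false 0 false false 0 0)) (.lf 1 false 0 false false 0 0)) (.lf 2 false 0 false false 0 0)) (.s 1 0 1 2 0 0 0 0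
(.s 2 0 0 1 0 0 0 0
(.lf 0 false 0 true false 0 0) (.lf 0 false 0 false false 0 0)) (.lf 0 false 0 false false 0 0))) (.s 0 4 0 0 0 0 0 4
(.lf 3 false 0 false false 0 0) (.s 0 11 0 0 0 0 0 11
(.s 1 0 4 12 0 0 0 6
(.lf 0 false 0 false false 0 0) (.lf 0 false 0 false false 0 0)) (.lf 0 false 0 false false 0 0)))))

theorem ho00_46 : chk3 (leafO 10500000 3 a0_46 e0_46 R46.x0.ap R46.x0.m) o00_46 (full R46) = true := by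
  decide +kernel

def o01_46 : T3 :=
(.s 0 8 0 0 0 0 0 14
(.s 1 0 0 1 0 0 0 0
(.s 0 1 0 0 0 0 0 2
(.lf 2 true 0 false false 0 0) (.s 1 0 4 12 0 0 0 6
(.lf 1 true 0 false false 0 0) (.lf 2 true 0 false false 0 0))) (.lf 3 true 0 false false 0 0)) (.s 1 0 0 1 0 0 0 0
(.s 0 4 0 0 0 0 0 4
(.s 1 0 4 12 0 0 0 6
(.lf 1 false 0 false false 0 0) (.lf 2 false 0 false false 0 0)) (.lf 0 false 0 false false 0 0)) (.s 0 4 0 0 0 0 0 4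
(.lf 3 false 0 false false 0 0) (.s 0 11 0 0 0 0 0 11
(.s 1 0 4 12 0 0 0 6
(.lf 0 false 0 false false 0 0) (.lf 0 false 0 false false 0 0)) (.lf 0 false 0 false false 0 0)))))

theorem ho01_46 : chk3 (leafO 10500000 3 a0_46 e0_46 R46.x1.ap R46.x1.m) o01_46 (full R46) = true := by
  decide +kernel

def o10_46 : T3 :=
(.s 0 8 0 0 0 0 0 14
(.s 1 0 0 1 0 0 0 0
(.s 0 1 0 0 0 0 0 2
(.lf 2 true 0 false false 0 0) (.s 1 0 4 12 0 0 0 6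
(.lf 1 true 0 false false 0 0) (.lf 2 true 0 false false 0 0))) (.lf 3 true 0 false false 0 0)) (.s 1 0 0 1 0 0 0 0
(.s 0 4 0 0 0 0 0 4
(.s 1 0 4 12 0 0 0 6
(.lf 1 false 0 false false 0 0) (.lf 2 false 0 false false 0 0)) (.lf 0 false 0 false false 0 0)) (.s 0 4 0 0 0 0 0 4
(.lf 3 false 0 false false 0 0) (.s 0 11 0 0 0 0 0 11
(.s 1 0 4 12 0 0 0 6
(.lf 0 false 0 false false 0 0) (.lf 0 false 0 false false 0 0)) (.lf 0 false 0 false false 0 0)))))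

theorem ho10_46 : chk3 (leafO 5554500 1 a1_46 e1_46 R46.x0.ap R46.x0.m) o10_46 (full R46) = true := by
  decide +kernel

def o11_46 : T3 :=
(.s 0 8 0 0 0 0 0 14
(.s 1 0 0 1 0 0 0 0
(.s 0 1 0 0 0 0 0 2
(.lf 2 true 0 false false 0 0) (.s 1 0 4 12 0 0 0 6
(.lf 1 true 0 false false 0 0) (.lf 2 true 0 false false 0 0))) (.lf 3 true 0 false false 0 0)) (.s 1 0 0 1 0 0 0 0
(.s 0 4 0 0 0 0 0 4
(.s 1 0 4 12 0 0 0 6
(.lf 1 false 0 false false 0 0) (.lf 2 false 0 false false 0 0)) (.lf 0 false 0 false false 0 0)) (.s 0 4 0 0 0 0 0 4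
(.lf 3 false 0 false false 0 0) (.s 0 11 0 0 0 0 0 11
(.s 1 0 4 12 0 0 0 6
(.lf 0 false 0 false false 0 0) (.lf 0 false 0 false false 0 0)) (.lf 0 false 0 false false 0 0)))))

theorem ho11_46 : chk3 (leafO 5554500 1 a1_46 e1_46 R46.x1.ap R46.x1.m) o11_46 (full R46) = true := by
  decide +kernel

def t0_46_0 : T3 :=
(.s 0 8 0 0 0 0 0 14
(.s 1 0 0 1 0 0 0 0
(.s 0 1 0 0 0 0 0 2
(.lf 2 true 1 false false 0 0) (.s 1 0 4 12 0 0 0 6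
(.lf 1 true 1 false false 0 0) (.lf 2 true 1 false false 0 0))) (.lf 3 true 1 false false 0 0)) (.s 1 0 0 1 0 0 0 0
(.s 0 4 0 0 0 0 0 4
(.s 1 0 4 12 0 0 0 6
(.lf 1 false 1 false false 0 0) (.lf 2 false 1 false false 0 0)) (.lf 0 false 0 false false 0 0)) (.s 0 4 0 0 0 0 0 4
(.lf 3 false 1 false false 0 0) (.s 0 11 0 0 0 0 0 11
(.s 1 0 4 12 0 0 0 6
(.lf 0 false 1 false false 0 0) (.lf 0 false 1 false false 0 0)) (.lf 0 false 0 false false 0 0)))))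

def i0_46 : T2 :=
(.k 258000 0 0 257000 3000 0 t0_46_0)

theorem hi0_46 : chk2 (leaf0 a0_46 e0_46) 0 i0_46 R46 = true := by
  decide +kernel

def R46_1a : Reg := hi R46 (Nat.succ 3) ⟨0, 0, 0, 0, 4, 0, 10⟩

def R46_1b : Reg := lo R46 (Nat.succ 3) ⟨0, 0, 0, 0, 4, 0, 10⟩

def t1_46a_0 : T3 :=
(.s 0 8 0 0 0 0 0 14
(.s 1 0 0 1 0 0 0 0
(.s 0 1 0 0 0 0 0 2
(.s 4 0 0 0 0 4000 0 16158
(.s 4 0 0 0 0 2000 0 16158
(.s 0 1 0 0 0 0 0 4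
(.lf 2 true 1 true false 0 0) (.s 0 400084 0 0 0 0 0 1219416
(.s 1 0 400084 3000000 0 0 0 1780582
(.lf 2 true 2 true false 0 0) (.s 0 311000 0 0 0 0 0 1130332
(.s 1 0 311000 3000000 0 0 0 1869666
(.s 2 489168 0 0 3000000 1869667 0 178167
(.lf 2 true 1 true true 0 0) (.lf 2 true 2 true false 0 0)) (.lf 2 true 1 true true 0 0)) (.s 2 489168 0 0 3000000 1869667 0 178167
(.lf 2 true 1 true true 0 0) (.lf 2 true 2 true false 0 0)))) (.lf 2 true 2 true false 0 0))) (.s 1 0 0 1 0 0 0 1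
(.s 0 5211 0 0 0 0 0 16158
(.s 3 16159 0 0 16159 0 0 10947
(.lf 2 true 1 true false 0 0) (.s 4 1000 0 0 1000 0 0 2736
(.lf 2 true 1 true false 0 0) (.lf 2 true 1 false false 0 0))) (.s 3 16159 0 0 16159 0 0 5473
(.s 4 1000 0 0 1000 0 0 2736
(.lf 2 true 1 true false 0 0) (.lf 2 true 1 true false 0 0)) (.lf 2 true 2 true false 0 0))) (.s 2 3 0 0 0 1 0 3
(.s 3 3 0 0 0 0 0 1
(.s 0 5211 0 0 0 0 0 16158
(.s 3 16159 0 0 16159 0 0 10947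
(.lf 2 true 1 true false 0 0) (.s 4 1000 0 0 1000 0 0 2736
(.s 0 1 0 0 0 0 0 4
(.lf 2 true 1 true false 0 0) (.s 1 0 400084 3000000 0 0 0 1780582
(.lf 2 true 2 true false 0 0) (.s 0 118514 0 0 0 0 0 391624
(.s 1 0 118514 1000000 0 0 0 608374
(.s 2 489168 0 0 3000000 1869667 0 178167
(.lf 2 true 1 true true 0 0) (.lf 2 true 2 true false 0 0)) (.lf 2 true 1 true true 0 0)) (.s 2 489168 0 0 3000000 1869667 0 178167
(.lf 2 true 1 true true 0 0) (.lf 2 true 2 true false 0 0))))) (.lf 2 true 2 false false 0 0))) (.s 4 1000 0 0 1000 0 0 2736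
(.s 0 400084 0 0 0 0 0 1219416
(.s 1 0 400084 3000000 0 0 0 1780582
(.lf 2 true 2 true false 0 0) (.s 2 489168 0 0 3000000 1869667 0 178167
(.lf 2 true 1 true true 0 0) (.lf 2 true 2 true false 0 0))) (.lf 2 true 2 true false 0 0)) (.lf 2 true 2 false false 0 0))) (.s 4 0 0 0 0 3000 0 16158
(.s 1 0 0 3 0 0 0 3
(.lf 2 true 1 true false 0 0) (.s 0 1 0 0 0 0 0 4
(.lf 2 true 1 true true 0 0) (.s 1 0 0 7 0 0 0 7
(.lf 2 true 2 false false 0 0) (.s 0 1 0 0 0 0 0 3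
(.lf 2 true 3 false true 0 0) (.s 4 0 0 0 0 2500 0 16158
(.s 0 3200672 0 0 0 0 0 11535918
(.s 0 86192 0 0 0 0 0 340124
(.lf 2 true 1 true true 0 0) (.s 1 0 118514 1000000 0 0 0 608374
(.s 2 489168 0 0 3000000 1869667 0 178167
(.lf 2 true 1 true true 0 0) (.lf 2 true 2 true false 0 0)) (.lf 2 true 1 true true 0 0))) (.s 0 400084 0 0 0 0 0 1219416
(.s 1 0 400084 3000000 0 0 0 1780582
(.lf 2 true 2 true false 0 0) (.s 0 118514 0 0 0 0 0 391624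
(.s 1 0 118514 1000000 0 0 0 608374
(.s 2 489168 0 0 3000000 1869667 0 178167
(.lf 2 true 1 true true 0 0) (.lf 2 true 2 true false 0 0)) (.lf 2 true 1 true true 0 0)) (.s 2 489168 0 0 3000000 1869667 0 178167
(.lf 2 true 1 true true 0 0) (.lf 2 true 2 true false 0 0)))) (.lf 2 true 2 true false 0 0))) (.lf 2 true 2 false false 0 0)))))) (.lf 2 true 2 false false 0 0))) (.s 0 5211 0 0 0 0 0 16158
(.s 3 16159 0 0 16159 0 0 10947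
(.lf 2 true 1 true false 0 0) (.s 4 1000 0 0 1000 0 0 2736
(.lf 2 true 1 true false 0 0) (.lf 2 true 2 false false 0 0))) (.s 3 16159 0 0 16159 0 0 5473
(.s 4 1000 0 0 1000 0 0 2736
(.lf 2 true 2 true false 0 0) (.lf 2 true 2 true false 0 0)) (.lf 2 true 2 true false 0 0)))))) (.lf 2 true 1 false false 0 0)) (.s 1 0 4 12 0 0 0 6
(.lf 1 true 2 true false 0 0) (.lf 2 true 2 true false 0 0))) (.s 4 0 0 0 0 4000 0 16158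
(.s 0 1 0 0 0 0 0 3
(.lf 3 true 1 true true 0 0) (.s 0 2 0 0 0 0 0 4
(.s 0 400084 0 0 0 0 0 1219416
(.s 0 311000 0 0 0 0 0 1130332
(.lf 3 true 1 true true 0 0) (.s 1 0 311000 1250000 0 0 0 119666
(.s 2 489168 0 0 1250000 119667 0 178167
(.lf 3 true 1 true true 0 0) (.lf 3 true 2 true false 0 0)) (.lf 3 true 1 true true 0 0))) (.s 0 430667 0 0 0 0 0 1249999
(.s 1 0 400084 1250000 0 0 0 30582
(.lf 3 true 2 true false 0 0) (.s 1 0 311000 1250000 0 0 0 119666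
(.s 2 489168 0 0 1250000 119667 0 178167
(.lf 3 true 1 true true 0 0) (.lf 3 true 2 true false 0 0)) (.lf 3 true 3 false true 0 0))) (.lf 3 true 2 true false 0 0))) (.lf 3 true 2 true false 0 0))) (.lf 3 true 1 false false 0 0))) (.s 1 0 0 1 0 0 0 0
(.s 0 4 0 0 0 0 0 4
(.s 1 0 4 12 0 0 0 6
(.lf 1 false 2 true false 0 0) (.lf 2 false 2 true false 0 0)) (.lf 0 false 2 false false 0 0)) (.s 0 4 0 0 0 0 0 4
(.lf 3 false 2 true false 0 0) (.s 0 11 0 0 0 0 0 11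
(.s 1 0 4 12 0 0 0 6
(.lf 0 false 2 false false 0 0) (.lf 0 false 2 false false 0 0)) (.lf 0 false 2 false false 0 0)))))

def i1_46a : T2 :=
(.k 189168 0 0 178168 119667 0 t1_46a_0)

theorem hi1_46a : chk2 (leaf1 a1_46 e1_46) 10000 i1_46a R46_1a = true := by
  decide +kernel

def t1_46b_0 : T3 :=
(.s 0 8 0 0 0 0 0 14
(.s 1 0 0 1 0 0 0 0
(.s 0 1 0 0 0 0 0 2
(.s 0 65389 0 0 0 0 0 228222
(.s 0 3 0 0 0 0 0 10
(.s 3 11 0 0 11 0 0 7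
(.s 4 7 0 0 7 0 4 2
(.lf 2 true 1 false false 1 0) (.lf 2 true 2 false false 1 0)) (.lf 2 true 2 false false 1 0)) (.lf 2 true 2 false false 1 0)) (.s 1 65389 0 0 0 0 0 228222
(.lf 2 true 2 false false 1 0) (.s 2 279111 0 0 0 425917 0 623610
(.lf 2 true 0 false true 1 0) (.lf 2 true 2 false false 1 0)))) (.s 1 0 4 12 0 0 0 6
(.s 0 1370615 0 0 0 0 0 2738675
(.lf 1 true 2 false false 1 0) (.s 1 65389 0 0 0 0 0 228222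
(.lf 1 true 2 false false 1 0) (.s 2 279111 0 0 0 425917 0 623610
(.lf 1 true 1 true true 1 0) (.lf 1 true 2 false false 1 0)))) (.s 0 1370615 0 0 0 0 0 2738675
(.s 1 65389 0 0 0 0 0 228222
(.lf 2 true 2 false false 1 0) (.s 2 279111 0 0 0 425917 0 623610
(.lf 2 true 1 false true 1 0) (.lf 2 true 2 false false 1 0))) (.s 2 279111 0 0 0 425917 0 623610
(.lf 2 true 0 false true 1 0) (.lf 2 true 2 false false 1 0))))) (.s 0 65389 0 0 0 0 0 228222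
(.s 1 65389 0 0 0 0 0 228222
(.s 0 3 0 0 0 0 0 10
(.s 3 11 0 0 11 0 0 7
(.s 4 7 0 0 7 0 4 2
(.lf 3 true 1 false false 1 0) (.lf 3 true 2 false false 1 0)) (.lf 3 true 2 false false 1 0)) (.lf 3 true 2 false false 1 0)) (.s 1 344500 0 0 0 0 0 425916
(.s 2 279111 0 0 0 425917 0 623610
(.lf 3 true 0 false true 1 0) (.lf 3 true 2 false false 1 0)) (.lf 3 true 1 false true 1 0))) (.s 1 344500 0 0 0 0 0 425916
(.s 2 279111 0 0 0 425917 0 623610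
(.lf 3 true 0 false true 1 0) (.lf 3 true 2 false false 1 0)) (.lf 3 true 0 false true 1 0)))) (.s 1 0 0 1 0 0 0 0
(.s 0 4 0 0 0 0 0 4
(.s 1 0 4 12 0 0 0 6
(.s 1 65389 0 0 0 0 0 228222
(.lf 1 false 2 false false 1 0) (.s 2 279111 0 0 0 425917 0 623610
(.lf 1 false 0 true true 1 0) (.lf 1 false 2 false false 1 0))) (.s 2 279111 0 0 0 425917 0 623610
(.lf 2 false 0 false true 1 0) (.lf 2 false 2 false false 1 0))) (.s 1 65389 0 0 0 0 0 228222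
(.lf 0 false 2 false false 1 0) (.s 0 344500 0 0 0 0 0 425916
(.s 2 279111 0 0 0 425917 0 623610
(.lf 0 false 0 false true 1 0) (.lf 0 false 2 false false 1 0)) (.s 1 344500 0 0 0 0 0 425916
(.s 2 279111 0 0 0 425917 0 623610
(.lf 0 false 0 false true 1 0) (.lf 0 false 2 false false 1 0)) (.lf 0 false 0 false true 1 0))))) (.s 0 4 0 0 0 0 0 4
(.s 1 344500 0 0 0 0 0 425916
(.s 2 279111 0 0 0 425917 0 623610
(.lf 3 false 0 false true 1 0) (.lf 3 false 2 false false 1 0)) (.lf 3 false 0 false true 1 0)) (.s 0 11 0 0 0 0 0 11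
(.s 1 0 4 12 0 0 0 6
(.s 0 344500 0 0 0 0 0 425916
(.s 0 1028792 0 0 0 0 0 1277750
(.s 2 279111 0 0 0 425917 0 623610
(.lf 0 false 0 false true 1 0) (.lf 0 false 2 false false 1 0)) (.s 1 344500 0 0 0 0 0 425916
(.s 2 279111 0 0 0 425917 0 623610
(.lf 0 false 0 false true 1 0) (.lf 0 false 2 false false 1 0)) (.lf 0 false 0 true true 1 0))) (.lf 0 false 0 true true 1 0)) (.s 0 1028792 0 0 0 0 0 1277750
(.s 1 344500 0 0 0 0 0 425916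
(.s 2 279111 0 0 0 425917 0 623610
(.lf 0 false 0 false true 1 0) (.lf 0 false 2 false false 1 0)) (.lf 0 false 0 false true 1 0)) (.lf 0 false 0 true true 1 0))) (.lf 0 false 0 false true 1 0)))))

def i1_46b : T2 :=
(.k 1258222 0 0 1247222 851834 0 t1_46b_0)

theorem hi1_46b : chk2 (leaf1 a1_46 e1_46) 10000 i1_46b R46_1b = true := by
  decide +kernel

def i1_46 : T2 := .s 3 0 0 4 0 10 i1_46a i1_46b

theorem hi1_46 : chk2 (leaf1 a1_46 e1_46) 10000 i1_46 R46 = true := chk2_s hi1_46a hi1_46b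

theorem ok46 : CellOk R46 a0_46 e0_46 a1_46 e1_46 :=
  ⟨lin46, ⟨_, ho00_46⟩, ⟨_, ho01_46⟩, ⟨_, ho10_46⟩, ⟨_, ho11_46⟩, ⟨_, hi0_46⟩, ⟨_, hi1_46⟩⟩

def R47 : Reg := ⟨⟨0, 0, 0, 0, 0, 0, 0⟩, ⟨1, 0, 0, 0, 0, 0, 0⟩, ⟨0, 0, 0, 0, 0, 0, 0⟩, ⟨1, 0, 0, 0, 0, 0, 0⟩, ⟨0, 0, 0, 0, 0, 0, 0⟩, ⟨0, 0, 0, 0, 1, 0, 0⟩, ⟨2, 0, 0, 0, 0, 0, 0⟩, ⟨4, 0, 0, 0, 0, 0, 0⟩, ⟨0, 0, 0, 0, 0, 0, 0⟩, ⟨0, 0, 0, 0, 1, 0, 0⟩⟩

def a0_47 : SF := mu 0 755641 377857 0 396446 0 3981527 0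

def e0_47 : SF := mu 2140538 0 0 0 0 0 0 11140538

def a1_47 : SF := mu 0 528970 264500 0 1000000 0 2041470 0

def e1_47 : SF := mu 1498356 0 0 0 0 0 0 8421456

theorem lin47 : chkLin R47 a0_47 e0_47 a1_47 e1_47 = true := by decide +kernel

def o00_47 : T3 :=
(.s 0 8 0 0 0 0 0 14
(.s 1 0 0 1 0 0 0 0
(.s 0 1 0 0 0 0 0 2
(.s 1 0 0 1 0 0 0 1
(.lf 2 true 0 true false 0 0) (.lf 2 true 0 true false 0 0)) (.s 1 0 4 12 0 0 0 6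
(.lf 1 true 0 true false 0 0) (.s 1 0 4 19 0 0 0 13
(.s 0 2 0 0 0 0 0 4
(.lf 2 true 0 true false 0 0) (.lf 2 true 0 true false 0 0)) (.lf 2 true 0 true false 0 0)))) (.lf 3 true 0 false false 0 0)) (.s 1 0 0 1 0 0 0 0
(.s 0 4 0 0 0 0 0 4
(.s 1 0 4 12 0 0 0 6
(.lf 1 false 0 true false 0 0) (.lf 2 false 0 true false 0 0)) (.lf 0 false 0 true false 0 0)) (.s 0 4 0 0 0 0 0 4
(.s 2 0 0 1 0 0 0 0
(.lf 3 false 0 true false 0 0) (.lf 3 false 0 false false 0 0)) (.s 0 11 0 0 0 0 0 11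
(.s 1 0 4 12 0 0 0 6
(.lf 0 false 0 true false 0 0) (.s 2 0 0 1 0 0 0 0
(.lf 0 false 0 true false 0 0) (.lf 0 false 0 false false 0 0))) (.lf 0 false 0 true false 0 0)))))

theorem ho00_47 : chk3 (leafO 10500000 3 a0_47 e0_47 R47.x0.ap R47.x0.m) o00_47 (full R47) = true := by
  decide +kernel

def o01_47 : T3 :=
(.s 0 8 0 0 0 0 0 14
(.s 1 0 0 1 0 0 0 0
(.s 0 1 0 0 0 0 0 2
(.s 1 0 0 1 0 0 0 1
(.lf 2 true 0 true false 0 0) (.lf 2 true 0 true false 0 0)) (.s 1 0 4 12 0 0 0 6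
(.s 0 2 0 0 0 0 0 4
(.lf 1 true 0 true false 0 0) (.s 0 9 0 0 0 0 0 19
(.lf 1 true 0 true false 0 0) (.lf 1 true 0 true false 0 0))) (.s 1 0 4 19 0 0 0 13
(.s 0 2 0 0 0 0 0 4
(.lf 2 true 0 true false 0 0) (.s 0 9 0 0 0 0 0 19
(.lf 2 true 0 true false 0 0) (.lf 2 true 0 true false 0 0))) (.lf 2 true 0 true false 0 0)))) (.lf 3 true 0 false false 0 0)) (.s 1 0 0 1 0 0 0 0
(.s 0 4 0 0 0 0 0 4
(.s 1 0 4 12 0 0 0 6
(.lf 1 false 0 true false 0 0) (.lf 2 false 0 true false 0 0)) (.lf 0 false 0 true false 0 0)) (.s 0 4 0 0 0 0 0 4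
(.s 2 0 0 1 0 0 0 0
(.lf 3 false 0 true false 0 0) (.lf 3 false 0 false false 0 0)) (.s 0 11 0 0 0 0 0 11
(.s 1 0 4 12 0 0 0 6
(.s 2 0 0 1 0 0 0 0
(.lf 0 false 0 true false 0 0) (.lf 0 false 0 false false 0 0)) (.s 2 0 0 1 0 0 0 0
(.lf 0 false 0 true false 0 0) (.lf 0 false 0 false false 0 0))) (.s 2 0 0 1 0 0 0 0
(.lf 0 false 0 true false 0 0) (.lf 0 false 0 false false 0 0))))))

theorem ho01_47 : chk3 (leafO 10500000 3 a0_47 e0_47 R47.x1.ap R47.x1.m) o01_47 (full R47) = true := by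
  decide +kernel

def o10_47 : T3 :=
(.s 0 8 0 0 0 0 0 14
(.s 1 0 0 1 0 0 0 0
(.s 0 1 0 0 0 0 0 2
(.s 1 0 0 1 0 0 0 1
(.lf 2 true 0 true false 0 0) (.lf 2 true 0 true false 0 0)) (.s 1 0 4 12 0 0 0 6
(.s 0 2 0 0 0 0 0 4
(.lf 1 true 0 true false 0 0) (.lf 1 true 0 true false 0 0)) (.s 1 0 4 19 0 0 0 13
(.s 0 2 0 0 0 0 0 4
(.lf 2 true 0 true false 0 0) (.s 0 9 0 0 0 0 0 19
(.lf 2 true 0 true false 0 0) (.lf 2 true 0 true false 0 0))) (.lf 2 true 0 true false 0 0)))) (.lf 3 true 0 false false 0 0)) (.s 1 0 0 1 0 0 0 0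
(.s 0 4 0 0 0 0 0 4
(.s 1 0 4 12 0 0 0 6
(.lf 1 false 0 true false 0 0) (.lf 2 false 0 true false 0 0)) (.lf 0 false 0 true false 0 0)) (.s 0 4 0 0 0 0 0 4
(.lf 3 false 0 true false 0 0) (.s 0 11 0 0 0 0 0 11
(.s 1 0 4 12 0 0 0 6
(.lf 0 false 0 true false 0 0) (.lf 0 false 0 true false 0 0)) (.lf 0 false 0 true false 0 0)))))

theorem ho10_47 : chk3 (leafO 5554500 1 a1_47 e1_47 R47.x0.ap R47.x0.m) o10_47 (full R47) = true := by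
  decide +kernel

def o11_47 : T3 :=
(.s 0 8 0 0 0 0 0 14
(.s 1 0 0 1 0 0 0 0
(.s 0 1 0 0 0 0 0 2
(.s 1 0 0 1 0 0 0 1
(.lf 2 true 0 true false 0 0) (.lf 2 true 0 false false 0 0)) (.s 1 0 4 12 0 0 0 6
(.s 0 2 0 0 0 0 0 4
(.lf 1 true 0 true false 0 0) (.s 0 9 0 0 0 0 0 19
(.lf 1 true 0 true false 0 0) (.lf 1 true 0 true false 0 0))) (.s 1 0 4 19 0 0 0 13
(.s 0 2 0 0 0 0 0 4
(.lf 2 true 0 true false 0 0) (.s 0 9 0 0 0 0 0 19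
(.lf 2 true 0 true false 0 0) (.lf 2 true 0 true false 0 0))) (.lf 2 true 0 true false 0 0)))) (.lf 3 true 0 false false 0 0)) (.s 1 0 0 1 0 0 0 0
(.s 0 4 0 0 0 0 0 4
(.s 1 0 4 12 0 0 0 6
(.lf 1 false 0 true false 0 0) (.lf 2 false 0 true false 0 0)) (.lf 0 false 0 true false 0 0)) (.s 0 4 0 0 0 0 0 4
(.lf 3 false 0 true false 0 0) (.s 0 11 0 0 0 0 0 11
(.s 1 0 4 12 0 0 0 6
(.lf 0 false 0 true false 0 0) (.lf 0 false 0 true false 0 0)) (.lf 0 false 0 true false 0 0)))))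

theorem ho11_47 : chk3 (leafO 5554500 1 a1_47 e1_47 R47.x1.ap R47.x1.m) o11_47 (full R47) = true := by
  decide +kernel

def t0_47_0 : T3 :=
(.s 0 8 0 0 0 0 0 14
(.s 1 0 0 1 0 0 0 0
(.s 0 1 0 0 0 0 0 2
(.lf 2 true 1 false false 0 0) (.s 1 0 4 12 0 0 0 6
(.lf 1 true 1 false false 0 0) (.lf 2 true 1 false false 0 0))) (.lf 3 true 1 false false 0 0)) (.s 1 0 0 1 0 0 0 0
(.s 0 4 0 0 0 0 0 4
(.s 1 0 4 12 0 0 0 6
(.lf 1 false 1 false false 0 0) (.lf 2 false 1 false false 0 0)) (.lf 0 false 0 false false 0 0)) (.s 0 4 0 0 0 0 0 4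
(.lf 3 false 1 false false 0 0) (.s 0 11 0 0 0 0 0 11
(.s 1 0 4 12 0 0 0 6
(.lf 0 false 1 true false 0 0) (.lf 0 false 1 true false 0 0)) (.lf 0 false 0 false false 0 0)))))

def i0_47 : T2 :=
(.k 1000 0 55077 0 2400 0 t0_47_0)

theorem hi0_47 : chk2 (leaf0 a0_47 e0_47) 0 i0_47 R47 = true := by
  decide +kernel

def t1_47_0 : T3 :=
(.s 0 8 0 0 0 0 0 14
(.s 1 0 0 1 0 0 0 0
(.s 0 1 0 0 0 0 0 2
(.s 4 0 0 0 0 4000 0 16158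
(.s 0 311 0 0 0 0 0 2999
(.lf 2 true 3 false true 0 0) (.s 0 31100 0 0 0 0 0 113136
(.s 1 0 31100 300000 0 0 0 186862
(.lf 2 true 2 true false 0 0) (.s 0 311 0 0 0 0 0 1249
(.s 1 0 311 3000 0 0 0 1749
(.s 2 31100 0 0 300000 186863 0 11862
(.lf 2 true 3 false true 0 0) (.lf 2 true 2 true false 0 0)) (.lf 2 true 3 false true 0 0)) (.s 2 31100 0 0 300000 186863 0 11862
(.lf 2 true 1 true true 0 0) (.lf 2 true 2 true false 0 0)))) (.s 1 0 0 1 0 0 0 1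
(.lf 2 true 2 true false 0 0) (.lf 2 true 2 true false 0 0)))) (.lf 2 true 2 false false 0 0)) (.s 1 0 4 12 0 0 0 6
(.s 0 2 0 0 0 0 0 4
(.lf 1 true 2 false false 0 0) (.s 0 9 0 0 0 0 0 19
(.lf 1 true 2 false false 0 0) (.s 0 1 0 0 0 0 0 1
(.s 0 19 0 0 0 0 0 39
(.lf 1 true 2 false false 0 0) (.lf 1 true 2 false false 0 0)) (.lf 1 true 2 true false 0 0)))) (.s 1 0 4 19 0 0 0 13
(.s 0 2 0 0 0 0 0 4
(.s 0 3 0 0 0 0 0 7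
(.lf 2 true 2 true false 0 0) (.lf 2 true 2 true false 0 0)) (.s 0 9 0 0 0 0 0 19
(.s 0 17 0 0 0 0 0 39
(.lf 2 true 2 true false 0 0) (.lf 2 true 2 true false 0 0)) (.s 0 1 0 0 0 0 0 1
(.s 0 19 0 0 0 0 0 39
(.lf 2 true 2 true false 0 0) (.lf 2 true 2 false false 0 0)) (.lf 2 true 2 true false 0 0)))) (.lf 2 true 2 true false 0 0)))) (.s 4 1000 0 0 1000 0 0 2736
(.lf 3 true 1 true false 0 0) (.lf 3 true 2 false false 0 0))) (.s 1 0 0 1 0 0 0 0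
(.s 0 4 0 0 0 0 0 4
(.s 1 0 4 12 0 0 0 6
(.lf 1 false 2 false false 0 0) (.lf 2 false 2 false false 0 0)) (.lf 0 false 2 false false 0 0)) (.s 0 4 0 0 0 0 0 4
(.lf 3 false 2 false false 0 0) (.s 0 11 0 0 0 0 0 11
(.s 1 0 4 12 0 0 0 6
(.lf 0 false 2 false false 0 0) (.lf 0 false 2 false false 0 0)) (.lf 0 false 2 false false 0 0)))))

def t1_47_1 : T3 :=
(.s 0 8 0 0 0 0 0 14
(.s 1 0 0 1 0 0 0 0
(.s 0 1 0 0 0 0 0 2
(.lf 2 true 2 false false 2 0) (.s 1 0 4 12 0 0 0 6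
(.lf 1 true 0 true false 2 0) (.s 0 2 0 0 0 0 0 4
(.s 1 0 622 6000 0 0 0 5496
(.lf 2 true 2 false false 2 0) (.lf 2 true 2 false false 1 0)) (.lf 2 true 2 false false 2 0)))) (.s 1 1378 0 0 0 0 0 1996
(.lf 3 true 2 false false 1 0) (.lf 3 true 1 false true 1 0))) (.s 1 0 0 1 0 0 0 0
(.s 0 4 0 0 0 0 0 4
(.s 1 0 4 12 0 0 0 6
(.s 0 2939 0 0 0 0 0 3993
(.lf 1 false 2 false false 1 0) (.s 1 1378 0 0 0 0 0 1996
(.lf 1 false 2 false false 1 0) (.lf 1 false 0 false true 1 0))) (.s 0 2939 0 0 0 0 0 3993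
(.s 1 0 622 6000 0 0 0 5496
(.lf 2 false 2 false false 1 0) (.lf 2 false 0 true true 2 0)) (.lf 2 false 0 true true 1 0))) (.s 1 1378 0 0 0 0 0 1996
(.lf 0 false 2 false false 1 0) (.lf 0 false 0 false true 1 0))) (.s 0 4 0 0 0 0 0 4
(.lf 3 false 0 true true 1 0) (.s 0 11 0 0 0 0 0 11
(.s 1 0 4 12 0 0 0 6
(.lf 0 false 0 false true 1 0) (.lf 0 false 0 false true 1 0)) (.lf 0 false 0 false true 1 0)))))

def i1_47 : T2 :=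
(.s 3 0 0 4 0 10
(.k 11000 0 0 118630 118630 0 t1_47_0) (.k 11000 0 0 0 998500 0 t1_47_1))

theorem hi1_47 : chk2 (leaf1 a1_47 e1_47) 10000 i1_47 R47 = true := by
  decide +kernel

theorem ok47 : CellOk R47 a0_47 e0_47 a1_47 e1_47 :=
  ⟨lin47, ⟨_, ho00_47⟩, ⟨_, ho01_47⟩, ⟨_, ho10_47⟩, ⟨_, ho11_47⟩, ⟨_, hi0_47⟩, ⟨_, hi1_47⟩⟩

end

end Vale.Agent.P334.Cert
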