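import Vale.Agent.P334.CertDefs

/-!
Data of the dual certificate, checked cell by cell.
-/

namespace Vale.Agent.P334.Cert

noncomputable section

def R1 : Reg := ⟨⟨0, 0, 0, 0, 0, 0, 0⟩, ⟨1, 0, 0, 0, 0, 0, 0⟩, ⟨0, 0, 0, 0, 0, 0, 0⟩, ⟨1, 0, 0, 0, 0, 0, 3⟩, ⟨0, 0, 0, 0, 0, 0, 0⟩, ⟨0, 0, 0, 0, 1, 0, 0⟩, ⟨1, 0, 0, 0, 0, 0, 9⟩, ⟨1, 0, 0, 0, 0, 0, 3⟩, ⟨0, 0, 0, 0, 0, 0, 0⟩, ⟨0, 0, 0, 0, 1, 0, 0⟩⟩

def a0_1 : SF := mu 0 0 0 0 51310 0 826801 0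

def e0_1 : SF := mu 0 0 0 0 37432 0 0 1862060

def a1_1 : SF := mu 0 0 0 0 608154 0 6482 0

def e1_1 : SF := mu 0 0 0 0 28771 0 0 1432377

theorem lin1 : chkLin R1 a0_1 e0_1 a1_1 e1_1 = true := by decide +kernel

def o00_1 : T3 :=
(.s 0 8 0 0 0 0 0 14
(.s 0 1 0 0 0 0 0 3
(.s 1 0 0 1 0 0 0 0
(.lf 2 true 0 true false 0 0) (.lf 3 true 0 false false 0 0)) (.s 0 1 0 0 0 0 0 2
(.lf 2 true 0 true false 0 0) (.s 0 23 0 0 0 0 0 47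
(.s 1 0 4 12 0 0 0 6
(.lf 1 true 0 true false 0 0) (.lf 2 true 0 true false 0 0)) (.lf 1 true 0 true false 0 0)))) (.lf 1 false 0 true false 0 0))

theorem ho00_1 : chk3 (leafO 10500000 3 a0_1 e0_1 R1.x0.ap R1.x0.m) o00_1 (full R1) = true := by
  decide +kernel

def o01_1 : T3 :=
(.s 0 8 0 0 0 0 0 14
(.s 0 1 0 0 0 0 0 3
(.s 1 0 0 1 0 0 0 0
(.lf 2 true 0 true false 0 0) (.lf 3 true 0 false false 0 0)) (.s 0 1 0 0 0 0 0 2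
(.lf 2 true 0 true false 0 0) (.s 0 23 0 0 0 0 0 47
(.s 1 0 4 12 0 0 0 6
(.lf 1 true 0 true false 0 0) (.lf 2 true 0 true false 0 0)) (.lf 1 true 0 true false 0 0)))) (.lf 1 false 0 true false 0 0))

theorem ho01_1 : chk3 (leafO 10500000 3 a0_1 e0_1 R1.x1.ap R1.x1.m) o01_1 (full R1) = true := by
  decide +kernel

def o10_1 : T3 :=
(.s 0 8 0 0 0 0 0 14
(.s 0 1 0 0 0 0 0 3
(.s 1 0 0 1 0 0 0 0
(.s 1 0 0 1 0 0 0 1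
(.lf 2 true 0 true false 0 0) (.lf 2 true 0 true false 0 0)) (.s 2 0 0 1 0 0 0 0
(.lf 3 true 0 true false 0 0) (.lf 3 true 0 false false 0 0))) (.s 0 1 0 0 0 0 0 2
(.s 1 1 0 0 0 0 0 9
(.lf 2 true 0 true false 0 0) (.lf 2 true 0 true false 0 0)) (.s 0 23 0 0 0 0 0 47
(.s 1 0 4 12 0 0 0 6
(.lf 1 true 0 true false 0 0) (.lf 2 true 0 true false 0 0)) (.lf 1 true 0 true false 0 0)))) (.lf 1 false 0 true false 0 0))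

theorem ho10_1 : chk3 (leafO 5554500 1 a1_1 e1_1 R1.x0.ap R1.x0.m) o10_1 (full R1) = true := by
  decide +kernel

def o11_1 : T3 :=
(.s 0 8 0 0 0 0 0 14
(.s 0 1 0 0 0 0 0 3
(.s 1 0 0 1 0 0 0 0
(.s 1 0 0 1 0 0 0 1
(.lf 2 true 0 true false 0 0) (.lf 2 true 0 true false 0 0)) (.s 2 0 0 1 0 0 0 0
(.lf 3 true 0 true false 0 0) (.lf 3 true 0 false false 0 0))) (.s 0 1 0 0 0 0 0 2
(.s 1 1 0 0 0 0 0 9
(.lf 2 true 0 true false 0 0) (.lf 2 true 0 true false 0 0)) (.s 0 23 0 0 0 0 0 47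
(.s 1 0 4 12 0 0 0 6
(.lf 1 true 0 true false 0 0) (.lf 2 true 0 true false 0 0)) (.lf 1 true 0 true false 0 0)))) (.lf 1 false 0 true false 0 0))

theorem ho11_1 : chk3 (leafO 5554500 1 a1_1 e1_1 R1.x1.ap R1.x1.m) o11_1 (full R1) = true := by
  decide +kernel

def t0_1_0 : T3 :=
(.s 0 8 0 0 0 0 0 14
(.s 0 1 0 0 0 0 0 3
(.s 1 0 0 1 0 0 0 0
(.lf 2 true 1 true false 0 0) (.lf 3 true 1 true false 0 0)) (.s 0 1 0 0 0 0 0 2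
(.s 0 3 0 0 0 0 0 9
(.lf 2 true 1 true false 0 0) (.lf 2 true 1 true false 0 0)) (.s 0 23 0 0 0 0 0 47
(.s 1 0 4 12 0 0 0 6
(.lf 1 true 1 false false 0 0) (.s 0 2 0 0 0 0 0 4
(.s 0 3 0 0 0 0 0 7
(.lf 2 true 1 true false 0 0) (.lf 2 true 1 true false 0 0)) (.lf 2 true 1 true false 0 0))) (.lf 1 true 1 false false 0 0)))) (.lf 1 false 0 false false 0 0))

def t0_1_1 : T3 :=
(.s 0 8 0 0 0 0 0 14
(.s 0 1 0 0 0 0 0 3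
(.s 1 0 0 1 0 0 0 0
(.lf 2 true 1 true false 0 0) (.lf 3 true 1 true false 0 0)) (.s 0 1 0 0 0 0 0 2
(.lf 2 true 1 true false 0 0) (.s 0 23 0 0 0 0 0 47
(.s 1 0 4 12 0 0 0 6
(.lf 1 true 1 false false 0 0) (.lf 2 true 1 true false 0 0)) (.lf 1 true 1 false false 0 0)))) (.lf 1 false 0 false false 0 0))

def t0_1_2 : T3 :=
(.s 0 8 0 0 0 0 0 14
(.s 0 1 0 0 0 0 0 9
(.s 1 0 0 1 0 0 0 0
(.lf 2 true 1 true false 0 0) (.lf 3 true 1 true false 0 0)) (.s 0 1 0 0 0 0 0 2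
(.s 0 1 0 0 0 0 0 3
(.lf 2 true 1 true false 0 0) (.lf 2 true 1 true false 0 0)) (.s 0 47 0 0 0 0 0 119
(.s 1 0 4 12 0 0 0 6
(.lf 1 true 1 false false 0 0) (.lf 2 true 1 true false 0 0)) (.lf 1 true 1 true false 0 0)))) (.lf 1 false 0 false false 0 0))

def t0_1_3 : T3 :=
(.s 0 8 0 0 0 0 0 14
(.s 0 1 0 0 0 0 0 9
(.lf 3 true 1 true false 0 0) (.s 0 1 0 0 0 0 0 3
(.s 1 0 0 1 0 0 0 0
(.lf 2 true 1 true false 0 0) (.lf 3 true 1 true false 0 0)) (.s 0 47 0 0 0 0 0 119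
(.s 0 3 0 0 0 0 0 9
(.lf 2 true 1 true false 0 0) (.lf 2 true 1 true false 0 0)) (.s 0 23 0 0 0 0 0 47
(.s 1 0 4 12 0 0 0 6
(.lf 1 true 1 false false 0 0) (.lf 2 true 1 true false 0 0)) (.lf 1 true 1 false false 0 0))))) (.lf 1 false 0 true false 0 0))

def t0_1_4 : T3 :=
(.s 0 8 0 0 0 0 0 14
(.s 0 1 0 0 0 0 0 9
(.lf 3 true 1 true false 0 0) (.s 0 1 0 0 0 0 0 3
(.s 1 0 0 1 0 0 0 0
(.lf 2 true 1 true false 0 0) (.lf 3 true 1 true false 0 0)) (.s 0 47 0 0 0 0 0 119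
(.lf 2 true 1 true false 0 0) (.s 0 23 0 0 0 0 0 47
(.s 1 0 4 12 0 0 0 6
(.lf 1 true 1 true false 0 0) (.lf 2 true 1 true false 0 0)) (.lf 1 true 1 false false 0 0))))) (.lf 1 false 0 true false 0 0))

def t0_1_5 : T3 :=
(.s 0 8 0 0 0 0 0 14
(.s 0 1 0 0 0 0 0 3
(.s 1 0 0 1 0 0 0 0
(.lf 2 true 1 true false 0 0) (.lf 3 true 1 true false 0 0)) (.s 0 1 0 0 0 0 0 2
(.lf 2 true 1 true false 0 0) (.s 0 23 0 0 0 0 0 47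
(.s 1 0 4 12 0 0 0 6
(.lf 1 true 1 false false 0 0) (.lf 2 true 1 true false 0 0)) (.lf 1 true 1 false false 0 0)))) (.lf 1 false 0 false false 0 0))

def t0_1_6 : T3 :=
(.s 0 8 0 0 0 0 0 14
(.s 0 1 0 0 0 0 0 3
(.s 1 0 0 1 0 0 0 0
(.lf 2 true 1 true false 0 0) (.lf 3 true 1 true false 0 0)) (.s 0 1 0 0 0 0 0 2
(.lf 2 true 1 true false 0 0) (.s 0 23 0 0 0 0 0 47
(.s 1 0 4 12 0 0 0 6
(.lf 1 true 1 false false 0 0) (.lf 2 true 1 true false 0 0)) (.lf 1 true 1 false false 0 0)))) (.lf 1 false 0 false false 0 0))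

def i0_1 : T2 :=
(.s 3 0 0 1 0 1
(.s 3 0 0 1 0 3
(.s 3 0 0 1 0 9
(.k 751083 0 0 695921 0 2061143 t0_1_0) (.k 851274 0 0 708748 0 2290159 t0_1_1)) (.s 0 1 0 0 0 9
(.k 1035000 0 0 3876113 0 5000000 t0_1_2) (.s 3 0 0 2 0 4
(.k 1052521 0 0 971563 0 2748191 t0_1_3) (.k 1356130 0 0 1247425 0 3546543 t0_1_4)))) (.s 3 0 0 3 0 3
(.k 1707900 0 0 1247425 0 4150608 t0_1_5) (.k 2000000 0 0 1261408 0 4297405 t0_1_6)))

theorem hi0_1 : chk2 (leaf0 a0_1 e0_1) 0 i0_1 R1 = true := by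
  decide +kernel

def t1_1_0 : T3 :=
(.s 0 8 0 0 0 0 0 14
(.s 0 1 0 0 0 0 0 3
(.s 1 0 0 1 0 0 0 0
(.s 1 0 0 1 0 0 0 1
(.s 0 1 0 0 0 0 0 9
(.lf 2 true 1 true false 0 1) (.s 1 0 0 1 0 0 0 3
(.lf 2 true 1 true false 0 1) (.lf 2 true 1 true false 0 1))) (.lf 2 true 1 true false 0 1)) (.lf 3 true 1 true false 0 1)) (.s 0 1 0 0 0 0 0 2
(.s 1 1 0 0 0 0 0 9
(.s 0 3 0 0 0 0 0 9
(.s 0 11 0 0 0 0 0 39
(.lf 2 true 1 true false 0 1) (.lf 2 true 1 true false 0 1)) (.lf 2 true 1 true false 0 1)) (.s 1 1 0 0 0 0 0 4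
(.s 1 3 0 0 0 0 0 19
(.s 0 3 0 0 0 0 0 9
(.s 0 11 0 0 0 0 0 39
(.lf 2 true 1 true false 0 1) (.lf 2 true 1 true false 0 1)) (.lf 2 true 1 true false 0 1)) (.s 0 3 0 0 0 0 0 9
(.s 0 11 0 0 0 0 0 39
(.lf 2 true 1 true false 0 1) (.lf 2 true 1 true false 0 1)) (.lf 2 true 1 true false 0 1))) (.lf 2 true 1 true false 0 1))) (.s 0 23 0 0 0 0 0 47
(.s 1 0 4 12 0 0 0 6
(.s 0 2 0 0 0 0 0 4
(.lf 1 true 1 false false 0 1) (.s 0 9 0 0 0 0 0 19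
(.lf 1 true 1 false false 0 1) (.lf 1 true 1 false false 0 1))) (.s 1 0 9 48 0 0 0 55
(.s 0 2 0 0 0 0 0 4
(.s 0 3 0 0 0 0 0 7
(.lf 2 true 1 true false 0 1) (.lf 2 true 1 true false 0 1)) (.s 0 9 0 0 0 0 0 19
(.s 0 17 0 0 0 0 0 39
(.lf 2 true 1 true false 0 1) (.lf 2 true 1 true false 0 1)) (.lf 2 true 1 true false 0 1))) (.s 0 2 0 0 0 0 0 4
(.s 1 5 0 48 0 0 0 111
(.lf 2 true 1 true false 0 1) (.lf 2 true 1 true false 0 1)) (.lf 2 true 1 true false 0 1)))) (.lf 1 true 1 false false 0 1)))) (.s 0 3 0 0 0 0 0 3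
(.lf 1 false 1 false false 0 2) (.s 0 24763 0 0 0 0 0 27499
(.s 0 8263 0 0 0 0 0 10999
(.lf 1 false 1 false false 0 2) (.s 3 2750 0 0 2750 0 0 2736
(.lf 1 false 1 false false 0 2) (.s 4 1000 0 0 1000 0 0 2736
(.lf 1 false 2 false false 0 0) (.lf 1 false 2 false false 0 0)))) (.s 4 1000 0 0 1000 0 0 2736
(.lf 0 false 2 false false 0 0) (.lf 0 false 2 false false 0 0)))))

def t1_1_1 : T3 :=
(.s 0 8 0 0 0 0 0 14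
(.s 0 1 0 0 0 0 0 3
(.s 1 0 0 1 0 0 0 0
(.lf 2 true 1 true false 2 1) (.lf 3 true 1 true false 2 1)) (.s 0 1 0 0 0 0 0 2
(.lf 2 true 1 true false 2 1) (.s 0 23 0 0 0 0 0 47
(.s 1 0 4 12 0 0 0 6
(.lf 1 true 1 false false 2 1) (.lf 2 true 1 true false 2 1)) (.lf 1 true 1 false false 2 1)))) (.s 1 91381 0 0 0 0 0 368533
(.s 1 91381 0 0 0 0 0 605085
(.s 0 3 0 0 0 0 0 3
(.lf 1 false 1 false false 2 2) (.lf 1 false 0 false true 1 2)) (.s 2 91381 0 0 0 0 368534 236551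
(.lf 1 false 1 false true 1 2) (.lf 1 false 2 false false 1 2))) (.lf 1 false 2 false false 1 2)))

def i1_1 : T2 :=
(.s 3 0 0 4 0 10
(.k 134739 0 0 43583 0 1362 t1_1_0) (.k 974143 0 0 709656 0 1105602 t1_1_1))

theorem hi1_1 : chk2 (leaf1 a1_1 e1_1) 10000 i1_1 R1 = true := by
  decide +kernel

theorem ok1 : CellOk R1 a0_1 e0_1 a1_1 e1_1 :=
  ⟨lin1, ⟨_, ho00_1⟩, ⟨_, ho01_1⟩, ⟨_, ho10_1⟩, ⟨_, ho11_1⟩, ⟨_, hi0_1⟩, ⟨_, hi1_1⟩⟩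

def R6 : Reg := ⟨⟨0, 0, 0, 0, 0, 0, 0⟩, ⟨1, 0, 0, 0, 0, 0, 0⟩, ⟨0, 0, 0, 0, 0, 0, 0⟩, ⟨1, 0, 0, 0, 0, 0, 1⟩, ⟨1, 0, 0, 0, 7, 0, 7⟩, ⟨1, 0, 0, 0, 3, 0, 3⟩, ⟨0, 0, 0, 0, 0, 0, 0⟩, ⟨1, 0, 0, 0, 0, 0, 3⟩, ⟨0, 0, 0, 0, 0, 0, 0⟩, ⟨0, 0, 0, 0, 1, 0, 0⟩⟩

def a0_6 : SF := mu 0 0 219300 0 0 0 0 0

def e0_6 : SF := mu 0 0 890100 0 0 0 0 0

def a1_6 : SF := mu 0 0 153489 0 0 0 0 0

def e1_6 : SF := mu 0 0 381033 0 0 0 0 0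

theorem lin6 : chkLin R6 a0_6 e0_6 a1_6 e1_6 = true := by decide +kernel

def o00_6 : T3 :=
(.s 0 8 0 0 0 0 0 14
(.s 0 1 0 0 0 0 0 1
(.s 1 0 0 1 0 0 0 0
(.s 0 1 0 0 0 0 0 2
(.lf 2 true 0 false false 0 0) (.s 1 0 4 12 0 0 0 6
(.lf 1 true 0 true false 0 0) (.lf 2 true 0 false false 0 0))) (.lf 3 true 0 false false 0 0)) (.s 1 0 4 12 0 0 0 6
(.lf 1 true 0 true false 0 0) (.lf 2 true 0 false false 0 0))) (.s 0 5 0 0 0 0 0 7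
(.s 1 0 4 12 0 0 0 6
(.lf 1 false 0 false false 0 0) (.lf 2 false 0 false false 0 0)) (.lf 1 false 0 false false 0 0)))

theorem ho00_6 : chk3 (leafO 10500000 3 a0_6 e0_6 R6.x0.ap R6.x0.m) o00_6 (full R6) = true := by
  decide +kernel

def o01_6 : T3 :=
(.s 0 8 0 0 0 0 0 14
(.s 0 1 0 0 0 0 0 1
(.s 1 0 0 1 0 0 0 0
(.s 0 1 0 0 0 0 0 2
(.lf 2 true 0 false false 0 0) (.s 1 0 4 12 0 0 0 6
(.lf 1 true 0 true false 0 0) (.lf 2 true 0 false false 0 0))) (.lf 3 true 0 false false 0 0)) (.s 1 0 4 12 0 0 0 6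
(.lf 1 true 0 true false 0 0) (.lf 2 true 0 false false 0 0))) (.s 0 5 0 0 0 0 0 7
(.s 1 0 4 12 0 0 0 6
(.lf 1 false 0 false false 0 0) (.lf 2 false 0 false false 0 0)) (.lf 1 false 0 false false 0 0)))

theorem ho01_6 : chk3 (leafO 10500000 3 a0_6 e0_6 R6.x1.ap R6.x1.m) o01_6 (full R6) = true := by
  decide +kernel

def o10_6 : T3 :=
(.s 0 8 0 0 0 0 0 14
(.s 0 1 0 0 0 0 0 1
(.s 1 0 0 1 0 0 0 0
(.s 0 1 0 0 0 0 0 2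
(.lf 2 true 0 false false 0 0) (.s 1 0 4 12 0 0 0 6
(.lf 1 true 0 true false 0 0) (.lf 2 true 0 false false 0 0))) (.lf 3 true 0 false false 0 0)) (.s 1 0 4 12 0 0 0 6
(.lf 1 true 0 true false 0 0) (.lf 2 true 0 false false 0 0))) (.s 0 5 0 0 0 0 0 7
(.s 1 0 4 12 0 0 0 6
(.lf 1 false 0 false false 0 0) (.lf 2 false 0 false false 0 0)) (.lf 1 false 0 false false 0 0)))

theorem ho10_6 : chk3 (leafO 5554500 1 a1_6 e1_6 R6.x0.ap R6.x0.m) o10_6 (full R6) = true := by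
  decide +kernel

def o11_6 : T3 :=
(.s 0 8 0 0 0 0 0 14
(.s 0 1 0 0 0 0 0 1
(.s 1 0 0 1 0 0 0 0
(.s 0 1 0 0 0 0 0 2
(.lf 2 true 0 false false 0 0) (.s 1 0 4 12 0 0 0 6
(.lf 1 true 0 true false 0 0) (.lf 2 true 0 false false 0 0))) (.lf 3 true 0 false false 0 0)) (.s 1 0 4 12 0 0 0 6
(.lf 1 true 0 true false 0 0) (.lf 2 true 0 false false 0 0))) (.s 0 5 0 0 0 0 0 7
(.s 1 0 4 12 0 0 0 6
(.lf 1 false 0 false false 0 0) (.lf 2 false 0 false false 0 0)) (.lf 1 false 0 false false 0 0)))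

theorem ho11_6 : chk3 (leafO 5554500 1 a1_6 e1_6 R6.x1.ap R6.x1.m) o11_6 (full R6) = true := by
  decide +kernel

def t0_6_0 : T3 :=
(.s 0 8 0 0 0 0 0 14
(.s 0 1 0 0 0 0 0 1
(.s 1 0 0 1 0 0 0 0
(.s 0 1 0 0 0 0 0 2
(.s 0 1 0 0 0 0 0 4
(.s 0 1 0 0 0 0 0 9
(.lf 2 true 1 true false 0 0) (.s 0 3 0 0 0 0 0 19
(.lf 2 true 1 true false 0 0) (.lf 2 true 1 true false 0 0))) (.s 1 0 0 1 0 0 0 1
(.lf 2 true 1 true false 0 0) (.lf 2 true 1 true false 0 0))) (.s 1 0 4 12 0 0 0 6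
(.lf 1 true 1 false false 0 0) (.s 1 0 4 19 0 0 0 13
(.lf 2 true 1 true false 0 0) (.lf 2 true 1 true false 0 0)))) (.s 0 1 0 0 0 0 0 3
(.lf 3 true 1 true false 0 0) (.lf 3 true 1 true false 0 0))) (.s 1 0 4 12 0 0 0 6
(.lf 1 true 1 false false 0 0) (.lf 2 true 1 true false 0 0))) (.s 0 5 0 0 0 0 0 7
(.s 1 0 4 12 0 0 0 6
(.lf 1 false 1 false false 0 0) (.lf 2 false 1 true false 0 0)) (.lf 1 false 0 false false 0 0)))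

def t0_6_1 : T3 :=
(.s 0 8 0 0 0 0 0 14
(.s 0 1 0 0 0 0 0 1
(.s 1 0 0 1 0 0 0 0
(.s 0 1 0 0 0 0 0 2
(.s 0 1 0 0 0 0 0 4
(.lf 2 true 1 true false 0 0) (.lf 2 true 1 true false 0 0)) (.s 1 0 4 12 0 0 0 6
(.lf 1 true 1 false false 0 0) (.lf 2 true 1 true false 0 0))) (.lf 3 true 1 true false 0 0)) (.s 1 0 4 12 0 0 0 6
(.lf 1 true 1 false false 0 0) (.lf 2 true 1 false false 0 0))) (.s 0 5 0 0 0 0 0 7
(.s 1 0 4 12 0 0 0 6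
(.lf 1 false 1 false false 0 0) (.lf 2 false 1 false false 0 0)) (.lf 1 false 0 false false 0 0)))

def i0_6 : T2 :=
(.s 3 0 0 1 0 1
(.k 346282 0 0 1098252 766351 0 t0_6_0) (.k 769510 0 0 1315311 1186705 0 t0_6_1))

theorem hi0_6 : chk2 (leaf0 a0_6 e0_6) 0 i0_6 R6 = true := by
  decide +kernel

def t1_6_0 : T3 :=
(.s 0 8 0 0 0 0 0 14
(.s 0 1 0 0 0 0 0 1
(.s 1 0 0 1 0 0 0 0
(.s 0 1 0 0 0 0 0 2
(.s 0 1 0 0 0 0 0 4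
(.lf 2 true 1 true false 0 1) (.s 1 0 0 1 0 0 0 1
(.s 1 0 0 1 0 0 0 3
(.s 0 1 0 0 0 0 0 3
(.lf 2 true 1 true false 0 1) (.lf 2 true 1 true false 0 1)) (.lf 2 true 1 true false 0 1)) (.lf 2 true 1 true false 0 1))) (.s 1 0 4 12 0 0 0 6
(.lf 1 true 1 false false 0 1) (.s 1 0 4 19 0 0 0 13
(.lf 2 true 1 true false 0 1) (.lf 2 true 1 true false 0 1)))) (.lf 3 true 1 true false 0 1)) (.s 1 0 4 12 0 0 0 6
(.lf 1 true 1 false false 0 1) (.lf 2 true 1 true false 0 1))) (.s 0 5 0 0 0 0 0 7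
(.s 1 0 4 12 0 0 0 6
(.lf 1 false 1 false false 0 1) (.lf 2 false 1 true false 0 1)) (.lf 1 false 1 false false 0 2)))

def t1_6_1 : T3 :=
(.s 0 8 0 0 0 0 0 14
(.s 0 1 0 0 0 0 0 1
(.s 1 0 0 1 0 0 0 0
(.s 0 1 0 0 0 0 0 2
(.s 0 1 0 0 0 0 0 4
(.s 0 1 0 0 0 0 0 9
(.lf 2 true 1 true false 2 1) (.lf 2 true 1 true false 2 1)) (.lf 2 true 1 true false 2 1)) (.s 1 0 4 12 0 0 0 6
(.lf 1 true 1 false false 2 1) (.lf 2 true 1 false false 2 1))) (.lf 3 true 1 true false 2 1)) (.s 1 0 4 12 0 0 0 6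
(.lf 1 true 1 false false 2 1) (.lf 2 true 1 false false 2 1))) (.s 0 5 0 0 0 0 0 7
(.s 1 0 4 12 0 0 0 6
(.lf 1 false 1 false false 2 1) (.lf 2 false 1 false false 2 1)) (.s 2 866170 0 0 0 4144191 0 4736218
(.s 0 3 0 0 0 0 0 3
(.lf 1 false 1 false false 2 2) (.s 3 110 0 0 110 0 0 116
(.lf 1 false 1 false false 1 1) (.s 3 1 0 0 1 0 0 0
(.s 4 0 10 10 0 11 0 0
(.lf 1 false 0 false true 1 0) (.lf 1 false 0 false true 1 1)) (.lf 1 false 0 false true 1 0)))) (.s 0 3 0 0 0 0 0 3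
(.lf 1 false 1 false false 2 2) (.s 3 110 0 0 110 0 0 116
(.lf 1 false 1 false false 1 1) (.s 3 1 0 0 1 0 0 0
(.s 4 0 10 10 0 11 0 0
(.lf 1 false 1 false false 1 0) (.lf 1 false 1 false false 1 1)) (.lf 1 false 2 false false 1 0)))))))

def i1_6 : T2 :=
(.s 3 0 0 4 0 10
(.k 103725 0 0 272973 208874 0 t1_6_0) (.k 1566170 0 0 4736219 4144191 0 t1_6_1))

theorem hi1_6 : chk2 (leaf1 a1_6 e1_6) 10000 i1_6 R6 = true := by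
  decide +kernel

theorem ok6 : CellOk R6 a0_6 e0_6 a1_6 e1_6 :=
  ⟨lin6, ⟨_, ho00_6⟩, ⟨_, ho01_6⟩, ⟨_, ho10_6⟩, ⟨_, ho11_6⟩, ⟨_, hi0_6⟩, ⟨_, hi1_6⟩⟩

def R8 : Reg := ⟨⟨0, 0, 0, 0, 0, 0, 0⟩, ⟨1, 0, 0, 0, 0, 0, 0⟩, ⟨0, 0, 0, 0, 0, 0, 0⟩, ⟨1, 0, 0, 0, 0, 0, 1⟩, ⟨1, 0, 0, 0, 3, 0, 3⟩, ⟨1, 0, 0, 0, 1, 0, 1⟩, ⟨0, 0, 0, 0, 0, 0, 0⟩, ⟨1, 0, 0, 0, 0, 0, 1⟩, ⟨0, 0, 0, 0, 0, 0, 0⟩, ⟨0, 0, 0, 0, 1, 0, 0⟩⟩

def a0_8 : SF := mu 0 0 219300 0 0 0 0 0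

def e0_8 : SF := mu 0 0 890100 0 0 0 0 0

def a1_8 : SF := mu 0 0 153489 0 0 0 0 0

def e1_8 : SF := mu 0 0 623049 0 0 0 0 0

theorem lin8 : chkLin R8 a0_8 e0_8 a1_8 e1_8 = true := by decide +kernel

def o00_8 : T3 :=
(.s 0 8 0 0 0 0 0 14
(.s 0 1 0 0 0 0 0 1
(.s 1 0 0 1 0 0 0 0
(.s 0 1 0 0 0 0 0 2
(.lf 2 true 0 false false 0 0) (.s 1 0 4 12 0 0 0 6
(.lf 1 true 0 false false 0 0) (.lf 2 true 0 false false 0 0))) (.lf 3 true 0 false false 0 0)) (.s 1 0 4 12 0 0 0 6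
(.lf 1 true 0 false false 0 0) (.lf 2 true 0 false false 0 0))) (.s 0 5 0 0 0 0 0 7
(.s 1 0 4 12 0 0 0 6
(.lf 1 false 0 false false 0 0) (.lf 2 false 0 false false 0 0)) (.lf 1 false 0 false false 0 0)))

theorem ho00_8 : chk3 (leafO 10500000 3 a0_8 e0_8 R8.x0.ap R8.x0.m) o00_8 (full R8) = true := by
  decide +kernel

def o01_8 : T3 :=
(.s 0 8 0 0 0 0 0 14
(.s 0 1 0 0 0 0 0 1
(.s 1 0 0 1 0 0 0 0
(.s 0 1 0 0 0 0 0 2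
(.lf 2 true 0 false false 0 0) (.s 1 0 4 12 0 0 0 6
(.lf 1 true 0 false false 0 0) (.lf 2 true 0 false false 0 0))) (.lf 3 true 0 false false 0 0)) (.s 1 0 4 12 0 0 0 6
(.lf 1 true 0 false false 0 0) (.lf 2 true 0 false false 0 0))) (.s 0 5 0 0 0 0 0 7
(.s 1 0 4 12 0 0 0 6
(.lf 1 false 0 false false 0 0) (.lf 2 false 0 false false 0 0)) (.lf 1 false 0 false false 0 0)))

theorem ho01_8 : chk3 (leafO 10500000 3 a0_8 e0_8 R8.x1.ap R8.x1.m) o01_8 (full R8) = true := by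
  decide +kernel

def o10_8 : T3 :=
(.s 0 8 0 0 0 0 0 14
(.s 0 1 0 0 0 0 0 1
(.s 1 0 0 1 0 0 0 0
(.s 0 1 0 0 0 0 0 2
(.lf 2 true 0 false false 0 0) (.s 1 0 4 12 0 0 0 6
(.lf 1 true 0 false false 0 0) (.lf 2 true 0 false false 0 0))) (.lf 3 true 0 false false 0 0)) (.s 1 0 4 12 0 0 0 6
(.lf 1 true 0 false false 0 0) (.lf 2 true 0 false false 0 0))) (.s 0 5 0 0 0 0 0 7
(.s 1 0 4 12 0 0 0 6
(.lf 1 false 0 false false 0 0) (.lf 2 false 0 false false 0 0)) (.lf 1 false 0 false false 0 0)))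

theorem ho10_8 : chk3 (leafO 5554500 1 a1_8 e1_8 R8.x0.ap R8.x0.m) o10_8 (full R8) = true := by
  decide +kernel

def o11_8 : T3 :=
(.s 0 8 0 0 0 0 0 14
(.s 0 1 0 0 0 0 0 1
(.s 1 0 0 1 0 0 0 0
(.s 0 1 0 0 0 0 0 2
(.lf 2 true 0 false false 0 0) (.s 1 0 4 12 0 0 0 6
(.lf 1 true 0 false false 0 0) (.lf 2 true 0 false false 0 0))) (.lf 3 true 0 false false 0 0)) (.s 1 0 4 12 0 0 0 6
(.lf 1 true 0 false false 0 0) (.lf 2 true 0 false false 0 0))) (.s 0 5 0 0 0 0 0 7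
(.s 1 0 4 12 0 0 0 6
(.lf 1 false 0 false false 0 0) (.lf 2 false 0 false false 0 0)) (.lf 1 false 0 false false 0 0)))

theorem ho11_8 : chk3 (leafO 5554500 1 a1_8 e1_8 R8.x1.ap R8.x1.m) o11_8 (full R8) = true := by
  decide +kernel

def R8_0a : Reg := hi R8 (Nat.succ 3) ⟨0, 0, 0, 0, 1, 0, 1⟩

def R8_0b : Reg := lo R8 (Nat.succ 3) ⟨0, 0, 0, 0, 1, 0, 1⟩

def R8_0aa : Reg := hi R8_0a (Nat.succ 3) ⟨0, 0, 0, 0, 1000, 0, 2736⟩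

def R8_0ab : Reg := lo R8_0a (Nat.succ 3) ⟨0, 0, 0, 0, 1000, 0, 2736⟩

def t0_8aa_0 : T3 :=
(.s 0 8 0 0 0 0 0 14
(.s 0 1 0 0 0 0 0 1
(.s 1 0 0 1 0 0 0 0
(.s 0 1 0 0 0 0 0 2
(.s 0 1 0 0 0 0 0 4
(.lf 2 true 1 true false 0 0) (.lf 2 true 1 true false 0 0)) (.s 1 0 4 12 0 0 0 6
(.lf 1 true 1 false false 0 0) (.lf 2 true 1 true false 0 0))) (.lf 3 true 1 true false 0 0)) (.s 1 0 4 12 0 0 0 6
(.lf 1 true 1 false false 0 0) (.lf 2 true 1 true false 0 0))) (.s 0 5 0 0 0 0 0 7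
(.s 1 0 4 12 0 0 0 6
(.lf 1 false 1 false false 0 0) (.lf 2 false 1 true false 0 0)) (.lf 1 false 0 false false 0 0)))

def i0_8aa : T2 :=
(.k 388000 0 0 716000 358000 0 t0_8aa_0)

theorem hi0_8aa : chk2 (leaf0 a0_8 e0_8) 0 i0_8aa R8_0aa = true := by
  decide +kernel

def R8_0aba : Reg := hi R8_0ab (Nat.succ 2) ⟨1, 0, 0, 0, 0, 0, 3⟩

def R8_0abb : Reg := lo R8_0ab (Nat.succ 2) ⟨1, 0, 0, 0, 0, 0, 3⟩

def t0_8aba_0 : T3 :=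
(.s 0 8 0 0 0 0 0 14
(.s 0 1 0 0 0 0 0 1
(.s 1 0 0 1 0 0 0 0
(.s 0 1 0 0 0 0 0 2
(.lf 2 true 1 true false 0 0) (.s 1 0 4 12 0 0 0 6
(.lf 1 true 1 false false 0 0) (.lf 2 true 1 true false 0 0))) (.lf 3 true 1 true false 0 0)) (.s 1 0 4 12 0 0 0 6
(.lf 1 true 1 true false 0 0) (.lf 2 true 1 true false 0 0))) (.s 0 5 0 0 0 0 0 7
(.s 1 0 4 12 0 0 0 6
(.lf 1 false 1 false false 0 0) (.lf 2 false 1 true false 0 0)) (.lf 1 false 0 false false 0 0)))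

def i0_8aba : T2 :=
(.k 864684 0 0 1669368 834684 0 t0_8aba_0)

theorem hi0_8aba : chk2 (leaf0 a0_8 e0_8) 0 i0_8aba R8_0aba = true := by
  decide +kernel

def R8_0abba : Reg := hi R8_0abb (Nat.succ 0) ⟨1, 0, 0, 0, 0, 0, 3⟩

def R8_0abbb : Reg := lo R8_0abb (Nat.succ 0) ⟨1, 0, 0, 0, 0, 0, 3⟩

def t0_8abba_0 : T3 :=
(.s 0 8 0 0 0 0 0 14
(.s 0 1 0 0 0 0 0 3
(.s 1 0 0 1 0 0 0 0
(.lf 2 true 1 true false 0 0) (.lf 3 true 1 true false 0 0)) (.s 0 1 0 0 0 0 0 2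
(.lf 2 true 1 true false 0 0) (.s 0 23 0 0 0 0 0 47
(.s 1 0 4 12 0 0 0 6
(.lf 1 true 1 false false 0 0) (.lf 2 true 1 true false 0 0)) (.lf 1 true 1 false false 0 0)))) (.lf 1 false 0 false false 0 0))

def t0_8abba_1 : T3 :=
(.s 0 8 0 0 0 0 0 14
(.s 0 1 0 0 0 0 0 9
(.s 1 0 0 1 0 0 0 0
(.lf 2 true 1 true false 0 0) (.lf 3 true 1 true false 0 0)) (.s 0 1 0 0 0 0 0 2
(.s 0 1 0 0 0 0 0 3
(.lf 2 true 1 true false 0 0) (.lf 2 true 1 true false 0 0)) (.s 0 47 0 0 0 0 0 119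
(.s 1 0 4 12 0 0 0 6
(.lf 1 true 1 false false 0 0) (.lf 2 true 1 true false 0 0)) (.lf 1 true 1 false false 0 0)))) (.lf 1 false 0 false false 0 0))

def t0_8abba_2 : T3 :=
(.s 0 8 0 0 0 0 0 14
(.s 0 1 0 0 0 0 0 9
(.lf 3 true 1 true false 0 0) (.s 0 1 0 0 0 0 0 4
(.s 1 0 0 1 0 0 0 0
(.s 0 3 0 0 0 0 0 19
(.lf 2 true 1 true false 0 0) (.lf 2 true 1 true false 0 0)) (.lf 3 true 1 true false 0 0)) (.s 0 47 0 0 0 0 0 119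
(.lf 2 true 1 true false 0 0) (.s 0 9 0 0 0 0 0 19
(.s 1 0 4 12 0 0 0 6
(.lf 1 true 1 false false 0 0) (.lf 2 true 1 false false 0 0)) (.lf 1 true 1 false false 0 0))))) (.lf 1 false 0 true false 0 0))

def t0_8abba_3 : T3 :=
(.s 0 8 0 0 0 0 0 14
(.s 0 1 0 0 0 0 0 4
(.lf 3 true 1 true false 0 0) (.s 0 1 0 0 0 0 0 3
(.s 1 0 0 1 0 0 0 0
(.lf 2 true 1 true false 0 0) (.lf 3 true 1 true false 0 0)) (.s 0 9 0 0 0 0 0 19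
(.lf 2 true 1 true false 0 0) (.s 0 23 0 0 0 0 0 47
(.s 1 0 4 12 0 0 0 6
(.lf 1 true 1 false false 0 0) (.lf 2 true 1 true false 0 0)) (.lf 1 true 1 false false 0 0))))) (.lf 1 false 0 true false 0 0))

def t0_8abba_4 : T3 :=
(.s 0 8 0 0 0 0 0 14
(.s 0 1 0 0 0 0 0 4
(.lf 3 true 1 true false 0 0) (.s 0 1 0 0 0 0 0 3
(.s 1 0 0 1 0 0 0 0
(.lf 2 true 1 true false 0 0) (.lf 3 true 1 true false 0 0)) (.s 0 9 0 0 0 0 0 19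
(.lf 2 true 1 true false 0 0) (.s 0 23 0 0 0 0 0 47
(.s 1 0 4 12 0 0 0 6
(.lf 1 true 1 false false 0 0) (.lf 2 true 1 false false 0 0)) (.lf 1 true 1 false false 0 0))))) (.lf 1 false 0 false false 0 0))

def t0_8abba_5 : T3 :=
(.s 0 8 0 0 0 0 0 14
(.s 0 1 0 0 0 0 0 3
(.s 1 0 0 1 0 0 0 0
(.s 0 1 0 0 0 0 0 9
(.lf 2 true 1 true false 0 0) (.s 0 1 0 0 0 0 0 4
(.lf 2 true 1 true false 0 0) (.lf 2 true 1 true false 0 0))) (.lf 3 true 1 true false 0 0)) (.s 0 1 0 0 0 0 0 2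
(.lf 2 true 1 true false 0 0) (.s 0 23 0 0 0 0 0 47
(.s 1 0 4 12 0 0 0 6
(.lf 1 true 1 false false 0 0) (.lf 2 true 1 true false 0 0)) (.lf 1 true 1 false false 0 0)))) (.lf 1 false 0 false false 0 0))

def i0_8abba : T2 :=
(.s 2 2 0 0 0 4
(.k 893684 0 0 1785368 892684 0 t0_8abba_0) (.s 1 3 0 5 0 7
(.s 0 1 0 0 0 9
(.k 457112 0 0 0 0 0 t0_8abba_1) (.s 0 1 0 0 0 4
(.k 396160 0 0 0 416262 0 t0_8abba_2) (.s 3 0 0 9 0 19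
(.k 447342 0 0 0 0 0 t0_8abba_3) (.k 997213 0 0 2495274 2568786 0 t0_8abba_4)))) (.k 813382 0 0 1624764 1339601 0 t0_8abba_5)))

theorem hi0_8abba : chk2 (leaf0 a0_8 e0_8) 0 i0_8abba R8_0abba = true := by
  decide +kernel

def t0_8abbb_0 : T3 :=
(.s 0 8 0 0 0 0 0 14
(.s 0 1 0 0 0 0 0 3
(.lf 3 true 1 true false 0 0) (.s 0 1 0 0 0 0 0 1
(.s 1 0 0 1 0 0 0 0
(.s 0 23 0 0 0 0 0 47
(.lf 2 true 1 true false 0 0) (.s 1 0 4 12 0 0 0 6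
(.lf 1 true 1 false false 0 0) (.lf 2 true 1 false false 0 0))) (.lf 3 true 1 true false 0 0)) (.s 1 0 4 12 0 0 0 6
(.lf 1 true 1 false false 0 0) (.lf 2 true 1 false false 0 0)))) (.s 0 5 0 0 0 0 0 7
(.s 1 0 4 12 0 0 0 6
(.lf 1 false 1 false false 0 0) (.lf 2 false 1 false false 0 0)) (.lf 1 false 0 false false 0 0)))

def t0_8abbb_1 : T3 :=
(.s 0 8 0 0 0 0 0 14
(.s 0 1 0 0 0 0 0 3
(.lf 3 true 1 true false 0 0) (.s 0 1 0 0 0 0 0 1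
(.s 1 0 0 1 0 0 0 0
(.s 0 23 0 0 0 0 0 47
(.s 0 15367 0 0 0 0 0 39999
(.s 0 1263 0 0 0 0 0 3999
(.lf 2 true 1 true false 0 0) (.s 3 2000 0 0 2000 0 0 2736
(.lf 2 true 1 true false 0 0) (.s 4 1000 0 0 1000 0 0 2736
(.lf 2 true 1 true false 0 0) (.lf 2 true 1 false false 0 0)))) (.s 3 20000 0 0 20000 0 0 24632
(.s 3 2000 0 0 2000 0 0 2736
(.lf 2 true 1 true false 0 0) (.s 4 1000 0 0 1000 0 0 2736
(.lf 2 true 1 true false 0 0) (.lf 2 true 1 false false 0 0))) (.lf 2 true 1 false false 0 0))) (.s 1 0 4 12 0 0 0 6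
(.lf 1 true 1 false false 0 0) (.lf 2 true 1 false false 0 0))) (.s 0 15367 0 0 0 0 0 39999
(.s 0 1263 0 0 0 0 0 3999
(.lf 3 true 1 true false 0 0) (.s 3 2000 0 0 2000 0 0 2736
(.lf 3 true 1 true false 0 0) (.s 4 1000 0 0 1000 0 0 2736
(.lf 3 true 1 true false 0 0) (.lf 3 true 1 false false 0 0)))) (.s 3 20000 0 0 20000 0 0 24632
(.s 3 2000 0 0 2000 0 0 2736
(.lf 3 true 1 true false 0 0) (.s 4 1000 0 0 1000 0 0 2736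
(.lf 3 true 1 true false 0 0) (.lf 3 true 1 false false 0 0))) (.lf 3 true 1 false false 0 0)))) (.s 1 0 4 12 0 0 0 6
(.lf 1 true 1 false false 0 0) (.lf 2 true 1 false false 0 0)))) (.s 0 5 0 0 0 0 0 7
(.s 1 0 4 12 0 0 0 6
(.lf 1 false 1 false false 0 0) (.lf 2 false 1 false false 0 0)) (.lf 1 false 0 false false 0 0)))

def i0_8abbb : T2 :=
(.s 3 0 0 9 0 19
(.k 1042465 0 0 2380491 1785368 0 t0_8abbb_0) (.k 1321164 0 0 3004133 2253100 0 t0_8abbb_1))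

theorem hi0_8abbb : chk2 (leaf0 a0_8 e0_8) 0 i0_8abbb R8_0abbb = true := by
  decide +kernel

def i0_8abb : T2 := .s 0 1 0 0 0 3 i0_8abba i0_8abbb

theorem hi0_8abb : chk2 (leaf0 a0_8 e0_8) 0 i0_8abb R8_0abb = true := chk2_s hi0_8abba hi0_8abbb

def i0_8ab : T2 := .s 2 1 0 0 0 3 i0_8aba i0_8abb

theorem hi0_8ab : chk2 (leaf0 a0_8 e0_8) 0 i0_8ab R8_0ab = true := chk2_s hi0_8aba hi0_8abb

def i0_8a : T2 := .s 3 0 0 1000 0 2736 i0_8aa i0_8ab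

theorem hi0_8a : chk2 (leaf0 a0_8 e0_8) 0 i0_8a R8_0a = true := chk2_s hi0_8aa hi0_8ab

def R8_0ba : Reg := hi R8_0b (Nat.succ 2) ⟨1, 0, 0, 0, 0, 0, 3⟩

def R8_0bb : Reg := lo R8_0b (Nat.succ 2) ⟨1, 0, 0, 0, 0, 0, 3⟩

def t0_8ba_0 : T3 :=
(.s 0 8 0 0 0 0 0 14
(.s 0 1 0 0 0 0 0 1
(.s 1 0 0 1 0 0 0 0
(.s 0 1 0 0 0 0 0 2
(.s 0 1 0 0 0 0 0 4
(.s 0 1 0 0 0 0 0 9
(.lf 2 true 1 true false 0 0) (.lf 2 true 1 true false 0 0)) (.lf 2 true 1 true false 0 0)) (.s 1 0 4 12 0 0 0 6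
(.lf 1 true 1 false false 0 0) (.lf 2 true 1 true false 0 0))) (.lf 3 true 1 true false 0 0)) (.s 1 0 4 12 0 0 0 6
(.lf 1 true 1 false false 0 0) (.lf 2 true 1 false false 0 0))) (.s 0 5 0 0 0 0 0 7
(.s 1 0 4 12 0 0 0 6
(.lf 1 false 1 false false 0 0) (.lf 2 false 1 false false 0 0)) (.lf 1 false 0 false false 0 0)))

def i0_8ba : T2 :=
(.k 734515 0 0 1175332 1046643 0 t0_8ba_0)

theorem hi0_8ba : chk2 (leaf0 a0_8 e0_8) 0 i0_8ba R8_0ba = true := by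
  decide +kernel

def R8_0bba : Reg := hi R8_0bb (Nat.succ 0) ⟨1, 0, 0, 0, 0, 0, 3⟩

def R8_0bbb : Reg := lo R8_0bb (Nat.succ 0) ⟨1, 0, 0, 0, 0, 0, 3⟩

def R8_0bbaa : Reg := hi R8_0bba (Nat.succ 3) ⟨0, 0, 0, 0, 3, 0, 3⟩

def R8_0bbab : Reg := lo R8_0bba (Nat.succ 3) ⟨0, 0, 0, 0, 3, 0, 3⟩

def R8_0bbaaa : Reg := hi R8_0bbaa (Nat.succ 3) ⟨0, 0, 0, 0, 3, 0, 4⟩

def R8_0bbaab : Reg := lo R8_0bbaa (Nat.succ 3) ⟨0, 0, 0, 0, 3, 0, 4⟩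

def t0_8bbaaa_0 : T3 :=
(.s 0 8 0 0 0 0 0 14
(.s 0 1 0 0 0 0 0 3
(.s 1 0 0 1 0 0 0 0
(.s 0 1 0 0 0 0 0 9
(.lf 2 true 1 true false 0 0) (.s 1 0 0 1 0 0 0 1
(.lf 2 true 1 true false 0 0) (.lf 2 true 1 true false 0 0))) (.lf 3 true 1 true false 0 0)) (.s 0 1 0 0 0 0 0 2
(.lf 2 true 1 true false 0 0) (.s 0 23 0 0 0 0 0 47
(.s 1 0 4 12 0 0 0 6
(.lf 1 true 1 false false 0 0) (.lf 2 true 1 true false 0 0)) (.lf 1 true 1 false false 0 0)))) (.lf 1 false 0 false false 0 0))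

def t0_8bbaaa_1 : T3 :=
(.s 0 8 0 0 0 0 0 14
(.s 0 1 0 0 0 0 0 3
(.s 1 0 0 1 0 0 0 0
(.s 0 1 0 0 0 0 0 9
(.s 0 1 0 0 0 0 0 19
(.lf 2 true 1 true false 0 0) (.lf 2 true 1 true false 0 0)) (.s 1 0 0 1 0 0 0 1
(.lf 2 true 1 true false 0 0) (.s 0 1 0 0 0 0 0 4
(.lf 2 true 1 true false 0 0) (.lf 2 true 1 true false 0 0)))) (.lf 3 true 1 true false 0 0)) (.s 0 1 0 0 0 0 0 2
(.lf 2 true 1 true false 0 0) (.s 0 23 0 0 0 0 0 47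
(.s 1 0 4 12 0 0 0 6
(.lf 1 true 1 false false 0 0) (.lf 2 true 1 false false 0 0)) (.lf 1 true 1 false false 0 0)))) (.lf 1 false 0 false false 0 0))

def t0_8bbaaa_2 : T3 :=
(.s 0 8 0 0 0 0 0 14
(.s 0 1 0 0 0 0 0 9
(.s 1 0 0 1 0 0 0 0
(.lf 2 true 1 true false 0 0) (.lf 3 true 1 true false 0 0)) (.s 0 1 0 0 0 0 0 2
(.s 0 1 0 0 0 0 0 3
(.lf 2 true 1 true false 0 0) (.lf 2 true 1 false false 0 0)) (.s 0 47 0 0 0 0 0 119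
(.s 1 0 4 12 0 0 0 6
(.lf 1 true 1 false false 0 0) (.lf 2 true 1 false false 0 0)) (.lf 1 true 1 false false 0 0)))) (.lf 1 false 0 false false 0 0))

def t0_8bbaaa_3 : T3 :=
(.s 0 8 0 0 0 0 0 14
(.s 0 1 0 0 0 0 0 9
(.lf 3 true 1 true false 0 0) (.s 0 1 0 0 0 0 0 4
(.s 1 0 0 1 0 0 0 0
(.lf 2 true 1 true false 0 0) (.lf 3 true 1 true false 0 0)) (.s 0 47 0 0 0 0 0 119
(.lf 2 true 1 true false 0 0) (.s 0 9 0 0 0 0 0 19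
(.s 1 0 4 12 0 0 0 6
(.lf 1 true 1 false false 0 0) (.lf 2 true 1 false false 0 0)) (.lf 1 true 1 false false 0 0))))) (.lf 1 false 0 false false 0 0))

def t0_8bbaaa_4 : T3 :=
(.s 0 8 0 0 0 0 0 14
(.s 0 1 0 0 0 0 0 9
(.lf 3 true 1 true false 0 0) (.s 0 1 0 0 0 0 0 4
(.s 1 0 0 1 0 0 0 0
(.lf 2 true 1 true false 0 0) (.lf 3 true 1 true false 0 0)) (.s 0 47 0 0 0 0 0 119
(.lf 2 true 1 false false 0 0) (.s 0 9 0 0 0 0 0 19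
(.s 1 0 4 12 0 0 0 6
(.lf 1 true 1 false false 0 0) (.lf 2 true 1 false false 0 0)) (.lf 1 true 1 false false 0 0))))) (.lf 1 false 0 true false 0 0))

def t0_8bbaaa_5 : T3 :=
(.s 0 8 0 0 0 0 0 14
(.s 0 1 0 0 0 0 0 9
(.lf 3 true 1 true false 0 0) (.s 0 1 0 0 0 0 0 4
(.s 1 0 0 1 0 0 0 0
(.lf 2 true 1 true false 0 0) (.lf 3 true 1 true false 0 0)) (.s 0 47 0 0 0 0 0 119
(.lf 2 true 1 false false 0 0) (.s 0 9 0 0 0 0 0 19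
(.s 1 0 4 12 0 0 0 6
(.lf 1 true 1 false false 0 0) (.lf 2 true 1 false false 0 0)) (.lf 1 true 1 false false 0 0))))) (.lf 1 false 0 false false 0 0))

def t0_8bbaaa_6 : T3 :=
(.s 0 8 0 0 0 0 0 14
(.s 0 1 0 0 0 0 0 4
(.s 0 1 0 0 0 0 0 9
(.lf 3 true 1 true false 0 0) (.lf 3 true 1 false false 0 0)) (.s 0 1 0 0 0 0 0 3
(.s 1 0 0 1 0 0 0 0
(.lf 2 true 1 false false 0 0) (.lf 3 true 1 false false 0 0)) (.s 0 9 0 0 0 0 0 19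
(.lf 2 true 1 false false 0 0) (.s 0 23 0 0 0 0 0 47
(.s 1 0 4 12 0 0 0 6
(.lf 1 true 1 false false 0 0) (.lf 2 true 1 false false 0 0)) (.lf 1 true 1 false false 0 0))))) (.lf 1 false 0 false false 0 0))

def t0_8bbaaa_7 : T3 :=
(.s 0 8 0 0 0 0 0 14
(.s 0 1 0 0 0 0 0 3
(.s 1 0 0 1 0 0 0 0
(.s 0 1 0 0 0 0 0 9
(.lf 2 true 1 true false 0 0) (.s 0 1 0 0 0 0 0 4
(.lf 2 true 1 true false 0 0) (.lf 2 true 1 true false 0 0))) (.lf 3 true 1 true false 0 0)) (.s 0 1 0 0 0 0 0 2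
(.lf 2 true 1 false false 0 0) (.s 0 23 0 0 0 0 0 47
(.s 1 0 4 12 0 0 0 6
(.lf 1 true 1 false false 0 0) (.lf 2 true 1 false false 0 0)) (.lf 1 true 1 false false 0 0)))) (.lf 1 false 0 false false 0 0))

def i0_8bbaaa : T2 :=
(.s 1 3 0 5 0 7
(.s 2 2 0 0 0 4
(.k 944057 0 0 1964286 1482399 0 t0_8bbaaa_0) (.s 3 0 0 11 0 19
(.k 1312304 0 0 2690000 2146244 0 t0_8bbaaa_1) (.s 0 1 0 0 0 9
(.k 1160921 0 0 1922587 2048603 0 t0_8bbaaa_2) (.s 0 1 0 0 0 4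
(.s 1 5 0 11 0 15
(.s 3 0 0 23 0 39
(.k 1367726 0 0 2500000 1875000 0 t0_8bbaaa_3) (.k 1406629 0 0 2417860 1813395 0 t0_8bbaaa_4)) (.k 570920 0 0 0 720399 0 t0_8bbaaa_5)) (.k 1378911 0 0 2474693 1856020 0 t0_8bbaaa_6))))) (.k 1426063 0 0 2411290 1805328 0 t0_8bbaaa_7))

theorem hi0_8bbaaa : chk2 (leaf0 a0_8 e0_8) 0 i0_8bbaaa R8_0bbaaa = true := by
  decide +kernel

def t0_8bbaab_0 : T3 :=
(.s 0 8 0 0 0 0 0 14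
(.s 0 1 0 0 0 0 0 3
(.s 1 0 0 1 0 0 0 0
(.s 0 1 0 0 0 0 0 9
(.lf 2 true 1 true false 0 0) (.s 3 2 0 0 0 0 0 4
(.lf 2 true 1 true false 0 0) (.s 3 9 0 0 0 0 0 19
(.lf 2 true 1 true false 0 0) (.s 3 19 0 0 0 0 0 39
(.lf 2 true 1 true false 0 0) (.s 0 1 0 0 0 0 0 4
(.s 4 0 0 0 0 5 0 7
(.lf 2 true 1 true false 0 0) (.s 0 3 0 0 0 0 0 19
(.s 0 1 0 0 0 0 0 7
(.s 0 11 0 0 0 0 0 99
(.lf 2 true 1 true false 0 0) (.lf 2 true 1 false false 0 0)) (.lf 2 true 1 false false 0 0)) (.lf 2 true 1 false false 0 0))) (.lf 2 true 1 false false 0 0)))))) (.s 0 1 0 0 0 0 0 9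
(.lf 3 true 1 true false 0 0) (.s 3 2 0 0 0 0 0 4
(.lf 3 true 1 true false 0 0) (.s 3 9 0 0 0 0 0 19
(.lf 3 true 1 true false 0 0) (.s 3 19 0 0 0 0 0 39
(.lf 3 true 1 true false 0 0) (.s 0 1 0 0 0 0 0 4
(.s 4 0 0 0 0 5 0 7
(.lf 3 true 1 true false 0 0) (.s 0 3 0 0 0 0 0 19
(.s 0 1 0 0 0 0 0 7
(.s 0 11 0 0 0 0 0 99
(.lf 3 true 1 true false 0 0) (.lf 3 true 1 false false 0 0)) (.lf 3 true 1 false false 0 0)) (.lf 3 true 1 false false 0 0))) (.lf 3 true 1 false false 0 0))))))) (.s 0 1 0 0 0 0 0 2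
(.lf 2 true 1 false false 0 0) (.s 0 23 0 0 0 0 0 47
(.s 1 0 4 12 0 0 0 6
(.lf 1 true 1 false false 0 0) (.lf 2 true 1 false false 0 0)) (.lf 1 true 1 false false 0 0)))) (.lf 1 false 0 true false 0 0))

def t0_8bbaab_1 : T3 :=
(.s 0 8 0 0 0 0 0 14
(.s 0 1 0 0 0 0 0 3
(.s 1 0 0 1 0 0 0 0
(.s 0 1 0 0 0 0 0 9
(.s 0 1 0 0 0 0 0 19
(.lf 2 true 1 true false 0 0) (.lf 2 true 1 false false 0 0)) (.lf 2 true 1 false false 0 0)) (.s 0 1 0 0 0 0 0 9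
(.s 0 1 0 0 0 0 0 19
(.lf 3 true 1 true false 0 0) (.lf 3 true 1 false false 0 0)) (.lf 3 true 1 false false 0 0))) (.s 0 1 0 0 0 0 0 2
(.lf 2 true 1 false false 0 0) (.s 0 23 0 0 0 0 0 47
(.s 1 0 4 12 0 0 0 6
(.lf 1 true 1 false false 0 0) (.lf 2 true 1 false false 0 0)) (.lf 1 true 1 false false 0 0)))) (.lf 1 false 0 true false 0 0))

def t0_8bbaab_2 : T3 :=
(.s 0 8 0 0 0 0 0 14
(.s 0 1 0 0 0 0 0 3
(.s 1 0 0 1 0 0 0 0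
(.lf 2 true 1 false false 0 0) (.lf 3 true 1 false false 0 0)) (.s 0 1 0 0 0 0 0 2
(.lf 2 true 1 false false 0 0) (.s 0 23 0 0 0 0 0 47
(.s 1 0 4 12 0 0 0 6
(.lf 1 true 1 false false 0 0) (.lf 2 true 1 false false 0 0)) (.lf 1 true 1 false false 0 0)))) (.lf 1 false 0 false false 0 0))

def i0_8bbaab : T2 :=
(.s 3 0 0 7 0 9
(.s 3 0 0 13 0 19
(.k 1429263 0 0 2191369 1643527 0 t0_8bbaab_0) (.k 1508182 0 0 2068182 1551136 0 t0_8bbaab_1)) (.k 1550247 0 0 2008493 260384 0 t0_8bbaab_2))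

theorem hi0_8bbaab : chk2 (leaf0 a0_8 e0_8) 0 i0_8bbaab R8_0bbaab = true := by
  decide +kernel

def i0_8bbaa : T2 := .s 3 0 0 3 0 4 i0_8bbaaa i0_8bbaab

theorem hi0_8bbaa : chk2 (leaf0 a0_8 e0_8) 0 i0_8bbaa R8_0bbaa = true := chk2_s hi0_8bbaaa hi0_8bbaab

def t0_8bbab_0 : T3 :=
(.s 0 8 0 0 0 0 0 14
(.s 0 1 0 0 0 0 0 3
(.s 1 0 0 1 0 0 0 0
(.lf 2 true 1 false false 0 0) (.s 3 4000 0 0 4000 0 0 8210
(.s 3 1000 0 0 1000 0 0 2736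
(.lf 3 true 1 true false 0 0) (.s 4 1000 0 0 1000 0 0 2736
(.lf 3 true 1 false false 0 0) (.lf 3 true 1 false false 0 0))) (.lf 3 true 1 false false 0 0))) (.s 0 1 0 0 0 0 0 2
(.lf 2 true 1 false false 0 0) (.s 0 23 0 0 0 0 0 47
(.s 1 0 4 12 0 0 0 6
(.lf 1 true 1 false false 0 0) (.lf 2 true 1 false false 0 0)) (.lf 1 true 1 false false 0 0)))) (.lf 1 false 0 true false 0 0))

def i0_8bbab : T2 :=
(.k 1575665 0 0 2059330 180065 0 t0_8bbab_0)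

theorem hi0_8bbab : chk2 (leaf0 a0_8 e0_8) 0 i0_8bbab R8_0bbab = true := by
  decide +kernel

def i0_8bba : T2 := .s 3 0 0 3 0 3 i0_8bbaa i0_8bbab

theorem hi0_8bba : chk2 (leaf0 a0_8 e0_8) 0 i0_8bba R8_0bba = true := chk2_s hi0_8bbaa hi0_8bbab

def t0_8bbb_0 : T3 :=
(.s 0 8 0 0 0 0 0 14
(.s 0 1 0 0 0 0 0 3
(.s 3 1000 0 0 1000 0 0 2736
(.lf 3 true 1 true false 0 0) (.s 4 1000 0 0 1000 0 0 2736
(.lf 3 true 1 true false 0 0) (.lf 3 true 1 false false 0 0))) (.s 0 1 0 0 0 0 0 1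
(.s 1 0 0 1 0 0 0 0
(.s 0 23 0 0 0 0 0 47
(.lf 2 true 1 false false 0 0) (.s 1 0 4 12 0 0 0 6
(.lf 1 true 1 false false 0 0) (.lf 2 true 1 false false 0 0))) (.s 0 1263 0 0 0 0 0 3999
(.s 3 1000 0 0 1000 0 0 2736
(.lf 3 true 1 true false 0 0) (.s 4 1000 0 0 1000 0 0 2736
(.lf 3 true 1 true false 0 0) (.lf 3 true 1 false false 0 0))) (.s 3 2000 0 0 2000 0 0 2736
(.s 4 1000 0 0 1000 0 0 2736
(.lf 3 true 1 true false 0 0) (.lf 3 true 1 false false 0 0)) (.lf 3 true 1 false false 0 0)))) (.s 1 0 4 12 0 0 0 6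
(.lf 1 true 1 false false 0 0) (.lf 2 true 1 false false 0 0)))) (.s 0 5 0 0 0 0 0 7
(.s 1 0 4 12 0 0 0 6
(.lf 1 false 1 false false 0 0) (.lf 2 false 1 false false 0 0)) (.lf 1 false 0 false false 0 0)))

def i0_8bbb : T2 :=
(.k 1464349 0 0 1912252 178608 0 t0_8bbb_0)

theorem hi0_8bbb : chk2 (leaf0 a0_8 e0_8) 0 i0_8bbb R8_0bbb = true := by
  decide +kernel

def i0_8bb : T2 := .s 0 1 0 0 0 3 i0_8bba i0_8bbb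

theorem hi0_8bb : chk2 (leaf0 a0_8 e0_8) 0 i0_8bb R8_0bb = true := chk2_s hi0_8bba hi0_8bbb

def i0_8b : T2 := .s 2 1 0 0 0 3 i0_8ba i0_8bb

theorem hi0_8b : chk2 (leaf0 a0_8 e0_8) 0 i0_8b R8_0b = true := chk2_s hi0_8ba hi0_8bb

def i0_8 : T2 := .s 3 0 0 1 0 1 i0_8a i0_8b

theorem hi0_8 : chk2 (leaf0 a0_8 e0_8) 0 i0_8 R8 = true := chk2_s hi0_8a hi0_8b

def t1_8_0 : T3 :=
(.s 0 8 0 0 0 0 0 14
(.s 0 1 0 0 0 0 0 1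
(.s 1 0 0 1 0 0 0 0
(.s 0 1 0 0 0 0 0 2
(.s 0 1 0 0 0 0 0 4
(.lf 2 true 1 true false 0 1) (.s 1 0 0 1 0 0 0 1
(.s 0 1 0 0 0 0 0 3
(.lf 2 true 1 true false 0 1) (.lf 2 true 1 true false 0 1)) (.lf 2 true 1 true false 0 1))) (.s 1 0 4 12 0 0 0 6
(.lf 1 true 1 false false 0 2) (.s 1 0 4 19 0 0 0 13
(.lf 2 true 1 true false 0 2) (.lf 2 true 1 true false 0 2)))) (.lf 3 true 1 true false 0 2)) (.s 1 0 4 12 0 0 0 6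
(.lf 1 true 1 false false 0 2) (.lf 2 true 1 true false 0 2))) (.s 0 5 0 0 0 0 0 7
(.s 1 0 4 12 0 0 0 6
(.lf 1 false 1 false false 0 2) (.lf 2 false 1 true false 0 2)) (.lf 1 false 1 false false 0 2)))

def t1_8_1 : T3 :=
(.s 0 8 0 0 0 0 0 14
(.s 0 1 0 0 0 0 0 1
(.s 1 0 0 1 0 0 0 0
(.s 0 1 0 0 0 0 0 2
(.s 3 1000 0 0 1000 0 0 2736
(.lf 2 true 1 true false 2 1) (.s 4 1000 0 0 1000 0 0 2736
(.lf 2 true 1 true false 2 1) (.lf 2 true 1 false false 2 1))) (.s 1 0 4 12 0 0 0 6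
(.lf 1 true 1 false false 2 2) (.lf 2 true 1 false false 2 2))) (.s 3 1000 0 0 1000 0 0 2736
(.lf 3 true 1 true false 2 1) (.s 4 1000 0 0 1000 0 0 2736
(.lf 3 true 1 true false 2 2) (.lf 3 true 1 false false 2 2)))) (.s 1 0 4 12 0 0 0 6
(.lf 1 true 1 true false 2 2) (.lf 2 true 1 false false 2 2))) (.s 0 5 0 0 0 0 0 7
(.s 1 0 4 12 0 0 0 6
(.lf 1 false 1 false false 2 2) (.lf 2 false 1 false false 2 2)) (.s 1 528437 0 0 0 0 0 1242664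
(.s 2 646563 0 0 0 1532114 0 1821562
(.s 3 2750 0 0 2750 0 0 2736
(.s 3 1000 0 0 1000 0 0 2736
(.lf 1 false 1 false false 1 1) (.s 4 1000 0 0 1000 0 0 2736
(.lf 1 false 0 false true 1 2) (.lf 1 false 0 false true 1 2))) (.lf 1 false 0 false true 1 0)) (.s 3 2750 0 0 2750 0 0 2736
(.s 3 1000 0 0 1000 0 0 2736
(.lf 1 false 1 false false 1 1) (.s 4 1000 0 0 1000 0 0 2736
(.lf 1 false 1 false false 1 2) (.lf 1 false 1 false false 1 2))) (.lf 1 false 2 false false 1 0))) (.s 3 2750 0 0 2750 0 0 2736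
(.s 3 1000 0 0 1000 0 0 2736
(.lf 1 false 1 false false 1 1) (.s 4 1000 0 0 1000 0 0 2736
(.lf 1 false 0 false true 1 2) (.lf 1 false 0 false true 1 2))) (.lf 1 false 0 false true 1 0)))))

def i1_8 : T2 :=
(.s 3 0 0 4 0 10
(.k 36286 0 7429 0 1793 0 t1_8_0) (.k 1346563 0 0 1821563 1532114 0 t1_8_1))

theorem hi1_8 : chk2 (leaf1 a1_8 e1_8) 10000 i1_8 R8 = true := by
  decide +kernel

theorem ok8 : CellOk R8 a0_8 e0_8 a1_8 e1_8 :=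
  ⟨lin8, ⟨_, ho00_8⟩, ⟨_, ho01_8⟩, ⟨_, ho10_8⟩, ⟨_, ho11_8⟩, ⟨_, hi0_8⟩, ⟨_, hi1_8⟩⟩

def R13 : Reg := ⟨⟨0, 0, 0, 0, 0, 0, 0⟩, ⟨1, 0, 0, 0, 0, 0, 0⟩, ⟨0, 0, 0, 0, 0, 0, 0⟩, ⟨1, 0, 0, 0, 0, 0, 1⟩, ⟨0, 0, 0, 0, 0, 0, 0⟩, ⟨0, 0, 0, 0, 1, 0, 0⟩, ⟨1, 0, 0, 0, 0, 0, 1⟩, ⟨3, 0, 0, 0, 0, 0, 3⟩, ⟨0, 0, 0, 0, 0, 0, 0⟩, ⟨0, 0, 0, 0, 1, 0, 0⟩⟩

def a0_13 : SF := mu 0 0 0 0 117930 0 660304 0

def e0_13 : SF := mu 0 0 0 0 1066470 0 0 1931506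

def a1_13 : SF := mu 0 0 0 0 534323 0 10399 0

def e1_13 : SF := mu 0 0 0 0 820338 0 0 1485797

theorem lin13 : chkLin R13 a0_13 e0_13 a1_13 e1_13 = true := by decide +kernel

def o00_13 : T3 :=
(.s 0 8 0 0 0 0 0 14
(.s 0 1 0 0 0 0 0 1
(.s 1 0 0 1 0 0 0 0
(.s 0 1 0 0 0 0 0 2
(.lf 2 true 0 true false 0 0) (.s 1 0 4 12 0 0 0 6
(.lf 1 true 0 true false 0 0) (.lf 2 true 0 true false 0 0))) (.lf 3 true 0 false false 0 0)) (.s 1 0 4 12 0 0 0 6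
(.lf 1 true 0 true false 0 0) (.lf 2 true 0 true false 0 0))) (.s 0 5 0 0 0 0 0 7
(.s 1 0 4 12 0 0 0 6
(.lf 1 false 0 true false 0 0) (.lf 2 false 0 true false 0 0)) (.lf 1 false 0 true false 0 0)))

theorem ho00_13 : chk3 (leafO 10500000 3 a0_13 e0_13 R13.x0.ap R13.x0.m) o00_13 (full R13) = true := by
  decide +kernel

def o01_13 : T3 :=
(.s 0 8 0 0 0 0 0 14
(.s 0 1 0 0 0 0 0 1
(.s 1 0 0 1 0 0 0 0
(.s 0 1 0 0 0 0 0 2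
(.lf 2 true 0 true false 0 0) (.s 1 0 4 12 0 0 0 6
(.lf 1 true 0 true false 0 0) (.lf 2 true 0 true false 0 0))) (.lf 3 true 0 false false 0 0)) (.s 1 0 4 12 0 0 0 6
(.lf 1 true 0 true false 0 0) (.lf 2 true 0 true false 0 0))) (.s 0 5 0 0 0 0 0 7
(.s 1 0 4 12 0 0 0 6
(.lf 1 false 0 true false 0 0) (.lf 2 false 0 true false 0 0)) (.lf 1 false 0 true false 0 0)))

theorem ho01_13 : chk3 (leafO 10500000 3 a0_13 e0_13 R13.x1.ap R13.x1.m) o01_13 (full R13) = true := by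
  decide +kernel

def o10_13 : T3 :=
(.s 0 8 0 0 0 0 0 14
(.s 0 1 0 0 0 0 0 1
(.s 1 0 0 1 0 0 0 0
(.s 0 1 0 0 0 0 0 2
(.lf 2 true 0 true false 0 0) (.s 1 0 4 12 0 0 0 6
(.lf 1 true 0 true false 0 0) (.lf 2 true 0 true false 0 0))) (.s 2 0 0 1 0 0 0 0
(.lf 3 true 0 true false 0 0) (.lf 3 true 0 false false 0 0))) (.s 1 0 4 12 0 0 0 6
(.lf 1 true 0 true false 0 0) (.lf 2 true 0 true false 0 0))) (.s 0 5 0 0 0 0 0 7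
(.s 1 0 4 12 0 0 0 6
(.lf 1 false 0 true false 0 0) (.lf 2 false 0 true false 0 0)) (.lf 1 false 0 true false 0 0)))

theorem ho10_13 : chk3 (leafO 5554500 1 a1_13 e1_13 R13.x0.ap R13.x0.m) o10_13 (full R13) = true := by
  decide +kernel

def o11_13 : T3 :=
(.s 0 8 0 0 0 0 0 14
(.s 0 1 0 0 0 0 0 1
(.s 1 0 0 1 0 0 0 0
(.s 0 1 0 0 0 0 0 2
(.s 1 0 0 1 0 0 0 1
(.lf 2 true 0 true false 0 0) (.lf 2 true 0 true false 0 0)) (.s 1 0 4 12 0 0 0 6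
(.lf 1 true 0 true false 0 0) (.s 1 0 4 19 0 0 0 13
(.lf 2 true 0 true false 0 0) (.lf 2 true 0 true false 0 0)))) (.s 2 0 0 1 0 0 0 0
(.lf 3 true 0 true false 0 0) (.lf 3 true 0 false false 0 0))) (.s 1 0 4 12 0 0 0 6
(.lf 1 true 0 true false 0 0) (.lf 2 true 0 true false 0 0))) (.s 0 5 0 0 0 0 0 7
(.s 1 0 4 12 0 0 0 6
(.lf 1 false 0 true false 0 0) (.lf 2 false 0 true false 0 0)) (.lf 1 false 0 true false 0 0)))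

theorem ho11_13 : chk3 (leafO 5554500 1 a1_13 e1_13 R13.x1.ap R13.x1.m) o11_13 (full R13) = true := by
  decide +kernel

def t0_13_0 : T3 :=
(.s 0 8 0 0 0 0 0 14
(.s 0 1 0 0 0 0 0 1
(.s 1 0 0 1 0 0 0 0
(.s 0 1 0 0 0 0 0 2
(.s 0 1 0 0 0 0 0 3
(.lf 2 true 1 true false 0 0) (.s 3 1 0 0 1 0 0 0
(.lf 2 true 1 true false 0 0) (.s 4 1000 0 0 1000 0 0 2736
(.lf 2 true 1 true false 0 0) (.lf 2 true 1 false false 0 0)))) (.s 1 0 4 12 0 0 0 6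
(.lf 1 true 1 false false 0 0) (.s 3 1 0 0 1 0 0 0
(.lf 2 true 1 true false 0 0) (.s 4 1000 0 0 1000 0 0 2736
(.lf 2 true 1 true false 0 0) (.lf 2 true 1 false false 0 0))))) (.s 0 1 0 0 0 0 0 3
(.lf 3 true 1 true false 0 0) (.s 3 1 0 0 1 0 0 0
(.lf 3 true 1 true false 0 0) (.s 4 1000 0 0 1000 0 0 2736
(.lf 3 true 1 true false 0 0) (.lf 3 true 1 false false 0 0))))) (.s 1 0 4 12 0 0 0 6
(.lf 1 true 1 true false 0 0) (.lf 2 true 1 true false 0 0))) (.s 0 5 0 0 0 0 0 7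
(.s 1 0 4 12 0 0 0 6
(.lf 1 false 1 false false 0 0) (.lf 2 false 1 true false 0 0)) (.lf 1 false 0 false false 0 0)))

def t0_13_1 : T3 :=
(.s 0 8 0 0 0 0 0 14
(.s 0 1 0 0 0 0 0 1
(.s 1 0 0 1 0 0 0 0
(.s 0 1 0 0 0 0 0 2
(.lf 2 true 1 false false 0 0) (.s 1 0 4 12 0 0 0 6
(.lf 1 true 1 false false 0 0) (.lf 2 true 1 false false 0 0))) (.s 0 1 0 0 0 0 0 3
(.lf 3 true 1 false false 0 0) (.lf 3 true 1 false false 0 0))) (.s 1 0 4 12 0 0 0 6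
(.lf 1 true 1 false false 0 0) (.lf 2 true 1 false false 0 0))) (.s 0 5 0 0 0 0 0 7
(.s 1 0 4 12 0 0 0 6
(.lf 1 false 1 false false 0 0) (.lf 2 false 1 false false 0 0)) (.lf 1 false 0 false false 0 0)))

def i0_13 : T2 :=
(.s 3 0 0 1000 0 2736
(.k 725000 0 0 946840 0 32937 t0_13_0) (.k 1279617 0 0 1188915 0 354925 t0_13_1))

theorem hi0_13 : chk2 (leaf0 a0_13 e0_13) 0 i0_13 R13 = true := by
  decide +kernel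

def R13_1a : Reg := hi R13 (Nat.succ 3) ⟨0, 0, 0, 0, 4, 0, 10⟩

def R13_1b : Reg := lo R13 (Nat.succ 3) ⟨0, 0, 0, 0, 4, 0, 10⟩

def t1_13a_0 : T3 :=
(.s 0 8 0 0 0 0 0 14
(.s 0 1 0 0 0 0 0 1
(.s 1 0 0 1 0 0 0 0
(.s 0 1 0 0 0 0 0 2
(.s 0 1 0 0 0 0 0 4
(.s 4 0 0 0 0 4000 0 16158
(.lf 2 true 1 true false 0 2) (.s 0 1 0 0 0 0 0 9
(.lf 2 true 1 true false 0 1) (.s 1 0 0 1 0 0 0 1
(.s 0 3 0 0 0 0 0 19
(.lf 2 true 1 true false 0 1) (.lf 2 true 1 true false 0 2)) (.s 0 125113 0 0 0 0 0 646359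
(.lf 2 true 1 true false 0 1) (.s 3 161590 0 0 161590 0 0 173748
(.lf 2 true 1 true false 0 1) (.s 4 0 10 10 0 11 0 0
(.lf 2 true 1 true false 0 0) (.lf 2 true 1 true false 0 1))))))) (.s 1 0 0 1 0 0 0 1
(.lf 2 true 1 true false 0 2) (.s 1 0 0 3 0 0 0 3
(.lf 2 true 1 true false 0 2) (.lf 2 true 1 true false 0 2)))) (.s 1 0 4 12 0 0 0 6
(.s 0 2 0 0 0 0 0 4
(.lf 1 true 1 false false 0 2) (.s 0 9 0 0 0 0 0 19
(.lf 1 true 1 false false 0 2) (.lf 1 true 1 false false 0 2))) (.s 1 0 4 19 0 0 0 13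
(.s 0 2 0 0 0 0 0 4
(.s 1 0 12 43 0 0 0 27
(.lf 2 true 1 true false 0 2) (.lf 2 true 1 true false 0 2)) (.s 0 9 0 0 0 0 0 19
(.s 1 0 12 43 0 0 0 27
(.s 3 10 0 0 10 0 0 10
(.lf 2 true 1 true false 0 1) (.s 3 110 0 0 110 0 0 116
(.s 4 0 10 10 0 11 0 0
(.lf 2 true 1 true false 0 0) (.lf 2 true 1 true false 0 1)) (.lf 2 true 1 true false 0 0))) (.lf 2 true 1 true false 0 2)) (.lf 2 true 1 true false 0 2))) (.lf 2 true 1 true false 0 2)))) (.s 0 1 0 0 0 0 0 3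
(.s 0 1 0 0 0 0 0 9
(.lf 3 true 1 true false 0 1) (.lf 3 true 1 true false 0 2)) (.lf 3 true 1 true false 0 2))) (.s 1 0 4 12 0 0 0 6
(.lf 1 true 1 false false 0 0) (.lf 2 true 1 true false 0 0))) (.s 0 5 0 0 0 0 0 7
(.s 1 0 4 12 0 0 0 6
(.lf 1 false 1 false false 0 0) (.lf 2 false 1 true false 0 0)) (.lf 1 false 2 false false 0 0)))

def i1_13a : T2 :=
(.k 84719 0 0 37279 0 71614 t1_13a_0)

theorem hi1_13a : chk2 (leaf1 a1_13 e1_13) 10000 i1_13a R13_1a = true := by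
  decide +kernel

def t1_13b_0 : T3 :=
(.s 0 8 0 0 0 0 0 14
(.s 0 1 0 0 0 0 0 1
(.s 1 0 0 1 0 0 0 0
(.s 0 1 0 0 0 0 0 2
(.s 1 0 0 1 0 0 0 1
(.s 0 1 0 0 0 0 0 4
(.lf 2 true 1 false false 1 1) (.s 0 1 0 0 0 0 0 3
(.lf 2 true 1 false false 2 2) (.s 3 1 0 0 1 0 0 0
(.lf 2 true 1 false false 2 2) (.s 4 1 0 0 1 0 0 0
(.lf 2 true 1 false false 2 0) (.lf 2 true 0 false true 2 0))))) (.s 0 1 0 0 0 0 0 4
(.s 0 1 0 0 0 0 0 9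
(.s 0 1 0 0 0 0 0 19
(.s 4 1000 0 0 1000 0 0 2736
(.lf 2 true 1 true false 2 1) (.lf 2 true 1 false false 2 1)) (.lf 2 true 1 false false 2 1)) (.lf 2 true 1 false false 2 1)) (.s 4 0 0 0 0 11 0 20
(.lf 2 true 1 false false 1 2) (.s 3 3 0 0 0 0 0 4
(.lf 2 true 1 false false 2 1) (.s 1 0 0 3 0 0 0 3
(.s 0 1 0 0 0 0 0 3
(.s 0 3 0 0 0 0 0 13
(.lf 2 true 1 false false 2 1) (.s 3 21 0 0 21 0 0 21
(.lf 2 true 1 false false 2 1) (.s 4 0 10 10 0 11 0 0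
(.lf 2 true 1 false false 2 0) (.lf 2 true 1 false false 2 1)))) (.s 3 1 0 0 1 0 0 0
(.s 3 21 0 0 21 0 0 21
(.lf 2 true 1 false false 2 1) (.s 4 0 10 10 0 11 0 0
(.lf 2 true 1 false false 2 0) (.lf 2 true 1 false false 2 1))) (.s 4 7 0 0 7 0 4 2
(.lf 2 true 1 false false 2 0) (.lf 2 true 1 false true 2 0)))) (.s 0 1 0 0 0 0 0 3
(.lf 2 true 1 false false 2 2) (.s 3 1 0 0 1 0 0 0
(.lf 2 true 1 false false 2 2) (.s 4 1 0 0 1 0 0 0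
(.lf 2 true 1 false false 2 0) (.lf 2 true 0 false false 2 0))))))))) (.s 1 0 4 12 0 0 0 6
(.s 0 97597 0 0 0 0 0 200957
(.lf 1 true 1 false true 1 2) (.s 1 8746 0 0 0 0 0 33492
(.lf 1 true 1 false true 1 2) (.s 2 8746 0 0 0 0 0 33492
(.lf 1 true 1 false true 1 2) (.lf 1 true 2 true false 1 2)))) (.s 1 0 4 19 0 0 0 13
(.s 3 3 0 0 0 0 0 4
(.lf 2 true 1 false false 2 2) (.s 0 2 0 0 0 0 0 4
(.s 3 1 0 0 1 0 0 0
(.lf 2 true 1 false false 2 2) (.s 4 7 0 0 7 0 4 2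
(.lf 2 true 1 false false 2 0) (.lf 2 true 1 false true 2 0))) (.s 2 0 0 0 0 1 0 1
(.s 0 5 0 0 0 0 0 10
(.s 4 7 0 0 7 0 4 2
(.lf 2 true 1 false false 1 0) (.lf 2 true 1 false true 1 0)) (.s 3 11 0 0 11 0 0 7
(.s 4 7 0 0 7 0 4 2
(.lf 2 true 1 false true 1 0) (.lf 2 true 1 false true 1 0)) (.lf 2 true 1 false true 1 0))) (.s 0 97597 0 0 0 0 0 200957
(.s 0 256416 0 0 0 0 0 636366
(.lf 2 true 1 false true 1 0) (.s 1 8746 0 0 0 0 0 33492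
(.lf 2 true 1 false true 1 0) (.s 2 8746 0 0 0 0 0 33492
(.lf 2 true 1 false true 1 0) (.lf 2 true 1 false false 2 0)))) (.s 2 8746 0 0 0 0 0 33492
(.lf 2 true 1 false true 1 0) (.lf 2 true 2 false false 1 0)))))) (.s 3 3 0 0 0 0 0 4
(.lf 2 true 1 false false 2 2) (.s 1 0 4 33 0 0 0 27
(.s 4 0 0 0 0 11 0 20
(.s 0 2 0 0 0 0 0 4
(.lf 2 true 1 false false 1 2) (.lf 2 true 1 false false 1 0)) (.s 2 0 0 0 0 1 0 1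
(.s 0 2 0 0 0 0 0 4
(.s 3 1 0 0 1 0 0 0
(.lf 2 true 1 false false 2 2) (.s 4 7 0 0 7 0 4 2
(.lf 2 true 1 false false 2 0) (.lf 2 true 1 false true 2 0))) (.s 1 0 12 71 0 0 0 55
(.lf 2 true 1 false true 1 0) (.s 1 0 20 137 0 0 0 111
(.lf 2 true 1 false true 1 0) (.lf 2 true 1 false true 1 0)))) (.s 0 2 0 0 0 0 0 4
(.s 3 1 0 0 1 0 0 0
(.lf 2 true 1 false false 2 2) (.s 4 1 0 0 1 0 0 0
(.lf 2 true 1 false false 2 0) (.lf 2 true 0 false false 2 0))) (.s 4 1 0 0 1 0 0 0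
(.lf 2 true 1 false false 2 0) (.lf 2 true 0 false false 2 0))))) (.s 0 2 0 0 0 0 0 4
(.s 3 1 0 0 1 0 0 0
(.lf 2 true 1 false false 2 2) (.s 4 1 0 0 1 0 0 0
(.s 0 3 0 0 0 0 0 7
(.lf 2 true 1 false false 2 0) (.lf 2 true 1 false false 2 0)) (.s 0 3 0 0 0 0 0 7
(.lf 2 true 0 false false 2 0) (.lf 2 true 0 false false 2 0)))) (.s 4 1 0 0 1 0 0 0
(.lf 2 true 1 false false 2 0) (.lf 2 true 0 false false 2 0)))))))) (.s 0 1 0 0 0 0 0 3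
(.s 0 1 0 0 0 0 0 9
(.s 0 1 0 0 0 0 0 19
(.s 4 1000 0 0 1000 0 0 2736
(.lf 3 true 1 true false 2 1) (.lf 3 true 1 false false 2 1)) (.lf 3 true 1 false false 2 1)) (.s 0 1 0 0 0 0 0 4
(.lf 3 true 1 false false 2 1) (.lf 3 true 1 false false 2 2))) (.lf 3 true 1 false false 2 2))) (.s 1 0 4 12 0 0 0 6
(.s 1 8746 0 0 0 0 0 33492
(.lf 1 true 1 false true 1 0) (.s 2 8746 0 0 0 0 0 33492
(.lf 1 true 1 true true 1 0) (.lf 1 true 2 false false 1 0))) (.s 2 8746 0 0 0 0 0 33492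
(.lf 2 true 1 false true 1 0) (.lf 2 true 2 false false 1 0)))) (.s 0 5 0 0 0 0 0 7
(.s 1 0 4 12 0 0 0 6
(.s 1 8746 0 0 0 0 0 33492
(.lf 1 false 1 false true 1 0) (.s 2 8746 0 0 0 0 0 33492
(.lf 1 false 1 false true 1 0) (.lf 1 false 2 false false 1 0))) (.s 2 8746 0 0 0 0 0 33492
(.lf 2 false 1 false true 1 0) (.lf 2 false 2 false false 1 0))) (.s 1 8746 0 0 0 0 0 33492
(.lf 1 false 0 true true 1 0) (.s 2 8746 0 0 0 0 0 33492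
(.lf 1 false 0 true true 1 0) (.lf 1 false 2 false false 1 0)))))

def i1_13b : T2 :=
(.k 1014856 0 0 1205748 0 0 t1_13b_0)

theorem hi1_13b : chk2 (leaf1 a1_13 e1_13) 10000 i1_13b R13_1b = true := by
  decide +kernel

def i1_13 : T2 := .s 3 0 0 4 0 10 i1_13a i1_13b

theorem hi1_13 : chk2 (leaf1 a1_13 e1_13) 10000 i1_13 R13 = true := chk2_s hi1_13a hi1_13b

theorem ok13 : CellOk R13 a0_13 e0_13 a1_13 e1_13 :=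
  ⟨lin13, ⟨_, ho00_13⟩, ⟨_, ho01_13⟩, ⟨_, ho10_13⟩, ⟨_, ho11_13⟩, ⟨_, hi0_13⟩, ⟨_, hi1_13⟩⟩

def R18 : Reg := ⟨⟨0, 0, 0, 0, 0, 0, 0⟩, ⟨1, 0, 0, 0, 0, 0, 0⟩, ⟨1, 0, 0, 0, 0, 0, 3⟩, ⟨1, 0, 0, 0, 0, 0, 1⟩, ⟨0, 0, 0, 0, 1, 0, 0⟩, ⟨1, 0, 0, 0, 3, 0, 3⟩, ⟨1, 0, 0, 0, 0, 0, 1⟩, ⟨3, 0, 0, 0, 0, 0, 4⟩, ⟨0, 0, 0, 0, 0, 0, 0⟩, ⟨0, 0, 0, 0, 1, 0, 0⟩⟩

def a0_18 : SF := mu 0 835898 107500 0 0 50075 3431224 0

def e0_18 : SF := mu 2039365 0 803644 0 2097212 0 0 11313319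

def a1_18 : SF := mu 0 596687 58437 0 44721 0 2342027 0

def e1_18 : SF := mu 1538605 0 618188 0 1468048 0 0 8497132

theorem lin18 : chkLin R18 a0_18 e0_18 a1_18 e1_18 = true := by decide +kernel

def o00_18 : T3 :=
(.s 0 8 0 0 0 0 0 14
(.s 0 1 0 0 0 0 0 3
(.lf 3 true 0 false false 0 0) (.s 0 1 0 0 0 0 0 1
(.s 1 0 0 1 0 0 0 0
(.s 0 23 0 0 0 0 0 47
(.s 0 7 0 0 0 0 0 15
(.s 2 0 0 1 0 0 0 0
(.s 1 1 0 4 0 0 0 7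
(.s 1 3 0 4 0 0 0 15
(.s 0 7 0 0 0 0 0 19
(.s 0 3 0 0 0 0 0 9
(.lf 2 true 0 true false 0 0) (.lf 2 true 0 true false 0 0)) (.s 0 2 0 0 0 0 0 4
(.lf 2 true 0 true false 0 0) (.lf 2 true 0 true false 0 0))) (.lf 2 true 0 true false 0 0)) (.lf 2 true 0 false false 0 0)) (.s 1 1 0 4 0 0 0 7
(.s 1 3 0 4 0 0 0 15
(.s 0 7 0 0 0 0 0 19
(.s 0 3 0 0 0 0 0 9
(.lf 2 true 0 false false 0 0) (.lf 2 true 0 false false 0 0)) (.s 0 2 0 0 0 0 0 4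
(.lf 2 true 0 false false 0 0) (.lf 2 true 0 false false 0 0))) (.lf 2 true 0 false false 0 0)) (.lf 2 true 0 false false 0 0))) (.s 1 0 1 4 0 0 0 2
(.lf 2 true 0 true false 0 0) (.s 2 0 0 1 0 0 0 0
(.s 1 0 1 7 0 0 0 5
(.s 1 0 1 5 0 0 0 3
(.s 1 0 7 31 0 0 0 23
(.s 0 23 0 0 0 0 0 49
(.lf 2 true 0 true false 0 0) (.lf 2 true 0 true false 0 0)) (.lf 2 true 0 true false 0 0)) (.lf 2 true 0 true false 0 0)) (.lf 2 true 0 true false 0 0)) (.s 1 0 1 7 0 0 0 5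
(.s 1 0 1 5 0 0 0 3
(.s 1 0 7 31 0 0 0 23
(.s 0 23 0 0 0 0 0 49
(.lf 2 true 0 false false 0 0) (.lf 2 true 0 false false 0 0)) (.lf 2 true 0 false false 0 0)) (.lf 2 true 0 false false 0 0)) (.lf 2 true 0 false false 0 0))))) (.s 1 0 4 12 0 0 0 6
(.lf 1 true 0 true false 0 0) (.s 1 0 1 4 0 0 0 2
(.lf 2 true 0 true false 0 0) (.s 2 0 0 1 0 0 0 0
(.lf 2 true 0 true false 0 0) (.lf 2 true 0 false false 0 0))))) (.lf 3 true 0 false false 0 0)) (.s 1 0 4 12 0 0 0 6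
(.lf 1 true 0 true false 0 0) (.s 1 0 1 4 0 0 0 2
(.lf 2 true 0 true false 0 0) (.s 2 0 0 1 0 0 0 0
(.lf 2 true 0 true false 0 0) (.lf 2 true 0 false false 0 0)))))) (.s 0 5 0 0 0 0 0 7
(.s 1 0 4 12 0 0 0 6
(.lf 1 false 0 true false 0 0) (.lf 2 false 0 true false 0 0)) (.lf 1 false 0 true false 0 0)))

theorem ho00_18 : chk3 (leafO 10500000 3 a0_18 e0_18 R18.x0.ap R18.x0.m) o00_18 (full R18) = true := by
  decide +kernel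

def o01_18 : T3 :=
(.s 0 8 0 0 0 0 0 14
(.s 0 1 0 0 0 0 0 3
(.lf 3 true 0 false false 0 0) (.s 0 1 0 0 0 0 0 1
(.s 1 0 0 1 0 0 0 0
(.s 0 23 0 0 0 0 0 47
(.s 0 7 0 0 0 0 0 15
(.s 2 0 0 1 0 0 0 0
(.s 1 1 0 4 0 0 0 7
(.s 1 3 0 4 0 0 0 15
(.s 1 7 0 4 0 0 0 31
(.s 0 7 0 0 0 0 0 19
(.lf 2 true 0 true false 0 0) (.lf 2 true 0 true false 0 0)) (.lf 2 true 0 true false 0 0)) (.lf 2 true 0 true false 0 0)) (.lf 2 true 0 false false 0 0)) (.s 1 1 0 4 0 0 0 7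
(.s 1 3 0 4 0 0 0 15
(.s 1 7 0 4 0 0 0 31
(.s 0 7 0 0 0 0 0 19
(.lf 2 true 0 false false 0 0) (.lf 2 true 0 false false 0 0)) (.lf 2 true 0 false false 0 0)) (.lf 2 true 0 false false 0 0)) (.lf 2 true 0 false false 0 0))) (.s 1 0 1 4 0 0 0 2
(.s 0 23 0 0 0 0 0 49
(.lf 2 true 0 true false 0 0) (.lf 2 true 0 true false 0 0)) (.s 2 0 0 1 0 0 0 0
(.s 1 0 1 7 0 0 0 5
(.s 1 0 1 5 0 0 0 3
(.s 1 0 7 31 0 0 0 23
(.s 0 23 0 0 0 0 0 49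
(.s 0 9 0 0 0 0 0 19
(.lf 2 true 0 true false 0 0) (.lf 2 true 0 true false 0 0)) (.s 0 47 0 0 0 0 0 99
(.lf 2 true 0 true false 0 0) (.lf 2 true 0 true false 0 0))) (.lf 2 true 0 true false 0 0)) (.lf 2 true 0 true false 0 0)) (.lf 2 true 0 true false 0 0)) (.s 1 0 1 7 0 0 0 5
(.s 1 0 1 5 0 0 0 3
(.s 1 0 7 31 0 0 0 23
(.s 0 23 0 0 0 0 0 49
(.s 0 9 0 0 0 0 0 19
(.lf 2 true 0 false false 0 0) (.lf 2 true 0 false false 0 0)) (.s 0 47 0 0 0 0 0 99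
(.lf 2 true 0 false false 0 0) (.lf 2 true 0 false false 0 0))) (.lf 2 true 0 false false 0 0)) (.lf 2 true 0 false false 0 0)) (.lf 2 true 0 false false 0 0))))) (.s 1 0 4 12 0 0 0 6
(.lf 1 true 0 true false 0 0) (.s 1 0 1 4 0 0 0 2
(.lf 2 true 0 true false 0 0) (.s 2 0 0 1 0 0 0 0
(.lf 2 true 0 true false 0 0) (.lf 2 true 0 false false 0 0))))) (.lf 3 true 0 false false 0 0)) (.s 1 0 4 12 0 0 0 6
(.lf 1 true 0 true false 0 0) (.s 1 0 1 4 0 0 0 2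
(.lf 2 true 0 true false 0 0) (.s 2 0 0 1 0 0 0 0
(.lf 2 true 0 true false 0 0) (.lf 2 true 0 false false 0 0)))))) (.s 0 5 0 0 0 0 0 7
(.s 1 0 4 12 0 0 0 6
(.lf 1 false 0 true false 0 0) (.lf 2 false 0 true false 0 0)) (.lf 1 false 0 true false 0 0)))

theorem ho01_18 : chk3 (leafO 10500000 3 a0_18 e0_18 R18.x1.ap R18.x1.m) o01_18 (full R18) = true := by
  decide +kernel

def o10_18 : T3 :=
(.s 0 8 0 0 0 0 0 14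
(.s 0 1 0 0 0 0 0 3
(.lf 3 true 0 false false 0 0) (.s 0 1 0 0 0 0 0 1
(.s 1 0 0 1 0 0 0 0
(.s 0 23 0 0 0 0 0 47
(.s 0 7 0 0 0 0 0 15
(.s 2 0 0 1 0 0 0 0
(.s 1 1 0 4 0 0 0 7
(.s 1 3 0 4 0 0 0 15
(.s 0 7 0 0 0 0 0 19
(.lf 2 true 0 true false 0 0) (.lf 2 true 0 true false 0 0)) (.lf 2 true 0 true false 0 0)) (.lf 2 true 0 false false 0 0)) (.s 1 1 0 4 0 0 0 7
(.s 1 3 0 4 0 0 0 15
(.s 0 7 0 0 0 0 0 19
(.lf 2 true 0 false false 0 0) (.lf 2 true 0 false false 0 0)) (.lf 2 true 0 false false 0 0)) (.lf 2 true 0 false false 0 0))) (.s 1 0 1 4 0 0 0 2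
(.lf 2 true 0 true false 0 0) (.s 2 0 0 1 0 0 0 0
(.s 1 0 1 7 0 0 0 5
(.s 1 0 1 5 0 0 0 3
(.lf 2 true 0 true false 0 0) (.lf 2 true 0 true false 0 0)) (.lf 2 true 0 true false 0 0)) (.s 1 0 1 7 0 0 0 5
(.s 1 0 1 5 0 0 0 3
(.lf 2 true 0 false false 0 0) (.lf 2 true 0 false false 0 0)) (.lf 2 true 0 false false 0 0))))) (.s 1 0 4 12 0 0 0 6
(.lf 1 true 0 true false 0 0) (.s 1 0 1 4 0 0 0 2
(.lf 2 true 0 true false 0 0) (.s 2 0 0 1 0 0 0 0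
(.lf 2 true 0 true false 0 0) (.lf 2 true 0 false false 0 0))))) (.lf 3 true 0 false false 0 0)) (.s 1 0 4 12 0 0 0 6
(.lf 1 true 0 true false 0 0) (.s 1 0 1 4 0 0 0 2
(.lf 2 true 0 true false 0 0) (.s 2 0 0 1 0 0 0 0
(.lf 2 true 0 true false 0 0) (.lf 2 true 0 false false 0 0)))))) (.s 0 5 0 0 0 0 0 7
(.s 1 0 4 12 0 0 0 6
(.lf 1 false 0 true false 0 0) (.lf 2 false 0 true false 0 0)) (.lf 1 false 0 true false 0 0)))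

theorem ho10_18 : chk3 (leafO 5554500 1 a1_18 e1_18 R18.x0.ap R18.x0.m) o10_18 (full R18) = true := by
  decide +kernel

def o11_18 : T3 :=
(.s 0 8 0 0 0 0 0 14
(.s 0 1 0 0 0 0 0 3
(.lf 3 true 0 false false 0 0) (.s 0 1 0 0 0 0 0 1
(.s 1 0 0 1 0 0 0 0
(.s 0 23 0 0 0 0 0 47
(.s 0 7 0 0 0 0 0 15
(.s 2 0 0 1 0 0 0 0
(.s 1 1 0 4 0 0 0 7
(.lf 2 true 0 true false 0 0) (.lf 2 true 0 false false 0 0)) (.s 1 1 0 4 0 0 0 7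
(.lf 2 true 0 false false 0 0) (.lf 2 true 0 false false 0 0))) (.s 1 0 1 4 0 0 0 2
(.lf 2 true 0 true false 0 0) (.s 2 0 0 1 0 0 0 0
(.s 1 0 1 7 0 0 0 5
(.s 1 0 1 5 0 0 0 3
(.lf 2 true 0 true false 0 0) (.lf 2 true 0 true false 0 0)) (.lf 2 true 0 true false 0 0)) (.s 1 0 1 7 0 0 0 5
(.s 1 0 1 5 0 0 0 3
(.lf 2 true 0 false false 0 0) (.lf 2 true 0 false false 0 0)) (.lf 2 true 0 false false 0 0))))) (.s 1 0 4 12 0 0 0 6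
(.lf 1 true 0 true false 0 0) (.s 1 0 1 4 0 0 0 2
(.lf 2 true 0 true false 0 0) (.s 2 0 0 1 0 0 0 0
(.lf 2 true 0 true false 0 0) (.lf 2 true 0 false false 0 0))))) (.lf 3 true 0 false false 0 0)) (.s 1 0 4 12 0 0 0 6
(.lf 1 true 0 true false 0 0) (.s 1 0 1 4 0 0 0 2
(.lf 2 true 0 true false 0 0) (.s 2 0 0 1 0 0 0 0
(.lf 2 true 0 true false 0 0) (.lf 2 true 0 false false 0 0)))))) (.s 0 5 0 0 0 0 0 7
(.s 1 0 4 12 0 0 0 6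
(.lf 1 false 0 true false 0 0) (.lf 2 false 0 true false 0 0)) (.lf 1 false 0 true false 0 0)))

theorem ho11_18 : chk3 (leafO 5554500 1 a1_18 e1_18 R18.x1.ap R18.x1.m) o11_18 (full R18) = true := by
  decide +kernel

def t0_18_0 : T3 :=
(.s 0 8 0 0 0 0 0 14
(.s 0 1 0 0 0 0 0 3
(.lf 3 true 1 true false 0 0) (.s 0 1 0 0 0 0 0 1
(.s 1 0 0 1 0 0 0 0
(.s 0 23 0 0 0 0 0 47
(.lf 2 true 1 true false 0 0) (.s 1 0 4 12 0 0 0 6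
(.lf 1 true 1 false false 0 0) (.lf 2 true 1 true false 0 0))) (.lf 3 true 1 true false 0 0)) (.s 1 0 4 12 0 0 0 6
(.lf 1 true 1 true false 0 0) (.lf 2 true 1 true false 0 0)))) (.s 0 5 0 0 0 0 0 7
(.s 1 0 4 12 0 0 0 6
(.lf 1 false 1 false false 0 0) (.lf 2 false 1 true false 0 0)) (.lf 1 false 0 false false 0 0)))

def t0_18_1 : T3 :=
(.s 0 8 0 0 0 0 0 14
(.s 0 1 0 0 0 0 0 3
(.s 0 1789 0 0 0 0 0 9999
(.lf 3 true 1 true false 0 0) (.s 3 2000 0 0 2000 0 0 2736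
(.lf 3 true 1 true false 0 0) (.s 4 1000 0 0 1000 0 0 2736
(.lf 3 true 1 true false 0 0) (.lf 3 true 1 false false 0 0)))) (.s 0 1 0 0 0 0 0 1
(.s 1 0 0 1 0 0 0 0
(.s 0 23 0 0 0 0 0 47
(.s 0 2 0 0 0 0 0 4
(.s 0 1263 0 0 0 0 0 3999
(.s 3 2000 0 0 2000 0 0 2736
(.lf 2 true 1 true false 0 0) (.s 4 1000 0 0 1000 0 0 2736
(.lf 2 true 1 true false 0 0) (.lf 2 true 1 false false 0 0))) (.s 4 1000 0 0 1000 0 0 2736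
(.lf 2 true 1 true false 0 0) (.lf 2 true 1 false false 0 0))) (.lf 2 true 1 false false 0 0)) (.s 1 0 4 12 0 0 0 6
(.lf 1 true 1 false false 0 0) (.lf 2 true 1 false false 0 0))) (.s 0 2 0 0 0 0 0 4
(.s 0 1263 0 0 0 0 0 3999
(.s 3 2000 0 0 2000 0 0 2736
(.lf 3 true 1 true false 0 0) (.s 4 1000 0 0 1000 0 0 2736
(.lf 3 true 1 true false 0 0) (.lf 3 true 1 false false 0 0))) (.s 4 1000 0 0 1000 0 0 2736
(.lf 3 true 1 true false 0 0) (.lf 3 true 1 false false 0 0))) (.s 3 1 0 0 1 0 0 0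
(.s 4 1000 0 0 1000 0 0 2736
(.lf 3 true 1 true false 0 0) (.lf 3 true 1 false false 0 0)) (.lf 3 true 1 false false 0 0)))) (.s 1 0 4 12 0 0 0 6
(.lf 1 true 1 true false 0 0) (.lf 2 true 1 false false 0 0)))) (.s 0 5 0 0 0 0 0 7
(.s 1 0 4 12 0 0 0 6
(.lf 1 false 1 false false 0 0) (.lf 2 false 1 false false 0 0)) (.lf 1 false 0 true false 0 0)))

def t0_18_2 : T3 :=
(.s 0 8 0 0 0 0 0 14
(.s 0 1 0 0 0 0 0 3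
(.lf 3 true 1 false false 0 0) (.s 0 1 0 0 0 0 0 1
(.s 1 0 0 1 0 0 0 0
(.s 0 23 0 0 0 0 0 47
(.lf 2 true 1 false false 0 0) (.s 1 0 4 12 0 0 0 6
(.lf 1 true 1 false false 0 0) (.lf 2 true 1 false false 0 0))) (.lf 3 true 1 false false 0 0)) (.s 1 0 4 12 0 0 0 6
(.lf 1 true 1 true false 0 0) (.lf 2 true 1 false false 0 0)))) (.s 0 5 0 0 0 0 0 7
(.s 1 0 4 12 0 0 0 6
(.lf 1 false 1 true false 0 0) (.lf 2 false 1 false false 0 0)) (.lf 1 false 0 false false 0 0)))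

def t0_18_3 : T3 :=
(.s 0 8 0 0 0 0 0 14
(.s 0 1 0 0 0 0 0 3
(.lf 3 true 1 false false 0 0) (.s 0 1 0 0 0 0 0 1
(.s 1 0 0 1 0 0 0 0
(.s 0 23 0 0 0 0 0 47
(.lf 2 true 1 false false 0 0) (.s 1 0 4 12 0 0 0 6
(.lf 1 true 1 true false 0 0) (.lf 2 true 1 false false 0 0))) (.lf 3 true 1 false false 0 0)) (.s 1 0 4 12 0 0 0 6
(.lf 1 true 1 false false 0 0) (.lf 2 true 1 false false 0 0)))) (.s 0 5 0 0 0 0 0 7
(.s 1 0 4 12 0 0 0 6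
(.lf 1 false 0 false false 0 0) (.lf 2 false 1 false false 0 0)) (.lf 1 false 0 false false 0 0)))

def i0_18 : T2 :=
(.s 3 0 0 1000 0 2736
(.k 822944 0 0 1184513 0 163247 t0_18_0) (.s 3 0 0 3 0 3
(.s 3 0 0 1 0 1
(.k 1467199 0 0 1831975 0 372288 t0_18_1) (.k 1152452 0 0 720085 0 775750 t0_18_2)) (.k 2000000 0 0 702009 0 2493441 t0_18_3)))

theorem hi0_18 : chk2 (leaf0 a0_18 e0_18) 0 i0_18 R18 = true := by
  decide +kernel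

def t1_18_0 : T3 :=
(.s 0 8 0 0 0 0 0 14
(.s 0 1 0 0 0 0 0 3
(.lf 3 true 1 true false 0 1) (.s 0 1 0 0 0 0 0 1
(.s 1 0 0 1 0 0 0 0
(.s 0 23 0 0 0 0 0 47
(.s 1 1 0 4 0 0 0 7
(.s 1 3 0 4 0 0 0 15
(.lf 2 true 1 true false 0 2) (.lf 2 true 1 true false 0 2)) (.lf 2 true 1 true false 0 2)) (.s 1 0 4 12 0 0 0 6
(.lf 1 true 1 false false 0 0) (.s 1 0 4 19 0 0 0 13
(.s 1 0 12 43 0 0 0 27
(.lf 2 true 1 true false 0 0) (.lf 2 true 1 true false 0 0)) (.lf 2 true 1 true false 0 0)))) (.lf 3 true 1 true false 0 2)) (.s 1 0 4 12 0 0 0 6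
(.lf 1 true 1 false false 0 0) (.lf 2 true 1 true false 0 0)))) (.s 0 5 0 0 0 0 0 7
(.s 1 0 4 12 0 0 0 6
(.lf 1 false 1 false false 0 0) (.lf 2 false 1 false false 0 0)) (.lf 1 false 2 false false 0 0)))

def t1_18_1 : T3 :=
(.s 0 8 0 0 0 0 0 14
(.s 0 1 0 0 0 0 0 3
(.lf 3 true 1 false false 1 1) (.s 0 1 0 0 0 0 0 1
(.s 1 0 0 1 0 0 0 0
(.s 0 23 0 0 0 0 0 47
(.s 1 1 0 4 0 0 0 7
(.lf 2 true 1 false false 2 2) (.lf 2 true 1 false false 2 2)) (.s 1 0 4 12 0 0 0 6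
(.lf 1 true 1 false true 1 2) (.s 1 1077703 0 0 0 0 0 3214241
(.lf 2 true 1 false false 2 2) (.lf 2 true 1 false false 2 2)))) (.lf 3 true 1 false false 2 2)) (.s 1 0 4 12 0 0 0 6
(.lf 1 true 1 false false 2 0) (.lf 2 true 1 false false 2 0)))) (.s 0 5 0 0 0 0 0 7
(.s 1 0 4 12 0 0 0 6
(.s 1 1077703 0 0 0 0 0 3214241
(.lf 1 false 1 true true 1 0) (.lf 1 false 2 false false 1 0)) (.lf 2 false 2 false false 1 0)) (.s 1 1077703 0 0 0 0 0 3214241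
(.lf 1 false 0 true true 1 0) (.lf 1 false 2 false false 1 0))))

def i1_18 : T2 :=
(.s 3 0 0 4 0 10
(.k 123889 0 0 451556 338667 0 t1_18_0) (.k 1777703 0 0 0 0 3214242 t1_18_1))

theorem hi1_18 : chk2 (leaf1 a1_18 e1_18) 10000 i1_18 R18 = true := by
  decide +kernel

theorem ok18 : CellOk R18 a0_18 e0_18 a1_18 e1_18 :=
  ⟨lin18, ⟨_, ho00_18⟩, ⟨_, ho01_18⟩, ⟨_, ho10_18⟩, ⟨_, ho11_18⟩, ⟨_, hi0_18⟩, ⟨_, hi1_18⟩⟩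

def R32 : Reg := ⟨⟨0, 0, 0, 0, 0, 0, 0⟩, ⟨1, 0, 0, 0, 0, 0, 0⟩, ⟨1, 0, 0, 0, 0, 0, 9⟩, ⟨1, 0, 0, 0, 0, 0, 3⟩, ⟨1, 0, 0, 0, 3, 0, 3⟩, ⟨1, 0, 0, 0, 1, 0, 1⟩, ⟨4, 0, 0, 0, 0, 0, 4⟩, ⟨17, 0, 0, 0, 0, 0, 19⟩, ⟨0, 0, 0, 0, 0, 0, 0⟩, ⟨0, 0, 0, 0, 1, 0, 0⟩⟩

def a0_32 : SF := mu 0 85201 106502 0 0 0 340806 0

def e0_32 : SF := mu 0 972427 1172001 0 2341494 0 0 1041122

def a1_32 : SF := mu 0 45951 57439 0 0 0 183806 0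

def e1_32 : SF := mu 0 405428 341023 0 1317940 0 265991 0

theorem lin32 : chkLin R32 a0_32 e0_32 a1_32 e1_32 = true := by decide +kernel

def o00_32 : T3 :=
(.s 0 8 0 0 0 0 0 14
(.s 0 1 0 0 0 0 0 9
(.lf 3 true 0 false false 0 0) (.s 0 1 0 0 0 0 0 3
(.s 1 0 0 1 0 0 0 0
(.lf 2 true 0 false false 0 0) (.lf 3 true 0 false false 0 0)) (.s 0 47 0 0 0 0 0 119
(.s 0 13 0 0 0 0 0 39
(.lf 2 true 0 false false 0 0) (.s 1 0 1 4 0 0 0 2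
(.s 2 0 0 1 0 0 0 0
(.lf 2 true 0 true false 0 0) (.lf 2 true 0 false false 0 0)) (.lf 2 true 0 false false 0 0))) (.s 0 23 0 0 0 0 0 47
(.s 1 0 4 12 0 0 0 6
(.s 2 0 0 1 0 0 0 0
(.lf 1 true 0 true false 0 0) (.lf 1 true 0 false false 0 0)) (.s 0 7 0 0 0 0 0 15
(.s 1 0 1 4 0 0 0 2
(.s 2 0 0 1 0 0 0 0
(.lf 2 true 0 true false 0 0) (.lf 2 true 0 false false 0 0)) (.lf 2 true 0 false false 0 0)) (.s 2 0 0 1 0 0 0 0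
(.lf 2 true 0 true false 0 0) (.lf 2 true 0 false false 0 0)))) (.s 2 0 0 1 0 0 0 0
(.lf 1 true 0 true false 0 0) (.lf 1 true 0 false false 0 0)))))) (.s 0 11 0 0 0 0 0 19
(.s 2 0 0 1 0 0 0 0
(.lf 1 false 0 true false 0 0) (.lf 1 false 0 false false 0 0)) (.s 0 5 0 0 0 0 0 7
(.s 1 0 1 2 0 0 0 0
(.lf 1 false 0 true false 0 0) (.s 2 0 0 1 0 0 0 0
(.lf 1 false 0 true false 0 0) (.lf 1 false 0 false false 0 0))) (.lf 1 false 0 true false 0 0))))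

theorem ho00_32 : chk3 (leafO 10500000 3 a0_32 e0_32 R32.x0.ap R32.x0.m) o00_32 (full R32) = true := by
  decide +kernel

def o01_32 : T3 :=
(.s 0 8 0 0 0 0 0 14
(.s 0 1 0 0 0 0 0 9
(.lf 3 true 0 false false 0 0) (.s 0 1 0 0 0 0 0 3
(.s 1 0 0 1 0 0 0 0
(.lf 2 true 0 false false 0 0) (.lf 3 true 0 false false 0 0)) (.s 0 47 0 0 0 0 0 119
(.s 0 13 0 0 0 0 0 39
(.lf 2 true 0 false false 0 0) (.s 1 0 1 4 0 0 0 2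
(.s 2 0 0 1 0 0 0 0
(.lf 2 true 0 true false 0 0) (.lf 2 true 0 false false 0 0)) (.lf 2 true 0 false false 0 0))) (.s 0 23 0 0 0 0 0 47
(.s 1 0 4 12 0 0 0 6
(.s 2 0 0 1 0 0 0 0
(.lf 1 true 0 true false 0 0) (.lf 1 true 0 false false 0 0)) (.s 0 7 0 0 0 0 0 15
(.s 1 0 1 4 0 0 0 2
(.s 2 0 0 1 0 0 0 0
(.lf 2 true 0 true false 0 0) (.lf 2 true 0 false false 0 0)) (.lf 2 true 0 false false 0 0)) (.s 2 0 0 1 0 0 0 0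
(.lf 2 true 0 true false 0 0) (.lf 2 true 0 false false 0 0)))) (.s 2 0 0 1 0 0 0 0
(.lf 1 true 0 true false 0 0) (.lf 1 true 0 false false 0 0)))))) (.s 0 11 0 0 0 0 0 19
(.s 2 0 0 1 0 0 0 0
(.lf 1 false 0 true false 0 0) (.lf 1 false 0 false false 0 0)) (.s 0 5 0 0 0 0 0 7
(.s 1 0 1 2 0 0 0 0
(.lf 1 false 0 true false 0 0) (.s 2 0 0 1 0 0 0 0
(.lf 1 false 0 true false 0 0) (.lf 1 false 0 false false 0 0))) (.lf 1 false 0 true false 0 0))))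

theorem ho01_32 : chk3 (leafO 10500000 3 a0_32 e0_32 R32.x1.ap R32.x1.m) o01_32 (full R32) = true := by
  decide +kernel

def o10_32 : T3 :=
(.s 0 8 0 0 0 0 0 14
(.s 0 1 0 0 0 0 0 9
(.lf 3 true 0 false false 0 0) (.s 0 1 0 0 0 0 0 3
(.s 1 0 0 1 0 0 0 0
(.lf 2 true 0 false false 0 0) (.lf 3 true 0 false false 0 0)) (.s 0 47 0 0 0 0 0 119
(.s 0 13 0 0 0 0 0 39
(.lf 2 true 0 false false 0 0) (.s 1 0 1 4 0 0 0 2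
(.s 2 0 0 1 0 0 0 0
(.lf 2 true 0 true false 0 0) (.lf 2 true 0 false false 0 0)) (.lf 2 true 0 false false 0 0))) (.s 0 23 0 0 0 0 0 47
(.s 1 0 4 12 0 0 0 6
(.s 2 0 0 1 0 0 0 0
(.lf 1 true 0 true false 0 0) (.lf 1 true 0 false false 0 0)) (.s 0 7 0 0 0 0 0 15
(.s 1 0 1 4 0 0 0 2
(.s 2 0 0 1 0 0 0 0
(.lf 2 true 0 true false 0 0) (.lf 2 true 0 false false 0 0)) (.lf 2 true 0 false false 0 0)) (.s 2 0 0 1 0 0 0 0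
(.lf 2 true 0 true false 0 0) (.lf 2 true 0 false false 0 0)))) (.s 2 0 0 1 0 0 0 0
(.lf 1 true 0 true false 0 0) (.lf 1 true 0 false false 0 0)))))) (.s 0 11 0 0 0 0 0 19
(.s 2 0 0 1 0 0 0 0
(.lf 1 false 0 true false 0 0) (.lf 1 false 0 false false 0 0)) (.s 0 5 0 0 0 0 0 7
(.s 1 0 1 2 0 0 0 0
(.lf 1 false 0 true false 0 0) (.s 2 0 0 1 0 0 0 0
(.lf 1 false 0 true false 0 0) (.lf 1 false 0 false false 0 0))) (.lf 1 false 0 true false 0 0))))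

theorem ho10_32 : chk3 (leafO 5554500 1 a1_32 e1_32 R32.x0.ap R32.x0.m) o10_32 (full R32) = true := by
  decide +kernel

def o11_32 : T3 :=
(.s 0 8 0 0 0 0 0 14
(.s 0 1 0 0 0 0 0 9
(.lf 3 true 0 false false 0 0) (.s 0 1 0 0 0 0 0 3
(.s 1 0 0 1 0 0 0 0
(.lf 2 true 0 false false 0 0) (.lf 3 true 0 false false 0 0)) (.s 0 47 0 0 0 0 0 119
(.s 0 13 0 0 0 0 0 39
(.lf 2 true 0 false false 0 0) (.s 1 0 1 4 0 0 0 2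
(.s 2 0 0 1 0 0 0 0
(.lf 2 true 0 true false 0 0) (.lf 2 true 0 false false 0 0)) (.lf 2 true 0 false false 0 0))) (.s 0 23 0 0 0 0 0 47
(.s 1 0 4 12 0 0 0 6
(.s 2 0 0 1 0 0 0 0
(.lf 1 true 0 true false 0 0) (.lf 1 true 0 false false 0 0)) (.s 0 7 0 0 0 0 0 15
(.s 1 0 1 4 0 0 0 2
(.s 2 0 0 1 0 0 0 0
(.lf 2 true 0 true false 0 0) (.lf 2 true 0 false false 0 0)) (.lf 2 true 0 false false 0 0)) (.s 2 0 0 1 0 0 0 0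
(.lf 2 true 0 true false 0 0) (.lf 2 true 0 false false 0 0)))) (.s 2 0 0 1 0 0 0 0
(.lf 1 true 0 true false 0 0) (.lf 1 true 0 false false 0 0)))))) (.s 0 11 0 0 0 0 0 19
(.s 2 0 0 1 0 0 0 0
(.lf 1 false 0 true false 0 0) (.lf 1 false 0 false false 0 0)) (.s 0 5 0 0 0 0 0 7
(.s 1 0 1 2 0 0 0 0
(.lf 1 false 0 true false 0 0) (.s 2 0 0 1 0 0 0 0
(.lf 1 false 0 true false 0 0) (.lf 1 false 0 false false 0 0))) (.lf 1 false 0 true false 0 0))))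

theorem ho11_32 : chk3 (leafO 5554500 1 a1_32 e1_32 R32.x1.ap R32.x1.m) o11_32 (full R32) = true := by
  decide +kernel

def t0_32_0 : T3 :=
(.s 0 8 0 0 0 0 0 14
(.s 0 1 0 0 0 0 0 9
(.lf 3 true 1 true false 0 0) (.s 0 1 0 0 0 0 0 3
(.s 1 0 0 1 0 0 0 0
(.s 0 1 0 0 0 0 0 4
(.s 0 3 0 0 0 0 0 19
(.lf 2 true 1 true false 0 0) (.s 3 1 0 0 1 0 0 0
(.lf 2 true 1 true false 0 0) (.s 4 1000 0 0 1000 0 0 2736
(.lf 2 true 1 true false 0 0) (.lf 2 true 1 false false 0 0)))) (.s 4 1000 0 0 1000 0 0 2736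
(.lf 2 true 1 true false 0 0) (.lf 2 true 1 false false 0 0))) (.s 0 1 0 0 0 0 0 4
(.s 0 3 0 0 0 0 0 19
(.lf 3 true 1 true false 0 0) (.s 3 1 0 0 1 0 0 0
(.lf 3 true 1 true false 0 0) (.s 4 1000 0 0 1000 0 0 2736
(.lf 3 true 1 true false 0 0) (.lf 3 true 1 false false 0 0)))) (.s 4 1000 0 0 1000 0 0 2736
(.lf 3 true 1 true false 0 0) (.lf 3 true 1 false false 0 0)))) (.s 0 47 0 0 0 0 0 119
(.s 4 1000 0 0 1000 0 0 2736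
(.lf 2 true 1 true false 0 0) (.lf 2 true 1 false false 0 0)) (.s 0 23 0 0 0 0 0 47
(.s 1 0 4 12 0 0 0 6
(.lf 1 true 1 false false 0 0) (.lf 2 true 1 false false 0 0)) (.lf 1 true 1 true false 0 0))))) (.lf 1 false 0 false false 0 0))

def t0_32_1 : T3 :=
(.s 0 8 0 0 0 0 0 14
(.s 0 1 0 0 0 0 0 9
(.lf 3 true 1 false false 0 0) (.s 0 1 0 0 0 0 0 3
(.s 1 0 0 1 0 0 0 0
(.lf 2 true 1 false false 0 0) (.lf 3 true 1 false false 0 0)) (.s 0 47 0 0 0 0 0 119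
(.lf 2 true 1 false false 0 0) (.s 0 23 0 0 0 0 0 47
(.s 1 0 4 12 0 0 0 6
(.lf 1 true 1 true false 0 0) (.lf 2 true 1 false false 0 0)) (.lf 1 true 1 false false 0 0))))) (.lf 1 false 0 false false 0 0))

def i0_32 : T2 :=
(.s 3 0 0 1000 0 2736
(.k 0 126662 792531 0 0 876284 t0_32_0) (.k 1129687 0 0 1097510 0 588565 t0_32_1))

theorem hi0_32 : chk2 (leaf0 a0_32 e0_32) 0 i0_32 R32 = true := by
  decide +kernel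

def t1_32_0 : T3 :=
(.s 0 8 0 0 0 0 0 14
(.s 0 1 0 0 0 0 0 9
(.lf 3 true 1 true false 0 2) (.s 0 1 0 0 0 0 0 3
(.s 1 0 0 1 0 0 0 0
(.lf 2 true 1 true false 0 2) (.lf 3 true 1 true false 0 2)) (.s 0 47 0 0 0 0 0 119
(.lf 2 true 1 true false 0 0) (.s 0 23 0 0 0 0 0 47
(.s 1 0 4 12 0 0 0 6
(.lf 1 true 1 true false 0 0) (.lf 2 true 1 true false 0 0)) (.lf 1 true 2 true false 0 0))))) (.lf 1 false 2 true false 0 0))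

def t1_32_1 : T3 :=
(.s 0 8 0 0 0 0 0 14
(.s 0 1 0 0 0 0 0 9
(.lf 3 true 1 false false 2 2) (.s 0 1 0 0 0 0 0 3
(.s 1 0 0 1 0 0 0 0
(.lf 2 true 1 false false 2 2) (.lf 3 true 1 false false 2 2)) (.s 0 47 0 0 0 0 0 119
(.lf 2 true 1 false false 2 0) (.s 0 23 0 0 0 0 0 47
(.s 1 0 4 12 0 0 0 6
(.s 4 0 0 0 0 15 0 21
(.s 0 37673203 0 0 0 0 0 89232859
(.s 0 1412921 0 0 0 0 0 3492779
(.lf 1 true 1 false true 1 0) (.s 1 35523 0 0 0 0 0 291064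
(.lf 1 true 1 true true 1 0) (.s 2 1041878 0 0 0 0 5000000 769404
(.lf 1 true 1 false true 1 0) (.lf 1 true 2 false false 1 0)))) (.s 1 3398107 0 0 0 0 0 22308214
(.s 1 35523 0 0 0 0 0 291064
(.lf 1 true 1 false true 1 0) (.s 2 1041878 0 0 0 0 5000000 769404
(.lf 1 true 1 false true 1 0) (.lf 1 true 2 false false 1 0))) (.lf 1 true 2 false false 1 0))) (.lf 1 true 0 true false 2 0)) (.lf 2 true 1 false false 2 0)) (.s 1 3398107 0 0 0 0 0 22308214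
(.s 1 35523 0 0 0 0 0 291064
(.lf 1 true 1 false true 1 0) (.s 2 1041878 0 0 0 0 5000000 769404
(.lf 1 true 1 false true 1 0) (.lf 1 true 2 false false 1 0))) (.lf 1 true 2 false false 1 0)))))) (.s 1 3398107 0 0 0 0 0 22308214
(.s 1 35523 0 0 0 0 0 291064
(.lf 1 false 0 false true 1 0) (.s 2 1041878 0 0 0 0 5000000 769404
(.lf 1 false 0 false true 1 0) (.lf 1 false 2 false false 1 0))) (.lf 1 false 2 false false 1 0)))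

def i1_32 : T2 :=
(.s 3 0 0 4 0 10
(.k 263200 0 0 504401 252200 0 t1_32_0) (.k 1741878 0 0 769405 0 5000000 t1_32_1))

theorem hi1_32 : chk2 (leaf1 a1_32 e1_32) 10000 i1_32 R32 = true := by
  decide +kernel

theorem ok32 : CellOk R32 a0_32 e0_32 a1_32 e1_32 :=
  ⟨lin32, ⟨_, ho00_32⟩, ⟨_, ho01_32⟩, ⟨_, ho10_32⟩, ⟨_, ho11_32⟩, ⟨_, hi0_32⟩, ⟨_, hi1_32⟩⟩

def R42 : Reg := ⟨⟨0, 0, 0, 0, 0, 0, 0⟩, ⟨1, 0, 0, 0, 0, 0, 0⟩, ⟨0, 0, 0, 0, 0, 0, 0⟩, ⟨1, 0, 0, 0, 0, 0, 0⟩, ⟨1, 0, 0, 0, 1, 0, 1⟩, ⟨1, 0, 0, 0, 0, 0, 0⟩, ⟨1, 0, 0, 0, 0, 0, 1⟩, ⟨1, 0, 0, 0, 0, 0, 0⟩, ⟨0, 0, 0, 0, 0, 0, 0⟩, ⟨0, 0, 0, 0, 1, 0, 0⟩⟩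

def a0_42 : SF := mu 73 0 0 0 0 0 422040 0

def e0_42 : SF := mu 0 395969 1500088 0 753088 0 0 1266119

def a1_42 : SF := mu 30 0 0 0 0 0 225961 0

def e1_42 : SF := mu 0 277199 1050062 0 527162 0 0 897290

theorem lin42 : chkLin R42 a0_42 e0_42 a1_42 e1_42 = true := by decide +kernel

def o00_42 : T3 :=
(.s 0 8 0 0 0 0 0 14
(.s 1 0 0 1 0 0 0 0
(.s 0 1 0 0 0 0 0 2
(.lf 2 true 0 false false 0 0) (.s 1 0 4 12 0 0 0 6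
(.s 0 1 0 0 0 0 0 1
(.lf 1 true 0 false false 0 0) (.s 1 0 1 2 0 0 0 0
(.s 2 0 0 1 0 0 0 0
(.lf 1 true 0 true false 0 0) (.lf 1 true 0 false false 0 0)) (.lf 1 true 0 false false 0 0))) (.s 0 2 0 0 0 0 0 4
(.lf 2 true 0 false false 0 0) (.lf 2 true 0 false false 0 0)))) (.lf 3 true 0 false false 0 0)) (.s 1 0 0 1 0 0 0 0
(.s 0 4 0 0 0 0 0 4
(.s 1 0 4 12 0 0 0 6
(.s 1 0 1 2 0 0 0 0
(.s 2 0 0 1 0 0 0 0
(.lf 1 false 0 true false 0 0) (.lf 1 false 0 false false 0 0)) (.lf 1 false 0 false false 0 0)) (.lf 2 false 0 false false 0 0)) (.s 1 0 1 2 0 0 0 0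
(.s 2 0 0 1 0 0 0 0
(.lf 0 false 0 true false 0 0) (.lf 0 false 0 false false 0 0)) (.lf 0 false 0 false false 0 0))) (.s 0 4 0 0 0 0 0 4
(.lf 3 false 0 false false 0 0) (.s 0 11 0 0 0 0 0 11
(.s 1 0 4 12 0 0 0 6
(.lf 0 false 0 false false 0 0) (.lf 0 false 0 false false 0 0)) (.lf 0 false 0 false false 0 0)))))

theorem ho00_42 : chk3 (leafO 10500000 3 a0_42 e0_42 R42.x0.ap R42.x0.m) o00_42 (full R42) = true := by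
  decide +kernel

def o01_42 : T3 :=
(.s 0 8 0 0 0 0 0 14
(.s 1 0 0 1 0 0 0 0
(.s 0 1 0 0 0 0 0 2
(.lf 2 true 0 false false 0 0) (.s 1 0 4 12 0 0 0 6
(.s 0 1 0 0 0 0 0 1
(.lf 1 true 0 false false 0 0) (.s 1 0 1 2 0 0 0 0
(.s 2 0 0 1 0 0 0 0
(.lf 1 true 0 true false 0 0) (.lf 1 true 0 false false 0 0)) (.lf 1 true 0 false false 0 0))) (.lf 2 true 0 false false 0 0))) (.lf 3 true 0 false false 0 0)) (.s 1 0 0 1 0 0 0 0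
(.s 0 4 0 0 0 0 0 4
(.s 1 0 4 12 0 0 0 6
(.s 1 0 1 2 0 0 0 0
(.s 2 0 0 1 0 0 0 0
(.lf 1 false 0 true false 0 0) (.lf 1 false 0 false false 0 0)) (.lf 1 false 0 false false 0 0)) (.lf 2 false 0 false false 0 0)) (.s 1 0 1 2 0 0 0 0
(.s 2 0 0 1 0 0 0 0
(.lf 0 false 0 true false 0 0) (.lf 0 false 0 false false 0 0)) (.lf 0 false 0 false false 0 0))) (.s 0 4 0 0 0 0 0 4
(.lf 3 false 0 false false 0 0) (.s 0 11 0 0 0 0 0 11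
(.s 1 0 4 12 0 0 0 6
(.lf 0 false 0 false false 0 0) (.lf 0 false 0 false false 0 0)) (.lf 0 false 0 false false 0 0)))))

theorem ho01_42 : chk3 (leafO 10500000 3 a0_42 e0_42 R42.x1.ap R42.x1.m) o01_42 (full R42) = true := by
  decide +kernel

def o10_42 : T3 :=
(.s 0 8 0 0 0 0 0 14
(.s 1 0 0 1 0 0 0 0
(.s 0 1 0 0 0 0 0 2
(.lf 2 true 0 false false 0 0) (.s 1 0 4 12 0 0 0 6
(.lf 1 true 0 false false 0 0) (.lf 2 true 0 false false 0 0))) (.lf 3 true 0 false false 0 0)) (.s 1 0 0 1 0 0 0 0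
(.s 0 4 0 0 0 0 0 4
(.s 1 0 4 12 0 0 0 6
(.lf 1 false 0 false false 0 0) (.lf 2 false 0 false false 0 0)) (.lf 0 false 0 false false 0 0)) (.s 0 4 0 0 0 0 0 4
(.lf 3 false 0 false false 0 0) (.s 0 11 0 0 0 0 0 11
(.s 1 0 4 12 0 0 0 6
(.lf 0 false 0 false false 0 0) (.lf 0 false 0 false false 0 0)) (.lf 0 false 0 false false 0 0)))))

theorem ho10_42 : chk3 (leafO 5554500 1 a1_42 e1_42 R42.x0.ap R42.x0.m) o10_42 (full R42) = true := by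
  decide +kernel

def o11_42 : T3 :=
(.s 0 8 0 0 0 0 0 14
(.s 1 0 0 1 0 0 0 0
(.s 0 1 0 0 0 0 0 2
(.lf 2 true 0 false false 0 0) (.s 1 0 4 12 0 0 0 6
(.lf 1 true 0 false false 0 0) (.lf 2 true 0 false false 0 0))) (.lf 3 true 0 false false 0 0)) (.s 1 0 0 1 0 0 0 0
(.s 0 4 0 0 0 0 0 4
(.s 1 0 4 12 0 0 0 6
(.lf 1 false 0 false false 0 0) (.lf 2 false 0 false false 0 0)) (.lf 0 false 0 false false 0 0)) (.s 0 4 0 0 0 0 0 4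
(.lf 3 false 0 false false 0 0) (.s 0 11 0 0 0 0 0 11
(.s 1 0 4 12 0 0 0 6
(.lf 0 false 0 false false 0 0) (.lf 0 false 0 false false 0 0)) (.lf 0 false 0 false false 0 0)))))

theorem ho11_42 : chk3 (leafO 5554500 1 a1_42 e1_42 R42.x1.ap R42.x1.m) o11_42 (full R42) = true := by
  decide +kernel

def t0_42_0 : T3 :=
(.s 0 8 0 0 0 0 0 14
(.s 1 0 0 1 0 0 0 0
(.s 0 1 0 0 0 0 0 2
(.s 3 1 0 0 1 0 0 0
(.lf 2 true 1 true false 0 0) (.s 4 1000 0 0 1000 0 0 2736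
(.lf 2 true 1 false false 0 0) (.lf 2 true 1 false false 0 0))) (.s 1 0 4 12 0 0 0 6
(.lf 1 true 1 true false 0 0) (.s 3 3 0 0 0 0 0 3
(.lf 2 true 1 true false 0 0) (.lf 2 true 1 false false 0 0)))) (.s 0 1 0 0 0 0 0 1
(.s 3 1 0 0 1 0 0 0
(.lf 3 true 1 true false 0 0) (.s 4 1000 0 0 1000 0 0 2736
(.lf 3 true 1 false false 0 0) (.lf 3 true 1 false false 0 0))) (.s 4 1000 0 0 1000 0 0 2736
(.lf 3 true 1 true false 0 0) (.lf 3 true 1 false false 0 0)))) (.s 1 0 0 1 0 0 0 0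
(.s 0 4 0 0 0 0 0 4
(.s 1 0 4 12 0 0 0 6
(.lf 1 false 1 false false 0 0) (.lf 2 false 1 false false 0 0)) (.lf 0 false 0 false false 0 0)) (.s 0 4 0 0 0 0 0 4
(.lf 3 false 1 false false 0 0) (.s 0 11 0 0 0 0 0 11
(.s 1 0 4 12 0 0 0 6
(.lf 0 false 1 false false 0 0) (.lf 0 false 1 false false 0 0)) (.lf 0 false 0 false false 0 0)))))

def t0_42_1 : T3 :=
(.s 0 8 0 0 0 0 0 14
(.s 1 0 0 1 0 0 0 0
(.s 0 1 0 0 0 0 0 2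
(.lf 2 true 1 false false 0 0) (.s 1 0 4 12 0 0 0 6
(.lf 1 true 1 false false 0 0) (.lf 2 true 1 false false 0 0))) (.lf 3 true 1 false false 0 0)) (.s 1 0 0 1 0 0 0 0
(.s 0 4 0 0 0 0 0 4
(.s 1 0 4 12 0 0 0 6
(.lf 1 false 0 true false 0 0) (.lf 2 false 1 false false 0 0)) (.lf 0 false 0 true false 0 0)) (.s 0 4 0 0 0 0 0 4
(.lf 3 false 1 false false 0 0) (.s 0 11 0 0 0 0 0 11
(.s 1 0 4 12 0 0 0 6
(.lf 0 false 0 true false 0 0) (.lf 0 false 0 true false 0 0)) (.lf 0 false 0 true false 0 0)))))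

def i0_42 : T2 :=
(.s 3 0 0 1000 0 2736
(.k 509000 0 0 508000 2999 0 t0_42_0) (.k 998941 0 0 997941 0 0 t0_42_1))

theorem hi0_42 : chk2 (leaf0 a0_42 e0_42) 0 i0_42 R42 = true := by
  decide +kernel

def R42_1a : Reg := hi R42 (Nat.succ 3) ⟨0, 0, 0, 0, 4, 0, 10⟩

def R42_1b : Reg := lo R42 (Nat.succ 3) ⟨0, 0, 0, 0, 4, 0, 10⟩

def t1_42a_0 : T3 :=
(.s 0 8 0 0 0 0 0 14
(.s 1 0 0 1 0 0 0 0
(.s 0 1 0 0 0 0 0 2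
(.lf 2 true 1 true false 0 2) (.s 1 0 4 12 0 0 0 6
(.lf 1 true 1 true false 0 2) (.lf 2 true 1 true false 0 2))) (.s 0 1 0 0 0 0 0 3
(.lf 3 true 1 true false 0 2) (.lf 3 true 1 true false 0 2))) (.s 1 0 0 1 0 0 0 0
(.s 0 4 0 0 0 0 0 4
(.s 1 0 4 12 0 0 0 6
(.lf 1 false 2 false false 0 0) (.lf 2 false 1 true false 0 0)) (.lf 0 false 2 false false 0 0)) (.s 0 4 0 0 0 0 0 4
(.lf 3 false 2 true false 0 0) (.s 0 11 0 0 0 0 0 11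
(.s 1 0 4 12 0 0 0 6
(.lf 0 false 2 false false 0 0) (.lf 0 false 2 false false 0 0)) (.lf 0 false 2 false false 0 0)))))

def i1_42a : T2 :=
(.k 180333 0 0 169333 0 0 t1_42a_0)

theorem hi1_42a : chk2 (leaf1 a1_42 e1_42) 10000 i1_42a R42_1a = true := by
  decide +kernel

def t1_42b_0 : T3 :=
(.s 0 8 0 0 0 0 0 14
(.s 1 0 0 1 0 0 0 0
(.s 0 1 0 0 0 0 0 2
(.s 0 1 0 0 0 0 0 4
(.lf 2 true 1 false false 2 2) (.s 1 0 0 1 0 0 0 1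
(.lf 2 true 1 false false 2 2) (.s 2 3 0 0 0 1 0 3
(.s 2 5 0 0 0 3 0 7
(.s 3 3 0 0 0 0 0 3
(.lf 2 true 1 false false 2 2) (.s 2 9 0 0 0 7 0 15
(.s 0 3 0 0 0 0 0 10
(.s 0 1 0 0 0 0 0 3
(.s 3 1 0 0 1 0 0 0
(.lf 2 true 1 false false 2 2) (.s 4 7 0 0 7 0 4 2
(.lf 2 true 1 false false 1 0) (.lf 2 true 1 false true 1 0))) (.s 4 7 0 0 7 0 4 2
(.lf 2 true 1 false false 1 0) (.lf 2 true 1 false true 1 0))) (.s 3 11 0 0 11 0 0 7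
(.s 4 7 0 0 7 0 4 2
(.lf 2 true 1 false false 1 0) (.lf 2 true 1 false true 1 0)) (.lf 2 true 1 false true 1 0))) (.s 0 1 0 0 0 0 0 3
(.s 3 1 0 0 1 0 0 0
(.lf 2 true 1 false false 2 2) (.s 4 1 0 0 1 0 0 0
(.lf 2 true 1 false false 2 0) (.lf 2 true 0 false false 2 0))) (.s 4 1 0 0 1 0 0 0
(.lf 2 true 1 false false 2 0) (.lf 2 true 0 false false 2 0))))) (.lf 2 true 1 false false 2 2)) (.lf 2 true 1 false false 2 2)))) (.s 1 0 4 12 0 0 0 6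
(.s 2 1237286 0 0 0 433001 0 1926285
(.lf 1 true 1 false true 1 2) (.lf 1 true 2 true false 1 2)) (.s 0 91381 0 0 0 0 0 176713
(.s 2 1237286 0 0 0 433001 0 1926285
(.s 3 11 0 0 11 0 0 7
(.s 0 1 0 0 0 0 0 1
(.s 3 1 0 0 1 0 0 0
(.lf 2 true 1 false false 2 2) (.s 4 7 0 0 7 0 4 2
(.lf 2 true 1 false false 1 0) (.lf 2 true 1 false true 1 0))) (.s 4 7 0 0 7 0 4 2
(.lf 2 true 1 false false 1 0) (.lf 2 true 1 false true 1 0))) (.lf 2 true 1 false true 1 0)) (.s 0 2763 0 0 0 0 0 5499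
(.s 3 2750 0 0 2750 0 0 2736
(.s 4 1000 0 0 1000 0 0 2736
(.lf 2 true 1 false false 1 2) (.lf 2 true 1 false false 2 2)) (.lf 2 true 2 false false 1 0)) (.lf 2 true 2 false false 1 0))) (.s 1 91381 0 0 0 0 0 176713
(.s 2 1237286 0 0 0 433001 0 1926285
(.lf 2 true 1 false true 1 0) (.lf 2 true 2 false false 1 0)) (.lf 2 true 2 false false 1 0))))) (.s 1 1 0 1 0 0 0 1
(.s 0 1 0 0 0 0 0 3
(.s 3 1 0 0 1 0 0 0
(.lf 3 true 1 false false 2 2) (.s 4 1 0 0 1 0 0 0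
(.s 4 7 0 0 7 0 4 2
(.lf 3 true 1 false false 1 0) (.s 0 3024 0 0 0 0 0 88356
(.s 2 1237286 0 0 0 433001 0 1926285
(.lf 3 true 1 false true 2 0) (.lf 3 true 2 false false 2 0)) (.s 1 91381 0 0 0 0 0 176713
(.s 2 1237286 0 0 0 433001 0 1926285
(.lf 3 true 1 false true 1 0) (.lf 3 true 2 false false 1 0)) (.lf 3 true 2 false false 1 0)))) (.s 0 3024 0 0 0 0 0 88356
(.s 2 1237286 0 0 0 433001 0 1926285
(.lf 3 true 0 false true 2 0) (.lf 3 true 2 false false 2 0)) (.s 1 91381 0 0 0 0 0 176713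
(.s 2 1237286 0 0 0 433001 0 1926285
(.lf 3 true 0 false true 2 0) (.lf 3 true 2 false false 2 0)) (.lf 3 true 2 false false 2 0))))) (.s 2 3 0 0 0 1 0 3
(.s 0 91381 0 0 0 0 0 176713
(.s 1 91381 0 0 0 0 0 176713
(.s 2 1237286 0 0 0 433001 0 1926285
(.s 0 2763 0 0 0 0 0 5499
(.s 3 2750 0 0 2750 0 0 2736
(.s 4 1000 0 0 1000 0 0 2736
(.lf 3 true 1 false false 1 2) (.lf 3 true 1 false false 2 2)) (.s 0 3 0 0 0 0 0 10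
(.s 4 7 0 0 7 0 4 2
(.lf 3 true 1 false false 1 0) (.lf 3 true 1 false true 1 0)) (.s 3 11 0 0 11 0 0 7
(.s 4 7 0 0 7 0 4 2
(.lf 3 true 1 false false 1 0) (.lf 3 true 1 false true 1 0)) (.lf 3 true 1 false true 1 0)))) (.lf 3 true 1 false true 1 0)) (.s 0 2763 0 0 0 0 0 5499
(.s 3 2750 0 0 2750 0 0 2736
(.s 4 1000 0 0 1000 0 0 2736
(.lf 3 true 1 false false 1 2) (.lf 3 true 1 false false 2 2)) (.lf 3 true 2 false false 1 0)) (.lf 3 true 2 false false 1 0))) (.lf 3 true 2 false false 1 2)) (.lf 3 true 2 false false 1 0)) (.lf 3 true 2 false false 1 2))) (.s 0 1 0 0 0 0 0 3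
(.lf 3 true 1 false false 2 2) (.lf 3 true 2 false false 1 2)))) (.s 1 0 0 1 0 0 0 0
(.s 0 4 0 0 0 0 0 4
(.s 1 0 4 12 0 0 0 6
(.s 0 448841 0 0 0 0 0 706855
(.s 2 1237286 0 0 0 433001 0 1926285
(.lf 1 false 1 true true 1 0) (.lf 1 false 2 false false 1 0)) (.s 1 91381 0 0 0 0 0 176713
(.s 2 1237286 0 0 0 433001 0 1926285
(.lf 1 false 0 true true 1 0) (.lf 1 false 2 false false 1 0)) (.lf 1 false 2 true false 1 0))) (.s 0 448841 0 0 0 0 0 706855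
(.s 1 91381 0 0 0 0 0 176713
(.s 2 1237286 0 0 0 433001 0 1926285
(.lf 2 false 1 false true 1 0) (.lf 2 false 2 false false 1 0)) (.lf 2 false 2 false false 1 0)) (.lf 2 false 2 false false 1 0))) (.s 1 91381 0 0 0 0 0 176713
(.s 2 1237286 0 0 0 433001 0 1926285
(.lf 0 false 0 true true 1 0) (.lf 0 false 2 false false 1 0)) (.lf 0 false 2 true false 1 0))) (.s 0 4 0 0 0 0 0 4
(.lf 3 false 2 false false 1 0) (.s 0 11 0 0 0 0 0 11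
(.s 1 0 4 12 0 0 0 6
(.lf 0 false 2 false false 1 0) (.lf 0 false 2 false false 1 0)) (.lf 0 false 2 false false 1 0)))))

def i1_42b : T2 :=
(.k 1937286 0 0 1926286 433001 0 t1_42b_0)

theorem hi1_42b : chk2 (leaf1 a1_42 e1_42) 10000 i1_42b R42_1b = true := by
  decide +kernel

def i1_42 : T2 := .s 3 0 0 4 0 10 i1_42a i1_42b

theorem hi1_42 : chk2 (leaf1 a1_42 e1_42) 10000 i1_42 R42 = true := chk2_s hi1_42a hi1_42b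

theorem ok42 : CellOk R42 a0_42 e0_42 a1_42 e1_42 :=
  ⟨lin42, ⟨_, ho00_42⟩, ⟨_, ho01_42⟩, ⟨_, ho10_42⟩, ⟨_, ho11_42⟩, ⟨_, hi0_42⟩, ⟨_, hi1_42⟩⟩

end

end Vale.Agent.P334.Cert
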