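import Vale.Agent.P334.CertDefs

/-!
Data of the dual certificate, checked cell by cell.
-/

namespace Vale.Agent.P334.Cert

noncomputable section

def R7 : Reg := ⟨⟨0, 0, 0, 0, 0, 0, 0⟩, ⟨1, 0, 0, 0, 0, 0, 0⟩, ⟨0, 0, 0, 0, 0, 0, 0⟩, ⟨1, 0, 0, 0, 0, 0, 1⟩, ⟨1, 0, 0, 0, 7, 0, 7⟩, ⟨1, 0, 0, 0, 3, 0, 3⟩, ⟨1, 0, 0, 0, 0, 0, 3⟩, ⟨1, 0, 0, 0, 0, 0, 1⟩, ⟨0, 0, 0, 0, 0, 0, 0⟩, ⟨0, 0, 0, 0, 1, 0, 0⟩⟩

def a0_7 : SF := mu 0 90748 294111 0 138343 0 0 13696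

def e0_7 : SF := mu 0 66570 340081 0 515204 0 0 30096

def a1_7 : SF := mu 0 28655 114742 0 0 0 59178 0

def e1_7 : SF := mu 0 72473 289761 0 360643 0 0 21067

theorem lin7 : chkLin R7 a0_7 e0_7 a1_7 e1_7 = true := by decide +kernel

def o00_7 : T3 :=
(.s 0 8 0 0 0 0 0 14
(.s 0 1 0 0 0 0 0 1
(.s 1 0 0 1 0 0 0 0
(.s 0 1 0 0 0 0 0 2
(.s 0 1 0 0 0 0 0 7
(.lf 2 true 0 false false 0 0) (.s 1 0 1 8 0 0 0 6
(.s 0 1 0 0 0 0 0 3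
(.s 2 0 0 1 0 0 0 0
(.lf 2 true 0 true false 0 0) (.lf 2 true 0 false false 0 0)) (.s 1 0 1 4 0 0 0 2
(.lf 2 true 0 true false 0 0) (.s 2 0 0 1 0 0 0 0
(.lf 2 true 0 true false 0 0) (.lf 2 true 0 false false 0 0)))) (.lf 2 true 0 false false 0 0))) (.s 1 0 4 12 0 0 0 6
(.lf 1 true 0 true false 0 0) (.s 1 0 1 8 0 0 0 6
(.s 1 0 1 4 0 0 0 2
(.lf 2 true 0 true false 0 0) (.s 2 0 0 1 0 0 0 0
(.lf 2 true 0 true false 0 0) (.lf 2 true 0 false false 0 0))) (.lf 2 true 0 false false 0 0)))) (.lf 3 true 0 false false 0 0)) (.s 1 0 4 12 0 0 0 6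
(.lf 1 true 0 true false 0 0) (.s 1 0 1 8 0 0 0 6
(.s 1 0 1 4 0 0 0 2
(.lf 2 true 0 true false 0 0) (.s 2 0 0 1 0 0 0 0
(.lf 2 true 0 true false 0 0) (.lf 2 true 0 false false 0 0))) (.lf 2 true 0 false false 0 0)))) (.s 0 5 0 0 0 0 0 7
(.s 1 0 4 12 0 0 0 6
(.lf 1 false 0 true false 0 0) (.s 0 9 0 0 0 0 0 15
(.s 1 0 1 8 0 0 0 6
(.s 1 0 1 4 0 0 0 2
(.lf 2 false 0 true false 0 0) (.s 2 0 0 1 0 0 0 0
(.lf 2 false 0 true false 0 0) (.lf 2 false 0 false false 0 0))) (.lf 2 false 0 false false 0 0)) (.s 1 0 1 4 0 0 0 2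
(.lf 2 false 0 true false 0 0) (.s 2 0 0 1 0 0 0 0
(.lf 2 false 0 true false 0 0) (.lf 2 false 0 false false 0 0))))) (.lf 1 false 0 true false 0 0)))

theorem ho00_7 : chk3 (leafO 10500000 3 a0_7 e0_7 R7.x0.ap R7.x0.m) o00_7 (full R7) = true := by
  decide +kernel

def o01_7 : T3 :=
(.s 0 8 0 0 0 0 0 14
(.s 0 1 0 0 0 0 0 1
(.s 1 0 0 1 0 0 0 0
(.s 0 1 0 0 0 0 0 2
(.s 0 1 0 0 0 0 0 7
(.lf 2 true 0 false false 0 0) (.s 1 0 1 8 0 0 0 6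
(.s 0 1 0 0 0 0 0 3
(.s 2 0 0 1 0 0 0 0
(.lf 2 true 0 true false 0 0) (.lf 2 true 0 false false 0 0)) (.s 1 0 1 4 0 0 0 2
(.lf 2 true 0 true false 0 0) (.s 2 0 0 1 0 0 0 0
(.lf 2 true 0 true false 0 0) (.lf 2 true 0 false false 0 0)))) (.lf 2 true 0 false false 0 0))) (.s 1 0 4 12 0 0 0 6
(.lf 1 true 0 true false 0 0) (.s 1 0 1 8 0 0 0 6
(.s 1 0 1 4 0 0 0 2
(.lf 2 true 0 true false 0 0) (.s 2 0 0 1 0 0 0 0
(.lf 2 true 0 true false 0 0) (.lf 2 true 0 false false 0 0))) (.lf 2 true 0 false false 0 0)))) (.lf 3 true 0 false false 0 0)) (.s 1 0 4 12 0 0 0 6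
(.lf 1 true 0 true false 0 0) (.s 1 0 1 8 0 0 0 6
(.s 1 0 1 4 0 0 0 2
(.lf 2 true 0 true false 0 0) (.s 2 0 0 1 0 0 0 0
(.lf 2 true 0 true false 0 0) (.lf 2 true 0 false false 0 0))) (.lf 2 true 0 false false 0 0)))) (.s 0 5 0 0 0 0 0 7
(.s 1 0 4 12 0 0 0 6
(.lf 1 false 0 true false 0 0) (.s 0 9 0 0 0 0 0 15
(.s 1 0 1 8 0 0 0 6
(.s 1 0 1 4 0 0 0 2
(.lf 2 false 0 true false 0 0) (.s 2 0 0 1 0 0 0 0
(.lf 2 false 0 true false 0 0) (.lf 2 false 0 false false 0 0))) (.lf 2 false 0 false false 0 0)) (.s 1 0 1 4 0 0 0 2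
(.lf 2 false 0 true false 0 0) (.s 2 0 0 1 0 0 0 0
(.lf 2 false 0 true false 0 0) (.lf 2 false 0 false false 0 0))))) (.lf 1 false 0 true false 0 0)))

theorem ho01_7 : chk3 (leafO 10500000 3 a0_7 e0_7 R7.x1.ap R7.x1.m) o01_7 (full R7) = true := by
  decide +kernel

def o10_7 : T3 :=
(.s 0 8 0 0 0 0 0 14
(.s 0 1 0 0 0 0 0 1
(.s 1 0 0 1 0 0 0 0
(.s 0 1 0 0 0 0 0 2
(.s 0 1 0 0 0 0 0 7
(.lf 2 true 0 false false 0 0) (.s 1 0 1 8 0 0 0 6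
(.s 0 1 0 0 0 0 0 3
(.s 2 0 0 1 0 0 0 0
(.lf 2 true 0 true false 0 0) (.lf 2 true 0 false false 0 0)) (.s 1 0 1 4 0 0 0 2
(.lf 2 true 0 true false 0 0) (.s 2 0 0 1 0 0 0 0
(.lf 2 true 0 true false 0 0) (.lf 2 true 0 false false 0 0)))) (.lf 2 true 0 false false 0 0))) (.s 1 0 4 12 0 0 0 6
(.lf 1 true 0 true false 0 0) (.s 1 0 1 8 0 0 0 6
(.s 1 0 1 4 0 0 0 2
(.lf 2 true 0 true false 0 0) (.s 2 0 0 1 0 0 0 0
(.lf 2 true 0 true false 0 0) (.lf 2 true 0 false false 0 0))) (.lf 2 true 0 false false 0 0)))) (.lf 3 true 0 false false 0 0)) (.s 1 0 4 12 0 0 0 6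
(.lf 1 true 0 true false 0 0) (.s 1 0 1 8 0 0 0 6
(.s 1 0 1 4 0 0 0 2
(.lf 2 true 0 true false 0 0) (.s 2 0 0 1 0 0 0 0
(.lf 2 true 0 true false 0 0) (.lf 2 true 0 false false 0 0))) (.lf 2 true 0 false false 0 0)))) (.s 0 5 0 0 0 0 0 7
(.s 1 0 4 12 0 0 0 6
(.lf 1 false 0 true false 0 0) (.lf 2 false 0 false false 0 0)) (.lf 1 false 0 true false 0 0)))

theorem ho10_7 : chk3 (leafO 5554500 1 a1_7 e1_7 R7.x0.ap R7.x0.m) o10_7 (full R7) = true := by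
  decide +kernel

def o11_7 : T3 :=
(.s 0 8 0 0 0 0 0 14
(.s 0 1 0 0 0 0 0 1
(.s 1 0 0 1 0 0 0 0
(.s 0 1 0 0 0 0 0 2
(.s 0 1 0 0 0 0 0 7
(.lf 2 true 0 false false 0 0) (.s 1 0 1 8 0 0 0 6
(.s 0 1 0 0 0 0 0 3
(.s 2 0 0 1 0 0 0 0
(.lf 2 true 0 true false 0 0) (.lf 2 true 0 false false 0 0)) (.s 1 0 1 4 0 0 0 2
(.lf 2 true 0 true false 0 0) (.s 2 0 0 1 0 0 0 0
(.lf 2 true 0 true false 0 0) (.lf 2 true 0 false false 0 0)))) (.lf 2 true 0 false false 0 0))) (.s 1 0 4 12 0 0 0 6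
(.lf 1 true 0 true false 0 0) (.s 1 0 1 8 0 0 0 6
(.s 1 0 1 4 0 0 0 2
(.lf 2 true 0 true false 0 0) (.s 2 0 0 1 0 0 0 0
(.lf 2 true 0 true false 0 0) (.lf 2 true 0 false false 0 0))) (.lf 2 true 0 false false 0 0)))) (.lf 3 true 0 false false 0 0)) (.s 1 0 4 12 0 0 0 6
(.lf 1 true 0 true false 0 0) (.s 1 0 1 8 0 0 0 6
(.s 1 0 1 4 0 0 0 2
(.lf 2 true 0 true false 0 0) (.s 2 0 0 1 0 0 0 0
(.lf 2 true 0 true false 0 0) (.lf 2 true 0 false false 0 0))) (.lf 2 true 0 false false 0 0)))) (.s 0 5 0 0 0 0 0 7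
(.s 1 0 4 12 0 0 0 6
(.lf 1 false 0 true false 0 0) (.s 0 9 0 0 0 0 0 15
(.s 1 0 1 8 0 0 0 6
(.s 1 0 1 4 0 0 0 2
(.lf 2 false 0 true false 0 0) (.s 2 0 0 1 0 0 0 0
(.lf 2 false 0 true false 0 0) (.lf 2 false 0 false false 0 0))) (.lf 2 false 0 false false 0 0)) (.s 1 0 1 4 0 0 0 2
(.lf 2 false 0 true false 0 0) (.s 2 0 0 1 0 0 0 0
(.lf 2 false 0 true false 0 0) (.lf 2 false 0 false false 0 0))))) (.lf 1 false 0 true false 0 0)))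

theorem ho11_7 : chk3 (leafO 5554500 1 a1_7 e1_7 R7.x1.ap R7.x1.m) o11_7 (full R7) = true := by
  decide +kernel

def R7_0a : Reg := hi R7 (Nat.succ 3) ⟨0, 0, 0, 0, 1, 0, 1⟩

def R7_0b : Reg := lo R7 (Nat.succ 3) ⟨0, 0, 0, 0, 1, 0, 1⟩

def t0_7a_0 : T3 :=
(.s 0 8 0 0 0 0 0 14
(.s 0 1 0 0 0 0 0 1
(.s 1 0 0 1 0 0 0 0
(.s 0 1 0 0 0 0 0 2
(.s 0 1 0 0 0 0 0 4
(.lf 2 true 1 true false 0 0) (.lf 2 true 1 true false 0 0)) (.s 1 0 4 12 0 0 0 6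
(.lf 1 true 1 false false 0 0) (.lf 2 true 1 true false 0 0))) (.lf 3 true 1 true false 0 0)) (.s 1 0 4 12 0 0 0 6
(.lf 1 true 1 false false 0 0) (.lf 2 true 1 true false 0 0))) (.s 0 5 0 0 0 0 0 7
(.s 1 0 4 12 0 0 0 6
(.lf 1 false 1 false false 0 0) (.lf 2 false 1 true false 0 0)) (.lf 1 false 0 false false 0 0)))

def t0_7a_1 : T3 :=
(.s 0 8 0 0 0 0 0 14
(.s 0 1 0 0 0 0 0 1
(.s 1 0 0 1 0 0 0 0
(.s 0 1 0 0 0 0 0 2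
(.s 0 1263 0 0 0 0 0 3999
(.lf 2 true 1 true false 0 0) (.s 3 2000 0 0 2000 0 0 2736
(.lf 2 true 1 true false 0 0) (.s 4 1000 0 0 1000 0 0 2736
(.lf 2 true 1 true false 0 0) (.lf 2 true 1 false false 0 0)))) (.s 1 0 4 12 0 0 0 6
(.lf 1 true 1 false false 0 0) (.s 3 2000 0 0 2000 0 0 2736
(.lf 2 true 1 true false 0 0) (.s 4 1000 0 0 1000 0 0 2736
(.lf 2 true 1 true false 0 0) (.lf 2 true 1 false false 0 0))))) (.s 0 1263 0 0 0 0 0 3999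
(.lf 3 true 1 true false 0 0) (.s 3 2000 0 0 2000 0 0 2736
(.lf 3 true 1 true false 0 0) (.s 4 1000 0 0 1000 0 0 2736
(.lf 3 true 1 true false 0 0) (.lf 3 true 1 false false 0 0))))) (.s 1 0 4 12 0 0 0 6
(.lf 1 true 1 false false 0 0) (.s 3 2 0 0 0 0 0 4
(.s 3 2000 0 0 2000 0 0 2736
(.lf 2 true 1 true false 0 0) (.s 4 1000 0 0 1000 0 0 2736
(.lf 2 true 1 true false 0 0) (.lf 2 true 1 false false 0 0))) (.lf 2 true 1 false false 0 0)))) (.s 0 5 0 0 0 0 0 7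
(.s 1 0 4 12 0 0 0 6
(.lf 1 false 1 false false 0 0) (.lf 2 false 1 true false 0 0)) (.lf 1 false 0 false false 0 0)))

def i0_7a : T2 :=
(.s 3 0 0 1000 0 2736
(.k 311078 0 0 1240311 1011318 0 t0_7a_0) (.k 1094550 0 0 1602360 265082 0 t0_7a_1))

theorem hi0_7a : chk2 (leaf0 a0_7 e0_7) 0 i0_7a R7_0a = true := by
  decide +kernel

def t0_7b_0 : T3 :=
(.s 0 8 0 0 0 0 0 14
(.s 0 1 0 0 0 0 0 3
(.s 1 0 0 1 0 0 0 0
(.lf 2 true 1 false false 0 0) (.lf 3 true 1 false false 0 0)) (.s 0 1 0 0 0 0 0 2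
(.lf 2 true 1 false false 0 0) (.s 0 23 0 0 0 0 0 47
(.s 1 0 4 12 0 0 0 6
(.lf 1 true 1 false false 0 0) (.lf 2 true 1 false false 0 0)) (.lf 1 true 1 false false 0 0)))) (.lf 1 false 0 false false 0 0))

def t0_7b_1 : T3 :=
(.s 0 8 0 0 0 0 0 14
(.s 0 1 0 0 0 0 0 3
(.s 3 4000 0 0 4000 0 0 8210
(.lf 3 true 1 true false 0 0) (.s 4 1000 0 0 1000 0 0 2736
(.lf 3 true 1 true false 0 0) (.lf 3 true 1 false false 0 0))) (.s 0 1 0 0 0 0 0 1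
(.s 1 0 0 1 0 0 0 0
(.s 0 23 0 0 0 0 0 47
(.lf 2 true 1 false false 0 0) (.s 1 0 4 12 0 0 0 6
(.lf 1 true 1 false false 0 0) (.s 3 2000 0 0 2000 0 0 2736
(.s 0 7789 0 0 0 0 0 15999
(.s 3 4000 0 0 4000 0 0 8210
(.lf 2 true 1 true false 0 0) (.s 4 1000 0 0 1000 0 0 2736
(.lf 2 true 1 true false 0 0) (.lf 2 true 1 false false 0 0))) (.s 4 1000 0 0 1000 0 0 2736
(.lf 2 true 1 true false 0 0) (.lf 2 true 1 false false 0 0))) (.lf 2 true 1 false false 0 0)))) (.s 0 1263 0 0 0 0 0 3999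
(.s 3 4000 0 0 4000 0 0 8210
(.lf 3 true 1 true false 0 0) (.s 4 1000 0 0 1000 0 0 2736
(.lf 3 true 1 true false 0 0) (.lf 3 true 1 false false 0 0))) (.s 3 2000 0 0 2000 0 0 2736
(.s 0 7789 0 0 0 0 0 15999
(.s 3 4000 0 0 4000 0 0 8210
(.lf 3 true 1 true false 0 0) (.s 4 1000 0 0 1000 0 0 2736
(.lf 3 true 1 true false 0 0) (.lf 3 true 1 false false 0 0))) (.s 4 1000 0 0 1000 0 0 2736
(.lf 3 true 1 true false 0 0) (.lf 3 true 1 false false 0 0))) (.lf 3 true 1 false false 0 0)))) (.s 1 0 4 12 0 0 0 6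
(.lf 1 true 1 false false 0 0) (.s 3 2000 0 0 2000 0 0 2736
(.s 4 1000 0 0 1000 0 0 2736
(.lf 2 true 1 true false 0 0) (.lf 2 true 1 false false 0 0)) (.lf 2 true 1 false false 0 0))))) (.s 0 5 0 0 0 0 0 7
(.s 1 0 4 12 0 0 0 6
(.lf 1 false 1 false false 0 0) (.lf 2 false 1 false false 0 0)) (.lf 1 false 0 false false 0 0)))

def t0_7b_2 : T3 :=
(.s 0 8 0 0 0 0 0 14
(.s 0 1 0 0 0 0 0 3
(.s 3 4000 0 0 4000 0 0 8210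
(.s 3 1000 0 0 1000 0 0 2736
(.lf 3 true 1 true false 0 0) (.s 4 1000 0 0 1000 0 0 2736
(.lf 3 true 1 true false 0 0) (.lf 3 true 1 false false 0 0))) (.lf 3 true 1 false false 0 0)) (.s 0 1 0 0 0 0 0 1
(.s 1 0 0 1 0 0 0 0
(.s 0 23 0 0 0 0 0 47
(.lf 2 true 1 false false 0 0) (.s 1 0 4 12 0 0 0 6
(.lf 1 true 1 false false 0 0) (.lf 2 true 1 false false 0 0))) (.lf 3 true 1 false false 0 0)) (.s 1 0 4 12 0 0 0 6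
(.lf 1 true 1 false false 0 0) (.lf 2 true 1 false false 0 0)))) (.s 0 5 0 0 0 0 0 7
(.s 1 0 4 12 0 0 0 6
(.lf 1 false 1 false false 0 0) (.lf 2 false 1 false false 0 0)) (.lf 1 false 0 false false 0 0)))

def i0_7b : T2 :=
(.s 0 1 0 0 0 3
(.k 1211595 0 0 1379845 0 47456 t0_7b_0) (.s 3 0 0 3 0 3
(.k 1685714 0 0 2480621 386317 0 t0_7b_1) (.k 2000000 0 0 1020017 0 1956742 t0_7b_2)))

theorem hi0_7b : chk2 (leaf0 a0_7 e0_7) 0 i0_7b R7_0b = true := by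
  decide +kernel

def i0_7 : T2 := .s 3 0 0 1 0 1 i0_7a i0_7b

theorem hi0_7 : chk2 (leaf0 a0_7 e0_7) 0 i0_7 R7 = true := chk2_s hi0_7a hi0_7b

def t1_7_0 : T3 :=
(.s 0 8 0 0 0 0 0 14
(.s 0 1 0 0 0 0 0 1
(.s 1 0 0 1 0 0 0 0
(.s 0 1 0 0 0 0 0 2
(.s 0 1 0 0 0 0 0 4
(.lf 2 true 1 true false 0 1) (.s 0 1 0 0 0 0 0 3
(.lf 2 true 1 true false 0 1) (.lf 2 true 1 true false 0 1))) (.s 1 0 4 12 0 0 0 6
(.lf 1 true 1 false false 0 2) (.lf 2 true 1 true false 0 2))) (.lf 3 true 1 true false 0 2)) (.s 1 0 4 12 0 0 0 6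
(.lf 1 true 1 false false 0 2) (.lf 2 true 1 true false 0 2))) (.s 0 5 0 0 0 0 0 7
(.s 1 0 4 12 0 0 0 6
(.lf 1 false 1 true false 0 2) (.lf 2 false 1 true false 0 2)) (.lf 1 false 2 false false 0 2)))

def t1_7_1 : T3 :=
(.s 0 8 0 0 0 0 0 14
(.s 0 1 0 0 0 0 0 1
(.s 1 0 0 1 0 0 0 0
(.s 0 1 0 0 0 0 0 2
(.lf 2 true 1 false false 1 1) (.s 1 0 4 12 0 0 0 6
(.lf 1 true 1 true false 2 2) (.lf 2 true 1 false false 2 2))) (.s 0 1 0 0 0 0 0 3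
(.lf 3 true 1 false false 1 1) (.lf 3 true 1 false false 2 2))) (.s 1 0 4 12 0 0 0 6
(.lf 1 true 1 false false 2 2) (.lf 2 true 1 false false 2 2))) (.s 0 5 0 0 0 0 0 7
(.s 1 0 4 12 0 0 0 6
(.lf 1 false 1 false true 1 2) (.lf 2 false 1 false false 2 2)) (.lf 1 false 0 true true 1 2)))

def i1_7 : T2 :=
(.s 3 0 0 4 0 10
(.k 11000 0 0 0 85636 0 t1_7_0) (.k 1113132 0 0 1578995 1498392 0 t1_7_1))

theorem hi1_7 : chk2 (leaf1 a1_7 e1_7) 10000 i1_7 R7 = true := by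
  decide +kernel

theorem ok7 : CellOk R7 a0_7 e0_7 a1_7 e1_7 :=
  ⟨lin7, ⟨_, ho00_7⟩, ⟨_, ho01_7⟩, ⟨_, ho10_7⟩, ⟨_, ho11_7⟩, ⟨_, hi0_7⟩, ⟨_, hi1_7⟩⟩

def R9 : Reg := ⟨⟨0, 0, 0, 0, 0, 0, 0⟩, ⟨1, 0, 0, 0, 0, 0, 0⟩, ⟨0, 0, 0, 0, 0, 0, 0⟩, ⟨1, 0, 0, 0, 0, 0, 1⟩, ⟨1, 0, 0, 0, 1, 0, 1⟩, ⟨1, 0, 0, 0, 0, 0, 0⟩, ⟨0, 0, 0, 0, 0, 0, 0⟩, ⟨1, 0, 0, 0, 0, 0, 1⟩, ⟨0, 0, 0, 0, 0, 0, 0⟩, ⟨0, 0, 0, 0, 1, 0, 0⟩⟩

def a0_9 : SF := mu 0 0 219300 0 0 0 0 0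

def e0_9 : SF := mu 0 0 890100 0 0 0 0 0

def a1_9 : SF := mu 0 0 153489 0 0 0 0 0

def e1_9 : SF := mu 0 0 623049 0 0 0 0 0

theorem lin9 : chkLin R9 a0_9 e0_9 a1_9 e1_9 = true := by decide +kernel

def o00_9 : T3 :=
(.s 0 8 0 0 0 0 0 14
(.s 0 1 0 0 0 0 0 1
(.s 1 0 0 1 0 0 0 0
(.s 0 1 0 0 0 0 0 2
(.lf 2 true 0 false false 0 0) (.s 1 0 4 12 0 0 0 6
(.lf 1 true 0 false false 0 0) (.lf 2 true 0 false false 0 0))) (.lf 3 true 0 false false 0 0)) (.s 1 0 4 12 0 0 0 6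
(.lf 1 true 0 false false 0 0) (.lf 2 true 0 false false 0 0))) (.s 0 5 0 0 0 0 0 7
(.s 1 0 4 12 0 0 0 6
(.lf 1 false 0 false false 0 0) (.lf 2 false 0 false false 0 0)) (.lf 1 false 0 false false 0 0)))

theorem ho00_9 : chk3 (leafO 10500000 3 a0_9 e0_9 R9.x0.ap R9.x0.m) o00_9 (full R9) = true := by
  decide +kernel

def o01_9 : T3 :=
(.s 0 8 0 0 0 0 0 14
(.s 0 1 0 0 0 0 0 1
(.s 1 0 0 1 0 0 0 0
(.s 0 1 0 0 0 0 0 2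
(.lf 2 true 0 false false 0 0) (.s 1 0 4 12 0 0 0 6
(.lf 1 true 0 false false 0 0) (.lf 2 true 0 false false 0 0))) (.lf 3 true 0 false false 0 0)) (.s 1 0 4 12 0 0 0 6
(.lf 1 true 0 false false 0 0) (.lf 2 true 0 false false 0 0))) (.s 0 5 0 0 0 0 0 7
(.s 1 0 4 12 0 0 0 6
(.lf 1 false 0 false false 0 0) (.lf 2 false 0 false false 0 0)) (.lf 1 false 0 false false 0 0)))

theorem ho01_9 : chk3 (leafO 10500000 3 a0_9 e0_9 R9.x1.ap R9.x1.m) o01_9 (full R9) = true := by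
  decide +kernel

def o10_9 : T3 :=
(.s 0 8 0 0 0 0 0 14
(.s 0 1 0 0 0 0 0 1
(.s 1 0 0 1 0 0 0 0
(.s 0 1 0 0 0 0 0 2
(.lf 2 true 0 false false 0 0) (.s 1 0 4 12 0 0 0 6
(.lf 1 true 0 false false 0 0) (.lf 2 true 0 false false 0 0))) (.lf 3 true 0 false false 0 0)) (.s 1 0 4 12 0 0 0 6
(.lf 1 true 0 false false 0 0) (.lf 2 true 0 false false 0 0))) (.s 0 5 0 0 0 0 0 7
(.s 1 0 4 12 0 0 0 6
(.lf 1 false 0 false false 0 0) (.lf 2 false 0 false false 0 0)) (.lf 1 false 0 false false 0 0)))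

theorem ho10_9 : chk3 (leafO 5554500 1 a1_9 e1_9 R9.x0.ap R9.x0.m) o10_9 (full R9) = true := by
  decide +kernel

def o11_9 : T3 :=
(.s 0 8 0 0 0 0 0 14
(.s 0 1 0 0 0 0 0 1
(.s 1 0 0 1 0 0 0 0
(.s 0 1 0 0 0 0 0 2
(.lf 2 true 0 false false 0 0) (.s 1 0 4 12 0 0 0 6
(.lf 1 true 0 false false 0 0) (.lf 2 true 0 false false 0 0))) (.lf 3 true 0 false false 0 0)) (.s 1 0 4 12 0 0 0 6
(.lf 1 true 0 false false 0 0) (.lf 2 true 0 false false 0 0))) (.s 0 5 0 0 0 0 0 7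
(.s 1 0 4 12 0 0 0 6
(.lf 1 false 0 false false 0 0) (.lf 2 false 0 false false 0 0)) (.lf 1 false 0 false false 0 0)))

theorem ho11_9 : chk3 (leafO 5554500 1 a1_9 e1_9 R9.x1.ap R9.x1.m) o11_9 (full R9) = true := by
  decide +kernel

def t0_9_0 : T3 :=
(.s 0 8 0 0 0 0 0 14
(.s 0 1 0 0 0 0 0 1
(.s 1 0 0 1 0 0 0 0
(.s 0 1 0 0 0 0 0 2
(.s 0 1 0 0 0 0 0 4
(.lf 2 true 1 true false 0 0) (.lf 2 true 1 true false 0 0)) (.s 1 0 4 12 0 0 0 6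
(.lf 1 true 1 false false 0 0) (.lf 2 true 1 true false 0 0))) (.s 0 1 0 0 0 0 0 3
(.lf 3 true 1 true false 0 0) (.lf 3 true 1 true false 0 0))) (.s 1 0 4 12 0 0 0 6
(.lf 1 true 1 false false 0 0) (.lf 2 true 1 true false 0 0))) (.s 0 5 0 0 0 0 0 7
(.s 1 0 4 12 0 0 0 6
(.lf 1 false 1 false false 0 0) (.lf 2 false 1 true false 0 0)) (.lf 1 false 0 false false 0 0)))

def t0_9_1 : T3 :=
(.s 0 8 0 0 0 0 0 14
(.s 0 1 0 0 0 0 0 1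
(.s 1 0 0 1 0 0 0 0
(.s 0 1 0 0 0 0 0 2
(.lf 2 true 1 false false 0 0) (.s 1 0 4 12 0 0 0 6
(.lf 1 true 1 false false 0 0) (.lf 2 true 1 false false 0 0))) (.lf 3 true 1 false false 0 0)) (.s 1 0 4 12 0 0 0 6
(.lf 1 true 1 false false 0 0) (.lf 2 true 1 false false 0 0))) (.s 0 5 0 0 0 0 0 7
(.s 1 0 4 12 0 0 0 6
(.lf 1 false 1 false false 0 0) (.lf 2 false 1 false false 0 0)) (.lf 1 false 0 false false 0 0)))

def i0_9 : T2 :=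
(.s 3 0 0 1 0 1
(.k 30000 0 0 0 46067 0 t0_9_0) (.k 1062000 0 0 1032000 0 0 t0_9_1))

theorem hi0_9 : chk2 (leaf0 a0_9 e0_9) 0 i0_9 R9 = true := by
  decide +kernel

def t1_9_0 : T3 :=
(.s 0 8 0 0 0 0 0 14
(.s 0 1 0 0 0 0 0 1
(.s 1 0 0 1 0 0 0 0
(.s 0 1 0 0 0 0 0 2
(.lf 2 true 1 true false 0 1) (.s 1 0 4 12 0 0 0 6
(.lf 1 true 1 false false 0 2) (.lf 2 true 1 true false 0 2))) (.lf 3 true 1 true false 0 2)) (.s 1 0 4 12 0 0 0 6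
(.lf 1 true 1 false false 0 2) (.lf 2 true 1 true false 0 2))) (.s 0 5 0 0 0 0 0 7
(.s 1 0 4 12 0 0 0 6
(.lf 1 false 1 false false 0 2) (.lf 2 false 1 true false 0 2)) (.lf 1 false 1 false false 0 2)))

def t1_9_1 : T3 :=
(.s 0 8 0 0 0 0 0 14
(.s 0 1 0 0 0 0 0 1
(.s 1 0 0 1 0 0 0 0
(.s 0 1 0 0 0 0 0 2
(.lf 2 true 1 false false 1 1) (.s 1 0 4 12 0 0 0 6
(.lf 1 true 1 false false 1 2) (.lf 2 true 1 false false 1 2))) (.lf 3 true 1 false false 1 2)) (.s 1 0 4 12 0 0 0 6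
(.lf 1 true 1 false false 1 2) (.lf 2 true 1 false false 1 2))) (.s 0 5 0 0 0 0 0 7
(.s 1 0 4 12 0 0 0 6
(.lf 1 false 1 false false 2 2) (.lf 2 false 1 false false 1 2)) (.s 1 91381 0 0 0 0 0 311380
(.s 2 201381 0 0 0 0 0 311380
(.s 3 2750 0 0 2750 0 0 2736
(.s 3 1000 0 0 1000 0 0 2736
(.lf 1 false 1 false false 1 1) (.s 4 1000 0 0 1000 0 0 2736
(.lf 1 false 0 false true 1 2) (.lf 1 false 0 false true 1 2))) (.lf 1 false 0 false true 1 0)) (.s 3 2750 0 0 2750 0 0 2736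
(.s 3 1000 0 0 1000 0 0 2736
(.lf 1 false 1 false false 1 1) (.s 4 1000 0 0 1000 0 0 2736
(.lf 1 false 1 false false 1 2) (.lf 1 false 1 false false 1 2))) (.lf 1 false 2 false false 1 0))) (.s 3 2750 0 0 2750 0 0 2736
(.s 3 1000 0 0 1000 0 0 2736
(.lf 1 false 1 false false 1 1) (.s 4 1000 0 0 1000 0 0 2736
(.lf 1 false 1 false false 1 2) (.lf 1 false 1 false false 1 2))) (.lf 1 false 2 false false 1 0)))))

def i1_9 : T2 :=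
(.s 3 0 0 4 0 10
(.k 40000 0 0 0 0 0 t1_9_0) (.k 1908286 0 0 1868286 0 0 t1_9_1))

theorem hi1_9 : chk2 (leaf1 a1_9 e1_9) 10000 i1_9 R9 = true := by
  decide +kernel

theorem ok9 : CellOk R9 a0_9 e0_9 a1_9 e1_9 :=
  ⟨lin9, ⟨_, ho00_9⟩, ⟨_, ho01_9⟩, ⟨_, ho10_9⟩, ⟨_, ho11_9⟩, ⟨_, hi0_9⟩, ⟨_, hi1_9⟩⟩

def R17 : Reg := ⟨⟨0, 0, 0, 0, 0, 0, 0⟩, ⟨1, 0, 0, 0, 0, 0, 0⟩, ⟨0, 0, 0, 0, 0, 0, 0⟩, ⟨1, 0, 0, 0, 0, 0, 3⟩, ⟨0, 0, 0, 0, 1, 0, 0⟩, ⟨1, 0, 0, 0, 3, 0, 3⟩, ⟨1, 0, 0, 0, 0, 0, 1⟩, ⟨3, 0, 0, 0, 0, 0, 4⟩, ⟨0, 0, 0, 0, 0, 0, 0⟩, ⟨0, 0, 0, 0, 1, 0, 0⟩⟩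

def a0_17 : SF := mu 0 0 0 0 73 0 257927 0

def e0_17 : SF := mu 0 0 0 0 1592151 0 0 541800

def a1_17 : SF := mu 0 0 0 0 30 0 140220 0

def e1_17 : SF := mu 0 0 0 0 1114484 0 0 379281

theorem lin17 : chkLin R17 a0_17 e0_17 a1_17 e1_17 = true := by decide +kernel

def o00_17 : T3 :=
(.s 0 8 0 0 0 0 0 14
(.s 0 1 0 0 0 0 0 3
(.s 1 0 0 1 0 0 0 0
(.s 2 0 0 1 0 0 0 0
(.lf 2 true 0 true false 0 0) (.lf 2 true 0 false false 0 0)) (.lf 3 true 0 false false 0 0)) (.s 0 1 0 0 0 0 0 2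
(.s 1 0 1 4 0 0 0 2
(.lf 2 true 0 true false 0 0) (.s 2 0 0 1 0 0 0 0
(.lf 2 true 0 true false 0 0) (.lf 2 true 0 false false 0 0))) (.s 0 23 0 0 0 0 0 47
(.s 1 0 4 12 0 0 0 6
(.lf 1 true 0 true false 0 0) (.s 0 7 0 0 0 0 0 15
(.s 1 0 1 4 0 0 0 2
(.lf 2 true 0 true false 0 0) (.s 2 0 0 1 0 0 0 0
(.lf 2 true 0 true false 0 0) (.lf 2 true 0 false false 0 0))) (.lf 2 true 0 true false 0 0))) (.lf 1 true 0 true false 0 0)))) (.lf 1 false 0 true false 0 0))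

theorem ho00_17 : chk3 (leafO 10500000 3 a0_17 e0_17 R17.x0.ap R17.x0.m) o00_17 (full R17) = true := by
  decide +kernel

def o01_17 : T3 :=
(.s 0 8 0 0 0 0 0 14
(.s 0 1 0 0 0 0 0 3
(.s 1 0 0 1 0 0 0 0
(.s 2 0 0 1 0 0 0 0
(.lf 2 true 0 true false 0 0) (.lf 2 true 0 false false 0 0)) (.lf 3 true 0 false false 0 0)) (.s 0 1 0 0 0 0 0 2
(.s 1 0 1 4 0 0 0 2
(.lf 2 true 0 true false 0 0) (.s 2 0 0 1 0 0 0 0
(.lf 2 true 0 true false 0 0) (.lf 2 true 0 false false 0 0))) (.s 0 23 0 0 0 0 0 47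
(.s 1 0 4 12 0 0 0 6
(.lf 1 true 0 true false 0 0) (.s 0 7 0 0 0 0 0 15
(.s 1 0 1 4 0 0 0 2
(.lf 2 true 0 true false 0 0) (.s 2 0 0 1 0 0 0 0
(.lf 2 true 0 true false 0 0) (.lf 2 true 0 false false 0 0))) (.lf 2 true 0 true false 0 0))) (.lf 1 true 0 true false 0 0)))) (.lf 1 false 0 true false 0 0))

theorem ho01_17 : chk3 (leafO 10500000 3 a0_17 e0_17 R17.x1.ap R17.x1.m) o01_17 (full R17) = true := by
  decide +kernel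

def o10_17 : T3 :=
(.s 0 8 0 0 0 0 0 14
(.s 0 1 0 0 0 0 0 3
(.s 1 0 0 1 0 0 0 0
(.s 2 0 0 1 0 0 0 0
(.lf 2 true 0 true false 0 0) (.lf 2 true 0 false false 0 0)) (.lf 3 true 0 false false 0 0)) (.s 0 1 0 0 0 0 0 2
(.s 1 0 1 4 0 0 0 2
(.lf 2 true 0 true false 0 0) (.s 2 0 0 1 0 0 0 0
(.lf 2 true 0 true false 0 0) (.lf 2 true 0 false false 0 0))) (.s 0 23 0 0 0 0 0 47
(.s 1 0 4 12 0 0 0 6
(.lf 1 true 0 true false 0 0) (.s 0 7 0 0 0 0 0 15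
(.s 1 0 1 4 0 0 0 2
(.lf 2 true 0 true false 0 0) (.s 2 0 0 1 0 0 0 0
(.lf 2 true 0 true false 0 0) (.lf 2 true 0 false false 0 0))) (.lf 2 true 0 true false 0 0))) (.lf 1 true 0 true false 0 0)))) (.lf 1 false 0 true false 0 0))

theorem ho10_17 : chk3 (leafO 5554500 1 a1_17 e1_17 R17.x0.ap R17.x0.m) o10_17 (full R17) = true := by
  decide +kernel

def o11_17 : T3 :=
(.s 0 8 0 0 0 0 0 14
(.s 0 1 0 0 0 0 0 3
(.s 1 0 0 1 0 0 0 0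
(.s 2 0 0 1 0 0 0 0
(.lf 2 true 0 true false 0 0) (.lf 2 true 0 false false 0 0)) (.lf 3 true 0 false false 0 0)) (.s 0 1 0 0 0 0 0 2
(.s 1 0 1 4 0 0 0 2
(.lf 2 true 0 true false 0 0) (.s 2 0 0 1 0 0 0 0
(.lf 2 true 0 true false 0 0) (.lf 2 true 0 false false 0 0))) (.s 0 23 0 0 0 0 0 47
(.s 1 0 4 12 0 0 0 6
(.lf 1 true 0 true false 0 0) (.s 0 7 0 0 0 0 0 15
(.s 1 0 1 4 0 0 0 2
(.lf 2 true 0 true false 0 0) (.s 2 0 0 1 0 0 0 0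
(.lf 2 true 0 true false 0 0) (.lf 2 true 0 false false 0 0))) (.lf 2 true 0 true false 0 0))) (.lf 1 true 0 true false 0 0)))) (.lf 1 false 0 true false 0 0))

theorem ho11_17 : chk3 (leafO 5554500 1 a1_17 e1_17 R17.x1.ap R17.x1.m) o11_17 (full R17) = true := by
  decide +kernel

def t0_17_0 : T3 :=
(.s 0 8 0 0 0 0 0 14
(.s 0 1 0 0 0 0 0 3
(.s 1 0 0 1 0 0 0 0
(.lf 2 true 1 true false 0 0) (.lf 3 true 1 true false 0 0)) (.s 0 1 0 0 0 0 0 2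
(.lf 2 true 1 true false 0 0) (.s 0 23 0 0 0 0 0 47
(.s 1 0 4 12 0 0 0 6
(.lf 1 true 1 true false 0 0) (.lf 2 true 1 true false 0 0)) (.lf 1 true 1 true false 0 0)))) (.lf 1 false 0 false false 0 0))

def t0_17_1 : T3 :=
(.s 0 8 0 0 0 0 0 14
(.s 0 1 0 0 0 0 0 3
(.s 1 0 0 1 0 0 0 0
(.lf 2 true 1 true false 0 0) (.lf 3 true 1 true false 0 0)) (.s 0 1 0 0 0 0 0 2
(.lf 2 true 1 true false 0 0) (.s 0 23 0 0 0 0 0 47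
(.s 1 0 4 12 0 0 0 6
(.lf 1 true 1 true false 0 0) (.lf 2 true 1 true false 0 0)) (.lf 1 true 1 true false 0 0)))) (.lf 1 false 0 false false 0 0))

def t0_17_2 : T3 :=
(.s 0 8 0 0 0 0 0 14
(.s 0 1 0 0 0 0 0 3
(.s 1 0 0 1 0 0 0 0
(.s 3 11 0 0 0 0 0 19
(.lf 2 true 1 true false 0 0) (.lf 2 true 1 false false 0 0)) (.s 3 11 0 0 0 0 0 19
(.lf 3 true 1 true false 0 0) (.lf 3 true 1 false false 0 0))) (.s 0 1 0 0 0 0 0 2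
(.s 3 11 0 0 0 0 0 19
(.lf 2 true 1 true false 0 0) (.lf 2 true 1 false false 0 0)) (.s 0 23 0 0 0 0 0 47
(.s 1 0 4 12 0 0 0 6
(.lf 1 true 1 false false 0 0) (.lf 2 true 1 false false 0 0)) (.lf 1 true 1 true false 0 0)))) (.lf 1 false 0 false false 0 0))

def t0_17_3 : T3 :=
(.s 0 8 0 0 0 0 0 14
(.s 0 1 0 0 0 0 0 9
(.s 1 0 0 1 0 0 0 0
(.lf 2 true 1 true false 0 0) (.lf 3 true 1 true false 0 0)) (.s 0 1 0 0 0 0 0 2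
(.lf 2 true 1 true false 0 0) (.s 0 47 0 0 0 0 0 119
(.s 1 0 4 12 0 0 0 6
(.lf 1 true 1 false false 0 0) (.lf 2 true 1 false false 0 0)) (.lf 1 true 1 true false 0 0)))) (.lf 1 false 0 true false 0 0))

def t0_17_4 : T3 :=
(.s 0 8 0 0 0 0 0 14
(.s 0 1 0 0 0 0 0 9
(.lf 3 true 1 true false 0 0) (.s 0 1 0 0 0 0 0 3
(.s 1 0 0 1 0 0 0 0
(.lf 2 true 1 true false 0 0) (.lf 3 true 1 true false 0 0)) (.s 0 47 0 0 0 0 0 119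
(.lf 2 true 1 true false 0 0) (.s 0 23 0 0 0 0 0 47
(.s 1 0 4 12 0 0 0 6
(.lf 1 true 1 false false 0 0) (.lf 2 true 1 true false 0 0)) (.lf 1 true 1 true false 0 0))))) (.lf 1 false 0 false false 0 0))

def t0_17_5 : T3 :=
(.s 0 8 0 0 0 0 0 14
(.s 0 1 0 0 0 0 0 9
(.lf 3 true 1 true false 0 0) (.s 0 1 0 0 0 0 0 3
(.s 1 0 0 1 0 0 0 0
(.s 3 11 0 0 0 0 0 19
(.lf 2 true 1 true false 0 0) (.lf 2 true 1 false false 0 0)) (.s 3 11 0 0 0 0 0 19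
(.lf 3 true 1 true false 0 0) (.s 0 1 0 0 0 0 0 4
(.lf 3 true 1 true false 0 0) (.lf 3 true 1 false false 0 0)))) (.s 0 47 0 0 0 0 0 119
(.s 3 11 0 0 0 0 0 19
(.lf 2 true 1 true false 0 0) (.lf 2 true 1 false false 0 0)) (.s 0 23 0 0 0 0 0 47
(.s 1 0 4 12 0 0 0 6
(.lf 1 true 1 true false 0 0) (.lf 2 true 1 false false 0 0)) (.lf 1 true 1 false false 0 0))))) (.lf 1 false 0 true false 0 0))

def t0_17_6 : T3 :=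
(.s 0 8 0 0 0 0 0 14
(.s 0 1 0 0 0 0 0 3
(.s 1 0 0 1 0 0 0 0
(.lf 2 true 1 false false 0 0) (.lf 3 true 1 false false 0 0)) (.s 0 1 0 0 0 0 0 2
(.lf 2 true 1 false false 0 0) (.s 0 23 0 0 0 0 0 47
(.s 1 0 4 12 0 0 0 6
(.lf 1 true 1 true false 0 0) (.lf 2 true 1 false false 0 0)) (.lf 1 true 1 true false 0 0)))) (.lf 1 false 0 false false 0 0))

def i0_17 : T2 :=
(.s 3 0 0 1 0 1
(.s 3 0 0 1 0 3
(.k 459605 0 0 0 0 1834420 t0_17_0) (.s 3 0 0 2 0 4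
(.k 179700 0 0 714800 1988875 0 t0_17_1) (.s 1 1 0 7 0 7
(.k 1361145 0 0 1769300 0 257757 t0_17_2) (.s 0 1 0 0 0 9
(.k 819224 0 0 1769300 5000000 0 t0_17_3) (.s 3 0 0 9 0 19
(.k 418202 0 0 1769300 3449434 0 t0_17_4) (.k 1229312 0 0 789706 0 1136518 t0_17_5)))))) (.k 1045807 0 0 902795 34476 0 t0_17_6))

theorem hi0_17 : chk2 (leaf0 a0_17 e0_17) 0 i0_17 R17 = true := by
  decide +kernel

def t1_17_0 : T3 :=
(.s 0 8 0 0 0 0 0 14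
(.s 0 1 0 0 0 0 0 3
(.s 1 0 0 1 0 0 0 0
(.s 0 1 0 0 0 0 0 9
(.lf 2 true 1 true false 0 1) (.lf 2 true 1 true false 0 1)) (.lf 3 true 1 true false 0 1)) (.s 0 1 0 0 0 0 0 2
(.lf 2 true 1 true false 0 1) (.s 0 23 0 0 0 0 0 47
(.s 1 0 4 12 0 0 0 6
(.lf 1 true 1 true false 0 2) (.lf 2 true 1 true false 0 2)) (.lf 1 true 1 true false 0 0)))) (.lf 1 false 2 true false 0 0))

def t1_17_1 : T3 :=
(.s 0 8 0 0 0 0 0 14
(.s 0 1 0 0 0 0 0 3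
(.s 1 0 0 1 0 0 0 0
(.s 4 1000 0 0 1000 0 0 2736
(.lf 2 true 1 true false 2 1) (.lf 2 true 1 false false 2 1)) (.s 4 1000 0 0 1000 0 0 2736
(.lf 3 true 1 true false 2 1) (.lf 3 true 1 false false 2 1))) (.s 0 1 0 0 0 0 0 2
(.lf 2 true 1 false false 2 1) (.s 0 23 0 0 0 0 0 47
(.s 1 0 4 12 0 0 0 6
(.lf 1 true 1 false true 1 2) (.lf 2 true 1 false false 2 2)) (.lf 1 true 1 true true 1 2)))) (.lf 1 false 0 false true 1 0))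

def i1_17 : T2 :=
(.s 3 0 0 4 0 10
(.k 116685 0 0 422739 422739 0 t1_17_0) (.k 1012071 0 0 0 0 524595 t1_17_1))

theorem hi1_17 : chk2 (leaf1 a1_17 e1_17) 10000 i1_17 R17 = true := by
  decide +kernel

theorem ok17 : CellOk R17 a0_17 e0_17 a1_17 e1_17 :=
  ⟨lin17, ⟨_, ho00_17⟩, ⟨_, ho01_17⟩, ⟨_, ho10_17⟩, ⟨_, ho11_17⟩, ⟨_, hi0_17⟩, ⟨_, hi1_17⟩⟩

def R25 : Reg := ⟨⟨0, 0, 0, 0, 0, 0, 0⟩, ⟨1, 0, 0, 0, 0, 0, 0⟩, ⟨0, 0, 0, 0, 0, 0, 0⟩, ⟨1, 0, 0, 0, 0, 0, 1⟩, ⟨1, 0, 0, 0, 3, 0, 3⟩, ⟨1, 0, 0, 0, 1, 0, 1⟩, ⟨3, 0, 0, 0, 0, 0, 4⟩, ⟨7, 0, 0, 0, 0, 0, 9⟩, ⟨0, 0, 0, 0, 0, 0, 0⟩, ⟨0, 0, 0, 0, 1, 0, 0⟩⟩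

def a0_25 : SF := mu 0 250643 417860 0 0 0 344337 0

def e0_25 : SF := mu 0 89926 245612 0 1687623 0 0 1180240

def a1_25 : SF := mu 30 0 0 0 0 0 167123 0

def e1_25 : SF := mu 0 62969 171928 0 1181336 0 0 826168

theorem lin25 : chkLin R25 a0_25 e0_25 a1_25 e1_25 = true := by decide +kernel

def o00_25 : T3 :=
(.s 0 8 0 0 0 0 0 14
(.s 0 1 0 0 0 0 0 1
(.s 1 0 0 1 0 0 0 0
(.s 0 1 0 0 0 0 0 2
(.s 0 1 0 0 0 0 0 3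
(.lf 2 true 0 false false 0 0) (.s 1 0 1 4 0 0 0 2
(.s 2 0 0 1 0 0 0 0
(.lf 2 true 0 true false 0 0) (.lf 2 true 0 false false 0 0)) (.lf 2 true 0 false false 0 0))) (.s 1 0 4 12 0 0 0 6
(.s 2 0 0 1 0 0 0 0
(.lf 1 true 0 true false 0 0) (.lf 1 true 0 false false 0 0)) (.s 1 0 1 4 0 0 0 2
(.s 2 0 0 1 0 0 0 0
(.s 0 2 0 0 0 0 0 4
(.lf 2 true 0 true false 0 0) (.lf 2 true 0 true false 0 0)) (.s 0 2 0 0 0 0 0 4
(.lf 2 true 0 false false 0 0) (.lf 2 true 0 false false 0 0))) (.lf 2 true 0 false false 0 0)))) (.lf 3 true 0 false false 0 0)) (.s 1 0 4 12 0 0 0 6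
(.s 1 0 1 2 0 0 0 0
(.lf 1 true 0 true false 0 0) (.s 2 0 0 1 0 0 0 0
(.lf 1 true 0 true false 0 0) (.lf 1 true 0 false false 0 0))) (.s 1 0 1 4 0 0 0 2
(.s 2 0 0 1 0 0 0 0
(.lf 2 true 0 true false 0 0) (.lf 2 true 0 false false 0 0)) (.lf 2 true 0 false false 0 0)))) (.s 0 5 0 0 0 0 0 7
(.s 1 0 4 12 0 0 0 6
(.s 1 0 1 2 0 0 0 0
(.lf 1 false 0 true false 0 0) (.s 2 0 0 1 0 0 0 0
(.lf 1 false 0 true false 0 0) (.lf 1 false 0 false false 0 0))) (.s 1 0 1 4 0 0 0 2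
(.s 2 0 0 1 0 0 0 0
(.lf 2 false 0 true false 0 0) (.lf 2 false 0 false false 0 0)) (.lf 2 false 0 false false 0 0))) (.s 0 3 0 0 0 0 0 3
(.s 1 0 1 2 0 0 0 0
(.lf 1 false 0 true false 0 0) (.s 2 0 0 1 0 0 0 0
(.lf 1 false 0 true false 0 0) (.lf 1 false 0 false false 0 0))) (.lf 1 false 0 true false 0 0))))

theorem ho00_25 : chk3 (leafO 10500000 3 a0_25 e0_25 R25.x0.ap R25.x0.m) o00_25 (full R25) = true := by
  decide +kernel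

def o01_25 : T3 :=
(.s 0 8 0 0 0 0 0 14
(.s 0 1 0 0 0 0 0 1
(.s 1 0 0 1 0 0 0 0
(.s 0 1 0 0 0 0 0 2
(.s 0 1 0 0 0 0 0 3
(.lf 2 true 0 false false 0 0) (.s 1 0 1 4 0 0 0 2
(.s 2 0 0 1 0 0 0 0
(.lf 2 true 0 true false 0 0) (.lf 2 true 0 false false 0 0)) (.lf 2 true 0 false false 0 0))) (.s 1 0 4 12 0 0 0 6
(.s 2 0 0 1 0 0 0 0
(.lf 1 true 0 true false 0 0) (.lf 1 true 0 false false 0 0)) (.s 1 0 1 4 0 0 0 2
(.s 2 0 0 1 0 0 0 0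
(.s 1 0 19 64 0 0 0 41
(.lf 2 true 0 true false 0 0) (.lf 2 true 0 true false 0 0)) (.s 1 0 19 64 0 0 0 41
(.lf 2 true 0 false false 0 0) (.lf 2 true 0 false false 0 0))) (.lf 2 true 0 false false 0 0)))) (.lf 3 true 0 false false 0 0)) (.s 1 0 4 12 0 0 0 6
(.s 1 0 1 2 0 0 0 0
(.lf 1 true 0 true false 0 0) (.s 2 0 0 1 0 0 0 0
(.lf 1 true 0 true false 0 0) (.lf 1 true 0 false false 0 0))) (.s 1 0 1 4 0 0 0 2
(.s 2 0 0 1 0 0 0 0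
(.lf 2 true 0 true false 0 0) (.lf 2 true 0 false false 0 0)) (.lf 2 true 0 false false 0 0)))) (.s 0 5 0 0 0 0 0 7
(.s 1 0 4 12 0 0 0 6
(.s 1 0 1 2 0 0 0 0
(.lf 1 false 0 true false 0 0) (.s 2 0 0 1 0 0 0 0
(.lf 1 false 0 true false 0 0) (.lf 1 false 0 false false 0 0))) (.s 1 0 1 4 0 0 0 2
(.s 2 0 0 1 0 0 0 0
(.lf 2 false 0 true false 0 0) (.lf 2 false 0 false false 0 0)) (.lf 2 false 0 false false 0 0))) (.s 0 3 0 0 0 0 0 3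
(.s 1 0 1 2 0 0 0 0
(.lf 1 false 0 true false 0 0) (.s 2 0 0 1 0 0 0 0
(.lf 1 false 0 true false 0 0) (.lf 1 false 0 false false 0 0))) (.lf 1 false 0 true false 0 0))))

theorem ho01_25 : chk3 (leafO 10500000 3 a0_25 e0_25 R25.x1.ap R25.x1.m) o01_25 (full R25) = true := by
  decide +kernel

def o10_25 : T3 :=
(.s 0 8 0 0 0 0 0 14
(.s 0 1 0 0 0 0 0 1
(.s 1 0 0 1 0 0 0 0
(.s 0 1 0 0 0 0 0 2
(.lf 2 true 0 false false 0 0) (.s 1 0 4 12 0 0 0 6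
(.s 2 0 0 1 0 0 0 0
(.lf 1 true 0 true false 0 0) (.lf 1 true 0 false false 0 0)) (.lf 2 true 0 false false 0 0))) (.lf 3 true 0 false false 0 0)) (.s 1 0 4 12 0 0 0 6
(.s 1 0 1 2 0 0 0 0
(.lf 1 true 0 true false 0 0) (.s 2 0 0 1 0 0 0 0
(.lf 1 true 0 true false 0 0) (.lf 1 true 0 false false 0 0))) (.lf 2 true 0 false false 0 0))) (.s 0 5 0 0 0 0 0 7
(.s 1 0 4 12 0 0 0 6
(.s 1 0 1 2 0 0 0 0
(.lf 1 false 0 true false 0 0) (.s 2 0 0 1 0 0 0 0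
(.lf 1 false 0 true false 0 0) (.lf 1 false 0 false false 0 0))) (.lf 2 false 0 false false 0 0)) (.s 0 3 0 0 0 0 0 3
(.s 1 0 1 2 0 0 0 0
(.lf 1 false 0 true false 0 0) (.s 2 0 0 1 0 0 0 0
(.lf 1 false 0 true false 0 0) (.lf 1 false 0 false false 0 0))) (.lf 1 false 0 true false 0 0))))

theorem ho10_25 : chk3 (leafO 5554500 1 a1_25 e1_25 R25.x0.ap R25.x0.m) o10_25 (full R25) = true := by
  decide +kernel

def o11_25 : T3 :=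
(.s 0 8 0 0 0 0 0 14
(.s 0 1 0 0 0 0 0 1
(.s 1 0 0 1 0 0 0 0
(.s 0 1 0 0 0 0 0 2
(.lf 2 true 0 false false 0 0) (.s 1 0 4 12 0 0 0 6
(.s 2 0 0 1 0 0 0 0
(.lf 1 true 0 true false 0 0) (.lf 1 true 0 false false 0 0)) (.s 1 0 1 4 0 0 0 2
(.s 2 0 0 1 0 0 0 0
(.lf 2 true 0 true false 0 0) (.lf 2 true 0 false false 0 0)) (.lf 2 true 0 false false 0 0)))) (.lf 3 true 0 false false 0 0)) (.s 1 0 4 12 0 0 0 6
(.s 1 0 1 2 0 0 0 0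
(.lf 1 true 0 true false 0 0) (.s 2 0 0 1 0 0 0 0
(.lf 1 true 0 true false 0 0) (.lf 1 true 0 false false 0 0))) (.s 1 0 1 4 0 0 0 2
(.s 2 0 0 1 0 0 0 0
(.lf 2 true 0 true false 0 0) (.lf 2 true 0 false false 0 0)) (.lf 2 true 0 false false 0 0)))) (.s 0 5 0 0 0 0 0 7
(.s 1 0 4 12 0 0 0 6
(.s 1 0 1 2 0 0 0 0
(.lf 1 false 0 true false 0 0) (.s 2 0 0 1 0 0 0 0
(.lf 1 false 0 true false 0 0) (.lf 1 false 0 false false 0 0))) (.s 1 0 1 4 0 0 0 2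
(.s 2 0 0 1 0 0 0 0
(.lf 2 false 0 true false 0 0) (.lf 2 false 0 false false 0 0)) (.lf 2 false 0 false false 0 0))) (.s 0 3 0 0 0 0 0 3
(.s 1 0 1 2 0 0 0 0
(.lf 1 false 0 true false 0 0) (.s 2 0 0 1 0 0 0 0
(.lf 1 false 0 true false 0 0) (.lf 1 false 0 false false 0 0))) (.lf 1 false 0 true false 0 0))))

theorem ho11_25 : chk3 (leafO 5554500 1 a1_25 e1_25 R25.x1.ap R25.x1.m) o11_25 (full R25) = true := by
  decide +kernel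

def t0_25_0 : T3 :=
(.s 0 8 0 0 0 0 0 14
(.s 0 1 0 0 0 0 0 1
(.s 1 0 0 1 0 0 0 0
(.s 0 1 0 0 0 0 0 2
(.s 0 3 0 0 0 0 0 9
(.lf 2 true 1 true false 0 0) (.s 3 1 0 0 1 0 0 0
(.lf 2 true 1 true false 0 0) (.s 4 1000 0 0 1000 0 0 2736
(.lf 2 true 1 true false 0 0) (.lf 2 true 1 false false 0 0)))) (.s 1 0 4 12 0 0 0 6
(.lf 1 true 1 false false 0 0) (.s 0 2 0 0 0 0 0 4
(.s 3 1 0 0 1 0 0 0
(.lf 2 true 1 true false 0 0) (.s 4 1000 0 0 1000 0 0 2736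
(.lf 2 true 1 true false 0 0) (.lf 2 true 1 false false 0 0))) (.s 4 1000 0 0 1000 0 0 2736
(.lf 2 true 1 true false 0 0) (.lf 2 true 1 false false 0 0))))) (.s 0 2 0 0 0 0 0 4
(.s 0 3 0 0 0 0 0 9
(.lf 3 true 1 true false 0 0) (.s 3 1 0 0 1 0 0 0
(.lf 3 true 1 true false 0 0) (.s 4 1000 0 0 1000 0 0 2736
(.lf 3 true 1 true false 0 0) (.lf 3 true 1 false false 0 0)))) (.s 4 1000 0 0 1000 0 0 2736
(.lf 3 true 1 true false 0 0) (.lf 3 true 1 false false 0 0)))) (.s 1 0 4 12 0 0 0 6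
(.lf 1 true 1 false false 0 0) (.s 4 1000 0 0 1000 0 0 2736
(.lf 2 true 1 true false 0 0) (.lf 2 true 1 false false 0 0)))) (.s 0 5 0 0 0 0 0 7
(.s 1 0 4 12 0 0 0 6
(.lf 1 false 1 false false 0 0) (.lf 2 false 1 false false 0 0)) (.lf 1 false 0 false false 0 0)))

def t0_25_1 : T3 :=
(.s 0 8 0 0 0 0 0 14
(.s 0 1 0 0 0 0 0 3
(.s 1 0 0 1 0 0 0 0
(.s 0 27569 0 0 0 0 0 199999
(.lf 2 true 1 true false 0 0) (.s 3 20000 0 0 20000 0 0 24632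
(.lf 2 true 1 true false 0 0) (.s 4 1000 0 0 1000 0 0 2736
(.lf 2 true 1 true false 0 0) (.lf 2 true 1 false false 0 0)))) (.s 0 27569 0 0 0 0 0 199999
(.lf 3 true 1 true false 0 0) (.s 3 20000 0 0 20000 0 0 24632
(.lf 3 true 1 true false 0 0) (.s 4 1000 0 0 1000 0 0 2736
(.lf 3 true 1 true false 0 0) (.lf 3 true 1 false false 0 0))))) (.s 0 1 0 0 0 0 0 2
(.lf 2 true 1 false false 0 0) (.s 0 23 0 0 0 0 0 47
(.s 1 0 4 12 0 0 0 6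
(.lf 1 true 1 false false 0 0) (.lf 2 true 1 false false 0 0)) (.lf 1 true 1 false false 0 0)))) (.lf 1 false 0 false false 0 0))

def t0_25_2 : T3 :=
(.s 0 8 0 0 0 0 0 14
(.s 0 1 0 0 0 0 0 3
(.s 1 0 0 1 0 0 0 0
(.lf 2 true 1 false false 0 0) (.lf 3 true 1 false false 0 0)) (.s 0 1 0 0 0 0 0 2
(.lf 2 true 1 false false 0 0) (.s 0 23 0 0 0 0 0 47
(.s 1 0 4 12 0 0 0 6
(.lf 1 true 1 false false 0 0) (.lf 2 true 1 false false 0 0)) (.lf 1 true 1 false false 0 0)))) (.lf 1 false 0 true false 0 0))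

def t0_25_3 : T3 :=
(.s 0 8 0 0 0 0 0 14
(.s 0 1 0 0 0 0 0 3
(.s 1 0 0 1 0 0 0 0
(.lf 2 true 1 false false 0 0) (.lf 3 true 1 false false 0 0)) (.s 0 1 0 0 0 0 0 2
(.lf 2 true 1 false false 0 0) (.s 0 23 0 0 0 0 0 47
(.s 1 0 4 12 0 0 0 6
(.lf 1 true 1 false false 0 0) (.lf 2 true 1 false false 0 0)) (.lf 1 true 1 false false 0 0)))) (.lf 1 false 0 false false 0 0))

def t0_25_4 : T3 :=
(.s 0 8 0 0 0 0 0 14
(.s 0 1 0 0 0 0 0 3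
(.s 1 0 0 1 0 0 0 0
(.lf 2 true 1 false false 0 0) (.lf 3 true 1 false false 0 0)) (.s 0 1 0 0 0 0 0 2
(.lf 2 true 1 false false 0 0) (.s 0 23 0 0 0 0 0 47
(.s 1 0 4 12 0 0 0 6
(.lf 1 true 0 false false 0 0) (.lf 2 true 1 false false 0 0)) (.lf 1 true 0 false false 0 0)))) (.lf 1 false 0 false false 0 0))

def t0_25_5 : T3 :=
(.s 0 8 0 0 0 0 0 14
(.s 0 1 0 0 0 0 0 3
(.lf 3 true 1 false false 0 0) (.s 0 1 0 0 0 0 0 1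
(.s 1 0 0 1 0 0 0 0
(.s 0 23 0 0 0 0 0 47
(.lf 2 true 1 false false 0 0) (.s 1 0 4 12 0 0 0 6
(.lf 1 true 1 false false 0 0) (.lf 2 true 1 false false 0 0))) (.lf 3 true 1 false false 0 0)) (.s 1 0 4 12 0 0 0 6
(.lf 1 true 1 true false 0 0) (.lf 2 true 1 false false 0 0)))) (.s 0 5 0 0 0 0 0 7
(.s 1 0 4 12 0 0 0 6
(.lf 1 false 1 false false 0 0) (.lf 2 false 1 false false 0 0)) (.lf 1 false 0 true false 0 0)))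

def i0_25 : T2 :=
(.s 3 0 0 1000 0 2736
(.k 780924 0 0 1336421 444783 0 t0_25_0) (.s 0 1 0 0 0 3
(.s 3 0 0 3 0 3
(.s 3 0 0 1 0 1
(.s 3 0 0 9 0 19
(.k 1178193 0 0 1387273 201213 0 t0_25_1) (.k 1368690 0 0 1626301 251338 0 t0_25_2)) (.k 1481902 0 0 1637074 0 188619 t0_25_3)) (.k 2000000 0 0 936541 0 3953910 t0_25_4)) (.k 1097163 0 0 1190291 0 14637 t0_25_5)))

theorem hi0_25 : chk2 (leaf0 a0_25 e0_25) 0 i0_25 R25 = true := by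
  decide +kernel

def R25_1a : Reg := hi R25 (Nat.succ 3) ⟨0, 0, 0, 0, 4, 0, 10⟩

def R25_1b : Reg := lo R25 (Nat.succ 3) ⟨0, 0, 0, 0, 4, 0, 10⟩

def t1_25a_0 : T3 :=
(.s 0 8 0 0 0 0 0 14
(.s 0 1 0 0 0 0 0 1
(.s 1 0 0 1 0 0 0 0
(.s 0 1 0 0 0 0 0 2
(.lf 2 true 1 true false 0 2) (.s 1 0 4 12 0 0 0 6
(.lf 1 true 1 false false 0 2) (.lf 2 true 1 true false 0 2))) (.lf 3 true 1 true false 0 2)) (.s 1 0 4 12 0 0 0 6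
(.lf 1 true 1 false false 0 0) (.lf 2 true 1 true false 0 0))) (.s 0 5 0 0 0 0 0 7
(.s 1 0 4 12 0 0 0 6
(.lf 1 false 2 false false 0 0) (.lf 2 false 1 true false 0 0)) (.lf 1 false 2 false false 0 0)))

def i1_25a : T2 :=
(.k 0 85333 385333 0 0 289000 t1_25a_0)

theorem hi1_25a : chk2 (leaf1 a1_25 e1_25) 10000 i1_25a R25_1a = true := by
  decide +kernel

def t1_25b_0 : T3 :=
(.s 0 8 0 0 0 0 0 14
(.s 0 1 0 0 0 0 0 1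
(.s 1 0 0 1 0 0 0 0
(.s 0 1 0 0 0 0 0 2
(.lf 2 true 1 false false 1 2) (.s 1 0 4 12 0 0 0 6
(.lf 1 true 1 false false 2 2) (.s 0 2 0 0 0 0 0 4
(.s 3 2750 0 0 2750 0 0 2736
(.s 4 1000 0 0 1000 0 0 2736
(.lf 2 true 1 false false 1 2) (.lf 2 true 1 false false 2 2)) (.lf 2 true 1 false false 2 0)) (.s 4 1 0 0 1 0 0 0
(.s 1 0 4 19 0 0 0 13
(.lf 2 true 1 false false 2 0) (.s 2 3 0 0 0 5 0 7
(.s 2 5 0 0 0 11 0 15
(.s 4 0 0 0 0 11 0 20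
(.s 0 9 0 0 0 0 0 19
(.lf 2 true 1 false false 1 0) (.s 0 19 0 0 0 0 0 39
(.lf 2 true 1 false false 1 0) (.s 0 49 0 0 0 0 0 99
(.lf 2 true 1 false false 1 0) (.s 2 952210 0 0 0 1520147 0 2668752
(.s 0 27 0 0 0 0 0 54
(.s 3 49 0 0 49 0 0 38
(.lf 2 true 1 false false 1 0) (.s 4 7 0 0 7 0 4 2
(.lf 2 true 1 false false 1 0) (.lf 2 true 1 false true 1 0))) (.s 3 11 0 0 11 0 0 7
(.s 3 49 0 0 49 0 0 38
(.lf 2 true 1 false false 1 0) (.s 4 7 0 0 7 0 4 2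
(.lf 2 true 1 false false 1 0) (.lf 2 true 1 false true 1 0))) (.lf 2 true 1 false true 1 0))) (.lf 2 true 1 false false 1 0))))) (.s 0 9 0 0 0 0 0 19
(.s 0 17 0 0 0 0 0 39
(.lf 2 true 1 false false 2 0) (.s 1 0 4 33 0 0 0 27
(.lf 2 true 1 false false 2 0) (.s 1 0 4 61 0 0 0 55
(.lf 2 true 1 false false 2 0) (.s 2 952210 0 0 0 1520147 0 2668752
(.s 4 21 0 0 21 11 0 41
(.lf 2 true 1 false false 2 0) (.s 3 13 0 0 0 0 0 19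
(.lf 2 true 1 false false 2 0) (.lf 2 true 1 false true 2 0))) (.lf 2 true 1 false false 2 0))))) (.s 1 0 4 33 0 0 0 27
(.s 2 9 0 0 0 23 0 31
(.lf 2 true 1 false true 1 0) (.lf 2 true 1 false false 2 0)) (.s 2 952210 0 0 0 1520147 0 2668752
(.s 3 49 0 0 49 0 0 38
(.s 4 7 0 0 7 0 4 2
(.lf 2 true 1 false false 2 0) (.lf 2 true 1 false true 2 0)) (.lf 2 true 1 false true 1 0)) (.s 3 49 0 0 49 0 0 38
(.s 4 7 0 0 7 0 4 2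
(.lf 2 true 1 false false 2 0) (.lf 2 true 2 false false 2 0)) (.lf 2 true 2 false false 1 0)))))) (.lf 2 true 1 false false 2 0)) (.lf 2 true 1 false false 2 0))) (.s 2 952210 0 0 0 1520147 0 2668752
(.lf 2 true 0 false true 2 0) (.lf 2 true 2 false false 2 0)))))) (.s 0 1 0 0 0 0 0 3
(.lf 3 true 1 false false 1 1) (.s 0 2 0 0 0 0 0 4
(.s 0 3 0 0 0 0 0 9
(.lf 3 true 1 false false 2 2) (.s 3 1 0 0 1 0 0 0
(.lf 3 true 1 false false 2 2) (.s 4 1 0 0 1 0 0 0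
(.lf 3 true 1 false false 2 0) (.lf 3 true 0 false false 2 0)))) (.s 4 1 0 0 1 0 0 0
(.s 2 3 0 0 0 5 0 7
(.s 2 5 0 0 0 11 0 15
(.s 4 0 0 0 0 11 0 20
(.s 2 952210 0 0 0 1520147 0 2668752
(.s 0 27 0 0 0 0 0 54
(.s 0 31 0 0 0 0 0 69
(.lf 3 true 1 false false 1 0) (.s 3 49 0 0 49 0 0 38
(.lf 3 true 1 false false 1 0) (.s 4 7 0 0 7 0 4 2
(.lf 3 true 1 false false 1 0) (.lf 3 true 1 false true 1 0)))) (.s 3 11 0 0 11 0 0 7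
(.s 3 49 0 0 49 0 0 38
(.lf 3 true 1 false false 1 0) (.s 4 7 0 0 7 0 4 2
(.lf 3 true 1 false false 1 0) (.lf 3 true 1 false true 1 0))) (.lf 3 true 1 false true 1 0))) (.lf 3 true 1 false false 1 0)) (.s 0 9 0 0 0 0 0 19
(.s 2 952210 0 0 0 1520147 0 2668752
(.s 0 31 0 0 0 0 0 69
(.s 4 7 0 0 7 0 4 2
(.lf 3 true 1 false false 2 0) (.lf 3 true 1 false true 2 0)) (.s 3 49 0 0 49 0 0 38
(.s 4 7 0 0 7 0 4 2
(.lf 3 true 1 false false 2 0) (.lf 3 true 1 false true 2 0)) (.lf 3 true 1 false true 1 0))) (.lf 3 true 1 false false 2 0)) (.s 2 952210 0 0 0 1520147 0 2668752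
(.s 3 49 0 0 49 0 0 38
(.s 4 7 0 0 7 0 4 2
(.lf 3 true 1 false false 2 0) (.lf 3 true 1 false true 2 0)) (.lf 3 true 1 false true 1 0)) (.s 3 49 0 0 49 0 0 38
(.s 4 7 0 0 7 0 4 2
(.lf 3 true 1 false false 2 0) (.lf 3 true 2 false false 2 0)) (.lf 3 true 2 false false 1 0))))) (.lf 3 true 1 false false 2 0)) (.lf 3 true 1 false false 2 0)) (.s 2 952210 0 0 0 1520147 0 2668752
(.lf 3 true 0 false true 2 0) (.lf 3 true 2 false false 2 0)))))) (.s 1 0 4 12 0 0 0 6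
(.s 4 1 0 0 1 0 0 0
(.lf 1 true 1 true false 2 0) (.lf 1 true 0 true false 2 0)) (.s 2 952210 0 0 0 1520147 0 2668752
(.s 3 11 0 0 11 0 0 7
(.s 4 7 0 0 7 0 4 2
(.lf 2 true 1 false false 2 0) (.lf 2 true 1 false true 2 0)) (.lf 2 true 1 false true 1 0)) (.s 4 0 0 0 0 11 0 20
(.lf 2 true 1 false false 1 0) (.lf 2 true 2 false false 1 0))))) (.s 0 5 0 0 0 0 0 7
(.s 1 0 4 12 0 0 0 6
(.s 2 952210 0 0 0 1520147 0 2668752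
(.lf 1 false 1 false true 1 0) (.lf 1 false 2 true false 1 0)) (.s 2 952210 0 0 0 1520147 0 2668752
(.lf 2 false 1 false true 1 0) (.lf 2 false 2 false false 1 0))) (.s 2 952210 0 0 0 1520147 0 2668752
(.lf 1 false 0 false true 1 0) (.lf 1 false 2 true false 1 0))))

def i1_25b : T2 :=
(.k 1652210 0 0 2668753 1520147 0 t1_25b_0)

theorem hi1_25b : chk2 (leaf1 a1_25 e1_25) 10000 i1_25b R25_1b = true := by
  decide +kernel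

def i1_25 : T2 := .s 3 0 0 4 0 10 i1_25a i1_25b

theorem hi1_25 : chk2 (leaf1 a1_25 e1_25) 10000 i1_25 R25 = true := chk2_s hi1_25a hi1_25b

theorem ok25 : CellOk R25 a0_25 e0_25 a1_25 e1_25 :=
  ⟨lin25, ⟨_, ho00_25⟩, ⟨_, ho01_25⟩, ⟨_, ho10_25⟩, ⟨_, ho11_25⟩, ⟨_, hi0_25⟩, ⟨_, hi1_25⟩⟩

def R26 : Reg := ⟨⟨0, 0, 0, 0, 0, 0, 0⟩, ⟨1, 0, 0, 0, 0, 0, 0⟩, ⟨0, 0, 0, 0, 0, 0, 0⟩, ⟨1, 0, 0, 0, 0, 0, 1⟩, ⟨1, 0, 0, 0, 3, 0, 3⟩, ⟨1, 0, 0, 0, 1, 0, 1⟩, ⟨7, 0, 0, 0, 0, 0, 9⟩, ⟨3, 0, 0, 0, 0, 0, 3⟩, ⟨0, 0, 0, 0, 0, 0, 0⟩, ⟨0, 0, 0, 0, 1, 0, 0⟩⟩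

def a0_26 : SF := mu 0 225362 322049 0 0 0 364817 0

def e0_26 : SF := mu 0 317949 497095 0 1951156 0 0 1132529

def a1_26 : SF := mu 0 7655 10979 0 0 0 168260 0

def e1_26 : SF := mu 0 222585 347967 0 1365809 0 0 792770

theorem lin26 : chkLin R26 a0_26 e0_26 a1_26 e1_26 = true := by decide +kernel

def o00_26 : T3 :=
(.s 0 8 0 0 0 0 0 14
(.s 0 1 0 0 0 0 0 1
(.s 1 0 0 1 0 0 0 0
(.s 0 1 0 0 0 0 0 2
(.s 0 1 0 0 0 0 0 3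
(.lf 2 true 0 false false 0 0) (.s 1 0 1 4 0 0 0 2
(.s 2 0 0 1 0 0 0 0
(.lf 2 true 0 true false 0 0) (.lf 2 true 0 false false 0 0)) (.lf 2 true 0 false false 0 0))) (.s 1 0 4 12 0 0 0 6
(.s 2 0 0 1 0 0 0 0
(.lf 1 true 0 true false 0 0) (.lf 1 true 0 false false 0 0)) (.s 1 0 1 4 0 0 0 2
(.s 2 0 0 1 0 0 0 0
(.s 0 2 0 0 0 0 0 4
(.lf 2 true 0 true false 0 0) (.lf 2 true 0 true false 0 0)) (.s 0 2 0 0 0 0 0 4
(.lf 2 true 0 false false 0 0) (.lf 2 true 0 false false 0 0))) (.lf 2 true 0 false false 0 0)))) (.lf 3 true 0 false false 0 0)) (.s 1 0 4 12 0 0 0 6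
(.s 1 0 1 2 0 0 0 0
(.lf 1 true 0 true false 0 0) (.s 2 0 0 1 0 0 0 0
(.lf 1 true 0 true false 0 0) (.lf 1 true 0 false false 0 0))) (.s 1 0 1 4 0 0 0 2
(.s 2 0 0 1 0 0 0 0
(.lf 2 true 0 true false 0 0) (.lf 2 true 0 false false 0 0)) (.lf 2 true 0 false false 0 0)))) (.s 0 5 0 0 0 0 0 7
(.s 1 0 4 12 0 0 0 6
(.s 1 0 1 2 0 0 0 0
(.lf 1 false 0 true false 0 0) (.s 2 0 0 1 0 0 0 0
(.lf 1 false 0 true false 0 0) (.lf 1 false 0 false false 0 0))) (.s 1 0 1 4 0 0 0 2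
(.s 2 0 0 1 0 0 0 0
(.lf 2 false 0 true false 0 0) (.lf 2 false 0 false false 0 0)) (.lf 2 false 0 false false 0 0))) (.s 0 3 0 0 0 0 0 3
(.s 1 0 1 2 0 0 0 0
(.lf 1 false 0 true false 0 0) (.s 2 0 0 1 0 0 0 0
(.lf 1 false 0 true false 0 0) (.lf 1 false 0 false false 0 0))) (.lf 1 false 0 true false 0 0))))

theorem ho00_26 : chk3 (leafO 10500000 3 a0_26 e0_26 R26.x0.ap R26.x0.m) o00_26 (full R26) = true := by
  decide +kernel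

def o01_26 : T3 :=
(.s 0 8 0 0 0 0 0 14
(.s 0 1 0 0 0 0 0 1
(.s 1 0 0 1 0 0 0 0
(.s 0 1 0 0 0 0 0 2
(.s 0 1 0 0 0 0 0 3
(.lf 2 true 0 false false 0 0) (.s 1 0 1 4 0 0 0 2
(.s 2 0 0 1 0 0 0 0
(.lf 2 true 0 true false 0 0) (.lf 2 true 0 false false 0 0)) (.lf 2 true 0 false false 0 0))) (.s 1 0 4 12 0 0 0 6
(.s 2 0 0 1 0 0 0 0
(.lf 1 true 0 true false 0 0) (.lf 1 true 0 false false 0 0)) (.s 1 0 1 4 0 0 0 2
(.s 2 0 0 1 0 0 0 0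
(.lf 2 true 0 true false 0 0) (.lf 2 true 0 false false 0 0)) (.lf 2 true 0 false false 0 0)))) (.lf 3 true 0 false false 0 0)) (.s 1 0 4 12 0 0 0 6
(.s 1 0 1 2 0 0 0 0
(.lf 1 true 0 true false 0 0) (.s 2 0 0 1 0 0 0 0
(.lf 1 true 0 true false 0 0) (.lf 1 true 0 false false 0 0))) (.s 1 0 1 4 0 0 0 2
(.s 2 0 0 1 0 0 0 0
(.lf 2 true 0 true false 0 0) (.lf 2 true 0 false false 0 0)) (.lf 2 true 0 false false 0 0)))) (.s 0 5 0 0 0 0 0 7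
(.s 1 0 4 12 0 0 0 6
(.s 1 0 1 2 0 0 0 0
(.lf 1 false 0 true false 0 0) (.s 2 0 0 1 0 0 0 0
(.lf 1 false 0 true false 0 0) (.lf 1 false 0 false false 0 0))) (.s 1 0 1 4 0 0 0 2
(.s 2 0 0 1 0 0 0 0
(.lf 2 false 0 true false 0 0) (.lf 2 false 0 false false 0 0)) (.lf 2 false 0 false false 0 0))) (.s 0 3 0 0 0 0 0 3
(.s 1 0 1 2 0 0 0 0
(.lf 1 false 0 true false 0 0) (.s 2 0 0 1 0 0 0 0
(.lf 1 false 0 true false 0 0) (.lf 1 false 0 false false 0 0))) (.lf 1 false 0 true false 0 0))))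

theorem ho01_26 : chk3 (leafO 10500000 3 a0_26 e0_26 R26.x1.ap R26.x1.m) o01_26 (full R26) = true := by
  decide +kernel

def o10_26 : T3 :=
(.s 0 8 0 0 0 0 0 14
(.s 0 1 0 0 0 0 0 1
(.s 1 0 0 1 0 0 0 0
(.s 0 1 0 0 0 0 0 2
(.lf 2 true 0 false false 0 0) (.s 1 0 4 12 0 0 0 6
(.s 2 0 0 1 0 0 0 0
(.lf 1 true 0 true false 0 0) (.lf 1 true 0 false false 0 0)) (.lf 2 true 0 false false 0 0))) (.lf 3 true 0 false false 0 0)) (.s 1 0 4 12 0 0 0 6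
(.s 1 0 1 2 0 0 0 0
(.lf 1 true 0 true false 0 0) (.s 2 0 0 1 0 0 0 0
(.lf 1 true 0 true false 0 0) (.lf 1 true 0 false false 0 0))) (.lf 2 true 0 false false 0 0))) (.s 0 5 0 0 0 0 0 7
(.s 1 0 4 12 0 0 0 6
(.s 1 0 1 2 0 0 0 0
(.lf 1 false 0 true false 0 0) (.s 2 0 0 1 0 0 0 0
(.lf 1 false 0 true false 0 0) (.lf 1 false 0 false false 0 0))) (.lf 2 false 0 false false 0 0)) (.s 0 3 0 0 0 0 0 3
(.s 1 0 1 2 0 0 0 0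
(.lf 1 false 0 true false 0 0) (.s 2 0 0 1 0 0 0 0
(.lf 1 false 0 true false 0 0) (.lf 1 false 0 false false 0 0))) (.lf 1 false 0 true false 0 0))))

theorem ho10_26 : chk3 (leafO 5554500 1 a1_26 e1_26 R26.x0.ap R26.x0.m) o10_26 (full R26) = true := by
  decide +kernel

def o11_26 : T3 :=
(.s 0 8 0 0 0 0 0 14
(.s 0 1 0 0 0 0 0 1
(.s 1 0 0 1 0 0 0 0
(.s 0 1 0 0 0 0 0 2
(.lf 2 true 0 false false 0 0) (.s 1 0 4 12 0 0 0 6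
(.s 2 0 0 1 0 0 0 0
(.lf 1 true 0 true false 0 0) (.lf 1 true 0 false false 0 0)) (.lf 2 true 0 false false 0 0))) (.lf 3 true 0 false false 0 0)) (.s 1 0 4 12 0 0 0 6
(.s 1 0 1 2 0 0 0 0
(.lf 1 true 0 true false 0 0) (.s 2 0 0 1 0 0 0 0
(.lf 1 true 0 true false 0 0) (.lf 1 true 0 false false 0 0))) (.lf 2 true 0 false false 0 0))) (.s 0 5 0 0 0 0 0 7
(.s 1 0 4 12 0 0 0 6
(.s 1 0 1 2 0 0 0 0
(.lf 1 false 0 true false 0 0) (.s 2 0 0 1 0 0 0 0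
(.lf 1 false 0 true false 0 0) (.lf 1 false 0 false false 0 0))) (.lf 2 false 0 false false 0 0)) (.s 0 3 0 0 0 0 0 3
(.s 1 0 1 2 0 0 0 0
(.lf 1 false 0 true false 0 0) (.s 2 0 0 1 0 0 0 0
(.lf 1 false 0 true false 0 0) (.lf 1 false 0 false false 0 0))) (.lf 1 false 0 true false 0 0))))

theorem ho11_26 : chk3 (leafO 5554500 1 a1_26 e1_26 R26.x1.ap R26.x1.m) o11_26 (full R26) = true := by
  decide +kernel

def t0_26_0 : T3 :=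
(.s 0 8 0 0 0 0 0 14
(.s 0 1 0 0 0 0 0 1
(.s 1 0 0 1 0 0 0 0
(.s 0 1 0 0 0 0 0 2
(.s 0 3 0 0 0 0 0 9
(.s 0 1 0 0 0 0 0 3
(.lf 2 true 1 true false 0 0) (.s 3 1 0 0 1 0 0 0
(.lf 2 true 1 true false 0 0) (.s 4 1000 0 0 1000 0 0 2736
(.lf 2 true 1 true false 0 0) (.lf 2 true 1 false false 0 0)))) (.s 4 1000 0 0 1000 0 0 2736
(.lf 2 true 1 true false 0 0) (.lf 2 true 1 false false 0 0))) (.s 1 0 4 12 0 0 0 6
(.lf 1 true 1 false false 0 0) (.s 4 1000 0 0 1000 0 0 2736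
(.lf 2 true 1 true false 0 0) (.lf 2 true 1 false false 0 0)))) (.s 0 1 0 0 0 0 0 3
(.lf 3 true 1 true false 0 0) (.s 0 3 0 0 0 0 0 9
(.s 3 1 0 0 1 0 0 0
(.lf 3 true 1 true false 0 0) (.s 4 1000 0 0 1000 0 0 2736
(.lf 3 true 1 true false 0 0) (.lf 3 true 1 false false 0 0))) (.s 4 1000 0 0 1000 0 0 2736
(.lf 3 true 1 true false 0 0) (.lf 3 true 1 false false 0 0))))) (.s 1 0 4 12 0 0 0 6
(.lf 1 true 1 true false 0 0) (.s 4 1000 0 0 1000 0 0 2736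
(.lf 2 true 1 true false 0 0) (.lf 2 true 1 false false 0 0)))) (.s 0 5 0 0 0 0 0 7
(.s 1 0 4 12 0 0 0 6
(.lf 1 false 1 false false 0 0) (.lf 2 false 1 false false 0 0)) (.lf 1 false 0 false false 0 0)))

def t0_26_1 : T3 :=
(.s 0 8 0 0 0 0 0 14
(.s 0 1 0 0 0 0 0 1
(.s 1 0 0 1 0 0 0 0
(.s 0 1 0 0 0 0 0 2
(.lf 2 true 1 false false 0 0) (.s 1 0 4 12 0 0 0 6
(.lf 1 true 1 false false 0 0) (.lf 2 true 1 false false 0 0))) (.lf 3 true 1 false false 0 0)) (.s 1 0 4 12 0 0 0 6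
(.lf 1 true 1 true false 0 0) (.lf 2 true 1 false false 0 0))) (.s 0 5 0 0 0 0 0 7
(.s 1 0 4 12 0 0 0 6
(.lf 1 false 1 true false 0 0) (.lf 2 false 1 false false 0 0)) (.lf 1 false 0 true false 0 0)))

def i0_26 : T2 :=
(.s 3 0 0 1000 0 2736
(.k 101208 0 328016 0 0 610436 t0_26_0) (.k 1160955 0 0 1369586 59793 0 t0_26_1))

theorem hi0_26 : chk2 (leaf0 a0_26 e0_26) 0 i0_26 R26 = true := by
  decide +kernel

def t1_26_0 : T3 :=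
(.s 0 8 0 0 0 0 0 14
(.s 0 1 0 0 0 0 0 1
(.s 1 0 0 1 0 0 0 0
(.s 0 1 0 0 0 0 0 2
(.lf 2 true 1 true false 0 2) (.s 1 0 4 12 0 0 0 6
(.lf 1 true 1 false false 0 0) (.lf 2 true 1 true false 0 0))) (.lf 3 true 1 true false 0 2)) (.s 1 0 4 12 0 0 0 6
(.lf 1 true 1 false false 0 0) (.lf 2 true 1 true false 0 0))) (.s 0 5 0 0 0 0 0 7
(.s 1 0 4 12 0 0 0 6
(.lf 1 false 2 false false 0 0) (.lf 2 false 1 true false 0 0)) (.lf 1 false 2 false false 0 0)))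

def t1_26_1 : T3 :=
(.s 0 8 0 0 0 0 0 14
(.s 0 1 0 0 0 0 0 1
(.s 1 0 0 1 0 0 0 0
(.s 0 1 0 0 0 0 0 2
(.lf 2 true 1 false false 2 2) (.s 1 0 4 12 0 0 0 6
(.lf 1 true 1 false true 1 0) (.s 4 1 0 0 1 0 0 0
(.s 4 0 0 0 0 11 0 20
(.lf 2 true 1 false false 1 0) (.s 1 287612 0 0 0 0 0 974014
(.lf 2 true 1 false false 2 0) (.s 0 2 0 0 0 0 0 4
(.lf 2 true 1 false false 2 0) (.s 0 31 0 0 0 0 0 69
(.s 0 79 0 0 0 0 0 195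
(.s 4 7 0 0 7 0 4 2
(.lf 2 true 1 false false 2 0) (.lf 2 true 2 false false 2 0)) (.s 3 49 0 0 49 0 0 38
(.s 4 7 0 0 7 0 4 2
(.lf 2 true 1 false false 2 0) (.lf 2 true 2 false false 2 0)) (.lf 2 true 2 false false 1 0))) (.lf 2 true 2 false false 1 0))))) (.s 1 287612 0 0 0 0 0 974014
(.lf 2 true 0 false true 2 0) (.lf 2 true 2 false false 2 0))))) (.s 0 3 0 0 0 0 0 9
(.s 0 1 0 0 0 0 0 3
(.lf 3 true 1 false false 2 2) (.s 3 1 0 0 1 0 0 0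
(.lf 3 true 1 false false 2 2) (.s 4 1 0 0 1 0 0 0
(.lf 3 true 1 false false 2 0) (.lf 3 true 0 false false 2 0)))) (.s 4 1 0 0 1 0 0 0
(.s 0 27 0 0 0 0 0 54
(.s 0 5 0 0 0 0 0 10
(.s 4 7 0 0 7 0 4 2
(.lf 3 true 1 false false 2 0) (.lf 3 true 2 false false 2 0)) (.s 3 11 0 0 11 0 0 7
(.s 4 7 0 0 7 0 4 2
(.lf 3 true 1 false false 1 0) (.lf 3 true 2 false false 1 0)) (.lf 3 true 2 false false 1 0))) (.lf 3 true 2 false false 1 0)) (.lf 3 true 2 false false 2 0)))) (.s 1 0 4 12 0 0 0 6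
(.s 0 211048 0 0 0 0 0 417434
(.lf 1 true 1 false true 1 0) (.s 1 287612 0 0 0 0 0 974014
(.lf 1 true 1 false true 1 0) (.lf 1 true 2 false false 1 0))) (.s 0 211048 0 0 0 0 0 417434
(.s 1 287612 0 0 0 0 0 974014
(.lf 2 true 0 false true 1 0) (.lf 2 true 2 false false 1 0)) (.lf 2 true 2 false false 1 0)))) (.s 0 5 0 0 0 0 0 7
(.s 1 0 4 12 0 0 0 6
(.s 1 287612 0 0 0 0 0 974014
(.lf 1 false 1 true true 1 0) (.lf 1 false 2 false false 1 0)) (.lf 2 false 2 false false 1 0)) (.s 1 287612 0 0 0 0 0 974014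
(.lf 1 false 0 false true 1 0) (.lf 1 false 2 false false 1 0))))

def i1_26 : T2 :=
(.s 3 0 0 4 0 10
(.k 220333 0 0 418667 209333 0 t1_26_0) (.k 987612 0 0 0 0 974015 t1_26_1))

theorem hi1_26 : chk2 (leaf1 a1_26 e1_26) 10000 i1_26 R26 = true := by
  decide +kernel

theorem ok26 : CellOk R26 a0_26 e0_26 a1_26 e1_26 :=
  ⟨lin26, ⟨_, ho00_26⟩, ⟨_, ho01_26⟩, ⟨_, ho10_26⟩, ⟨_, ho11_26⟩, ⟨_, hi0_26⟩, ⟨_, hi1_26⟩⟩

def R36 : Reg := ⟨⟨0, 0, 0, 0, 0, 0, 0⟩, ⟨1, 0, 0, 0, 0, 0, 0⟩, ⟨1, 0, 0, 0, 0, 0, 3⟩, ⟨1, 0, 0, 0, 0, 0, 1⟩, ⟨1, 0, 0, 0, 3, 0, 3⟩, ⟨1, 0, 0, 0, 1, 0, 1⟩, ⟨3, 0, 0, 0, 0, 0, 3⟩, ⟨9, 0, 0, 0, 0, 0, 9⟩, ⟨0, 0, 0, 0, 0, 0, 0⟩, ⟨0, 0, 0, 0, 1, 0, 0⟩⟩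

def a0_36 : SF := mu 0 90589 66459 0 0 0 502892 0

def e0_36 : SF := mu 0 858602 1285420 0 2149292 0 0 1498574

def a1_36 : SF := mu 0 79064 105419 0 0 0 169304 0

def e1_36 : SF := mu 0 601043 899794 0 1504505 0 0 1049002

theorem lin36 : chkLin R36 a0_36 e0_36 a1_36 e1_36 = true := by decide +kernel

def o00_36 : T3 :=
(.s 0 8 0 0 0 0 0 14
(.s 0 1 0 0 0 0 0 3
(.lf 3 true 0 false false 0 0) (.s 0 1 0 0 0 0 0 1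
(.s 1 0 0 1 0 0 0 0
(.s 0 23 0 0 0 0 0 47
(.s 0 7 0 0 0 0 0 15
(.lf 2 true 0 false false 0 0) (.s 1 0 1 4 0 0 0 2
(.s 2 0 0 1 0 0 0 0
(.lf 2 true 0 true false 0 0) (.lf 2 true 0 false false 0 0)) (.lf 2 true 0 false false 0 0))) (.s 1 0 4 12 0 0 0 6
(.s 2 0 0 1 0 0 0 0
(.lf 1 true 0 true false 0 0) (.lf 1 true 0 false false 0 0)) (.s 1 0 1 4 0 0 0 2
(.s 2 0 0 1 0 0 0 0
(.lf 2 true 0 true false 0 0) (.lf 2 true 0 false false 0 0)) (.lf 2 true 0 false false 0 0)))) (.lf 3 true 0 false false 0 0)) (.s 1 0 4 12 0 0 0 6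
(.s 2 0 0 1 0 0 0 0
(.lf 1 true 0 true false 0 0) (.lf 1 true 0 false false 0 0)) (.s 1 0 1 4 0 0 0 2
(.s 2 0 0 1 0 0 0 0
(.lf 2 true 0 true false 0 0) (.lf 2 true 0 false false 0 0)) (.lf 2 true 0 false false 0 0))))) (.s 0 5 0 0 0 0 0 7
(.s 1 0 4 12 0 0 0 6
(.s 2 0 0 1 0 0 0 0
(.lf 1 false 0 true false 0 0) (.lf 1 false 0 false false 0 0)) (.s 1 0 1 4 0 0 0 2
(.s 2 0 0 1 0 0 0 0
(.lf 2 false 0 true false 0 0) (.lf 2 false 0 false false 0 0)) (.lf 2 false 0 false false 0 0))) (.s 0 3 0 0 0 0 0 3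
(.s 1 0 1 2 0 0 0 0
(.lf 1 false 0 true false 0 0) (.s 2 0 0 1 0 0 0 0
(.lf 1 false 0 true false 0 0) (.lf 1 false 0 false false 0 0))) (.lf 1 false 0 true false 0 0))))

theorem ho00_36 : chk3 (leafO 10500000 3 a0_36 e0_36 R36.x0.ap R36.x0.m) o00_36 (full R36) = true := by
  decide +kernel

def o01_36 : T3 :=
(.s 0 8 0 0 0 0 0 14
(.s 0 1 0 0 0 0 0 3
(.lf 3 true 0 false false 0 0) (.s 0 1 0 0 0 0 0 1
(.s 1 0 0 1 0 0 0 0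
(.s 0 23 0 0 0 0 0 47
(.s 0 7 0 0 0 0 0 15
(.lf 2 true 0 false false 0 0) (.s 1 0 1 4 0 0 0 2
(.s 2 0 0 1 0 0 0 0
(.lf 2 true 0 true false 0 0) (.lf 2 true 0 false false 0 0)) (.lf 2 true 0 false false 0 0))) (.s 1 0 4 12 0 0 0 6
(.s 2 0 0 1 0 0 0 0
(.lf 1 true 0 true false 0 0) (.lf 1 true 0 false false 0 0)) (.s 1 0 1 4 0 0 0 2
(.s 2 0 0 1 0 0 0 0
(.lf 2 true 0 true false 0 0) (.lf 2 true 0 false false 0 0)) (.lf 2 true 0 false false 0 0)))) (.lf 3 true 0 false false 0 0)) (.s 1 0 4 12 0 0 0 6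
(.s 2 0 0 1 0 0 0 0
(.lf 1 true 0 true false 0 0) (.lf 1 true 0 false false 0 0)) (.s 1 0 1 4 0 0 0 2
(.s 2 0 0 1 0 0 0 0
(.lf 2 true 0 true false 0 0) (.lf 2 true 0 false false 0 0)) (.lf 2 true 0 false false 0 0))))) (.s 0 5 0 0 0 0 0 7
(.s 1 0 4 12 0 0 0 6
(.s 2 0 0 1 0 0 0 0
(.lf 1 false 0 true false 0 0) (.lf 1 false 0 false false 0 0)) (.s 1 0 1 4 0 0 0 2
(.s 2 0 0 1 0 0 0 0
(.lf 2 false 0 true false 0 0) (.lf 2 false 0 false false 0 0)) (.lf 2 false 0 false false 0 0))) (.s 0 3 0 0 0 0 0 3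
(.s 1 0 1 2 0 0 0 0
(.lf 1 false 0 true false 0 0) (.s 2 0 0 1 0 0 0 0
(.lf 1 false 0 true false 0 0) (.lf 1 false 0 false false 0 0))) (.lf 1 false 0 true false 0 0))))

theorem ho01_36 : chk3 (leafO 10500000 3 a0_36 e0_36 R36.x1.ap R36.x1.m) o01_36 (full R36) = true := by
  decide +kernel

def o10_36 : T3 :=
(.s 0 8 0 0 0 0 0 14
(.s 0 1 0 0 0 0 0 3
(.lf 3 true 0 false false 0 0) (.s 0 1 0 0 0 0 0 1
(.s 1 0 0 1 0 0 0 0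
(.s 0 23 0 0 0 0 0 47
(.lf 2 true 0 false false 0 0) (.s 1 0 4 12 0 0 0 6
(.lf 1 true 0 false false 0 0) (.lf 2 true 0 false false 0 0))) (.lf 3 true 0 false false 0 0)) (.s 1 0 4 12 0 0 0 6
(.lf 1 true 0 false false 0 0) (.lf 2 true 0 false false 0 0)))) (.s 0 5 0 0 0 0 0 7
(.s 1 0 4 12 0 0 0 6
(.lf 1 false 0 false false 0 0) (.lf 2 false 0 false false 0 0)) (.lf 1 false 0 false false 0 0)))

theorem ho10_36 : chk3 (leafO 5554500 1 a1_36 e1_36 R36.x0.ap R36.x0.m) o10_36 (full R36) = true := by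
  decide +kernel

def o11_36 : T3 :=
(.s 0 8 0 0 0 0 0 14
(.s 0 1 0 0 0 0 0 3
(.lf 3 true 0 false false 0 0) (.s 0 1 0 0 0 0 0 1
(.s 1 0 0 1 0 0 0 0
(.s 0 23 0 0 0 0 0 47
(.lf 2 true 0 false false 0 0) (.s 1 0 4 12 0 0 0 6
(.lf 1 true 0 false false 0 0) (.lf 2 true 0 false false 0 0))) (.lf 3 true 0 false false 0 0)) (.s 1 0 4 12 0 0 0 6
(.lf 1 true 0 false false 0 0) (.lf 2 true 0 false false 0 0)))) (.s 0 5 0 0 0 0 0 7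
(.s 1 0 4 12 0 0 0 6
(.lf 1 false 0 false false 0 0) (.lf 2 false 0 false false 0 0)) (.lf 1 false 0 false false 0 0)))

theorem ho11_36 : chk3 (leafO 5554500 1 a1_36 e1_36 R36.x1.ap R36.x1.m) o11_36 (full R36) = true := by
  decide +kernel

def t0_36_0 : T3 :=
(.s 0 8 0 0 0 0 0 14
(.s 0 1 0 0 0 0 0 3
(.s 0 1 0 0 0 0 0 9
(.lf 3 true 1 true false 0 0) (.s 3 1 0 0 1 0 0 0
(.lf 3 true 1 true false 0 0) (.s 4 1000 0 0 1000 0 0 2736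
(.lf 3 true 1 true false 0 0) (.lf 3 true 1 false false 0 0)))) (.s 0 1 0 0 0 0 0 1
(.s 1 0 0 1 0 0 0 0
(.s 0 23 0 0 0 0 0 47
(.s 4 1000 0 0 1000 0 0 2736
(.lf 2 true 1 true false 0 0) (.lf 2 true 1 false false 0 0)) (.s 1 0 4 12 0 0 0 6
(.lf 1 true 1 false false 0 0) (.s 4 1000 0 0 1000 0 0 2736
(.lf 2 true 1 true false 0 0) (.lf 2 true 1 false false 0 0)))) (.s 4 1000 0 0 1000 0 0 2736
(.lf 3 true 1 true false 0 0) (.lf 3 true 1 false false 0 0))) (.s 1 0 4 12 0 0 0 6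
(.lf 1 true 1 false false 0 0) (.s 4 1000 0 0 1000 0 0 2736
(.lf 2 true 1 true false 0 0) (.lf 2 true 1 false false 0 0))))) (.s 0 5 0 0 0 0 0 7
(.s 1 0 4 12 0 0 0 6
(.lf 1 false 1 false false 0 0) (.lf 2 false 1 false false 0 0)) (.lf 1 false 0 false false 0 0)))

def t0_36_1 : T3 :=
(.s 0 8 0 0 0 0 0 14
(.s 0 1 0 0 0 0 0 3
(.lf 3 true 1 false false 0 0) (.s 0 1 0 0 0 0 0 1
(.s 1 0 0 1 0 0 0 0
(.s 0 23 0 0 0 0 0 47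
(.lf 2 true 1 false false 0 0) (.s 1 0 4 12 0 0 0 6
(.lf 1 true 1 true false 0 0) (.lf 2 true 1 false false 0 0))) (.lf 3 true 1 false false 0 0)) (.s 1 0 4 12 0 0 0 6
(.lf 1 true 1 false false 0 0) (.lf 2 true 1 false false 0 0)))) (.s 0 5 0 0 0 0 0 7
(.s 1 0 4 12 0 0 0 6
(.lf 1 false 1 false false 0 0) (.lf 2 false 1 false false 0 0)) (.lf 1 false 0 false false 0 0)))

def i0_36 : T2 :=
(.s 3 0 0 1000 0 2736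
(.k 0 71646 290585 0 0 217938 t0_36_0) (.k 1024345 0 0 1134277 0 41213 t0_36_1))

theorem hi0_36 : chk2 (leaf0 a0_36 e0_36) 0 i0_36 R36 = true := by
  decide +kernel

def t1_36_0 : T3 :=
(.s 0 8 0 0 0 0 0 14
(.s 0 1 0 0 0 0 0 3
(.lf 3 true 1 true false 0 2) (.s 0 1 0 0 0 0 0 1
(.s 1 0 0 1 0 0 0 0
(.s 0 23 0 0 0 0 0 47
(.lf 2 true 1 true false 0 0) (.s 1 0 4 12 0 0 0 6
(.lf 1 true 1 true false 0 0) (.lf 2 true 1 true false 0 0))) (.lf 3 true 1 true false 0 0)) (.s 1 0 4 12 0 0 0 6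
(.lf 1 true 1 false false 0 0) (.lf 2 true 1 true false 0 0)))) (.s 0 5 0 0 0 0 0 7
(.s 1 0 4 12 0 0 0 6
(.lf 1 false 2 true false 0 0) (.lf 2 false 1 true false 0 0)) (.lf 1 false 2 true false 0 0)))

def t1_36_1 : T3 :=
(.s 0 8 0 0 0 0 0 14
(.s 0 1 0 0 0 0 0 3
(.s 0 1 0 0 0 0 0 9
(.lf 3 true 1 false false 2 2) (.s 3 1 0 0 1 0 0 0
(.lf 3 true 1 false false 2 2) (.s 4 1 0 0 1 0 0 0
(.lf 3 true 1 false false 2 0) (.lf 3 true 0 false false 2 0)))) (.s 0 1 0 0 0 0 0 1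
(.s 1 0 0 1 0 0 0 0
(.s 0 23 0 0 0 0 0 47
(.s 4 1 0 0 1 0 0 0
(.s 0 2 0 0 0 0 0 4
(.s 0 3 0 0 0 0 0 9
(.s 4 7 0 0 7 0 4 2
(.lf 2 true 1 false false 2 0) (.s 0 1525529 0 0 0 0 0 5205588
(.s 2 0 161297 0 0 3204262 0 1202934
(.lf 2 true 2 false false 2 0) (.lf 2 true 1 false true 2 0)) (.s 1 1525529 0 0 0 0 0 5205588
(.s 2 0 161297 0 0 3204262 0 1202934
(.lf 2 true 2 false false 1 0) (.lf 2 true 1 false true 1 0)) (.lf 2 true 2 false false 1 0)))) (.s 0 7 0 0 0 0 0 19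
(.s 4 0 0 0 0 11 0 20
(.lf 2 true 1 false false 1 0) (.s 1 1 0 4 0 0 0 7
(.lf 2 true 1 false false 2 0) (.s 2 3 0 0 0 5 0 7
(.lf 2 true 1 false false 2 0) (.s 2 7 0 0 0 9 0 15
(.lf 2 true 1 false false 2 0) (.s 3 4 0 0 0 0 0 4
(.lf 2 true 1 false false 2 0) (.s 3 17 0 0 0 0 0 19
(.lf 2 true 1 false false 2 0) (.s 0 6998643 0 0 0 0 0 20822355
(.s 1 1525529 0 0 0 0 0 5205588
(.s 2 0 161297 0 0 3204262 0 1202934
(.lf 2 true 2 false false 1 0) (.lf 2 true 1 false true 1 0)) (.lf 2 true 2 false false 1 0)) (.lf 2 true 2 false false 1 0)))))))) (.lf 2 true 1 false false 2 0))) (.lf 2 true 1 false false 2 0)) (.s 0 1525529 0 0 0 0 0 5205588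
(.s 2 0 161297 0 0 3204262 0 1202934
(.lf 2 true 2 false false 2 0) (.lf 2 true 0 false true 2 0)) (.s 1 1525529 0 0 0 0 0 5205588
(.s 2 0 161297 0 0 3204262 0 1202934
(.lf 2 true 2 false false 2 0) (.lf 2 true 0 false true 2 0)) (.lf 2 true 2 false false 2 0)))) (.s 1 0 4 12 0 0 0 6
(.s 4 1 0 0 1 0 0 0
(.lf 1 true 1 false false 2 0) (.lf 1 true 0 false false 2 0)) (.s 4 1 0 0 1 0 0 0
(.lf 2 true 1 false false 2 0) (.lf 2 true 0 false false 2 0)))) (.s 0 2 0 0 0 0 0 4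
(.s 1 1 0 2 0 0 0 3
(.s 1 1 0 6 0 0 0 7
(.s 0 19 0 0 0 0 0 54
(.s 4 7 0 0 7 0 4 2
(.lf 3 true 1 false false 1 0) (.s 0 1525529 0 0 0 0 0 5205588
(.s 1 1525529 0 0 0 0 0 5205588
(.s 2 0 161297 0 0 3204262 0 1202934
(.lf 3 true 2 false false 2 0) (.lf 3 true 1 false true 2 0)) (.lf 3 true 2 false false 1 0)) (.lf 3 true 2 false false 1 0))) (.s 3 11 0 0 11 0 0 7
(.s 4 7 0 0 7 0 4 2
(.lf 3 true 1 false false 1 0) (.lf 3 true 2 false false 1 0)) (.lf 3 true 2 false false 1 0))) (.lf 3 true 1 false false 2 0)) (.lf 3 true 1 false false 2 0)) (.lf 3 true 2 false false 1 0))) (.s 1 0 4 12 0 0 0 6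
(.s 0 10500353 0 0 0 0 0 20822355
(.s 2 0 161297 0 0 3204262 0 1202934
(.lf 1 true 2 true false 1 0) (.lf 1 true 1 false true 1 0)) (.s 1 1525529 0 0 0 0 0 5205588
(.s 2 0 161297 0 0 3204262 0 1202934
(.lf 1 true 2 false false 1 0) (.lf 1 true 1 false true 1 0)) (.lf 1 true 2 false false 1 0))) (.s 4 1 0 0 1 0 0 0
(.lf 2 true 1 false false 2 0) (.lf 2 true 0 false false 2 0))))) (.s 0 5 0 0 0 0 0 7
(.s 1 0 4 12 0 0 0 6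
(.s 1 1525529 0 0 0 0 0 5205588
(.s 2 0 161297 0 0 3204262 0 1202934
(.lf 1 false 2 false false 1 0) (.lf 1 false 1 true true 1 0)) (.lf 1 false 2 false false 1 0)) (.lf 2 false 2 false false 2 0)) (.s 1 1525529 0 0 0 0 0 5205588
(.s 2 0 161297 0 0 3204262 0 1202934
(.lf 1 false 2 false false 1 0) (.lf 1 false 0 false true 1 0)) (.lf 1 false 2 false false 1 0))))

def i1_36 : T2 :=
(.s 3 0 0 4 0 10
(.k 11000 0 0 0 0 0 t1_36_0) (.k 861297 0 1202935 0 0 3204262 t1_36_1))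

theorem hi1_36 : chk2 (leaf1 a1_36 e1_36) 10000 i1_36 R36 = true := by
  decide +kernel

theorem ok36 : CellOk R36 a0_36 e0_36 a1_36 e1_36 :=
  ⟨lin36, ⟨_, ho00_36⟩, ⟨_, ho01_36⟩, ⟨_, ho10_36⟩, ⟨_, ho11_36⟩, ⟨_, hi0_36⟩, ⟨_, hi1_36⟩⟩

def R40 : Reg := ⟨⟨0, 0, 0, 0, 0, 0, 0⟩, ⟨1, 0, 0, 0, 0, 0, 0⟩, ⟨0, 0, 0, 0, 0, 0, 0⟩, ⟨1, 0, 0, 0, 0, 0, 1⟩, ⟨0, 0, 0, 0, 1, 0, 0⟩, ⟨1, 0, 0, 0, 1, 0, 1⟩, ⟨39, 0, 0, 0, 0, 0, 39⟩, ⟨1, 0, 0, 0, 0, 0, 0⟩, ⟨0, 0, 0, 0, 0, 0, 0⟩, ⟨0, 0, 0, 0, 1, 0, 0⟩⟩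

def a0_40 : SF := mu 0 0 0 0 73 0 489124 0

def e0_40 : SF := mu 0 0 0 0 2867725 0 0 1494790

def a1_40 : SF := mu 0 0 0 0 30 0 284312 0

def e1_40 : SF := mu 0 0 0 0 2007387 0 0 1546697

theorem lin40 : chkLin R40 a0_40 e0_40 a1_40 e1_40 = true := by decide +kernel

def o00_40 : T3 :=
(.s 0 8 0 0 0 0 0 14
(.s 0 1 0 0 0 0 0 1
(.s 1 0 0 1 0 0 0 0
(.s 0 1 0 0 0 0 0 2
(.s 2 0 0 1 0 0 0 0
(.s 1 0 0 1 0 0 0 1
(.lf 2 true 0 true false 0 0) (.s 1 0 0 3 0 0 0 3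
(.lf 2 true 0 true false 0 0) (.lf 2 true 0 true false 0 0))) (.s 1 0 0 1 0 0 0 1
(.lf 2 true 0 false false 0 0) (.s 1 0 0 3 0 0 0 3
(.lf 2 true 0 false false 0 0) (.lf 2 true 0 false false 0 0)))) (.s 1 0 4 12 0 0 0 6
(.s 2 0 0 1 0 0 0 0
(.lf 1 true 0 true false 0 0) (.lf 1 true 0 false false 0 0)) (.s 2 0 0 1 0 0 0 0
(.s 1 0 4 19 0 0 0 13
(.lf 2 true 0 true false 0 0) (.s 1 0 4 33 0 0 0 27
(.lf 2 true 0 true false 0 0) (.lf 2 true 0 true false 0 0))) (.s 1 0 4 19 0 0 0 13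
(.lf 2 true 0 false false 0 0) (.s 1 0 4 33 0 0 0 27
(.lf 2 true 0 false false 0 0) (.lf 2 true 0 false false 0 0)))))) (.lf 3 true 0 false false 0 0)) (.s 1 0 4 12 0 0 0 6
(.s 1 0 1 2 0 0 0 0
(.lf 1 true 0 true false 0 0) (.s 2 0 0 1 0 0 0 0
(.lf 1 true 0 true false 0 0) (.lf 1 true 0 false false 0 0))) (.s 2 0 0 1 0 0 0 0
(.lf 2 true 0 true false 0 0) (.lf 2 true 0 false false 0 0)))) (.s 0 5 0 0 0 0 0 7
(.s 1 0 4 12 0 0 0 6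
(.s 1 0 1 2 0 0 0 0
(.lf 1 false 0 true false 0 0) (.s 2 0 0 1 0 0 0 0
(.lf 1 false 0 true false 0 0) (.lf 1 false 0 false false 0 0))) (.s 2 0 0 1 0 0 0 0
(.lf 2 false 0 true false 0 0) (.lf 2 false 0 false false 0 0))) (.s 0 3 0 0 0 0 0 3
(.s 1 0 1 2 0 0 0 0
(.lf 1 false 0 true false 0 0) (.s 2 0 0 1 0 0 0 0
(.lf 1 false 0 true false 0 0) (.lf 1 false 0 false false 0 0))) (.lf 1 false 0 true false 0 0))))

theorem ho00_40 : chk3 (leafO 10500000 3 a0_40 e0_40 R40.x0.ap R40.x0.m) o00_40 (full R40) = true := by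
  decide +kernel

def o01_40 : T3 :=
(.s 0 8 0 0 0 0 0 14
(.s 0 1 0 0 0 0 0 1
(.s 1 0 0 1 0 0 0 0
(.s 0 1 0 0 0 0 0 2
(.s 2 0 0 1 0 0 0 0
(.s 1 0 0 1 0 0 0 1
(.lf 2 true 0 true false 0 0) (.s 1 0 0 3 0 0 0 3
(.lf 2 true 0 true false 0 0) (.lf 2 true 0 true false 0 0))) (.s 1 0 0 1 0 0 0 1
(.lf 2 true 0 false false 0 0) (.s 1 0 0 3 0 0 0 3
(.lf 2 true 0 false false 0 0) (.lf 2 true 0 false false 0 0)))) (.s 1 0 4 12 0 0 0 6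
(.s 2 0 0 1 0 0 0 0
(.lf 1 true 0 true false 0 0) (.lf 1 true 0 false false 0 0)) (.s 2 0 0 1 0 0 0 0
(.s 1 0 4 19 0 0 0 13
(.s 1 0 12 43 0 0 0 27
(.lf 2 true 0 true false 0 0) (.s 0 2 0 0 0 0 0 4
(.lf 2 true 0 true false 0 0) (.s 0 9 0 0 0 0 0 19
(.lf 2 true 0 true false 0 0) (.lf 2 true 0 true false 0 0)))) (.s 1 0 4 33 0 0 0 27
(.s 0 2 0 0 0 0 0 4
(.s 1 0 12 71 0 0 0 55
(.lf 2 true 0 true false 0 0) (.lf 2 true 0 true false 0 0)) (.lf 2 true 0 true false 0 0)) (.lf 2 true 0 true false 0 0))) (.s 1 0 4 19 0 0 0 13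
(.s 1 0 12 43 0 0 0 27
(.lf 2 true 0 false false 0 0) (.s 0 2 0 0 0 0 0 4
(.lf 2 true 0 false false 0 0) (.s 0 9 0 0 0 0 0 19
(.lf 2 true 0 false false 0 0) (.lf 2 true 0 false false 0 0)))) (.s 1 0 4 33 0 0 0 27
(.s 0 2 0 0 0 0 0 4
(.s 1 0 12 71 0 0 0 55
(.lf 2 true 0 false false 0 0) (.lf 2 true 0 false false 0 0)) (.lf 2 true 0 false false 0 0)) (.lf 2 true 0 false false 0 0)))))) (.lf 3 true 0 false false 0 0)) (.s 1 0 4 12 0 0 0 6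
(.s 1 0 1 2 0 0 0 0
(.lf 1 true 0 true false 0 0) (.s 2 0 0 1 0 0 0 0
(.lf 1 true 0 true false 0 0) (.lf 1 true 0 false false 0 0))) (.s 2 0 0 1 0 0 0 0
(.s 1 0 1 24 0 0 0 27
(.lf 2 true 0 true false 0 0) (.lf 2 true 0 true false 0 0)) (.s 1 0 1 24 0 0 0 27
(.lf 2 true 0 false false 0 0) (.lf 2 true 0 false false 0 0))))) (.s 0 5 0 0 0 0 0 7
(.s 1 0 4 12 0 0 0 6
(.s 1 0 1 2 0 0 0 0
(.lf 1 false 0 true false 0 0) (.s 2 0 0 1 0 0 0 0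
(.lf 1 false 0 true false 0 0) (.lf 1 false 0 false false 0 0))) (.s 2 0 0 1 0 0 0 0
(.lf 2 false 0 true false 0 0) (.lf 2 false 0 false false 0 0))) (.s 0 3 0 0 0 0 0 3
(.s 1 0 1 2 0 0 0 0
(.lf 1 false 0 true false 0 0) (.s 2 0 0 1 0 0 0 0
(.lf 1 false 0 true false 0 0) (.lf 1 false 0 false false 0 0))) (.lf 1 false 0 true false 0 0))))

theorem ho01_40 : chk3 (leafO 10500000 3 a0_40 e0_40 R40.x1.ap R40.x1.m) o01_40 (full R40) = true := by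
  decide +kernel

def o10_40 : T3 :=
(.s 0 8 0 0 0 0 0 14
(.s 0 1 0 0 0 0 0 1
(.s 1 0 0 1 0 0 0 0
(.s 0 1 0 0 0 0 0 2
(.s 2 0 0 1 0 0 0 0
(.s 1 0 0 1 0 0 0 1
(.lf 2 true 0 true false 0 0) (.s 1 0 0 3 0 0 0 3
(.lf 2 true 0 true false 0 0) (.lf 2 true 0 true false 0 0))) (.s 1 0 0 1 0 0 0 1
(.lf 2 true 0 false false 0 0) (.s 1 0 0 3 0 0 0 3
(.lf 2 true 0 false false 0 0) (.lf 2 true 0 false false 0 0)))) (.s 1 0 4 12 0 0 0 6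
(.s 2 0 0 1 0 0 0 0
(.lf 1 true 0 true false 0 0) (.lf 1 true 0 false false 0 0)) (.s 2 0 0 1 0 0 0 0
(.s 1 0 4 19 0 0 0 13
(.lf 2 true 0 true false 0 0) (.s 1 0 4 33 0 0 0 27
(.s 0 2 0 0 0 0 0 4
(.lf 2 true 0 true false 0 0) (.lf 2 true 0 true false 0 0)) (.lf 2 true 0 true false 0 0))) (.s 1 0 4 19 0 0 0 13
(.lf 2 true 0 false false 0 0) (.s 1 0 4 33 0 0 0 27
(.s 0 2 0 0 0 0 0 4
(.lf 2 true 0 false false 0 0) (.lf 2 true 0 false false 0 0)) (.lf 2 true 0 false false 0 0)))))) (.lf 3 true 0 false false 0 0)) (.s 1 0 4 12 0 0 0 6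
(.s 1 0 1 2 0 0 0 0
(.lf 1 true 0 true false 0 0) (.s 2 0 0 1 0 0 0 0
(.lf 1 true 0 true false 0 0) (.lf 1 true 0 false false 0 0))) (.s 2 0 0 1 0 0 0 0
(.s 1 0 1 24 0 0 0 27
(.lf 2 true 0 true false 0 0) (.lf 2 true 0 true false 0 0)) (.s 1 0 1 24 0 0 0 27
(.lf 2 true 0 false false 0 0) (.lf 2 true 0 false false 0 0))))) (.s 0 5 0 0 0 0 0 7
(.s 1 0 4 12 0 0 0 6
(.s 1 0 1 2 0 0 0 0
(.lf 1 false 0 true false 0 0) (.s 2 0 0 1 0 0 0 0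
(.lf 1 false 0 true false 0 0) (.lf 1 false 0 false false 0 0))) (.s 2 0 0 1 0 0 0 0
(.s 1 0 1 24 0 0 0 27
(.lf 2 false 0 true false 0 0) (.lf 2 false 0 true false 0 0)) (.s 1 0 1 24 0 0 0 27
(.lf 2 false 0 false false 0 0) (.lf 2 false 0 false false 0 0)))) (.lf 1 false 0 true false 0 0)))

theorem ho10_40 : chk3 (leafO 5554500 1 a1_40 e1_40 R40.x0.ap R40.x0.m) o10_40 (full R40) = true := by
  decide +kernel

def o11_40 : T3 :=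
(.s 0 8 0 0 0 0 0 14
(.s 0 1 0 0 0 0 0 1
(.s 1 0 0 1 0 0 0 0
(.s 0 1 0 0 0 0 0 2
(.s 2 0 0 1 0 0 0 0
(.s 1 0 0 1 0 0 0 1
(.lf 2 true 0 true false 0 0) (.s 1 0 0 3 0 0 0 3
(.lf 2 true 0 true false 0 0) (.lf 2 true 0 true false 0 0))) (.s 1 0 0 1 0 0 0 1
(.lf 2 true 0 false false 0 0) (.s 1 0 0 3 0 0 0 3
(.lf 2 true 0 false false 0 0) (.lf 2 true 0 false false 0 0)))) (.s 1 0 4 12 0 0 0 6
(.s 2 0 0 1 0 0 0 0
(.lf 1 true 0 true false 0 0) (.lf 1 true 0 false false 0 0)) (.s 2 0 0 1 0 0 0 0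
(.s 1 0 4 19 0 0 0 13
(.s 0 2 0 0 0 0 0 4
(.lf 2 true 0 true false 0 0) (.s 0 9 0 0 0 0 0 19
(.lf 2 true 0 true false 0 0) (.lf 2 true 0 true false 0 0))) (.s 1 0 4 33 0 0 0 27
(.s 0 2 0 0 0 0 0 4
(.s 1 0 12 71 0 0 0 55
(.lf 2 true 0 true false 0 0) (.lf 2 true 0 true false 0 0)) (.s 1 0 12 71 0 0 0 55
(.s 0 9 0 0 0 0 0 19
(.lf 2 true 0 true false 0 0) (.lf 2 true 0 true false 0 0)) (.lf 2 true 0 true false 0 0))) (.lf 2 true 0 true false 0 0))) (.s 1 0 4 19 0 0 0 13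
(.s 0 2 0 0 0 0 0 4
(.lf 2 true 0 false false 0 0) (.s 0 9 0 0 0 0 0 19
(.lf 2 true 0 false false 0 0) (.lf 2 true 0 false false 0 0))) (.s 1 0 4 33 0 0 0 27
(.s 0 2 0 0 0 0 0 4
(.s 1 0 12 71 0 0 0 55
(.lf 2 true 0 false false 0 0) (.lf 2 true 0 false false 0 0)) (.s 1 0 12 71 0 0 0 55
(.s 0 9 0 0 0 0 0 19
(.lf 2 true 0 false false 0 0) (.lf 2 true 0 false false 0 0)) (.lf 2 true 0 false false 0 0))) (.lf 2 true 0 false false 0 0)))))) (.lf 3 true 0 false false 0 0)) (.s 1 0 4 12 0 0 0 6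
(.s 1 0 1 2 0 0 0 0
(.lf 1 true 0 true false 0 0) (.s 2 0 0 1 0 0 0 0
(.lf 1 true 0 true false 0 0) (.lf 1 true 0 false false 0 0))) (.s 2 0 0 1 0 0 0 0
(.s 1 0 1 24 0 0 0 27
(.lf 2 true 0 true false 0 0) (.lf 2 true 0 true false 0 0)) (.s 1 0 1 24 0 0 0 27
(.lf 2 true 0 false false 0 0) (.lf 2 true 0 false false 0 0))))) (.s 0 5 0 0 0 0 0 7
(.s 1 0 4 12 0 0 0 6
(.s 1 0 1 2 0 0 0 0
(.lf 1 false 0 true false 0 0) (.s 2 0 0 1 0 0 0 0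
(.lf 1 false 0 true false 0 0) (.lf 1 false 0 false false 0 0))) (.s 2 0 0 1 0 0 0 0
(.s 1 0 1 24 0 0 0 27
(.lf 2 false 0 true false 0 0) (.lf 2 false 0 true false 0 0)) (.s 1 0 1 24 0 0 0 27
(.lf 2 false 0 false false 0 0) (.lf 2 false 0 false false 0 0)))) (.s 0 3 0 0 0 0 0 3
(.s 1 0 1 2 0 0 0 0
(.lf 1 false 0 true false 0 0) (.s 2 0 0 1 0 0 0 0
(.lf 1 false 0 true false 0 0) (.lf 1 false 0 false false 0 0))) (.lf 1 false 0 true false 0 0))))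

theorem ho11_40 : chk3 (leafO 5554500 1 a1_40 e1_40 R40.x1.ap R40.x1.m) o11_40 (full R40) = true := by
  decide +kernel

def t0_40_0 : T3 :=
(.s 0 8 0 0 0 0 0 14
(.s 0 1 0 0 0 0 0 1
(.s 1 0 0 1 0 0 0 0
(.s 0 1 0 0 0 0 0 2
(.s 0 1 0 0 0 0 0 39
(.s 3 1 0 0 1 0 0 0
(.lf 2 true 1 true false 0 0) (.s 4 1000 0 0 1000 0 0 2736
(.lf 2 true 1 true false 0 0) (.lf 2 true 1 false false 0 0))) (.s 4 1000 0 0 1000 0 0 2736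
(.lf 2 true 1 true false 0 0) (.lf 2 true 1 false false 0 0))) (.s 1 0 4 12 0 0 0 6
(.lf 1 true 1 false false 0 0) (.lf 2 true 1 false false 0 0))) (.s 0 1 0 0 0 0 0 39
(.s 3 1 0 0 1 0 0 0
(.lf 3 true 1 true false 0 0) (.s 4 1000 0 0 1000 0 0 2736
(.lf 3 true 1 true false 0 0) (.lf 3 true 1 false false 0 0))) (.s 4 1000 0 0 1000 0 0 2736
(.lf 3 true 1 true false 0 0) (.lf 3 true 1 false false 0 0)))) (.s 1 0 4 12 0 0 0 6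
(.lf 1 true 1 false false 0 0) (.lf 2 true 1 false false 0 0))) (.s 0 5 0 0 0 0 0 7
(.s 1 0 4 12 0 0 0 6
(.lf 1 false 1 false false 0 0) (.lf 2 false 1 false false 0 0)) (.lf 1 false 0 false false 0 0)))

def t0_40_1 : T3 :=
(.s 0 8 0 0 0 0 0 14
(.s 0 1 0 0 0 0 0 1
(.s 1 0 0 1 0 0 0 0
(.s 0 1 0 0 0 0 0 2
(.lf 2 true 1 false false 0 0) (.s 1 0 4 12 0 0 0 6
(.lf 1 true 1 false false 0 0) (.lf 2 true 1 false false 0 0))) (.lf 3 true 1 false false 0 0)) (.s 1 0 4 12 0 0 0 6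
(.lf 1 true 1 false false 0 0) (.lf 2 true 1 false false 0 0))) (.s 0 5 0 0 0 0 0 7
(.s 1 0 4 12 0 0 0 6
(.lf 1 false 1 false false 0 0) (.lf 2 false 1 false false 0 0)) (.lf 1 false 0 false false 0 0)))

def i0_40 : T2 :=
(.s 3 0 0 1000 0 2736
(.k 748541 0 0 1047923 76803 0 t0_40_0) (.k 1026623 0 0 1223119 30918 0 t0_40_1))

theorem hi0_40 : chk2 (leaf0 a0_40 e0_40) 0 i0_40 R40 = true := by
  decide +kernel

def R40_1a : Reg := hi R40 (Nat.succ 3) ⟨0, 0, 0, 0, 4, 0, 10⟩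

def R40_1b : Reg := lo R40 (Nat.succ 3) ⟨0, 0, 0, 0, 4, 0, 10⟩

def t1_40a_0 : T3 :=
(.s 0 8 0 0 0 0 0 14
(.s 0 1 0 0 0 0 0 1
(.s 1 0 0 1 0 0 0 0
(.s 0 1 0 0 0 0 0 2
(.s 0 1 0 0 0 0 0 4
(.s 0 1 0 0 0 0 0 9
(.lf 2 true 1 true false 0 0) (.lf 2 true 1 true false 0 0)) (.lf 2 true 1 true false 0 0)) (.s 1 0 4 12 0 0 0 6
(.lf 1 true 2 false false 0 0) (.lf 2 true 1 true false 0 0))) (.s 0 1 0 0 0 0 0 3
(.s 0 1 0 0 0 0 0 9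
(.lf 3 true 1 true false 0 0) (.lf 3 true 1 true false 0 0)) (.lf 3 true 1 true false 0 0))) (.s 1 0 4 12 0 0 0 6
(.lf 1 true 2 false false 0 0) (.lf 2 true 2 true false 0 0))) (.s 0 5 0 0 0 0 0 7
(.s 1 0 4 12 0 0 0 6
(.lf 1 false 2 false false 0 0) (.lf 2 false 2 true false 0 0)) (.lf 1 false 2 false false 0 0)))

def i1_40a : T2 :=
(.k 130667 0 0 239333 119667 0 t1_40a_0)

theorem hi1_40a : chk2 (leaf1 a1_40 e1_40) 10000 i1_40a R40_1a = true := by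
  decide +kernel

def R40_1ba : Reg := hi R40_1b (Nat.succ 3) ⟨0, 0, 0, 0, 3, 0, 3⟩

def R40_1bb : Reg := lo R40_1b (Nat.succ 3) ⟨0, 0, 0, 0, 3, 0, 3⟩

def R40_1baa : Reg := hi R40_1ba (Nat.succ 0) ⟨1, 0, 0, 0, 0, 0, 3⟩

def R40_1bab : Reg := lo R40_1ba (Nat.succ 0) ⟨1, 0, 0, 0, 0, 0, 3⟩

def R40_1baaa : Reg := hi R40_1baa (Nat.succ 1) ⟨1, 0, 0, 0, 3, 0, 3⟩

def R40_1baab : Reg := lo R40_1baa (Nat.succ 1) ⟨1, 0, 0, 0, 3, 0, 3⟩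

def R40_1baaaa : Reg := hi R40_1baaa (Nat.succ 3) ⟨0, 0, 0, 0, 1000, 0, 2736⟩

def R40_1baaab : Reg := lo R40_1baaa (Nat.succ 3) ⟨0, 0, 0, 0, 1000, 0, 2736⟩

def t1_40baaaa_0 : T3 :=
(.s 0 8 0 0 0 0 0 14
(.s 0 1 0 0 0 0 0 3
(.s 1 0 0 1 0 0 0 0
(.s 0 1 0 0 0 0 0 9
(.s 0 1 0 0 0 0 0 19
(.s 0 1 0 0 0 0 0 39
(.s 0 13 0 0 0 0 0 2749
(.s 3 1 0 0 1 0 0 0
(.lf 2 true 1 true false 1 0) (.s 4 1000 0 0 1000 0 0 2736
(.lf 2 true 1 false false 1 0) (.lf 2 true 1 false false 1 0))) (.s 3 2750 0 0 2750 0 0 2736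
(.s 3 1 0 0 1 0 0 0
(.lf 2 true 1 true false 1 0) (.s 4 1000 0 0 1000 0 0 2736
(.lf 2 true 1 false false 1 0) (.lf 2 true 1 false false 1 0))) (.lf 2 true 1 false false 1 0))) (.lf 2 true 1 false false 1 0)) (.lf 2 true 1 false false 1 0)) (.lf 2 true 1 false false 1 0)) (.s 0 1 0 0 0 0 0 9
(.s 0 1 0 0 0 0 0 19
(.s 0 1 0 0 0 0 0 39
(.s 0 13 0 0 0 0 0 2749
(.s 3 1 0 0 1 0 0 0
(.lf 3 true 1 true false 1 0) (.s 4 1000 0 0 1000 0 0 2736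
(.lf 3 true 1 false false 1 0) (.lf 3 true 1 false false 1 0))) (.s 3 2750 0 0 2750 0 0 2736
(.s 3 1 0 0 1 0 0 0
(.lf 3 true 1 true false 1 0) (.s 4 1000 0 0 1000 0 0 2736
(.lf 3 true 1 false false 1 0) (.lf 3 true 1 false false 1 0))) (.lf 3 true 1 false false 1 0))) (.lf 3 true 1 false false 1 0)) (.lf 3 true 1 false false 1 0)) (.lf 3 true 1 false false 1 0))) (.s 0 1 0 0 0 0 0 2
(.lf 2 true 1 false false 1 0) (.s 0 23 0 0 0 0 0 47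
(.s 1 0 4 12 0 0 0 6
(.lf 1 true 2 false false 1 0) (.lf 2 true 2 false false 1 0)) (.lf 1 true 2 false false 1 0)))) (.lf 1 false 2 false false 1 0))

def i1_40baaaa : T2 :=
(.k 120107 0 0 436426 733253 0 t1_40baaaa_0)

theorem hi1_40baaaa : chk2 (leaf1 a1_40 e1_40) 10000 i1_40baaaa R40_1baaaa = true := by
  decide +kernel

def R40_1baaaba : Reg := hi R40_1baaab (Nat.succ 3) ⟨0, 0, 0, 0, 1, 0, 1⟩

def R40_1baaabb : Reg := lo R40_1baaab (Nat.succ 3) ⟨0, 0, 0, 0, 1, 0, 1⟩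

def t1_40baaaba_0 : T3 :=
(.s 0 8 0 0 0 0 0 14
(.s 0 1 0 0 0 0 0 3
(.s 1 0 0 1 0 0 0 0
(.s 0 1 0 0 0 0 0 9
(.lf 2 true 1 false false 1 0) (.lf 2 true 1 false false 1 0)) (.s 0 1 0 0 0 0 0 9
(.lf 3 true 1 false false 1 0) (.lf 3 true 1 false false 1 0))) (.s 0 1 0 0 0 0 0 2
(.lf 2 true 1 false false 1 0) (.s 0 23 0 0 0 0 0 47
(.s 1 0 4 12 0 0 0 6
(.s 1 0 2 6 0 0 0 6
(.lf 1 true 1 true true 1 0) (.s 1 0 3 9 0 0 0 6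
(.lf 1 true 1 false true 1 0) (.s 0 2 0 0 0 0 0 4
(.lf 1 true 1 false true 1 0) (.lf 1 true 1 true false 1 0)))) (.lf 2 true 1 false false 1 0)) (.s 1 154510 0 0 0 0 0 672972
(.lf 1 true 1 false true 1 0) (.s 1 159383 0 0 0 0 0 677845
(.s 2 0 154510 0 0 692465 0 19491
(.lf 1 true 2 false false 1 0) (.lf 1 true 1 false true 1 0)) (.lf 1 true 2 false false 1 0)))))) (.s 1 154510 0 0 0 0 0 672972
(.lf 1 false 0 true true 1 0) (.s 1 159383 0 0 0 0 0 677845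
(.s 2 0 154510 0 0 692465 0 19491
(.lf 1 false 2 false false 1 0) (.lf 1 false 0 false true 1 0)) (.lf 1 false 2 false false 1 0))))

def i1_40baaaba : T2 :=
(.k 1009020 0 38984 0 0 1384930 t1_40baaaba_0)

theorem hi1_40baaaba : chk2 (leaf1 a1_40 e1_40) 10000 i1_40baaaba R40_1baaaba = true := by
  decide +kernel

def t1_40baaabb_0 : T3 :=
(.s 0 8 0 0 0 0 0 14
(.s 0 1 0 0 0 0 0 3
(.s 1 0 0 1 0 0 0 0
(.s 1 0 0 1 0 0 0 1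
(.lf 2 true 1 false false 1 0) (.s 0 1 0 0 0 0 0 9
(.s 4 0 0 0 0 11 0 20
(.s 0 1 0 0 0 0 0 19
(.lf 2 true 1 false false 1 0) (.lf 2 true 1 false false 1 0)) (.s 0 1 0 0 0 0 0 19
(.lf 2 true 1 false false 2 0) (.lf 2 true 1 false false 2 0))) (.lf 2 true 1 false false 2 0))) (.s 0 1 0 0 0 0 0 9
(.s 4 0 0 0 0 11 0 20
(.s 0 1 0 0 0 0 0 19
(.lf 3 true 1 false false 1 0) (.lf 3 true 1 false false 1 0)) (.s 0 1 0 0 0 0 0 19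
(.lf 3 true 1 false false 2 0) (.lf 3 true 1 false false 2 0))) (.lf 3 true 1 false false 2 0))) (.s 0 1 0 0 0 0 0 2
(.s 1 1 0 0 0 0 0 9
(.lf 2 true 1 false true 1 0) (.lf 2 true 1 false false 2 0)) (.s 0 23 0 0 0 0 0 47
(.s 1 0 4 12 0 0 0 6
(.s 0 3755387 0 0 0 0 0 8046335
(.lf 1 true 1 false true 1 0) (.s 1 153325 0 0 0 0 0 670527
(.lf 1 true 1 true true 1 0) (.s 2 0 306650 0 0 1836815 0 495758
(.lf 1 true 2 true false 1 0) (.lf 1 true 1 false true 1 0)))) (.s 0 3755387 0 0 0 0 0 8046335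
(.s 1 153325 0 0 0 0 0 670527
(.lf 2 true 1 false true 1 0) (.s 2 0 306650 0 0 1836815 0 495758
(.lf 2 true 2 false false 1 0) (.lf 2 true 1 false true 1 0))) (.s 2 0 306650 0 0 1836815 0 495758
(.lf 2 true 2 false false 1 0) (.lf 2 true 1 false true 1 0)))) (.s 1 153325 0 0 0 0 0 670527
(.lf 1 true 0 false true 1 0) (.s 2 0 306650 0 0 1836815 0 495758
(.lf 1 true 2 false false 1 0) (.lf 1 true 0 true true 1 0)))))) (.s 1 153325 0 0 0 0 0 670527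
(.lf 1 false 0 false true 1 0) (.s 2 0 306650 0 0 1836815 0 495758
(.lf 1 false 2 false false 1 0) (.lf 1 false 0 true true 1 0))))

def t1_40baaabb_1 : T3 :=
(.s 0 8 0 0 0 0 0 14
(.s 0 1 0 0 0 0 0 3
(.s 1 0 0 1 0 0 0 0
(.s 0 1 0 0 0 0 0 1599
(.s 3 40 0 0 40 0 0 40
(.s 4 0 10 10 0 11 0 0
(.lf 2 true 1 false false 2 0) (.lf 2 true 1 false false 2 1)) (.lf 2 true 1 false false 2 0)) (.s 1 0 0 1 0 0 0 1
(.s 0 1 0 0 0 0 0 9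
(.lf 2 true 1 false false 2 0) (.s 0 1 0 0 0 0 0 4
(.s 0 3 0 0 0 0 0 19
(.lf 2 true 1 false false 2 0) (.s 0 7 0 0 0 0 0 39
(.lf 2 true 1 false false 2 0) (.lf 2 true 1 false true 2 0))) (.lf 2 true 1 false true 2 0))) (.s 0 1 0 0 0 0 0 9
(.lf 2 true 1 false false 2 0) (.lf 2 true 1 false false 2 0)))) (.s 0 1 0 0 0 0 0 1599
(.s 3 40 0 0 40 0 0 40
(.s 4 0 10 10 0 11 0 0
(.lf 3 true 1 false false 2 0) (.lf 3 true 1 false false 2 1)) (.lf 3 true 1 false false 2 0)) (.s 0 1 0 0 0 0 0 9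
(.lf 3 true 1 false false 2 0) (.lf 3 true 1 false false 2 0)))) (.s 0 1 0 0 0 0 0 2
(.s 1 1 0 0 0 0 0 9
(.lf 2 true 1 false true 2 0) (.lf 2 true 1 false false 2 0)) (.s 0 23 0 0 0 0 0 47
(.s 1 0 4 12 0 0 0 6
(.s 1 0 2 6 0 0 0 6
(.lf 1 true 0 true true 2 0) (.s 0 2 0 0 0 0 0 4
(.lf 1 true 1 true true 2 0) (.s 0 79363 0 0 0 0 0 193105
(.lf 1 true 0 true true 2 0) (.s 1 89966 0 0 0 0 0 675870
(.lf 1 true 0 true true 2 0) (.s 0 6588863 0 0 0 0 0 13899125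
(.s 2 0 269898 0 0 3183245 0 1155631
(.lf 1 true 2 true false 2 0) (.lf 1 true 0 false true 2 0)) (.s 1 558806 0 0 0 0 0 2316520
(.s 2 0 269898 0 0 3183245 0 1155631
(.lf 1 true 2 true false 2 0) (.lf 1 true 0 false true 2 0)) (.lf 1 true 2 false false 2 0))))))) (.s 0 2 0 0 0 0 0 4
(.s 1 89966 0 0 0 0 0 675870
(.lf 2 true 1 false true 2 0) (.s 1 558806 0 0 0 0 0 2316520
(.s 2 0 269898 0 0 3183245 0 1155631
(.lf 2 true 2 false false 2 0) (.lf 2 true 1 false true 2 0)) (.lf 2 true 2 false false 2 0))) (.lf 2 true 0 false false 2 0))) (.s 1 89966 0 0 0 0 0 675870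
(.lf 1 true 0 true true 2 0) (.s 1 558806 0 0 0 0 0 2316520
(.s 2 0 269898 0 0 3183245 0 1155631
(.lf 1 true 2 true false 2 0) (.lf 1 true 0 false true 2 0)) (.lf 1 true 2 false false 2 0)))))) (.s 1 89966 0 0 0 0 0 675870
(.lf 1 false 0 true true 2 0) (.s 1 558806 0 0 0 0 0 2316520
(.s 2 0 269898 0 0 3183245 0 1155631
(.lf 1 false 2 true false 2 0) (.lf 1 false 0 false true 2 0)) (.lf 1 false 2 false false 2 0))))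

def i1_40baaabb : T2 :=
(.s 3 0 0 3 0 4
(.k 1006650 0 495759 0 0 1836815 t1_40baaabb_0) (.k 969898 0 1155632 0 0 3183245 t1_40baaabb_1))

theorem hi1_40baaabb : chk2 (leaf1 a1_40 e1_40) 10000 i1_40baaabb R40_1baaabb = true := by
  decide +kernel

def i1_40baaab : T2 := .s 3 0 0 1 0 1 i1_40baaaba i1_40baaabb

theorem hi1_40baaab : chk2 (leaf1 a1_40 e1_40) 10000 i1_40baaab R40_1baaab = true := chk2_s hi1_40baaaba hi1_40baaabb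

def i1_40baaa : T2 := .s 3 0 0 1000 0 2736 i1_40baaaa i1_40baaab

theorem hi1_40baaa : chk2 (leaf1 a1_40 e1_40) 10000 i1_40baaa R40_1baaa = true := chk2_s hi1_40baaaa hi1_40baaab

def t1_40baab_0 : T3 :=
(.s 0 8 0 0 0 0 0 14
(.s 0 1 0 0 0 0 0 3
(.s 1 0 0 1 0 0 0 0
(.lf 2 true 1 false false 2 2) (.lf 3 true 1 false false 2 2)) (.s 0 1 0 0 0 0 0 2
(.lf 2 true 1 false false 2 0) (.s 0 23 0 0 0 0 0 47
(.s 1 0 4 12 0 0 0 6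
(.s 0 595251 0 0 0 0 0 1577775
(.lf 1 true 1 false true 1 0) (.s 1 29711 0 0 0 0 0 394443
(.lf 1 true 1 false true 1 0) (.lf 1 true 2 false false 1 0))) (.lf 2 true 1 false false 2 0)) (.s 1 29711 0 0 0 0 0 394443
(.lf 1 true 1 false true 1 0) (.lf 1 true 2 false false 1 0))))) (.s 1 29711 0 0 0 0 0 394443
(.lf 1 false 0 false true 1 0) (.lf 1 false 2 false false 1 0)))

def i1_40baab : T2 :=
(.k 997110 0 0 0 0 3944440 t1_40baab_0)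

theorem hi1_40baab : chk2 (leaf1 a1_40 e1_40) 10000 i1_40baab R40_1baab = true := by
  decide +kernel

def i1_40baa : T2 := .s 1 1 0 3 0 3 i1_40baaa i1_40baab

theorem hi1_40baa : chk2 (leaf1 a1_40 e1_40) 10000 i1_40baa R40_1baa = true := chk2_s hi1_40baaa hi1_40baab

def t1_40bab_0 : T3 :=
(.s 0 8 0 0 0 0 0 14
(.s 0 1 0 0 0 0 0 3
(.s 0 1 0 0 0 0 0 9
(.lf 3 true 1 false false 2 2) (.s 4 0 0 0 0 11 0 20
(.lf 3 true 1 false false 1 0) (.s 1 228869 0 0 0 0 0 802237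
(.s 0 1 0 0 0 0 0 4
(.lf 3 true 1 false false 2 0) (.lf 3 true 1 false true 1 0)) (.s 1 1891907 0 0 0 0 0 6478858
(.s 2 0 915476 0 0 3269907 0 60954
(.lf 3 true 1 false false 2 0) (.lf 3 true 1 false false 2 0)) (.lf 3 true 1 false false 2 0))))) (.s 0 1 0 0 0 0 0 1
(.s 1 0 0 1 0 0 0 0
(.s 0 23 0 0 0 0 0 47
(.s 0 228869 0 0 0 0 0 802237
(.s 4 0 0 0 0 11 0 20
(.lf 2 true 1 false false 1 0) (.lf 2 true 1 false true 1 0)) (.s 1 228869 0 0 0 0 0 802237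
(.lf 2 true 1 false true 1 0) (.s 0 1891907 0 0 0 0 0 6478858
(.s 2 0 915476 0 0 3269907 0 60954
(.lf 2 true 2 false false 1 0) (.lf 2 true 1 false true 1 0)) (.s 1 1891907 0 0 0 0 0 6478858
(.s 2 0 915476 0 0 3269907 0 60954
(.lf 2 true 2 false false 1 0) (.lf 2 true 1 false true 1 0)) (.lf 2 true 2 false false 1 0))))) (.s 1 0 4 12 0 0 0 6
(.s 0 4811035 0 0 0 0 0 9626855
(.lf 1 true 1 false true 1 0) (.s 1 228869 0 0 0 0 0 802237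
(.lf 1 true 1 false true 1 0) (.s 2 0 915476 0 0 3269907 0 60954
(.lf 1 true 2 false false 1 0) (.lf 1 true 0 true true 1 0)))) (.s 0 4811035 0 0 0 0 0 9626855
(.s 1 228869 0 0 0 0 0 802237
(.lf 2 true 1 false true 1 0) (.s 1 1891907 0 0 0 0 0 6478858
(.s 2 0 915476 0 0 3269907 0 60954
(.lf 2 true 2 false false 1 0) (.lf 2 true 1 false true 1 0)) (.lf 2 true 2 false false 1 0))) (.s 1 1891907 0 0 0 0 0 6478858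
(.s 2 0 915476 0 0 3269907 0 60954
(.lf 2 true 2 false false 1 0) (.lf 2 true 0 true true 1 0)) (.lf 2 true 2 false false 2 0))))) (.s 4 0 0 0 0 11 0 20
(.lf 3 true 1 false false 1 0) (.s 0 228869 0 0 0 0 0 802237
(.s 1 228869 0 0 0 0 0 802237
(.lf 3 true 1 false true 1 0) (.s 1 1891907 0 0 0 0 0 6478858
(.s 2 0 915476 0 0 3269907 0 60954
(.lf 3 true 2 false false 1 0) (.lf 3 true 1 false true 1 0)) (.lf 3 true 2 false false 1 0))) (.s 0 1891907 0 0 0 0 0 6478858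
(.s 1 1891907 0 0 0 0 0 6478858
(.s 2 0 915476 0 0 3269907 0 60954
(.lf 3 true 2 false false 1 0) (.lf 3 true 1 false true 1 0)) (.lf 3 true 2 false false 1 0)) (.lf 3 true 2 false false 1 0))))) (.s 1 0 4 12 0 0 0 6
(.s 1 228869 0 0 0 0 0 802237
(.lf 1 true 1 false true 1 0) (.s 0 39158785 0 0 0 0 0 77746307
(.s 2 0 915476 0 0 3269907 0 60954
(.lf 1 true 2 false false 1 0) (.lf 1 true 0 true true 1 0)) (.s 1 1891907 0 0 0 0 0 6478858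
(.s 2 0 915476 0 0 3269907 0 60954
(.lf 1 true 2 false false 1 0) (.lf 1 true 1 false true 1 0)) (.lf 1 true 2 true false 1 0)))) (.s 4 1 0 0 1 0 0 0
(.lf 2 true 1 false false 1 0) (.lf 2 true 0 false false 1 0))))) (.s 0 5 0 0 0 0 0 7
(.s 1 0 4 12 0 0 0 6
(.s 1 228869 0 0 0 0 0 802237
(.lf 1 false 1 false true 1 0) (.s 1 1891907 0 0 0 0 0 6478858
(.s 2 0 915476 0 0 3269907 0 60954
(.lf 1 false 2 false false 1 0) (.lf 1 false 1 false true 1 0)) (.lf 1 false 2 true false 1 0))) (.lf 2 false 2 false false 2 0)) (.s 1 228869 0 0 0 0 0 802237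
(.lf 1 false 0 false true 1 0) (.s 1 1891907 0 0 0 0 0 6478858
(.s 2 0 915476 0 0 3269907 0 60954
(.lf 1 false 2 false false 1 0) (.lf 1 false 0 false true 1 0)) (.lf 1 false 2 true false 1 0)))))

def i1_40bab : T2 :=
(.k 1615476 0 60955 0 0 3269907 t1_40bab_0)

theorem hi1_40bab : chk2 (leaf1 a1_40 e1_40) 10000 i1_40bab R40_1bab = true := by
  decide +kernel

def i1_40ba : T2 := .s 0 1 0 0 0 3 i1_40baa i1_40bab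

theorem hi1_40ba : chk2 (leaf1 a1_40 e1_40) 10000 i1_40ba R40_1ba = true := chk2_s hi1_40baa hi1_40bab

def t1_40bb_0 : T3 :=
(.s 0 8 0 0 0 0 0 14
(.s 0 1 0 0 0 0 0 1
(.s 1 0 0 1 0 0 0 0
(.s 0 1 0 0 0 0 0 2
(.s 0 226811 0 0 0 0 0 1831620
(.s 2 1 0 0 0 3 0 3
(.s 2 1 0 0 0 7 0 7
(.s 2 1 0 0 0 15 0 15
(.s 0 1 0 0 0 0 0 19
(.s 0 1 0 0 0 0 0 1599
(.s 3 40 0 0 40 0 0 40
(.lf 2 true 1 false false 2 1) (.s 3 1 0 0 1 0 0 0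
(.s 4 0 10 10 0 11 0 0
(.lf 2 true 1 false false 2 0) (.lf 2 true 1 false false 2 1)) (.lf 2 true 1 false false 2 0))) (.s 0 1 0 0 0 0 0 39
(.s 3 1 0 0 1 0 0 0
(.s 4 0 10 10 0 11 0 0
(.lf 2 true 1 false false 2 0) (.lf 2 true 1 false false 2 1)) (.lf 2 true 1 false false 2 0)) (.lf 2 true 1 false false 2 0))) (.s 4 1 0 0 1 0 0 0
(.s 0 3 0 0 0 0 0 27
(.s 4 7 0 0 7 0 4 2
(.lf 2 true 1 false false 2 0) (.lf 2 true 1 false true 2 0)) (.s 3 28 0 0 28 0 0 24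
(.s 4 7 0 0 7 0 4 2
(.lf 2 true 1 false false 2 0) (.lf 2 true 1 false true 2 0)) (.lf 2 true 1 false true 2 0))) (.lf 2 true 0 false true 2 0))) (.lf 2 true 1 false false 2 2)) (.lf 2 true 1 false false 2 2)) (.lf 2 true 1 false false 2 2)) (.s 1 226811 0 0 0 0 0 1831620
(.lf 2 true 1 false true 2 0) (.lf 2 true 2 false false 2 0))) (.s 1 0 4 12 0 0 0 6
(.lf 1 true 0 true false 2 0) (.lf 2 true 0 false false 2 0))) (.s 0 1 0 0 0 0 0 3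
(.s 0 1 0 0 0 0 0 1599
(.s 3 40 0 0 40 0 0 40
(.lf 3 true 1 false false 2 1) (.s 3 1 0 0 1 0 0 0
(.s 4 0 10 10 0 11 0 0
(.lf 3 true 1 false false 2 0) (.lf 3 true 1 false false 2 1)) (.lf 3 true 1 false false 2 0))) (.s 0 1 0 0 0 0 0 39
(.s 3 1 0 0 1 0 0 0
(.s 4 0 10 10 0 11 0 0
(.lf 3 true 1 false false 2 0) (.lf 3 true 1 false false 2 1)) (.lf 3 true 1 false false 2 0)) (.lf 3 true 1 false false 2 0))) (.lf 3 true 2 false false 2 0))) (.s 1 0 4 12 0 0 0 6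
(.lf 1 true 0 true false 2 0) (.lf 2 true 2 false false 2 0))) (.s 0 5 0 0 0 0 0 7
(.s 1 0 4 12 0 0 0 6
(.lf 1 false 0 true false 2 0) (.lf 2 false 0 false false 2 0)) (.lf 1 false 0 true false 2 0)))

def i1_40bb : T2 :=
(.k 926811 0 0 0 0 1831621 t1_40bb_0)

theorem hi1_40bb : chk2 (leaf1 a1_40 e1_40) 10000 i1_40bb R40_1bb = true := by
  decide +kernel

def i1_40b : T2 := .s 3 0 0 3 0 3 i1_40ba i1_40bb

theorem hi1_40b : chk2 (leaf1 a1_40 e1_40) 10000 i1_40b R40_1b = true := chk2_s hi1_40ba hi1_40bb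

def i1_40 : T2 := .s 3 0 0 4 0 10 i1_40a i1_40b

theorem hi1_40 : chk2 (leaf1 a1_40 e1_40) 10000 i1_40 R40 = true := chk2_s hi1_40a hi1_40b

theorem ok40 : CellOk R40 a0_40 e0_40 a1_40 e1_40 :=
  ⟨lin40, ⟨_, ho00_40⟩, ⟨_, ho01_40⟩, ⟨_, ho10_40⟩, ⟨_, ho11_40⟩, ⟨_, hi0_40⟩, ⟨_, hi1_40⟩⟩

end

end Vale.Agent.P334.Cert
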