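import Vale.Agent.P334.CertDefs

/-!
Data of the dual certificate, checked cell by cell.
-/

namespace Vale.Agent.P334.Cert

noncomputable section

def R12 : Reg := ⟨⟨0, 0, 0, 0, 0, 0, 0⟩, ⟨1, 0, 0, 0, 0, 0, 0⟩, ⟨1, 0, 0, 0, 0, 0, 1⟩, ⟨1, 0, 0, 0, 0, 0, 0⟩, ⟨1, 0, 0, 0, 0, 0, 1⟩, ⟨1, 0, 0, 0, 0, 0, 0⟩, ⟨1, 0, 0, 0, 0, 0, 3⟩, ⟨1, 0, 0, 0, 0, 0, 1⟩, ⟨0, 0, 0, 0, 0, 0, 0⟩, ⟨0, 0, 0, 0, 1, 0, 0⟩⟩

def a0_12 : SF := mu 41015 0 171113 0 0 12260 0 0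

def e0_12 : SF := mu 0 277780 996261 0 399580 0 0 124827

def a1_12 : SF := mu 0 11605 124667 0 0 8582 37850 0

def e1_12 : SF := mu 0 110216 597060 0 279706 0 0 205720

theorem lin12 : chkLin R12 a0_12 e0_12 a1_12 e1_12 = true := by decide +kernel

def o00_12 : T3 :=
(.s 0 8 0 0 0 0 0 14
(.s 0 1 0 0 0 0 0 1
(.lf 3 true 0 false false 0 0) (.s 1 0 0 1 0 0 0 0
(.lf 2 true 0 false false 0 0) (.lf 3 true 0 false false 0 0))) (.s 1 0 0 1 0 0 0 0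
(.s 0 5 0 0 0 0 0 7
(.s 2 0 0 1 0 0 0 0
(.lf 2 false 0 true false 0 0) (.lf 2 false 0 false false 0 0)) (.s 0 4 0 0 0 0 0 4
(.s 1 0 4 12 0 0 0 6
(.s 2 0 0 1 0 0 0 0
(.lf 1 false 0 true false 0 0) (.lf 1 false 0 false false 0 0)) (.s 2 0 0 1 0 0 0 0
(.lf 2 false 0 true false 0 0) (.lf 2 false 0 false false 0 0))) (.s 2 0 0 1 0 0 0 0
(.lf 0 false 0 true false 0 0) (.lf 0 false 0 false false 0 0)))) (.s 0 4 0 0 0 0 0 4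
(.s 2 0 0 1 0 0 0 0
(.lf 3 false 0 true false 0 0) (.lf 3 false 0 false false 0 0)) (.s 0 11 0 0 0 0 0 11
(.s 1 0 4 12 0 0 0 6
(.s 2 0 0 1 0 0 0 0
(.lf 0 false 0 true false 0 0) (.lf 0 false 0 false false 0 0)) (.s 2 0 0 1 0 0 0 0
(.lf 0 false 0 true false 0 0) (.lf 0 false 0 false false 0 0))) (.s 2 0 0 1 0 0 0 0
(.lf 0 false 0 true false 0 0) (.lf 0 false 0 false false 0 0))))))

theorem ho00_12 : chk3 (leafO 10500000 3 a0_12 e0_12 R12.x0.ap R12.x0.m) o00_12 (full R12) = true := by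
  decide +kernel

def o01_12 : T3 :=
(.s 0 8 0 0 0 0 0 14
(.s 0 1 0 0 0 0 0 1
(.lf 3 true 0 false false 0 0) (.s 1 0 0 1 0 0 0 0
(.lf 2 true 0 false false 0 0) (.lf 3 true 0 false false 0 0))) (.s 1 0 0 1 0 0 0 0
(.s 0 5 0 0 0 0 0 7
(.s 2 0 0 1 0 0 0 0
(.lf 2 false 0 true false 0 0) (.lf 2 false 0 false false 0 0)) (.s 0 4 0 0 0 0 0 4
(.s 1 0 4 12 0 0 0 6
(.s 2 0 0 1 0 0 0 0
(.lf 1 false 0 true false 0 0) (.lf 1 false 0 false false 0 0)) (.s 2 0 0 1 0 0 0 0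
(.lf 2 false 0 true false 0 0) (.lf 2 false 0 false false 0 0))) (.s 2 0 0 1 0 0 0 0
(.lf 0 false 0 true false 0 0) (.lf 0 false 0 false false 0 0)))) (.s 0 4 0 0 0 0 0 4
(.s 2 0 0 1 0 0 0 0
(.lf 3 false 0 true false 0 0) (.lf 3 false 0 false false 0 0)) (.s 0 11 0 0 0 0 0 11
(.s 1 0 4 12 0 0 0 6
(.s 2 0 0 1 0 0 0 0
(.lf 0 false 0 true false 0 0) (.lf 0 false 0 false false 0 0)) (.s 2 0 0 1 0 0 0 0
(.lf 0 false 0 true false 0 0) (.lf 0 false 0 false false 0 0))) (.s 2 0 0 1 0 0 0 0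
(.lf 0 false 0 true false 0 0) (.lf 0 false 0 false false 0 0))))))

theorem ho01_12 : chk3 (leafO 10500000 3 a0_12 e0_12 R12.x1.ap R12.x1.m) o01_12 (full R12) = true := by
  decide +kernel

def o10_12 : T3 :=
(.s 0 8 0 0 0 0 0 14
(.s 0 1 0 0 0 0 0 1
(.lf 3 true 0 false false 0 0) (.s 1 0 0 1 0 0 0 0
(.lf 2 true 0 false false 0 0) (.lf 3 true 0 false false 0 0))) (.s 1 0 0 1 0 0 0 0
(.s 0 5 0 0 0 0 0 7
(.s 2 0 0 1 0 0 0 0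
(.lf 2 false 0 true false 0 0) (.lf 2 false 0 false false 0 0)) (.s 0 4 0 0 0 0 0 4
(.s 1 0 4 12 0 0 0 6
(.s 2 0 0 1 0 0 0 0
(.lf 1 false 0 true false 0 0) (.lf 1 false 0 false false 0 0)) (.s 2 0 0 1 0 0 0 0
(.lf 2 false 0 true false 0 0) (.lf 2 false 0 false false 0 0))) (.s 2 0 0 1 0 0 0 0
(.lf 0 false 0 true false 0 0) (.lf 0 false 0 false false 0 0)))) (.s 0 4 0 0 0 0 0 4
(.s 2 0 0 1 0 0 0 0
(.lf 3 false 0 true false 0 0) (.lf 3 false 0 false false 0 0)) (.s 0 11 0 0 0 0 0 11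
(.s 1 0 4 12 0 0 0 6
(.s 2 0 0 1 0 0 0 0
(.lf 0 false 0 true false 0 0) (.lf 0 false 0 false false 0 0)) (.s 2 0 0 1 0 0 0 0
(.lf 0 false 0 true false 0 0) (.lf 0 false 0 false false 0 0))) (.s 2 0 0 1 0 0 0 0
(.lf 0 false 0 true false 0 0) (.lf 0 false 0 false false 0 0))))))

theorem ho10_12 : chk3 (leafO 5554500 1 a1_12 e1_12 R12.x0.ap R12.x0.m) o10_12 (full R12) = true := by
  decide +kernel

def o11_12 : T3 :=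
(.s 0 8 0 0 0 0 0 14
(.s 0 1 0 0 0 0 0 1
(.lf 3 true 0 false false 0 0) (.s 1 0 0 1 0 0 0 0
(.lf 2 true 0 false false 0 0) (.lf 3 true 0 false false 0 0))) (.s 1 0 0 1 0 0 0 0
(.s 0 5 0 0 0 0 0 7
(.lf 2 false 0 false false 0 0) (.s 0 4 0 0 0 0 0 4
(.s 1 0 4 12 0 0 0 6
(.s 2 0 0 1 0 0 0 0
(.lf 1 false 0 true false 0 0) (.lf 1 false 0 false false 0 0)) (.s 2 0 0 1 0 0 0 0
(.lf 2 false 0 true false 0 0) (.lf 2 false 0 false false 0 0))) (.s 2 0 0 1 0 0 0 0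
(.lf 0 false 0 true false 0 0) (.lf 0 false 0 false false 0 0)))) (.s 0 4 0 0 0 0 0 4
(.s 2 0 0 1 0 0 0 0
(.lf 3 false 0 true false 0 0) (.lf 3 false 0 false false 0 0)) (.s 0 11 0 0 0 0 0 11
(.s 1 0 4 12 0 0 0 6
(.s 2 0 0 1 0 0 0 0
(.lf 0 false 0 true false 0 0) (.lf 0 false 0 false false 0 0)) (.s 2 0 0 1 0 0 0 0
(.lf 0 false 0 true false 0 0) (.lf 0 false 0 false false 0 0))) (.s 2 0 0 1 0 0 0 0
(.lf 0 false 0 true false 0 0) (.lf 0 false 0 false false 0 0))))))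

theorem ho11_12 : chk3 (leafO 5554500 1 a1_12 e1_12 R12.x1.ap R12.x1.m) o11_12 (full R12) = true := by
  decide +kernel

def t0_12_0 : T3 :=
(.s 0 8 0 0 0 0 0 14
(.s 0 1 0 0 0 0 0 1
(.lf 3 true 1 true false 0 0) (.s 1 0 0 1 0 0 0 0
(.lf 2 true 1 true false 0 0) (.lf 3 true 1 true false 0 0))) (.s 1 0 0 1 0 0 0 0
(.s 0 5 0 0 0 0 0 7
(.lf 2 false 1 true false 0 0) (.s 0 4 0 0 0 0 0 4
(.s 1 0 4 12 0 0 0 6
(.lf 1 false 1 false false 0 0) (.lf 2 false 1 false false 0 0)) (.lf 0 false 0 false false 0 0))) (.s 0 4 0 0 0 0 0 4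
(.lf 3 false 1 true false 0 0) (.s 0 11 0 0 0 0 0 11
(.s 1 0 4 12 0 0 0 6
(.lf 0 false 1 false false 0 0) (.lf 0 false 1 false false 0 0)) (.lf 0 false 1 false false 0 0)))))

def t0_12_1 : T3 :=
(.s 0 8 0 0 0 0 0 14
(.s 0 1 0 0 0 0 0 1
(.lf 3 true 1 false false 0 0) (.s 1 0 0 1 0 0 0 0
(.lf 2 true 1 false false 0 0) (.lf 3 true 1 false false 0 0))) (.s 1 0 0 1 0 0 0 0
(.s 0 5 0 0 0 0 0 7
(.lf 2 false 1 false false 0 0) (.s 0 4 0 0 0 0 0 4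
(.s 1 0 4 12 0 0 0 6
(.lf 1 false 1 false false 0 0) (.lf 2 false 1 false false 0 0)) (.lf 0 false 0 false false 0 0))) (.s 0 4 0 0 0 0 0 4
(.lf 3 false 1 false false 0 0) (.s 0 11 0 0 0 0 0 11
(.s 1 0 4 12 0 0 0 6
(.lf 0 false 0 false false 0 0) (.lf 0 false 0 false false 0 0)) (.lf 0 false 0 true false 0 0)))))

def i0_12 : T2 :=
(.s 3 0 0 1000 0 2736
(.k 490265 0 0 489265 0 0 t0_12_0) (.k 1014393 0 0 1013393 0 0 t0_12_1))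

theorem hi0_12 : chk2 (leaf0 a0_12 e0_12) 0 i0_12 R12 = true := by
  decide +kernel

def t1_12_0 : T3 :=
(.s 0 8 0 0 0 0 0 14
(.s 0 1 0 0 0 0 0 1
(.lf 3 true 1 true false 0 2) (.s 1 0 0 1 0 0 0 0
(.lf 2 true 1 true false 0 2) (.lf 3 true 1 true false 0 2))) (.s 1 0 0 1 0 0 0 0
(.s 0 5 0 0 0 0 0 7
(.lf 2 false 1 true false 0 2) (.s 0 4 0 0 0 0 0 4
(.s 1 0 4 12 0 0 0 6
(.lf 1 false 1 false false 0 2) (.s 0 7 0 0 0 0 0 9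
(.lf 2 false 1 true false 0 2) (.lf 2 false 1 true false 0 2))) (.lf 0 false 2 true false 0 0))) (.s 0 4 0 0 0 0 0 4
(.s 0 7 0 0 0 0 0 9
(.lf 3 false 1 true false 0 2) (.lf 3 false 1 true false 0 2)) (.s 0 11 0 0 0 0 0 11
(.s 1 0 4 12 0 0 0 6
(.lf 0 false 2 false false 0 0) (.lf 0 false 2 false false 0 0)) (.lf 0 false 2 false false 0 0)))))

def t1_12_1 : T3 :=
(.s 0 8 0 0 0 0 0 14
(.s 0 1 0 0 0 0 0 1
(.s 0 1 0 0 0 0 0 3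
(.s 3 1000 0 0 1000 0 0 2736
(.lf 3 true 1 true false 2 1) (.s 4 1000 0 0 1000 0 0 2736
(.lf 3 true 1 false false 2 1) (.lf 3 true 1 false false 2 1))) (.lf 3 true 1 false false 2 2)) (.s 1 0 0 1 0 0 0 0
(.lf 2 true 1 false false 2 2) (.lf 3 true 1 false false 2 2))) (.s 1 0 0 1 0 0 0 0
(.s 0 5 0 0 0 0 0 7
(.lf 2 false 1 false false 2 2) (.s 0 4 0 0 0 0 0 4
(.s 1 0 4 12 0 0 0 6
(.lf 1 false 2 false false 2 2) (.lf 2 false 1 false false 2 2)) (.lf 0 false 2 false false 2 0))) (.s 0 4 0 0 0 0 0 4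
(.lf 3 false 1 false false 2 2) (.s 0 11 0 0 0 0 0 11
(.s 1 0 4 12 0 0 0 6
(.lf 0 false 2 false false 2 0) (.lf 0 false 2 false false 2 0)) (.lf 0 false 2 false false 2 0)))))

def i1_12 : T2 :=
(.s 3 0 0 4 0 10
(.k 128567 0 0 77549 0 40019 t1_12_0) (.k 794978 0 0 697378 0 86601 t1_12_1))

theorem hi1_12 : chk2 (leaf1 a1_12 e1_12) 10000 i1_12 R12 = true := by
  decide +kernel

theorem ok12 : CellOk R12 a0_12 e0_12 a1_12 e1_12 :=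
  ⟨lin12, ⟨_, ho00_12⟩, ⟨_, ho01_12⟩, ⟨_, ho10_12⟩, ⟨_, ho11_12⟩, ⟨_, hi0_12⟩, ⟨_, hi1_12⟩⟩

def R15 : Reg := ⟨⟨0, 0, 0, 0, 0, 0, 0⟩, ⟨1, 0, 0, 0, 0, 0, 0⟩, ⟨1, 0, 0, 0, 0, 0, 1⟩, ⟨1, 0, 0, 0, 0, 0, 0⟩, ⟨0, 0, 0, 0, 0, 0, 0⟩, ⟨0, 0, 0, 0, 1, 0, 1⟩, ⟨1, 0, 0, 0, 0, 0, 1⟩, ⟨1, 0, 0, 0, 0, 0, 0⟩, ⟨0, 0, 0, 0, 0, 0, 0⟩, ⟨0, 0, 0, 0, 1, 0, 0⟩⟩

def a0_15 : SF := mu 846364 0 0 200172 413864 0 0 641591

def e0_15 : SF := mu 0 1802402 1027210 0 3040375 0 0 1248975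

def a1_15 : SF := mu 2087 0 1113 0 220417 0 0 0

def e1_15 : SF := mu 0 1386486 790161 0 2338750 0 0 960750

theorem lin15 : chkLin R15 a0_15 e0_15 a1_15 e1_15 = true := by decide +kernel

def o00_15 : T3 :=
(.s 0 8 0 0 0 0 0 14
(.s 0 1 0 0 0 0 0 1
(.lf 3 true 0 false false 0 0) (.s 1 0 0 1 0 0 0 0
(.lf 2 true 0 true false 0 0) (.lf 3 true 0 true false 0 0))) (.s 1 0 0 1 0 0 0 0
(.s 0 5 0 0 0 0 0 7
(.lf 2 false 0 true false 0 0) (.s 0 4 0 0 0 0 0 4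
(.s 1 0 4 12 0 0 0 6
(.lf 1 false 0 true false 0 0) (.lf 2 false 0 true false 0 0)) (.lf 0 false 0 true false 0 0))) (.s 0 4 0 0 0 0 0 4
(.lf 3 false 0 true false 0 0) (.s 0 11 0 0 0 0 0 11
(.s 1 0 4 12 0 0 0 6
(.lf 0 false 0 true false 0 0) (.lf 0 false 0 true false 0 0)) (.lf 0 false 0 true false 0 0)))))

theorem ho00_15 : chk3 (leafO 10500000 3 a0_15 e0_15 R15.x0.ap R15.x0.m) o00_15 (full R15) = true := by
  decide +kernel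

def o01_15 : T3 :=
(.s 0 8 0 0 0 0 0 14
(.s 0 1 0 0 0 0 0 1
(.s 0 1 0 0 0 0 0 3
(.s 2 0 0 1 0 0 0 0
(.lf 3 true 0 true false 0 0) (.lf 3 true 0 false false 0 0)) (.s 1 0 0 2 0 0 0 0
(.lf 3 true 0 true false 0 0) (.s 2 0 0 1 0 0 0 0
(.lf 3 true 0 true false 0 0) (.lf 3 true 0 false false 0 0)))) (.s 1 0 0 1 0 0 0 0
(.lf 2 true 0 true false 0 0) (.lf 3 true 0 true false 0 0))) (.s 1 0 0 1 0 0 0 0
(.s 0 5 0 0 0 0 0 7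
(.lf 2 false 0 true false 0 0) (.s 0 4 0 0 0 0 0 4
(.s 1 0 4 12 0 0 0 6
(.lf 1 false 0 true false 0 0) (.lf 2 false 0 true false 0 0)) (.lf 0 false 0 true false 0 0))) (.s 0 4 0 0 0 0 0 4
(.lf 3 false 0 true false 0 0) (.s 0 11 0 0 0 0 0 11
(.s 1 0 4 12 0 0 0 6
(.lf 0 false 0 true false 0 0) (.lf 0 false 0 true false 0 0)) (.lf 0 false 0 true false 0 0)))))

theorem ho01_15 : chk3 (leafO 10500000 3 a0_15 e0_15 R15.x1.ap R15.x1.m) o01_15 (full R15) = true := by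
  decide +kernel

def o10_15 : T3 :=
(.s 0 8 0 0 0 0 0 14
(.s 0 1 0 0 0 0 0 1
(.s 0 1 0 0 0 0 0 3
(.s 2 0 0 1 0 0 0 0
(.lf 3 true 0 true false 0 0) (.lf 3 true 0 false false 0 0)) (.s 1 0 0 2 0 0 0 0
(.lf 3 true 0 true false 0 0) (.s 2 0 0 1 0 0 0 0
(.lf 3 true 0 true false 0 0) (.lf 3 true 0 false false 0 0)))) (.s 1 0 0 1 0 0 0 0
(.lf 2 true 0 true false 0 0) (.lf 3 true 0 true false 0 0))) (.s 1 0 0 1 0 0 0 0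
(.s 0 5 0 0 0 0 0 7
(.lf 2 false 0 true false 0 0) (.s 0 4 0 0 0 0 0 4
(.s 1 0 4 12 0 0 0 6
(.lf 1 false 0 true false 0 0) (.lf 2 false 0 true false 0 0)) (.lf 0 false 0 true false 0 0))) (.s 0 4 0 0 0 0 0 4
(.lf 3 false 0 true false 0 0) (.s 0 11 0 0 0 0 0 11
(.s 1 0 4 12 0 0 0 6
(.lf 0 false 0 true false 0 0) (.lf 0 false 0 true false 0 0)) (.lf 0 false 0 true false 0 0)))))

theorem ho10_15 : chk3 (leafO 5554500 1 a1_15 e1_15 R15.x0.ap R15.x0.m) o10_15 (full R15) = true := by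
  decide +kernel

def o11_15 : T3 :=
(.s 0 8 0 0 0 0 0 14
(.s 0 1 0 0 0 0 0 1
(.s 0 1 0 0 0 0 0 3
(.s 2 0 0 1 0 0 0 0
(.lf 3 true 0 true false 0 0) (.lf 3 true 0 false false 0 0)) (.s 1 0 0 2 0 0 0 0
(.lf 3 true 0 true false 0 0) (.s 2 0 0 1 0 0 0 0
(.lf 3 true 0 true false 0 0) (.lf 3 true 0 false false 0 0)))) (.s 1 0 0 1 0 0 0 0
(.lf 2 true 0 true false 0 0) (.lf 3 true 0 true false 0 0))) (.s 1 0 0 1 0 0 0 0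
(.s 0 5 0 0 0 0 0 7
(.lf 2 false 0 true false 0 0) (.s 0 4 0 0 0 0 0 4
(.s 1 0 4 12 0 0 0 6
(.lf 1 false 0 true false 0 0) (.lf 2 false 0 true false 0 0)) (.lf 0 false 0 true false 0 0))) (.s 0 4 0 0 0 0 0 4
(.s 0 7 0 0 0 0 0 9
(.s 0 3 0 0 0 0 0 4
(.lf 3 false 0 true false 0 0) (.lf 3 false 0 true false 0 0)) (.lf 3 false 0 true false 0 0)) (.s 0 11 0 0 0 0 0 11
(.s 1 0 4 12 0 0 0 6
(.lf 0 false 0 true false 0 0) (.lf 0 false 0 true false 0 0)) (.lf 0 false 0 true false 0 0)))))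

theorem ho11_15 : chk3 (leafO 5554500 1 a1_15 e1_15 R15.x1.ap R15.x1.m) o11_15 (full R15) = true := by
  decide +kernel

def t0_15_0 : T3 :=
(.s 0 8 0 0 0 0 0 14
(.s 0 1 0 0 0 0 0 1
(.s 3 1 0 0 1 0 0 0
(.s 0 1 0 0 0 0 0 3
(.lf 3 true 1 true false 0 0) (.lf 3 true 1 true false 0 0)) (.s 4 1000 0 0 1000 0 0 2736
(.lf 3 true 1 true false 0 0) (.lf 3 true 1 false false 0 0))) (.s 1 0 0 1 0 0 0 0
(.lf 2 true 1 true false 0 0) (.lf 3 true 1 true false 0 0))) (.s 1 0 0 1 0 0 0 0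
(.s 0 5 0 0 0 0 0 7
(.lf 2 false 1 true false 0 0) (.s 0 4 0 0 0 0 0 4
(.s 1 0 4 12 0 0 0 6
(.lf 1 false 1 false false 0 0) (.lf 2 false 1 true false 0 0)) (.lf 0 false 0 false false 0 0))) (.s 0 4 0 0 0 0 0 4
(.lf 3 false 1 true false 0 0) (.s 0 11 0 0 0 0 0 11
(.s 1 0 4 12 0 0 0 6
(.lf 0 false 1 false false 0 0) (.lf 0 false 1 false false 0 0)) (.lf 0 false 0 false false 0 0)))))

def t0_15_1 : T3 :=
(.s 0 8 0 0 0 0 0 14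
(.s 0 1 0 0 0 0 0 1
(.lf 3 true 1 false false 0 0) (.s 1 0 0 1 0 0 0 0
(.lf 2 true 1 false false 0 0) (.lf 3 true 1 false false 0 0))) (.s 1 0 0 1 0 0 0 0
(.s 0 5 0 0 0 0 0 7
(.lf 2 false 1 false false 0 0) (.s 0 4 0 0 0 0 0 4
(.s 1 0 4 12 0 0 0 6
(.lf 1 false 0 false false 0 0) (.lf 2 false 1 false false 0 0)) (.lf 0 false 0 false false 0 0))) (.s 0 4 0 0 0 0 0 4
(.lf 3 false 1 false false 0 0) (.s 0 11 0 0 0 0 0 11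
(.s 1 0 4 12 0 0 0 6
(.lf 0 false 1 false false 0 0) (.lf 0 false 1 false false 0 0)) (.lf 0 false 0 true false 0 0)))))

def t0_15_2 : T3 :=
(.s 0 8 0 0 0 0 0 14
(.s 0 1 0 0 0 0 0 1
(.lf 3 true 1 false false 0 0) (.s 1 0 0 1 0 0 0 0
(.lf 2 true 1 false false 0 0) (.lf 3 true 1 false false 0 0))) (.s 1 0 0 1 0 0 0 0
(.s 0 5 0 0 0 0 0 7
(.lf 2 false 1 false false 0 0) (.s 0 4 0 0 0 0 0 4
(.s 1 0 4 12 0 0 0 6
(.lf 1 false 0 false false 0 0) (.s 0 7 0 0 0 0 0 9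
(.s 0 1737 0 0 0 0 0 2736
(.s 4 1 0 0 1 0 0 0
(.lf 2 false 1 false false 0 0) (.lf 2 false 0 false false 0 0)) (.s 3 2737 0 0 2737 0 0 999
(.s 4 1 0 0 1 0 0 0
(.lf 2 false 1 false false 0 0) (.lf 2 false 0 false false 0 0)) (.lf 2 false 0 false false 0 0))) (.lf 2 false 0 false false 0 0))) (.lf 0 false 0 false false 0 0))) (.s 0 4 0 0 0 0 0 4
(.s 0 7 0 0 0 0 0 9
(.s 0 1737 0 0 0 0 0 2736
(.s 4 1 0 0 1 0 0 0
(.lf 3 false 1 false false 0 0) (.lf 3 false 0 false false 0 0)) (.s 3 2737 0 0 2737 0 0 999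
(.s 4 1 0 0 1 0 0 0
(.lf 3 false 1 false false 0 0) (.lf 3 false 0 false false 0 0)) (.lf 3 false 0 false false 0 0))) (.lf 3 false 0 false false 0 0)) (.s 0 11 0 0 0 0 0 11
(.s 1 0 4 12 0 0 0 6
(.lf 0 false 0 false false 0 0) (.lf 0 false 0 false false 0 0)) (.lf 0 false 0 true false 0 0)))))

def t0_15_3 : T3 :=
(.s 0 8 0 0 0 0 0 14
(.s 0 1 0 0 0 0 0 1
(.s 0 1 0 0 0 0 0 3
(.s 3 1 0 0 1 0 0 0
(.lf 3 true 1 false false 0 0) (.s 4 1 0 0 1 0 0 0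
(.lf 3 true 1 false false 0 0) (.lf 3 true 0 false false 0 0))) (.s 3 4 0 0 4 0 0 2
(.s 3 1 0 0 1 0 0 0
(.lf 3 true 1 false false 0 0) (.s 4 1 0 0 1 0 0 0
(.lf 3 true 1 false false 0 0) (.lf 3 true 0 false false 0 0))) (.lf 3 true 0 false false 0 0))) (.s 1 0 0 1 0 0 0 0
(.s 3 3 0 0 0 0 0 3
(.lf 2 true 1 false false 0 0) (.lf 2 true 0 false false 0 0)) (.s 3 3 0 0 0 0 0 3
(.lf 3 true 1 false false 0 0) (.lf 3 true 0 false false 0 0)))) (.s 1 0 0 1 0 0 0 0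
(.s 0 5 0 0 0 0 0 7
(.s 3 3 0 0 0 0 0 3
(.lf 2 false 1 false false 0 0) (.lf 2 false 0 false false 0 0)) (.s 0 4 0 0 0 0 0 4
(.s 1 0 4 12 0 0 0 6
(.lf 1 false 0 false false 0 0) (.lf 2 false 0 false false 0 0)) (.lf 0 false 0 false false 0 0))) (.s 0 4 0 0 0 0 0 4
(.s 3 3 0 0 0 0 0 3
(.lf 3 false 1 false false 0 0) (.lf 3 false 0 false false 0 0)) (.s 0 11 0 0 0 0 0 11
(.s 1 0 4 12 0 0 0 6
(.lf 0 false 0 true false 0 0) (.lf 0 false 0 true false 0 0)) (.lf 0 false 0 false false 0 0)))))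

def i0_15 : T2 :=
(.s 3 0 0 1000 0 2736
(.k 1000 0 1390920 0 0 0 t0_15_0) (.s 3 0 0 3 0 3
(.s 2 3 0 0 0 3
(.k 1608220 0 0 0 0 1607220 t0_15_1) (.k 448745 0 1709289 0 0 213789 t0_15_2)) (.k 1637206 0 0 3285951 6769 0 t0_15_3)))

theorem hi0_15 : chk2 (leaf0 a0_15 e0_15) 0 i0_15 R15 = true := by
  decide +kernel

def t1_15_0 : T3 :=
(.s 0 8 0 0 0 0 0 14
(.s 0 1 0 0 0 0 0 1
(.lf 3 true 1 true false 0 2) (.s 1 0 0 1 0 0 0 0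
(.lf 2 true 1 true false 0 0) (.lf 3 true 1 true false 0 0))) (.s 1 0 0 1 0 0 0 0
(.s 0 5 0 0 0 0 0 7
(.lf 2 false 2 false false 0 0) (.s 0 4 0 0 0 0 0 4
(.s 1 0 4 12 0 0 0 6
(.lf 1 false 2 false false 0 0) (.lf 2 false 2 false false 0 0)) (.lf 0 false 2 false false 0 0))) (.s 0 4 0 0 0 0 0 4
(.lf 3 false 2 false false 0 0) (.s 0 11 0 0 0 0 0 11
(.s 1 0 4 12 0 0 0 6
(.lf 0 false 2 false false 0 0) (.lf 0 false 2 false false 0 0)) (.lf 0 false 2 false false 0 0)))))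

def t1_15_1 : T3 :=
(.s 0 8 0 0 0 0 0 14
(.s 0 1 0 0 0 0 0 1
(.s 3 1 0 0 1 0 0 0
(.lf 3 true 1 false false 1 2) (.s 4 1 0 0 1 0 0 0
(.s 2 0 274143 0 0 963143 0 1926285
(.lf 3 true 1 false false 1 0) (.lf 3 true 1 false true 1 0)) (.s 2 0 274143 0 0 963143 0 1926285
(.lf 3 true 2 false false 2 0) (.lf 3 true 0 false true 1 0)))) (.s 1 0 0 1 0 0 0 0
(.s 2 0 274143 0 0 963143 0 1926285
(.lf 2 true 2 false false 1 0) (.lf 2 true 1 false true 1 0)) (.s 2 0 274143 0 0 963143 0 1926285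
(.lf 3 true 2 false false 1 0) (.lf 3 true 1 false true 1 0)))) (.s 1 0 0 1 0 0 0 0
(.s 0 5 0 0 0 0 0 7
(.s 2 0 274143 0 0 963143 0 1926285
(.lf 2 false 2 false false 1 0) (.lf 2 false 1 false true 1 0)) (.s 0 4 0 0 0 0 0 4
(.s 1 0 4 12 0 0 0 6
(.s 2 0 274143 0 0 963143 0 1926285
(.lf 1 false 2 false false 1 0) (.lf 1 false 0 false true 1 0)) (.s 2 0 274143 0 0 963143 0 1926285
(.lf 2 false 2 false false 1 0) (.lf 2 false 0 false true 1 0))) (.s 2 0 274143 0 0 963143 0 1926285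
(.lf 0 false 2 false false 1 0) (.lf 0 false 0 false true 1 0)))) (.s 0 4 0 0 0 0 0 4
(.s 2 0 274143 0 0 963143 0 1926285
(.lf 3 false 2 false false 1 0) (.lf 3 false 0 false true 1 0)) (.s 0 11 0 0 0 0 0 11
(.s 1 0 4 12 0 0 0 6
(.s 2 0 274143 0 0 963143 0 1926285
(.lf 0 false 2 false false 1 0) (.lf 0 false 0 false true 1 0)) (.s 2 0 274143 0 0 963143 0 1926285
(.lf 0 false 2 false false 1 0) (.lf 0 false 0 false true 1 0))) (.s 2 0 274143 0 0 963143 0 1926285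
(.lf 0 false 2 false false 1 0) (.lf 0 false 0 true true 1 0))))))

def i1_15 : T2 :=
(.s 3 0 0 4 0 10
(.k 180333 0 0 0 0 169333 t1_15_0) (.k 974143 0 1926286 0 0 963143 t1_15_1))

theorem hi1_15 : chk2 (leaf1 a1_15 e1_15) 10000 i1_15 R15 = true := by
  decide +kernel

theorem ok15 : CellOk R15 a0_15 e0_15 a1_15 e1_15 :=
  ⟨lin15, ⟨_, ho00_15⟩, ⟨_, ho01_15⟩, ⟨_, ho10_15⟩, ⟨_, ho11_15⟩, ⟨_, hi0_15⟩, ⟨_, hi1_15⟩⟩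

def R21 : Reg := ⟨⟨0, 0, 0, 0, 0, 0, 0⟩, ⟨1, 0, 0, 0, 0, 0, 0⟩, ⟨1, 0, 0, 0, 0, 0, 1⟩, ⟨1, 0, 0, 0, 0, 0, 0⟩, ⟨0, 0, 0, 0, 1, 0, 0⟩, ⟨1, 0, 0, 0, 7, 0, 7⟩, ⟨3, 0, 0, 0, 0, 0, 4⟩, ⟨3, 0, 0, 0, 0, 0, 3⟩, ⟨0, 0, 0, 0, 0, 0, 0⟩, ⟨0, 0, 0, 0, 1, 0, 0⟩⟩

def a0_21 : SF := mu 846928 0 147043 0 0 14402442 14738811 0

def e0_21 : SF := mu 0 3261555 1255097 0 40000000 0 0 40000000

def a1_21 : SF := mu 491179 0 0 29668 0 8972024 9388690 0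

def e1_21 : SF := mu 0 2459138 882503 0 30769231 0 0 30769231

theorem lin21 : chkLin R21 a0_21 e0_21 a1_21 e1_21 = true := by decide +kernel

def o00_21 : T3 :=
(.s 0 8 0 0 0 0 0 14
(.s 0 1 0 0 0 0 0 1
(.lf 3 true 0 false false 0 0) (.s 1 0 0 1 0 0 0 0
(.lf 2 true 0 false false 0 0) (.lf 3 true 0 false false 0 0))) (.s 1 0 0 1 0 0 0 0
(.s 0 5 0 0 0 0 0 7
(.s 0 9 0 0 0 0 0 15
(.s 2 0 0 1 0 0 0 0
(.lf 2 false 0 false false 0 0) (.lf 2 false 0 false false 0 0)) (.s 1 0 1 8 0 0 0 6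
(.lf 2 false 0 true false 0 0) (.s 2 0 0 1 0 0 0 0
(.lf 2 false 0 false false 0 0) (.lf 2 false 0 false false 0 0)))) (.s 0 4 0 0 0 0 0 4
(.s 1 0 4 12 0 0 0 6
(.s 0 3 0 0 0 0 0 3
(.lf 1 false 0 true false 0 0) (.s 1 0 1 8 0 0 0 6
(.lf 1 false 0 true false 0 0) (.s 2 0 0 1 0 0 0 0
(.lf 1 false 0 false false 0 0) (.lf 1 false 0 false false 0 0)))) (.s 0 3 0 0 0 0 0 3
(.s 1 0 1 8 0 0 0 6
(.lf 2 false 0 true false 0 0) (.s 2 0 0 1 0 0 0 0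
(.lf 2 false 0 false false 0 0) (.lf 2 false 0 false false 0 0))) (.s 2 0 0 1 0 0 0 0
(.lf 2 false 0 false false 0 0) (.lf 2 false 0 false false 0 0)))) (.s 1 0 1 8 0 0 0 6
(.lf 0 false 0 true false 0 0) (.s 2 0 0 1 0 0 0 0
(.lf 0 false 0 false false 0 0) (.lf 0 false 0 false false 0 0))))) (.s 0 4 0 0 0 0 0 4
(.lf 3 false 0 false false 0 0) (.s 0 11 0 0 0 0 0 11
(.s 1 0 4 12 0 0 0 6
(.lf 0 false 0 false false 0 0) (.lf 0 false 0 false false 0 0)) (.lf 0 false 0 false false 0 0)))))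

theorem ho00_21 : chk3 (leafO 10500000 3 a0_21 e0_21 R21.x0.ap R21.x0.m) o00_21 (full R21) = true := by
  decide +kernel

def o01_21 : T3 :=
(.s 0 8 0 0 0 0 0 14
(.s 0 1 0 0 0 0 0 1
(.lf 3 true 0 false false 0 0) (.s 1 0 0 1 0 0 0 0
(.lf 2 true 0 false false 0 0) (.lf 3 true 0 false false 0 0))) (.s 1 0 0 1 0 0 0 0
(.s 0 5 0 0 0 0 0 7
(.s 0 9 0 0 0 0 0 15
(.s 2 0 0 1 0 0 0 0
(.lf 2 false 0 false false 0 0) (.lf 2 false 0 false false 0 0)) (.s 1 0 1 8 0 0 0 6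
(.lf 2 false 0 true false 0 0) (.s 2 0 0 1 0 0 0 0
(.lf 2 false 0 false false 0 0) (.lf 2 false 0 false false 0 0)))) (.s 0 4 0 0 0 0 0 4
(.s 1 0 4 12 0 0 0 6
(.s 0 3 0 0 0 0 0 3
(.lf 1 false 0 true false 0 0) (.s 1 0 1 8 0 0 0 6
(.lf 1 false 0 true false 0 0) (.s 2 0 0 1 0 0 0 0
(.lf 1 false 0 false false 0 0) (.lf 1 false 0 false false 0 0)))) (.s 0 3 0 0 0 0 0 3
(.s 1 0 1 8 0 0 0 6
(.lf 2 false 0 true false 0 0) (.s 2 0 0 1 0 0 0 0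
(.lf 2 false 0 false false 0 0) (.lf 2 false 0 false false 0 0))) (.s 2 0 0 1 0 0 0 0
(.lf 2 false 0 false false 0 0) (.lf 2 false 0 false false 0 0)))) (.s 1 0 1 8 0 0 0 6
(.lf 0 false 0 true false 0 0) (.s 2 0 0 1 0 0 0 0
(.lf 0 false 0 false false 0 0) (.lf 0 false 0 false false 0 0))))) (.s 0 4 0 0 0 0 0 4
(.lf 3 false 0 false false 0 0) (.s 0 11 0 0 0 0 0 11
(.s 1 0 4 12 0 0 0 6
(.lf 0 false 0 false false 0 0) (.lf 0 false 0 false false 0 0)) (.lf 0 false 0 false false 0 0)))))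

theorem ho01_21 : chk3 (leafO 10500000 3 a0_21 e0_21 R21.x1.ap R21.x1.m) o01_21 (full R21) = true := by
  decide +kernel

def o10_21 : T3 :=
(.s 0 8 0 0 0 0 0 14
(.s 0 1 0 0 0 0 0 1
(.lf 3 true 0 false false 0 0) (.s 1 0 0 1 0 0 0 0
(.lf 2 true 0 false false 0 0) (.lf 3 true 0 false false 0 0))) (.s 1 0 0 1 0 0 0 0
(.s 0 5 0 0 0 0 0 7
(.lf 2 false 0 true false 0 0) (.s 0 4 0 0 0 0 0 4
(.s 1 0 4 12 0 0 0 6
(.lf 1 false 0 true false 0 0) (.lf 2 false 0 true false 0 0)) (.lf 0 false 0 true false 0 0))) (.s 0 4 0 0 0 0 0 4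
(.lf 3 false 0 false false 0 0) (.s 0 11 0 0 0 0 0 11
(.s 1 0 4 12 0 0 0 6
(.lf 0 false 0 false false 0 0) (.lf 0 false 0 false false 0 0)) (.lf 0 false 0 false false 0 0)))))

theorem ho10_21 : chk3 (leafO 5554500 1 a1_21 e1_21 R21.x0.ap R21.x0.m) o10_21 (full R21) = true := by
  decide +kernel

def o11_21 : T3 :=
(.s 0 8 0 0 0 0 0 14
(.s 0 1 0 0 0 0 0 1
(.lf 3 true 0 false false 0 0) (.s 1 0 0 1 0 0 0 0
(.lf 2 true 0 false false 0 0) (.lf 3 true 0 false false 0 0))) (.s 1 0 0 1 0 0 0 0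
(.s 0 5 0 0 0 0 0 7
(.s 0 9 0 0 0 0 0 15
(.s 2 0 0 1 0 0 0 0
(.lf 2 false 0 false false 0 0) (.lf 2 false 0 false false 0 0)) (.s 1 0 1 8 0 0 0 6
(.lf 2 false 0 true false 0 0) (.s 2 0 0 1 0 0 0 0
(.lf 2 false 0 false false 0 0) (.lf 2 false 0 false false 0 0)))) (.s 0 4 0 0 0 0 0 4
(.s 1 0 4 12 0 0 0 6
(.lf 1 false 0 true false 0 0) (.lf 2 false 0 true false 0 0)) (.lf 0 false 0 true false 0 0))) (.s 0 4 0 0 0 0 0 4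
(.lf 3 false 0 false false 0 0) (.s 0 11 0 0 0 0 0 11
(.s 1 0 4 12 0 0 0 6
(.lf 0 false 0 false false 0 0) (.lf 0 false 0 false false 0 0)) (.lf 0 false 0 false false 0 0)))))

theorem ho11_21 : chk3 (leafO 5554500 1 a1_21 e1_21 R21.x1.ap R21.x1.m) o11_21 (full R21) = true := by
  decide +kernel

def t0_21_0 : T3 :=
(.s 0 8 0 0 0 0 0 14
(.s 0 1 0 0 0 0 0 1
(.s 0 1 0 0 0 0 0 3
(.lf 3 true 1 true false 0 0) (.s 0 2 0 0 0 0 0 4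
(.s 3 1 0 0 1 0 0 0
(.lf 3 true 1 true false 0 0) (.s 4 1000 0 0 1000 0 0 2736
(.lf 3 true 1 true false 0 0) (.lf 3 true 1 false false 0 0))) (.s 4 1000 0 0 1000 0 0 2736
(.lf 3 true 1 true false 0 0) (.lf 3 true 1 false false 0 0)))) (.s 1 0 0 1 0 0 0 0
(.lf 2 true 1 false false 0 0) (.lf 3 true 1 false false 0 0))) (.s 1 0 0 1 0 0 0 0
(.s 0 5 0 0 0 0 0 7
(.lf 2 false 1 false false 0 0) (.s 0 4 0 0 0 0 0 4
(.s 1 0 4 12 0 0 0 6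
(.lf 1 false 1 false false 0 0) (.lf 2 false 1 false false 0 0)) (.lf 0 false 0 false false 0 0))) (.s 0 4 0 0 0 0 0 4
(.lf 3 false 1 false false 0 0) (.s 0 11 0 0 0 0 0 11
(.s 1 0 4 12 0 0 0 6
(.lf 0 false 1 true false 0 0) (.lf 0 false 1 true false 0 0)) (.lf 0 false 0 false false 0 0)))))

def t0_21_1 : T3 :=
(.s 0 8 0 0 0 0 0 14
(.s 0 1 0 0 0 0 0 1
(.lf 3 true 1 false false 0 0) (.s 1 0 0 1 0 0 0 0
(.lf 2 true 1 false false 0 0) (.lf 3 true 1 false false 0 0))) (.s 1 0 0 1 0 0 0 0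
(.s 0 5 0 0 0 0 0 7
(.lf 2 false 1 false false 0 0) (.s 0 4 0 0 0 0 0 4
(.s 1 0 4 12 0 0 0 6
(.lf 1 false 0 false false 0 0) (.lf 2 false 1 false false 0 0)) (.lf 0 false 0 false false 0 0))) (.s 0 4 0 0 0 0 0 4
(.lf 3 false 1 false false 0 0) (.s 0 11 0 0 0 0 0 11
(.s 1 0 4 12 0 0 0 6
(.lf 0 false 0 false false 0 0) (.lf 0 false 0 false false 0 0)) (.lf 0 false 0 false false 0 0)))))

def i0_21 : T2 :=
(.s 3 0 0 1000 0 2736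
(.k 526971 0 0 4235008 3712441 0 t0_21_0) (.k 804522 0 0 5000000 4322017 0 t0_21_1))

theorem hi0_21 : chk2 (leaf0 a0_21 e0_21) 0 i0_21 R21 = true := by
  decide +kernel

def t1_21_0 : T3 :=
(.s 0 8 0 0 0 0 0 14
(.s 0 1 0 0 0 0 0 1
(.lf 3 true 1 true false 0 2) (.s 1 0 0 1 0 0 0 0
(.lf 2 true 1 true false 0 0) (.lf 3 true 1 true false 0 0))) (.s 1 0 0 1 0 0 0 0
(.s 0 5 0 0 0 0 0 7
(.lf 2 false 2 true false 0 0) (.s 0 4 0 0 0 0 0 4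
(.s 1 0 4 12 0 0 0 6
(.lf 1 false 2 false false 0 0) (.lf 2 false 2 false false 0 0)) (.lf 0 false 2 false false 0 0))) (.s 0 4 0 0 0 0 0 4
(.lf 3 false 2 false false 0 0) (.s 0 11 0 0 0 0 0 11
(.s 1 0 4 12 0 0 0 6
(.lf 0 false 2 false false 0 0) (.lf 0 false 2 false false 0 0)) (.lf 0 false 2 false false 0 0)))))

def t1_21_1 : T3 :=
(.s 0 8 0 0 0 0 0 14
(.s 0 1 0 0 0 0 0 1
(.s 0 1 0 0 0 0 0 3
(.lf 3 true 1 false false 2 2) (.s 1 816143 0 0 0 0 0 1505142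
(.lf 3 true 1 false true 1 2) (.s 1 771077 0 0 0 0 0 1195076
(.s 2 0 816143 0 0 5000000 0 3494856
(.lf 3 true 1 false false 2 2) (.lf 3 true 1 false true 1 2)) (.lf 3 true 1 false false 2 2)))) (.s 1 0 0 1 0 0 0 0
(.lf 2 true 1 false true 1 0) (.s 1 816143 0 0 0 0 0 1505142
(.lf 3 true 1 false true 1 0) (.s 1 771077 0 0 0 0 0 1195076
(.s 2 0 816143 0 0 5000000 0 3494856
(.lf 3 true 3 false true 1 0) (.lf 3 true 1 false true 1 0)) (.lf 3 true 2 false false 1 0))))) (.s 1 0 0 1 0 0 0 0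
(.s 0 5 0 0 0 0 0 7
(.s 0 816143 0 0 0 0 0 1505142
(.lf 2 false 1 false true 1 0) (.s 1 816143 0 0 0 0 0 1505142
(.lf 2 false 1 false true 1 0) (.s 2 0 816143 0 0 5000000 0 3494856
(.lf 2 false 3 false true 1 0) (.lf 2 false 1 false true 1 0)))) (.s 0 4 0 0 0 0 0 4
(.s 1 0 4 12 0 0 0 6
(.s 0 3911191 0 0 0 0 0 6020571
(.lf 1 false 1 false true 1 0) (.s 1 816143 0 0 0 0 0 1505142
(.lf 1 false 0 false true 1 0) (.s 0 10177847 0 0 0 0 0 14340923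
(.s 2 0 816143 0 0 5000000 0 3494856
(.lf 1 false 2 false false 1 0) (.lf 1 false 1 true true 1 0)) (.s 1 771077 0 0 0 0 0 1195076
(.s 2 0 816143 0 0 5000000 0 3494856
(.lf 1 false 2 false false 1 0) (.lf 1 false 0 false true 1 0)) (.lf 1 false 2 false false 1 0))))) (.s 4 0 0 0 0 15 0 21
(.s 0 3911191 0 0 0 0 0 6020571
(.s 1 816143 0 0 0 0 0 1505142
(.lf 2 false 1 false true 1 0) (.s 0 771077 0 0 0 0 0 1195076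
(.s 2 0 816143 0 0 5000000 0 3494856
(.lf 2 false 2 false false 1 0) (.lf 2 false 1 false true 1 0)) (.s 1 771077 0 0 0 0 0 1195076
(.s 2 0 816143 0 0 5000000 0 3494856
(.lf 2 false 3 false true 1 0) (.lf 2 false 1 false true 1 0)) (.lf 2 false 2 false false 1 0)))) (.s 0 10177847 0 0 0 0 0 14340923
(.s 1 771077 0 0 0 0 0 1195076
(.s 2 0 816143 0 0 5000000 0 3494856
(.lf 2 false 2 false false 1 0) (.lf 2 false 1 false true 1 0)) (.lf 2 false 2 false false 1 0)) (.lf 2 false 2 false false 1 0))) (.lf 2 false 0 false false 2 0))) (.s 1 816143 0 0 0 0 0 1505142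
(.lf 0 false 0 false true 1 0) (.s 1 771077 0 0 0 0 0 1195076
(.s 2 0 816143 0 0 5000000 0 3494856
(.lf 0 false 2 false false 1 0) (.lf 0 false 0 false true 1 0)) (.lf 0 false 2 false false 1 0))))) (.s 0 4 0 0 0 0 0 4
(.s 4 0 0 0 0 15 0 21
(.lf 3 false 1 false false 2 0) (.lf 3 false 0 false false 2 0)) (.s 0 11 0 0 0 0 0 11
(.s 1 0 4 12 0 0 0 6
(.lf 0 false 2 false false 2 0) (.lf 0 false 2 true false 2 0)) (.lf 0 false 0 true false 2 0)))))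

def i1_21 : T2 :=
(.s 3 0 0 4 0 10
(.k 203667 0 0 1541333 1348667 0 t1_21_0) (.k 1516143 0 3494857 0 0 5000000 t1_21_1))

theorem hi1_21 : chk2 (leaf1 a1_21 e1_21) 10000 i1_21 R21 = true := by
  decide +kernel

theorem ok21 : CellOk R21 a0_21 e0_21 a1_21 e1_21 :=
  ⟨lin21, ⟨_, ho00_21⟩, ⟨_, ho01_21⟩, ⟨_, ho10_21⟩, ⟨_, ho11_21⟩, ⟨_, hi0_21⟩, ⟨_, hi1_21⟩⟩

def R27 : Reg := ⟨⟨0, 0, 0, 0, 0, 0, 0⟩, ⟨1, 0, 0, 0, 0, 0, 0⟩, ⟨1, 0, 0, 0, 0, 0, 1⟩, ⟨1, 0, 0, 0, 0, 0, 0⟩, ⟨1, 0, 0, 0, 3, 0, 3⟩, ⟨1, 0, 0, 0, 1, 0, 1⟩, ⟨1, 0, 0, 0, 0, 0, 1⟩, ⟨3, 0, 0, 0, 0, 0, 3⟩, ⟨0, 0, 0, 0, 0, 0, 0⟩, ⟨0, 0, 0, 0, 1, 0, 0⟩⟩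

def a0_27 : SF := mu 0 34780 222222 0 0 0 71213 0

def e0_27 : SF := mu 118741 0 833333 0 0 0 0 213640

def a1_27 : SF := mu 3200 0 117556 0 0 0 0 0

def e1_27 : SF := mu 83098 0 583333 0 0 0 0 149548

theorem lin27 : chkLin R27 a0_27 e0_27 a1_27 e1_27 = true := by decide +kernel

def o00_27 : T3 :=
(.s 0 8 0 0 0 0 0 14
(.s 0 1 0 0 0 0 0 1
(.lf 3 true 0 false false 0 0) (.s 1 0 0 1 0 0 0 0
(.lf 2 true 0 false false 0 0) (.lf 3 true 0 false false 0 0))) (.s 1 0 0 1 0 0 0 0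
(.s 0 5 0 0 0 0 0 7
(.lf 2 false 0 false false 0 0) (.s 0 4 0 0 0 0 0 4
(.s 1 0 4 12 0 0 0 6
(.lf 1 false 0 false false 0 0) (.lf 2 false 0 false false 0 0)) (.lf 0 false 0 false false 0 0))) (.s 0 4 0 0 0 0 0 4
(.lf 3 false 0 false false 0 0) (.s 0 11 0 0 0 0 0 11
(.s 1 0 4 12 0 0 0 6
(.lf 0 false 0 false false 0 0) (.lf 0 false 0 false false 0 0)) (.lf 0 false 0 false false 0 0)))))

theorem ho00_27 : chk3 (leafO 10500000 3 a0_27 e0_27 R27.x0.ap R27.x0.m) o00_27 (full R27) = true := by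
  decide +kernel

def o01_27 : T3 :=
(.s 0 8 0 0 0 0 0 14
(.s 0 1 0 0 0 0 0 1
(.lf 3 true 0 false false 0 0) (.s 1 0 0 1 0 0 0 0
(.lf 2 true 0 false false 0 0) (.lf 3 true 0 false false 0 0))) (.s 1 0 0 1 0 0 0 0
(.s 0 5 0 0 0 0 0 7
(.lf 2 false 0 false false 0 0) (.s 0 4 0 0 0 0 0 4
(.s 1 0 4 12 0 0 0 6
(.lf 1 false 0 false false 0 0) (.lf 2 false 0 false false 0 0)) (.lf 0 false 0 false false 0 0))) (.s 0 4 0 0 0 0 0 4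
(.lf 3 false 0 false false 0 0) (.s 0 11 0 0 0 0 0 11
(.s 1 0 4 12 0 0 0 6
(.lf 0 false 0 false false 0 0) (.lf 0 false 0 false false 0 0)) (.lf 0 false 0 false false 0 0)))))

theorem ho01_27 : chk3 (leafO 10500000 3 a0_27 e0_27 R27.x1.ap R27.x1.m) o01_27 (full R27) = true := by
  decide +kernel

def o10_27 : T3 :=
(.s 0 8 0 0 0 0 0 14
(.s 0 1 0 0 0 0 0 1
(.lf 3 true 0 false false 0 0) (.s 1 0 0 1 0 0 0 0
(.lf 2 true 0 false false 0 0) (.lf 3 true 0 false false 0 0))) (.s 1 0 0 1 0 0 0 0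
(.s 0 5 0 0 0 0 0 7
(.lf 2 false 0 false false 0 0) (.s 0 4 0 0 0 0 0 4
(.s 1 0 4 12 0 0 0 6
(.lf 1 false 0 false false 0 0) (.lf 2 false 0 false false 0 0)) (.lf 0 false 0 false false 0 0))) (.s 0 4 0 0 0 0 0 4
(.lf 3 false 0 false false 0 0) (.s 0 11 0 0 0 0 0 11
(.s 1 0 4 12 0 0 0 6
(.lf 0 false 0 false false 0 0) (.lf 0 false 0 false false 0 0)) (.lf 0 false 0 false false 0 0)))))

theorem ho10_27 : chk3 (leafO 5554500 1 a1_27 e1_27 R27.x0.ap R27.x0.m) o10_27 (full R27) = true := by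
  decide +kernel

def o11_27 : T3 :=
(.s 0 8 0 0 0 0 0 14
(.s 0 1 0 0 0 0 0 1
(.lf 3 true 0 false false 0 0) (.s 1 0 0 1 0 0 0 0
(.lf 2 true 0 false false 0 0) (.lf 3 true 0 false false 0 0))) (.s 1 0 0 1 0 0 0 0
(.s 0 5 0 0 0 0 0 7
(.lf 2 false 0 false false 0 0) (.s 0 4 0 0 0 0 0 4
(.s 1 0 4 12 0 0 0 6
(.lf 1 false 0 false false 0 0) (.lf 2 false 0 false false 0 0)) (.lf 0 false 0 false false 0 0))) (.s 0 4 0 0 0 0 0 4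
(.lf 3 false 0 false false 0 0) (.s 0 11 0 0 0 0 0 11
(.s 1 0 4 12 0 0 0 6
(.lf 0 false 0 false false 0 0) (.lf 0 false 0 false false 0 0)) (.lf 0 false 0 false false 0 0)))))

theorem ho11_27 : chk3 (leafO 5554500 1 a1_27 e1_27 R27.x1.ap R27.x1.m) o11_27 (full R27) = true := by
  decide +kernel

def t0_27_0 : T3 :=
(.s 0 8 0 0 0 0 0 14
(.s 0 1 0 0 0 0 0 1
(.s 0 1263 0 0 0 0 0 3999
(.s 3 2000 0 0 2000 0 0 2736
(.lf 3 true 1 true false 0 0) (.s 4 1000 0 0 1000 0 0 2736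
(.lf 3 true 1 true false 0 0) (.lf 3 true 1 false false 0 0))) (.s 4 1000 0 0 1000 0 0 2736
(.lf 3 true 1 true false 0 0) (.lf 3 true 1 false false 0 0))) (.s 1 0 0 1 0 0 0 0
(.lf 2 true 1 false false 0 0) (.lf 3 true 1 false false 0 0))) (.s 1 0 0 1 0 0 0 0
(.s 0 5 0 0 0 0 0 7
(.lf 2 false 1 false false 0 0) (.s 0 4 0 0 0 0 0 4
(.s 1 0 4 12 0 0 0 6
(.lf 1 false 1 true false 0 0) (.lf 2 false 1 false false 0 0)) (.lf 0 false 0 false false 0 0))) (.s 0 4 0 0 0 0 0 4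
(.lf 3 false 1 false false 0 0) (.s 0 11 0 0 0 0 0 11
(.s 1 0 4 12 0 0 0 6
(.lf 0 false 1 false false 0 0) (.lf 0 false 1 false false 0 0)) (.lf 0 false 0 false false 0 0)))))

def t0_27_1 : T3 :=
(.s 0 8 0 0 0 0 0 14
(.s 0 1 0 0 0 0 0 1
(.lf 3 true 1 false false 0 0) (.s 1 0 0 1 0 0 0 0
(.lf 2 true 1 false false 0 0) (.lf 3 true 1 false false 0 0))) (.s 1 0 0 1 0 0 0 0
(.s 0 5 0 0 0 0 0 7
(.lf 2 false 1 false false 0 0) (.s 0 4 0 0 0 0 0 4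
(.s 1 0 4 12 0 0 0 6
(.lf 1 false 0 false false 0 0) (.lf 2 false 0 false false 0 0)) (.lf 0 false 0 false false 0 0))) (.s 0 4 0 0 0 0 0 4
(.lf 3 false 0 false false 0 0) (.s 0 11 0 0 0 0 0 11
(.s 1 0 4 12 0 0 0 6
(.lf 0 false 0 true false 0 0) (.lf 0 false 0 true false 0 0)) (.lf 0 false 0 false false 0 0)))))

def i0_27 : T2 :=
(.s 3 0 0 1 0 1
(.k 644200 0 0 1715200 1286401 0 t0_27_0) (.k 443399 0 0 2000000 2192401 0 t0_27_1))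

theorem hi0_27 : chk2 (leaf0 a0_27 e0_27) 0 i0_27 R27 = true := by
  decide +kernel

def t1_27_0 : T3 :=
(.s 0 8 0 0 0 0 0 14
(.s 0 1 0 0 0 0 0 1
(.lf 3 true 1 true false 0 2) (.s 1 0 0 1 0 0 0 0
(.lf 2 true 1 true false 0 0) (.lf 3 true 1 true false 0 0))) (.s 1 0 0 1 0 0 0 0
(.s 0 5 0 0 0 0 0 7
(.lf 2 false 1 true false 0 0) (.s 0 4 0 0 0 0 0 4
(.s 1 0 4 12 0 0 0 6
(.lf 1 false 2 false false 0 0) (.lf 2 false 1 true false 0 0)) (.lf 0 false 2 false false 0 0))) (.s 0 4 0 0 0 0 0 4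
(.lf 3 false 1 true false 0 0) (.s 0 11 0 0 0 0 0 11
(.s 1 0 4 12 0 0 0 6
(.lf 0 false 2 true false 0 0) (.lf 0 false 2 true false 0 0)) (.lf 0 false 2 false false 0 0)))))

def t1_27_1 : T3 :=
(.s 0 8 0 0 0 0 0 14
(.s 0 1 0 0 0 0 0 1
(.s 0 1 0 0 0 0 0 3
(.lf 3 true 1 false false 2 2) (.s 0 2 0 0 0 0 0 4
(.lf 3 true 1 false false 2 2) (.s 1 22531 0 0 0 0 0 35780
(.s 2 332097 0 0 0 1090153 0 1249999
(.s 3 3 0 0 0 0 0 4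
(.lf 3 true 1 false false 2 2) (.lf 3 true 2 false false 1 0)) (.s 3 3 0 0 0 0 0 4
(.lf 3 true 1 false false 2 2) (.lf 3 true 1 false true 1 0))) (.lf 3 true 2 false false 1 2)))) (.s 1 0 0 1 0 0 0 0
(.s 2 332097 0 0 0 1090153 0 1249999
(.s 3 3 0 0 0 0 0 4
(.lf 2 true 1 false false 2 0) (.lf 2 true 2 false false 1 0)) (.s 3 11 0 0 11 0 0 7
(.s 4 7 0 0 7 0 4 2
(.lf 2 true 1 false false 1 0) (.lf 2 true 1 false true 1 0)) (.lf 2 true 1 false true 1 0))) (.s 1 22531 0 0 0 0 0 35780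
(.s 2 332097 0 0 0 1090153 0 1249999
(.s 3 3 0 0 0 0 0 4
(.lf 3 true 1 false false 2 0) (.lf 3 true 2 false false 1 0)) (.s 3 11 0 0 11 0 0 7
(.s 4 7 0 0 7 0 4 2
(.lf 3 true 1 false false 1 0) (.lf 3 true 1 false true 1 0)) (.lf 3 true 1 false true 1 0))) (.lf 3 true 2 false false 1 0)))) (.s 1 0 0 1 0 0 0 0
(.s 0 5 0 0 0 0 0 7
(.s 2 332097 0 0 0 1090153 0 1249999
(.lf 2 false 2 false false 1 0) (.lf 2 false 1 false true 1 0)) (.s 0 4 0 0 0 0 0 4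
(.s 1 0 4 12 0 0 0 6
(.s 0 300841 0 0 0 0 0 429371
(.s 2 332097 0 0 0 1090153 0 1249999
(.lf 1 false 2 false false 1 0) (.lf 1 false 1 true true 1 0)) (.s 1 22531 0 0 0 0 0 35780
(.s 2 332097 0 0 0 1090153 0 1249999
(.lf 1 false 2 false false 1 0) (.lf 1 false 0 true true 1 0)) (.lf 1 false 2 false false 1 0))) (.s 0 300841 0 0 0 0 0 429371
(.s 0 22531 0 0 0 0 0 35780
(.s 2 332097 0 0 0 1090153 0 1249999
(.lf 2 false 2 false false 1 0) (.lf 2 false 1 false true 1 0)) (.s 1 22531 0 0 0 0 0 35780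
(.s 2 332097 0 0 0 1090153 0 1249999
(.lf 2 false 2 false false 1 0) (.lf 2 false 1 false true 1 0)) (.lf 2 false 2 false false 1 0))) (.lf 2 false 2 false false 1 0))) (.s 1 22531 0 0 0 0 0 35780
(.s 2 332097 0 0 0 1090153 0 1249999
(.lf 0 false 2 false false 1 0) (.lf 0 false 0 true true 1 0)) (.lf 0 false 2 false false 1 0)))) (.s 0 4 0 0 0 0 0 4
(.s 0 22531 0 0 0 0 0 35780
(.s 1 22531 0 0 0 0 0 35780
(.s 2 332097 0 0 0 1090153 0 1249999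
(.lf 3 false 2 false false 1 0) (.lf 3 false 1 false true 1 0)) (.lf 3 false 2 false false 1 0)) (.lf 3 false 2 false false 1 0)) (.s 0 11 0 0 0 0 0 11
(.s 1 0 4 12 0 0 0 6
(.lf 0 false 2 false false 2 0) (.lf 0 false 2 false false 2 0)) (.lf 0 false 0 false false 2 0)))))

def i1_27 : T2 :=
(.s 3 0 0 4 0 10
(.k 349667 0 0 677333 338667 0 t1_27_0) (.k 0 628388 5000000 0 0 4360612 t1_27_1))

theorem hi1_27 : chk2 (leaf1 a1_27 e1_27) 10000 i1_27 R27 = true := by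
  decide +kernel

theorem ok27 : CellOk R27 a0_27 e0_27 a1_27 e1_27 :=
  ⟨lin27, ⟨_, ho00_27⟩, ⟨_, ho01_27⟩, ⟨_, ho10_27⟩, ⟨_, ho11_27⟩, ⟨_, hi0_27⟩, ⟨_, hi1_27⟩⟩

def R30 : Reg := ⟨⟨0, 0, 0, 0, 0, 0, 0⟩, ⟨1, 0, 0, 0, 0, 0, 0⟩, ⟨1, 0, 0, 0, 0, 0, 9⟩, ⟨1, 0, 0, 0, 0, 0, 3⟩, ⟨0, 0, 0, 0, 1, 0, 0⟩, ⟨1, 0, 0, 0, 1, 0, 1⟩, ⟨3, 0, 0, 0, 0, 0, 3⟩, ⟨4, 0, 0, 0, 0, 0, 4⟩, ⟨0, 0, 0, 0, 0, 0, 0⟩, ⟨0, 0, 0, 0, 1, 0, 0⟩⟩

def a0_30 : SF := mu 169628 0 0 210350 0 2694 338850 0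

def e0_30 : SF := mu 0 1452353 1897121 0 2185654 0 0 1124491

def a1_30 : SF := mu 0 11114 22563 0 0 14228 189395 0

def e1_30 : SF := mu 0 187492 200533 0 1596458 0 0 988770

theorem lin30 : chkLin R30 a0_30 e0_30 a1_30 e1_30 = true := by decide +kernel

def o00_30 : T3 :=
(.s 0 8 0 0 0 0 0 14
(.s 0 1 0 0 0 0 0 9
(.lf 3 true 0 false false 0 0) (.s 0 1 0 0 0 0 0 3
(.s 1 0 0 1 0 0 0 0
(.s 2 0 0 1 0 0 0 0
(.s 1 1 0 10 0 0 0 19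
(.s 0 1 0 0 0 0 0 4
(.s 0 3 0 0 0 0 0 19
(.lf 2 true 0 true false 0 0) (.s 0 7 0 0 0 0 0 39
(.lf 2 true 0 true false 0 0) (.lf 2 true 0 true false 0 0))) (.s 1 3 0 10 0 0 0 39
(.lf 2 true 0 true false 0 0) (.lf 2 true 0 true false 0 0))) (.lf 2 true 0 true false 0 0)) (.s 1 1 0 10 0 0 0 19
(.s 0 1 0 0 0 0 0 4
(.s 0 3 0 0 0 0 0 19
(.lf 2 true 0 false false 0 0) (.s 0 7 0 0 0 0 0 39
(.lf 2 true 0 false false 0 0) (.lf 2 true 0 false false 0 0))) (.s 1 3 0 10 0 0 0 39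
(.lf 2 true 0 false false 0 0) (.lf 2 true 0 false false 0 0))) (.lf 2 true 0 false false 0 0))) (.lf 3 true 0 false false 0 0)) (.s 0 47 0 0 0 0 0 119
(.s 2 0 0 1 0 0 0 0
(.s 1 1 0 0 0 0 0 4
(.s 0 3 0 0 0 0 0 9
(.s 1 3 0 0 0 0 0 19
(.lf 2 true 0 true false 0 0) (.s 0 11 0 0 0 0 0 39
(.lf 2 true 0 true false 0 0) (.lf 2 true 0 true false 0 0))) (.lf 2 true 0 true false 0 0)) (.s 0 3 0 0 0 0 0 9
(.lf 2 true 0 true false 0 0) (.s 0 7 0 0 0 0 0 19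
(.s 0 13 0 0 0 0 0 39
(.lf 2 true 0 true false 0 0) (.lf 2 true 0 true false 0 0)) (.lf 2 true 0 true false 0 0)))) (.s 1 1 0 0 0 0 0 4
(.s 0 3 0 0 0 0 0 9
(.s 1 3 0 0 0 0 0 19
(.lf 2 true 0 false false 0 0) (.s 0 11 0 0 0 0 0 39
(.lf 2 true 0 false false 0 0) (.lf 2 true 0 false false 0 0))) (.lf 2 true 0 false false 0 0)) (.s 0 3 0 0 0 0 0 9
(.lf 2 true 0 false false 0 0) (.s 0 7 0 0 0 0 0 19
(.s 0 13 0 0 0 0 0 39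
(.lf 2 true 0 false false 0 0) (.lf 2 true 0 false false 0 0)) (.lf 2 true 0 false false 0 0))))) (.s 0 23 0 0 0 0 0 47
(.s 1 0 4 12 0 0 0 6
(.s 2 0 0 1 0 0 0 0
(.lf 1 true 0 true false 0 0) (.lf 1 true 0 false false 0 0)) (.s 2 0 0 1 0 0 0 0
(.lf 2 true 0 true false 0 0) (.lf 2 true 0 false false 0 0))) (.s 2 0 0 1 0 0 0 0
(.lf 1 true 0 true false 0 0) (.lf 1 true 0 false false 0 0)))))) (.s 0 11 0 0 0 0 0 19
(.s 2 0 0 1 0 0 0 0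
(.lf 1 false 0 true false 0 0) (.lf 1 false 0 false false 0 0)) (.s 0 5 0 0 0 0 0 7
(.s 1 0 1 2 0 0 0 0
(.lf 1 false 0 true false 0 0) (.s 2 0 0 1 0 0 0 0
(.lf 1 false 0 true false 0 0) (.lf 1 false 0 false false 0 0))) (.lf 1 false 0 true false 0 0))))

theorem ho00_30 : chk3 (leafO 10500000 3 a0_30 e0_30 R30.x0.ap R30.x0.m) o00_30 (full R30) = true := by
  decide +kernel

def o01_30 : T3 :=
(.s 0 8 0 0 0 0 0 14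
(.s 0 1 0 0 0 0 0 9
(.lf 3 true 0 false false 0 0) (.s 0 1 0 0 0 0 0 3
(.s 1 0 0 1 0 0 0 0
(.s 2 0 0 1 0 0 0 0
(.s 1 1 0 10 0 0 0 19
(.lf 2 true 0 true false 0 0) (.lf 2 true 0 true false 0 0)) (.s 1 1 0 10 0 0 0 19
(.lf 2 true 0 false false 0 0) (.lf 2 true 0 false false 0 0))) (.lf 3 true 0 false false 0 0)) (.s 0 47 0 0 0 0 0 119
(.s 2 0 0 1 0 0 0 0
(.s 1 1 0 0 0 0 0 4
(.lf 2 true 0 true false 0 0) (.s 0 3 0 0 0 0 0 9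
(.lf 2 true 0 true false 0 0) (.lf 2 true 0 true false 0 0))) (.s 1 1 0 0 0 0 0 4
(.lf 2 true 0 false false 0 0) (.s 0 3 0 0 0 0 0 9
(.lf 2 true 0 false false 0 0) (.lf 2 true 0 false false 0 0)))) (.s 0 23 0 0 0 0 0 47
(.s 1 0 4 12 0 0 0 6
(.s 2 0 0 1 0 0 0 0
(.lf 1 true 0 true false 0 0) (.lf 1 true 0 false false 0 0)) (.s 2 0 0 1 0 0 0 0
(.lf 2 true 0 true false 0 0) (.lf 2 true 0 false false 0 0))) (.s 2 0 0 1 0 0 0 0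
(.lf 1 true 0 true false 0 0) (.lf 1 true 0 false false 0 0)))))) (.s 0 11 0 0 0 0 0 19
(.s 2 0 0 1 0 0 0 0
(.lf 1 false 0 true false 0 0) (.lf 1 false 0 false false 0 0)) (.s 0 5 0 0 0 0 0 7
(.s 1 0 1 2 0 0 0 0
(.lf 1 false 0 true false 0 0) (.s 2 0 0 1 0 0 0 0
(.lf 1 false 0 true false 0 0) (.lf 1 false 0 false false 0 0))) (.lf 1 false 0 true false 0 0))))

theorem ho01_30 : chk3 (leafO 10500000 3 a0_30 e0_30 R30.x1.ap R30.x1.m) o01_30 (full R30) = true := by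
  decide +kernel

def o10_30 : T3 :=
(.s 0 8 0 0 0 0 0 14
(.s 0 1 0 0 0 0 0 9
(.lf 3 true 0 false false 0 0) (.s 0 1 0 0 0 0 0 3
(.s 1 0 0 1 0 0 0 0
(.s 2 0 0 1 0 0 0 0
(.s 2 0 0 1 0 1 0 1
(.lf 2 true 0 true false 0 0) (.s 1 1 0 10 0 0 0 19
(.s 0 1 0 0 0 0 0 4
(.s 0 3 0 0 0 0 0 19
(.s 0 1 0 0 0 0 0 7
(.lf 2 true 0 true false 0 0) (.s 0 7 0 0 0 0 0 49
(.lf 2 true 0 true false 0 0) (.lf 2 true 0 true false 0 0))) (.s 1 3 0 10 0 0 0 39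
(.lf 2 true 0 true false 0 0) (.lf 2 true 0 true false 0 0))) (.lf 2 true 0 true false 0 0)) (.s 0 1 0 0 0 0 0 4
(.s 0 3 0 0 0 0 0 19
(.lf 2 true 0 true false 0 0) (.lf 2 true 0 true false 0 0)) (.s 1 1 0 30 0 0 0 39
(.lf 2 true 0 true false 0 0) (.lf 2 true 0 true false 0 0))))) (.s 2 1 0 2 0 1 0 3
(.s 2 1 0 6 0 1 0 7
(.s 2 1 0 14 0 1 0 15
(.s 2 1 0 30 0 1 0 31
(.s 1 1 0 10 0 0 0 19
(.s 0 1 0 0 0 0 0 4
(.s 0 3 0 0 0 0 0 19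
(.s 0 1 0 0 0 0 0 7
(.lf 2 true 0 false false 0 0) (.s 0 7 0 0 0 0 0 49
(.lf 2 true 0 false false 0 0) (.lf 2 true 0 false false 0 0))) (.s 1 3 0 10 0 0 0 39
(.lf 2 true 0 false false 0 0) (.lf 2 true 0 false false 0 0))) (.lf 2 true 0 false false 0 0)) (.s 0 1 0 0 0 0 0 4
(.s 0 3 0 0 0 0 0 19
(.lf 2 true 0 false false 0 0) (.lf 2 true 0 false false 0 0)) (.s 1 1 0 30 0 0 0 39
(.lf 2 true 0 false false 0 0) (.lf 2 true 0 false false 0 0)))) (.lf 2 true 0 false false 0 0)) (.lf 2 true 0 false false 0 0)) (.lf 2 true 0 false false 0 0)) (.lf 2 true 0 false false 0 0))) (.lf 3 true 0 false false 0 0)) (.s 0 47 0 0 0 0 0 119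
(.s 2 0 0 1 0 0 0 0
(.s 1 1 0 0 0 0 0 4
(.lf 2 true 0 true false 0 0) (.s 0 3 0 0 0 0 0 9
(.s 0 11 0 0 0 0 0 39
(.lf 2 true 0 true false 0 0) (.lf 2 true 0 true false 0 0)) (.lf 2 true 0 true false 0 0))) (.s 1 1 0 0 0 0 0 4
(.lf 2 true 0 false false 0 0) (.s 0 3 0 0 0 0 0 9
(.s 0 11 0 0 0 0 0 39
(.lf 2 true 0 false false 0 0) (.lf 2 true 0 false false 0 0)) (.lf 2 true 0 false false 0 0)))) (.s 0 23 0 0 0 0 0 47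
(.s 1 0 4 12 0 0 0 6
(.s 2 0 0 1 0 0 0 0
(.lf 1 true 0 true false 0 0) (.lf 1 true 0 false false 0 0)) (.s 2 0 0 1 0 0 0 0
(.lf 2 true 0 true false 0 0) (.lf 2 true 0 false false 0 0))) (.s 2 0 0 1 0 0 0 0
(.lf 1 true 0 true false 0 0) (.lf 1 true 0 false false 0 0)))))) (.s 0 11 0 0 0 0 0 19
(.s 2 0 0 1 0 0 0 0
(.lf 1 false 0 true false 0 0) (.lf 1 false 0 false false 0 0)) (.s 0 5 0 0 0 0 0 7
(.s 1 0 1 2 0 0 0 0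
(.lf 1 false 0 true false 0 0) (.s 2 0 0 1 0 0 0 0
(.lf 1 false 0 true false 0 0) (.lf 1 false 0 false false 0 0))) (.lf 1 false 0 true false 0 0))))

theorem ho10_30 : chk3 (leafO 5554500 1 a1_30 e1_30 R30.x0.ap R30.x0.m) o10_30 (full R30) = true := by
  decide +kernel

def o11_30 : T3 :=
(.s 0 8 0 0 0 0 0 14
(.s 0 1 0 0 0 0 0 9
(.lf 3 true 0 false false 0 0) (.s 0 1 0 0 0 0 0 3
(.s 1 0 0 1 0 0 0 0
(.s 2 0 0 1 0 0 0 0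
(.s 1 1 0 10 0 0 0 19
(.s 0 1 0 0 0 0 0 4
(.s 0 3 0 0 0 0 0 19
(.s 0 1 0 0 0 0 0 7
(.lf 2 true 0 true false 0 0) (.lf 2 true 0 true false 0 0)) (.s 0 7 0 0 0 0 0 39
(.lf 2 true 0 true false 0 0) (.lf 2 true 0 true false 0 0))) (.lf 2 true 0 true false 0 0)) (.s 1 1 0 30 0 0 0 39
(.s 0 1 0 0 0 0 0 4
(.lf 2 true 0 true false 0 0) (.lf 2 true 0 true false 0 0)) (.lf 2 true 0 true false 0 0))) (.s 1 1 0 10 0 0 0 19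
(.s 0 1 0 0 0 0 0 4
(.s 0 3 0 0 0 0 0 19
(.s 0 1 0 0 0 0 0 7
(.lf 2 true 0 false false 0 0) (.lf 2 true 0 false false 0 0)) (.s 0 7 0 0 0 0 0 39
(.lf 2 true 0 false false 0 0) (.lf 2 true 0 false false 0 0))) (.lf 2 true 0 false false 0 0)) (.s 1 1 0 30 0 0 0 39
(.s 0 1 0 0 0 0 0 4
(.lf 2 true 0 false false 0 0) (.lf 2 true 0 false false 0 0)) (.lf 2 true 0 false false 0 0)))) (.lf 3 true 0 false false 0 0)) (.s 0 47 0 0 0 0 0 119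
(.s 2 0 0 1 0 0 0 0
(.s 1 1 0 0 0 0 0 4
(.lf 2 true 0 true false 0 0) (.s 0 3 0 0 0 0 0 9
(.s 1 9 0 0 0 0 0 39
(.s 0 11 0 0 0 0 0 39
(.lf 2 true 0 true false 0 0) (.lf 2 true 0 true false 0 0)) (.s 0 11 0 0 0 0 0 39
(.lf 2 true 0 true false 0 0) (.lf 2 true 0 true false 0 0))) (.lf 2 true 0 true false 0 0))) (.s 1 1 0 0 0 0 0 4
(.lf 2 true 0 false false 0 0) (.s 0 3 0 0 0 0 0 9
(.s 1 9 0 0 0 0 0 39
(.s 0 11 0 0 0 0 0 39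
(.lf 2 true 0 false false 0 0) (.lf 2 true 0 false false 0 0)) (.s 0 11 0 0 0 0 0 39
(.lf 2 true 0 false false 0 0) (.lf 2 true 0 false false 0 0))) (.lf 2 true 0 false false 0 0)))) (.s 0 23 0 0 0 0 0 47
(.s 1 0 4 12 0 0 0 6
(.s 2 0 0 1 0 0 0 0
(.lf 1 true 0 true false 0 0) (.lf 1 true 0 false false 0 0)) (.s 2 0 0 1 0 0 0 0
(.lf 2 true 0 true false 0 0) (.lf 2 true 0 false false 0 0))) (.s 2 0 0 1 0 0 0 0
(.lf 1 true 0 true false 0 0) (.lf 1 true 0 false false 0 0)))))) (.s 0 11 0 0 0 0 0 19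
(.s 2 0 0 1 0 0 0 0
(.lf 1 false 0 true false 0 0) (.lf 1 false 0 false false 0 0)) (.s 0 5 0 0 0 0 0 7
(.s 1 0 1 2 0 0 0 0
(.lf 1 false 0 true false 0 0) (.s 2 0 0 1 0 0 0 0
(.lf 1 false 0 true false 0 0) (.lf 1 false 0 false false 0 0))) (.lf 1 false 0 true false 0 0))))

theorem ho11_30 : chk3 (leafO 5554500 1 a1_30 e1_30 R30.x1.ap R30.x1.m) o11_30 (full R30) = true := by
  decide +kernel

def t0_30_0 : T3 :=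
(.s 0 8 0 0 0 0 0 14
(.s 0 1 0 0 0 0 0 9
(.lf 3 true 1 true false 0 0) (.s 0 1 0 0 0 0 0 3
(.s 1 0 0 1 0 0 0 0
(.s 0 1 0 0 0 0 0 4
(.lf 2 true 1 true false 0 0) (.s 3 1 0 0 1 0 0 0
(.lf 2 true 1 true false 0 0) (.s 4 1000 0 0 1000 0 0 2736
(.lf 2 true 1 true false 0 0) (.lf 2 true 1 false false 0 0)))) (.s 0 1 0 0 0 0 0 4
(.lf 3 true 1 true false 0 0) (.s 3 1 0 0 1 0 0 0
(.lf 3 true 1 true false 0 0) (.s 4 1000 0 0 1000 0 0 2736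
(.lf 3 true 1 true false 0 0) (.lf 3 true 1 false false 0 0))))) (.s 0 47 0 0 0 0 0 119
(.s 4 1000 0 0 1000 0 0 2736
(.lf 2 true 1 true false 0 0) (.lf 2 true 1 false false 0 0)) (.s 0 23 0 0 0 0 0 47
(.s 1 0 4 12 0 0 0 6
(.lf 1 true 1 true false 0 0) (.lf 2 true 1 true false 0 0)) (.lf 1 true 1 false false 0 0))))) (.lf 1 false 0 false false 0 0))

def t0_30_1 : T3 :=
(.s 0 8 0 0 0 0 0 14
(.s 0 1 0 0 0 0 0 9
(.lf 3 true 1 false false 0 0) (.s 0 1 0 0 0 0 0 3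
(.s 1 0 0 1 0 0 0 0
(.lf 2 true 1 false false 0 0) (.lf 3 true 1 false false 0 0)) (.s 0 47 0 0 0 0 0 119
(.lf 2 true 1 false false 0 0) (.s 0 23 0 0 0 0 0 47
(.s 1 0 4 12 0 0 0 6
(.lf 1 true 1 false false 0 0) (.lf 2 true 1 false false 0 0)) (.lf 1 true 1 false false 0 0))))) (.lf 1 false 0 true false 0 0))

def i0_30 : T2 :=
(.s 3 0 0 1000 0 2736
(.k 719994 0 0 1342421 480075 0 t0_30_0) (.k 1162091 0 0 1192577 0 441818 t0_30_1))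

theorem hi0_30 : chk2 (leaf0 a0_30 e0_30) 0 i0_30 R30 = true := by
  decide +kernel

def t1_30_0 : T3 :=
(.s 0 8 0 0 0 0 0 14
(.s 0 1 0 0 0 0 0 9
(.lf 3 true 1 true false 0 1) (.s 0 1 0 0 0 0 0 3
(.s 1 0 0 1 0 0 0 0
(.lf 2 true 1 true false 0 2) (.lf 3 true 1 true false 0 2)) (.s 0 47 0 0 0 0 0 119
(.lf 2 true 1 true false 0 0) (.s 0 23 0 0 0 0 0 47
(.s 1 0 4 12 0 0 0 6
(.lf 1 true 1 false false 0 0) (.lf 2 true 1 true false 0 0)) (.lf 1 true 1 false false 0 0))))) (.lf 1 false 2 false false 0 0))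

def t1_30_1 : T3 :=
(.s 0 8 0 0 0 0 0 14
(.s 0 1 0 0 0 0 0 9
(.lf 3 true 1 false false 2 1) (.s 0 1 0 0 0 0 0 3
(.s 1 0 0 1 0 0 0 0
(.s 4 0 0 0 0 11 0 20
(.lf 2 true 1 false false 1 2) (.s 2 1 0 0 0 3 0 3
(.s 2 1 0 0 0 7 0 7
(.s 4 0 0 0 0 16 0 20
(.s 0 1 0 0 0 0 0 4
(.lf 2 true 1 false false 2 2) (.s 0 3 0 0 0 0 0 13
(.s 3 21 0 0 21 0 0 21
(.lf 2 true 1 false false 2 1) (.s 3 42 0 0 42 0 0 42
(.s 4 0 10 10 0 11 0 0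
(.lf 2 true 1 false false 2 0) (.lf 2 true 1 false false 2 1)) (.lf 2 true 1 false false 2 0))) (.s 0 13 0 0 0 0 0 55
(.s 3 42 0 0 42 0 0 42
(.s 4 0 10 10 0 11 0 0
(.lf 2 true 1 false false 2 0) (.lf 2 true 1 false false 2 1)) (.lf 2 true 1 false false 2 0)) (.lf 2 true 1 false false 2 0)))) (.s 1 1 0 10 0 0 0 19
(.s 0 1 0 0 0 0 0 4
(.lf 2 true 1 false false 2 2) (.s 3 1 0 0 1 0 0 0
(.lf 2 true 1 false false 2 2) (.s 4 1 0 0 1 0 0 0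
(.lf 2 true 1 false false 2 0) (.lf 2 true 0 false true 2 0)))) (.s 0 1 0 0 0 0 0 4
(.s 0 19 0 0 0 0 0 104
(.lf 2 true 1 false false 2 1) (.s 3 42 0 0 42 0 0 42
(.lf 2 true 1 false false 2 1) (.s 4 0 10 10 0 11 0 0
(.lf 2 true 1 false false 2 0) (.lf 2 true 1 false false 2 1)))) (.s 3 1 0 0 1 0 0 0
(.s 0 13 0 0 0 0 0 55
(.s 3 42 0 0 42 0 0 42
(.lf 2 true 1 false false 2 1) (.s 4 0 10 10 0 11 0 0
(.lf 2 true 1 false false 2 0) (.lf 2 true 1 false false 2 1))) (.s 4 0 10 10 0 11 0 0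
(.lf 2 true 1 false false 2 0) (.lf 2 true 1 false false 2 1))) (.s 4 7 0 0 7 0 4 2
(.lf 2 true 1 false false 2 0) (.lf 2 true 1 false true 2 0)))))) (.lf 2 true 1 false false 2 2)) (.lf 2 true 1 false false 2 2))) (.s 4 0 0 0 0 11 0 20
(.lf 3 true 1 false false 1 2) (.s 2 1 0 0 0 3 0 3
(.s 2 1 0 0 0 7 0 7
(.s 4 0 0 0 0 16 0 20
(.s 0 1 0 0 0 0 0 4
(.lf 3 true 1 false false 2 2) (.s 0 3 0 0 0 0 0 13
(.s 3 21 0 0 21 0 0 21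
(.lf 3 true 1 false false 2 1) (.s 3 42 0 0 42 0 0 42
(.s 4 0 10 10 0 11 0 0
(.lf 3 true 1 false false 2 0) (.lf 3 true 1 false false 2 1)) (.lf 3 true 1 false false 2 0))) (.s 0 13 0 0 0 0 0 55
(.s 3 42 0 0 42 0 0 42
(.s 4 0 10 10 0 11 0 0
(.lf 3 true 1 false false 2 0) (.lf 3 true 1 false false 2 1)) (.lf 3 true 1 false false 2 0)) (.lf 3 true 1 false false 2 0)))) (.s 0 1 0 0 0 0 0 4
(.s 0 19 0 0 0 0 0 104
(.lf 3 true 1 false false 2 1) (.s 3 42 0 0 42 0 0 42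
(.lf 3 true 1 false false 2 1) (.s 4 0 10 10 0 11 0 0
(.lf 3 true 1 false false 2 0) (.lf 3 true 1 false false 2 1)))) (.s 3 1 0 0 1 0 0 0
(.s 0 13 0 0 0 0 0 55
(.s 3 42 0 0 42 0 0 42
(.lf 3 true 1 false false 2 1) (.s 4 0 10 10 0 11 0 0
(.lf 3 true 1 false false 2 0) (.lf 3 true 1 false false 2 1))) (.s 4 0 10 10 0 11 0 0
(.lf 3 true 1 false false 2 0) (.lf 3 true 1 false false 2 1))) (.s 4 7 0 0 7 0 4 2
(.lf 3 true 1 false false 2 0) (.lf 3 true 1 false true 2 0))))) (.lf 3 true 1 false false 2 2)) (.lf 3 true 1 false false 2 2)))) (.s 0 47 0 0 0 0 0 119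
(.s 4 7 0 0 7 0 4 2
(.lf 2 true 1 false false 2 0) (.lf 2 true 1 false true 2 0)) (.s 0 23 0 0 0 0 0 47
(.s 1 0 4 12 0 0 0 6
(.lf 1 true 1 false true 1 0) (.lf 2 true 1 false true 1 0)) (.lf 1 true 1 false true 1 0))))) (.lf 1 false 0 false true 1 0))

def i1_30 : T2 :=
(.s 3 0 0 4 0 10
(.k 134241 0 0 246481 123241 0 t1_30_0) (.k 1119071 0 0 0 0 1038159 t1_30_1))

theorem hi1_30 : chk2 (leaf1 a1_30 e1_30) 10000 i1_30 R30 = true := by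
  decide +kernel

theorem ok30 : CellOk R30 a0_30 e0_30 a1_30 e1_30 :=
  ⟨lin30, ⟨_, ho00_30⟩, ⟨_, ho01_30⟩, ⟨_, ho10_30⟩, ⟨_, ho11_30⟩, ⟨_, hi0_30⟩, ⟨_, hi1_30⟩⟩

def R37 : Reg := ⟨⟨0, 0, 0, 0, 0, 0, 0⟩, ⟨1, 0, 0, 0, 0, 0, 0⟩, ⟨0, 0, 0, 0, 0, 0, 0⟩, ⟨1, 0, 0, 0, 0, 0, 1⟩, ⟨0, 0, 0, 0, 1, 0, 0⟩, ⟨1, 0, 0, 0, 1, 0, 1⟩, ⟨9, 0, 0, 0, 0, 0, 9⟩, ⟨37, 0, 0, 0, 0, 0, 39⟩, ⟨0, 0, 0, 0, 0, 0, 0⟩, ⟨0, 0, 0, 0, 1, 0, 0⟩⟩

def a0_37 : SF := mu 0 0 0 0 73 0 445687 0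

def e0_37 : SF := mu 0 0 0 0 2630386 0 0 1339865

def a1_37 : SF := mu 0 0 0 0 30 0 251243 0

def e1_37 : SF := mu 0 0 0 0 1841249 0 0 1364416

theorem lin37 : chkLin R37 a0_37 e0_37 a1_37 e1_37 = true := by decide +kernel

def o00_37 : T3 :=
(.s 0 8 0 0 0 0 0 14
(.s 0 1 0 0 0 0 0 1
(.s 1 0 0 1 0 0 0 0
(.s 0 1 0 0 0 0 0 2
(.s 2 0 0 1 0 0 0 0
(.s 1 0 0 1 0 0 0 1
(.lf 2 true 0 true false 0 0) (.s 1 0 0 3 0 0 0 3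
(.lf 2 true 0 true false 0 0) (.lf 2 true 0 true false 0 0))) (.s 1 0 0 1 0 0 0 1
(.lf 2 true 0 false false 0 0) (.s 1 0 0 3 0 0 0 3
(.lf 2 true 0 false false 0 0) (.lf 2 true 0 false false 0 0)))) (.s 1 0 4 12 0 0 0 6
(.s 2 0 0 1 0 0 0 0
(.lf 1 true 0 true false 0 0) (.lf 1 true 0 false false 0 0)) (.s 2 0 0 1 0 0 0 0
(.s 1 0 4 19 0 0 0 13
(.lf 2 true 0 true false 0 0) (.s 1 0 4 33 0 0 0 27
(.lf 2 true 0 true false 0 0) (.lf 2 true 0 true false 0 0))) (.s 1 0 4 19 0 0 0 13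
(.lf 2 true 0 false false 0 0) (.s 1 0 4 33 0 0 0 27
(.lf 2 true 0 false false 0 0) (.lf 2 true 0 false false 0 0)))))) (.lf 3 true 0 false false 0 0)) (.s 1 0 4 12 0 0 0 6
(.s 1 0 1 2 0 0 0 0
(.lf 1 true 0 true false 0 0) (.s 2 0 0 1 0 0 0 0
(.lf 1 true 0 true false 0 0) (.lf 1 true 0 false false 0 0))) (.s 2 0 0 1 0 0 0 0
(.lf 2 true 0 true false 0 0) (.lf 2 true 0 false false 0 0)))) (.s 0 5 0 0 0 0 0 7
(.s 1 0 4 12 0 0 0 6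
(.s 1 0 1 2 0 0 0 0
(.lf 1 false 0 true false 0 0) (.s 2 0 0 1 0 0 0 0
(.lf 1 false 0 true false 0 0) (.lf 1 false 0 false false 0 0))) (.s 2 0 0 1 0 0 0 0
(.lf 2 false 0 true false 0 0) (.lf 2 false 0 false false 0 0))) (.s 0 3 0 0 0 0 0 3
(.s 1 0 1 2 0 0 0 0
(.lf 1 false 0 true false 0 0) (.s 2 0 0 1 0 0 0 0
(.lf 1 false 0 true false 0 0) (.lf 1 false 0 false false 0 0))) (.lf 1 false 0 true false 0 0))))

theorem ho00_37 : chk3 (leafO 10500000 3 a0_37 e0_37 R37.x0.ap R37.x0.m) o00_37 (full R37) = true := by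
  decide +kernel

def o01_37 : T3 :=
(.s 0 8 0 0 0 0 0 14
(.s 0 1 0 0 0 0 0 1
(.s 1 0 0 1 0 0 0 0
(.s 0 1 0 0 0 0 0 2
(.s 2 0 0 1 0 0 0 0
(.s 1 0 0 1 0 0 0 1
(.lf 2 true 0 true false 0 0) (.s 1 0 0 3 0 0 0 3
(.lf 2 true 0 true false 0 0) (.lf 2 true 0 true false 0 0))) (.s 1 0 0 1 0 0 0 1
(.lf 2 true 0 false false 0 0) (.s 1 0 0 3 0 0 0 3
(.lf 2 true 0 false false 0 0) (.lf 2 true 0 false false 0 0)))) (.s 1 0 4 12 0 0 0 6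
(.s 2 0 0 1 0 0 0 0
(.lf 1 true 0 true false 0 0) (.lf 1 true 0 false false 0 0)) (.s 2 0 0 1 0 0 0 0
(.s 1 0 4 19 0 0 0 13
(.s 1 0 12 43 0 0 0 27
(.lf 2 true 0 true false 0 0) (.s 0 2 0 0 0 0 0 4
(.lf 2 true 0 true false 0 0) (.s 0 9 0 0 0 0 0 19
(.lf 2 true 0 true false 0 0) (.lf 2 true 0 true false 0 0)))) (.s 1 0 4 33 0 0 0 27
(.s 0 2 0 0 0 0 0 4
(.s 1 0 12 71 0 0 0 55
(.lf 2 true 0 true false 0 0) (.lf 2 true 0 true false 0 0)) (.lf 2 true 0 true false 0 0)) (.lf 2 true 0 true false 0 0))) (.s 1 0 4 19 0 0 0 13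
(.s 1 0 12 43 0 0 0 27
(.lf 2 true 0 false false 0 0) (.s 0 2 0 0 0 0 0 4
(.lf 2 true 0 false false 0 0) (.s 0 9 0 0 0 0 0 19
(.lf 2 true 0 false false 0 0) (.lf 2 true 0 false false 0 0)))) (.s 1 0 4 33 0 0 0 27
(.s 0 2 0 0 0 0 0 4
(.s 1 0 12 71 0 0 0 55
(.lf 2 true 0 false false 0 0) (.lf 2 true 0 false false 0 0)) (.lf 2 true 0 false false 0 0)) (.lf 2 true 0 false false 0 0)))))) (.lf 3 true 0 false false 0 0)) (.s 1 0 4 12 0 0 0 6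
(.s 1 0 1 2 0 0 0 0
(.lf 1 true 0 true false 0 0) (.s 2 0 0 1 0 0 0 0
(.lf 1 true 0 true false 0 0) (.lf 1 true 0 false false 0 0))) (.s 2 0 0 1 0 0 0 0
(.s 1 0 1 24 0 0 0 27
(.lf 2 true 0 true false 0 0) (.lf 2 true 0 true false 0 0)) (.s 1 0 1 24 0 0 0 27
(.lf 2 true 0 false false 0 0) (.lf 2 true 0 false false 0 0))))) (.s 0 5 0 0 0 0 0 7
(.s 1 0 4 12 0 0 0 6
(.s 1 0 1 2 0 0 0 0
(.lf 1 false 0 true false 0 0) (.s 2 0 0 1 0 0 0 0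
(.lf 1 false 0 true false 0 0) (.lf 1 false 0 false false 0 0))) (.s 2 0 0 1 0 0 0 0
(.lf 2 false 0 true false 0 0) (.lf 2 false 0 false false 0 0))) (.s 0 3 0 0 0 0 0 3
(.s 1 0 1 2 0 0 0 0
(.lf 1 false 0 true false 0 0) (.s 2 0 0 1 0 0 0 0
(.lf 1 false 0 true false 0 0) (.lf 1 false 0 false false 0 0))) (.lf 1 false 0 true false 0 0))))

theorem ho01_37 : chk3 (leafO 10500000 3 a0_37 e0_37 R37.x1.ap R37.x1.m) o01_37 (full R37) = true := by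
  decide +kernel

def o10_37 : T3 :=
(.s 0 8 0 0 0 0 0 14
(.s 0 1 0 0 0 0 0 1
(.s 1 0 0 1 0 0 0 0
(.s 0 1 0 0 0 0 0 2
(.s 2 0 0 1 0 0 0 0
(.s 1 0 0 1 0 0 0 1
(.lf 2 true 0 true false 0 0) (.s 1 0 0 3 0 0 0 3
(.lf 2 true 0 true false 0 0) (.lf 2 true 0 true false 0 0))) (.s 1 0 0 1 0 0 0 1
(.lf 2 true 0 false false 0 0) (.s 1 0 0 3 0 0 0 3
(.lf 2 true 0 false false 0 0) (.lf 2 true 0 false false 0 0)))) (.s 1 0 4 12 0 0 0 6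
(.s 2 0 0 1 0 0 0 0
(.lf 1 true 0 true false 0 0) (.lf 1 true 0 false false 0 0)) (.s 2 0 0 1 0 0 0 0
(.s 1 0 4 19 0 0 0 13
(.lf 2 true 0 true false 0 0) (.s 1 0 4 33 0 0 0 27
(.s 0 2 0 0 0 0 0 4
(.lf 2 true 0 true false 0 0) (.lf 2 true 0 true false 0 0)) (.lf 2 true 0 true false 0 0))) (.s 1 0 4 19 0 0 0 13
(.lf 2 true 0 false false 0 0) (.s 1 0 4 33 0 0 0 27
(.s 0 2 0 0 0 0 0 4
(.lf 2 true 0 false false 0 0) (.lf 2 true 0 false false 0 0)) (.lf 2 true 0 false false 0 0)))))) (.lf 3 true 0 false false 0 0)) (.s 1 0 4 12 0 0 0 6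
(.s 1 0 1 2 0 0 0 0
(.lf 1 true 0 true false 0 0) (.s 2 0 0 1 0 0 0 0
(.lf 1 true 0 true false 0 0) (.lf 1 true 0 false false 0 0))) (.s 2 0 0 1 0 0 0 0
(.s 1 0 1 24 0 0 0 27
(.lf 2 true 0 true false 0 0) (.lf 2 true 0 true false 0 0)) (.s 1 0 1 24 0 0 0 27
(.lf 2 true 0 false false 0 0) (.lf 2 true 0 false false 0 0))))) (.s 0 5 0 0 0 0 0 7
(.s 1 0 4 12 0 0 0 6
(.s 1 0 1 2 0 0 0 0
(.lf 1 false 0 true false 0 0) (.s 2 0 0 1 0 0 0 0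
(.lf 1 false 0 true false 0 0) (.lf 1 false 0 false false 0 0))) (.s 2 0 0 1 0 0 0 0
(.s 1 0 1 24 0 0 0 27
(.lf 2 false 0 true false 0 0) (.lf 2 false 0 true false 0 0)) (.s 1 0 1 24 0 0 0 27
(.lf 2 false 0 false false 0 0) (.lf 2 false 0 false false 0 0)))) (.s 0 3 0 0 0 0 0 3
(.s 1 0 1 2 0 0 0 0
(.lf 1 false 0 true false 0 0) (.s 2 0 0 1 0 0 0 0
(.lf 1 false 0 true false 0 0) (.lf 1 false 0 false false 0 0))) (.lf 1 false 0 true false 0 0))))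

theorem ho10_37 : chk3 (leafO 5554500 1 a1_37 e1_37 R37.x0.ap R37.x0.m) o10_37 (full R37) = true := by
  decide +kernel

def o11_37 : T3 :=
(.s 0 8 0 0 0 0 0 14
(.s 0 1 0 0 0 0 0 1
(.s 1 0 0 1 0 0 0 0
(.s 0 1 0 0 0 0 0 2
(.s 2 0 0 1 0 0 0 0
(.s 1 0 0 1 0 0 0 1
(.lf 2 true 0 true false 0 0) (.s 1 0 0 3 0 0 0 3
(.lf 2 true 0 true false 0 0) (.lf 2 true 0 true false 0 0))) (.s 1 0 0 1 0 0 0 1
(.lf 2 true 0 false false 0 0) (.s 1 0 0 3 0 0 0 3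
(.lf 2 true 0 false false 0 0) (.lf 2 true 0 false false 0 0)))) (.s 1 0 4 12 0 0 0 6
(.s 2 0 0 1 0 0 0 0
(.lf 1 true 0 true false 0 0) (.lf 1 true 0 false false 0 0)) (.s 2 0 0 1 0 0 0 0
(.s 1 0 4 19 0 0 0 13
(.lf 2 true 0 true false 0 0) (.s 1 0 4 33 0 0 0 27
(.s 0 2 0 0 0 0 0 4
(.s 0 3 0 0 0 0 0 7
(.lf 2 true 0 true false 0 0) (.lf 2 true 0 true false 0 0)) (.s 1 0 12 71 0 0 0 55
(.s 0 9 0 0 0 0 0 19
(.lf 2 true 0 true false 0 0) (.lf 2 true 0 true false 0 0)) (.lf 2 true 0 true false 0 0))) (.lf 2 true 0 true false 0 0))) (.s 1 0 4 19 0 0 0 13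
(.lf 2 true 0 false false 0 0) (.s 1 0 4 33 0 0 0 27
(.s 0 2 0 0 0 0 0 4
(.s 0 3 0 0 0 0 0 7
(.lf 2 true 0 false false 0 0) (.lf 2 true 0 false false 0 0)) (.s 1 0 12 71 0 0 0 55
(.s 0 9 0 0 0 0 0 19
(.lf 2 true 0 false false 0 0) (.lf 2 true 0 false false 0 0)) (.lf 2 true 0 false false 0 0))) (.lf 2 true 0 false false 0 0)))))) (.lf 3 true 0 false false 0 0)) (.s 1 0 4 12 0 0 0 6
(.s 1 0 1 2 0 0 0 0
(.lf 1 true 0 true false 0 0) (.s 2 0 0 1 0 0 0 0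
(.lf 1 true 0 true false 0 0) (.lf 1 true 0 false false 0 0))) (.s 2 0 0 1 0 0 0 0
(.s 1 0 1 24 0 0 0 27
(.lf 2 true 0 true false 0 0) (.lf 2 true 0 true false 0 0)) (.s 1 0 1 24 0 0 0 27
(.lf 2 true 0 false false 0 0) (.lf 2 true 0 false false 0 0))))) (.s 0 5 0 0 0 0 0 7
(.s 1 0 4 12 0 0 0 6
(.s 1 0 1 2 0 0 0 0
(.lf 1 false 0 true false 0 0) (.s 2 0 0 1 0 0 0 0
(.lf 1 false 0 true false 0 0) (.lf 1 false 0 false false 0 0))) (.s 2 0 0 1 0 0 0 0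
(.s 1 0 1 24 0 0 0 27
(.lf 2 false 0 true false 0 0) (.lf 2 false 0 true false 0 0)) (.s 1 0 1 24 0 0 0 27
(.lf 2 false 0 false false 0 0) (.lf 2 false 0 false false 0 0)))) (.s 0 3 0 0 0 0 0 3
(.s 1 0 1 2 0 0 0 0
(.lf 1 false 0 true false 0 0) (.s 2 0 0 1 0 0 0 0
(.lf 1 false 0 true false 0 0) (.lf 1 false 0 false false 0 0))) (.lf 1 false 0 true false 0 0))))

theorem ho11_37 : chk3 (leafO 5554500 1 a1_37 e1_37 R37.x1.ap R37.x1.m) o11_37 (full R37) = true := by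
  decide +kernel

def t0_37_0 : T3 :=
(.s 0 8 0 0 0 0 0 14
(.s 0 1 0 0 0 0 0 1
(.s 1 0 0 1 0 0 0 0
(.s 0 1 0 0 0 0 0 2
(.s 0 1 0 0 0 0 0 9
(.s 0 3 0 0 0 0 0 39
(.lf 2 true 1 true false 0 0) (.s 3 1 0 0 1 0 0 0
(.lf 2 true 1 true false 0 0) (.s 4 1000 0 0 1000 0 0 2736
(.lf 2 true 1 true false 0 0) (.lf 2 true 1 false false 0 0)))) (.s 4 1000 0 0 1000 0 0 2736
(.lf 2 true 1 true false 0 0) (.lf 2 true 1 false false 0 0))) (.s 1 0 4 12 0 0 0 6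
(.lf 1 true 1 false false 0 0) (.lf 2 true 1 false false 0 0))) (.s 0 1 0 0 0 0 0 9
(.s 0 3 0 0 0 0 0 39
(.lf 3 true 1 true false 0 0) (.s 3 1 0 0 1 0 0 0
(.lf 3 true 1 true false 0 0) (.s 4 1000 0 0 1000 0 0 2736
(.lf 3 true 1 true false 0 0) (.lf 3 true 1 false false 0 0)))) (.s 4 1000 0 0 1000 0 0 2736
(.lf 3 true 1 true false 0 0) (.lf 3 true 1 false false 0 0)))) (.s 1 0 4 12 0 0 0 6
(.lf 1 true 1 true false 0 0) (.lf 2 true 1 false false 0 0))) (.s 0 5 0 0 0 0 0 7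
(.s 1 0 4 12 0 0 0 6
(.lf 1 false 1 false false 0 0) (.lf 2 false 1 false false 0 0)) (.lf 1 false 0 false false 0 0)))

def t0_37_1 : T3 :=
(.s 0 8 0 0 0 0 0 14
(.s 0 1 0 0 0 0 0 1
(.s 1 0 0 1 0 0 0 0
(.s 0 1 0 0 0 0 0 2
(.lf 2 true 1 false false 0 0) (.s 1 0 4 12 0 0 0 6
(.lf 1 true 1 true false 0 0) (.lf 2 true 1 false false 0 0))) (.lf 3 true 1 false false 0 0)) (.s 1 0 4 12 0 0 0 6
(.lf 1 true 1 false false 0 0) (.lf 2 true 1 false false 0 0))) (.s 0 5 0 0 0 0 0 7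
(.s 1 0 4 12 0 0 0 6
(.lf 1 false 1 false false 0 0) (.lf 2 false 1 false false 0 0)) (.lf 1 false 0 false false 0 0)))

def i0_37 : T2 :=
(.s 3 0 0 1000 0 2736
(.k 749523 0 0 974298 0 35598 t0_37_0) (.k 1063031 0 0 1258795 4405 0 t0_37_1))

theorem hi0_37 : chk2 (leaf0 a0_37 e0_37) 0 i0_37 R37 = true := by
  decide +kernel

def R37_1a : Reg := hi R37 (Nat.succ 3) ⟨0, 0, 0, 0, 4, 0, 10⟩

def R37_1b : Reg := lo R37 (Nat.succ 3) ⟨0, 0, 0, 0, 4, 0, 10⟩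

def t1_37a_0 : T3 :=
(.s 0 8 0 0 0 0 0 14
(.s 0 1 0 0 0 0 0 1
(.s 1 0 0 1 0 0 0 0
(.s 0 1 0 0 0 0 0 2
(.s 0 1 0 0 0 0 0 4
(.s 0 1 0 0 0 0 0 9
(.s 0 1 0 0 0 0 0 19
(.lf 2 true 1 true false 0 2) (.lf 2 true 1 true false 0 0)) (.lf 2 true 1 true false 0 0)) (.lf 2 true 1 true false 0 0)) (.s 1 0 4 12 0 0 0 6
(.lf 1 true 2 false false 0 0) (.lf 2 true 1 true false 0 0))) (.s 0 1 0 0 0 0 0 3
(.s 0 1 0 0 0 0 0 9
(.s 0 1 0 0 0 0 0 19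
(.lf 3 true 1 true false 0 2) (.lf 3 true 1 true false 0 0)) (.lf 3 true 1 true false 0 0)) (.lf 3 true 1 true false 0 0))) (.s 1 0 4 12 0 0 0 6
(.lf 1 true 2 false false 0 0) (.lf 2 true 2 true false 0 0))) (.s 0 5 0 0 0 0 0 7
(.s 1 0 4 12 0 0 0 6
(.lf 1 false 2 false false 0 0) (.lf 2 false 2 true false 0 0)) (.lf 1 false 2 false false 0 0)))

def i1_37a : T2 :=
(.k 130315 0 0 238629 119315 0 t1_37a_0)

theorem hi1_37a : chk2 (leaf1 a1_37 e1_37) 10000 i1_37a R37_1a = true := by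
  decide +kernel

def t1_37b_0 : T3 :=
(.s 0 8 0 0 0 0 0 14
(.s 0 1 0 0 0 0 0 1
(.s 1 0 0 1 0 0 0 0
(.s 0 1 0 0 0 0 0 2
(.s 2 1 0 0 0 3 0 3
(.s 2 1 0 0 0 7 0 7
(.s 1 0 0 1 0 0 0 1
(.s 2 1 0 0 0 15 0 15
(.s 4 0 0 0 0 11 0 20
(.s 0 1 0 0 0 0 0 4
(.s 0 1 0 0 0 0 0 9
(.s 2 1 0 0 0 31 0 31
(.s 0 47 0 0 0 0 0 1099
(.s 0 71 0 0 0 0 0 4399
(.lf 2 true 1 false false 1 1) (.s 3 110 0 0 110 0 0 116
(.lf 2 true 1 false false 1 1) (.s 0 13 0 0 0 0 0 419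
(.s 4 0 10 10 0 11 0 0
(.lf 2 true 1 false false 1 0) (.lf 2 true 1 false false 1 1)) (.s 3 21 0 0 21 0 0 21
(.s 4 0 10 10 0 11 0 0
(.lf 2 true 1 false false 1 0) (.lf 2 true 1 false false 1 1)) (.lf 2 true 1 false false 1 0))))) (.s 0 2 0 0 0 0 0 34
(.s 3 21 0 0 21 0 0 21
(.s 4 0 10 10 0 11 0 0
(.lf 2 true 1 false false 1 0) (.lf 2 true 1 false false 2 1)) (.lf 2 true 1 false false 1 0)) (.lf 2 true 1 false false 1 0))) (.s 0 1 0 0 0 0 0 19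
(.s 0 1 0 0 0 0 0 39
(.s 0 1 0 0 0 0 0 99
(.lf 2 true 1 false false 1 1) (.lf 2 true 1 false false 1 2)) (.lf 2 true 1 false false 1 2)) (.lf 2 true 1 false false 1 2))) (.lf 2 true 1 false false 1 0)) (.lf 2 true 1 false false 1 0)) (.s 4 0 0 0 0 16 0 20
(.s 0 1 0 0 0 0 0 4
(.s 0 1 0 0 0 0 0 9
(.s 2 1 0 0 0 31 0 31
(.s 0 2 0 0 0 0 0 34
(.s 0 13 0 0 0 0 0 419
(.lf 2 true 1 false false 2 1) (.s 3 21 0 0 21 0 0 21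
(.lf 2 true 1 false false 2 1) (.s 0 89 0 0 0 0 0 1679
(.s 4 0 10 10 0 11 0 0
(.lf 2 true 1 false false 2 0) (.lf 2 true 1 false false 2 1)) (.s 3 42 0 0 42 0 0 42
(.s 4 0 10 10 0 11 0 0
(.lf 2 true 1 false false 2 0) (.lf 2 true 1 false false 2 1)) (.lf 2 true 1 false false 2 0))))) (.s 0 11 0 0 0 0 0 139
(.s 3 42 0 0 42 0 0 42
(.s 4 0 10 10 0 11 0 0
(.lf 2 true 1 false false 2 0) (.lf 2 true 1 false false 2 1)) (.lf 2 true 1 false false 2 0)) (.lf 2 true 1 false false 2 0))) (.s 0 1 0 0 0 0 0 19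
(.s 0 1 0 0 0 0 0 39
(.lf 2 true 1 false false 2 1) (.lf 2 true 1 false false 2 2)) (.lf 2 true 1 false false 2 2))) (.lf 2 true 1 false false 2 0)) (.lf 2 true 1 false false 2 0)) (.s 0 1 0 0 0 0 0 4
(.s 0 1 0 0 0 0 0 9
(.s 0 1 0 0 0 0 0 19
(.lf 2 true 1 false false 2 1) (.s 2 1 0 0 0 31 0 31
(.s 0 11 0 0 0 0 0 139
(.s 0 89 0 0 0 0 0 1679
(.lf 2 true 1 false false 2 1) (.s 3 42 0 0 42 0 0 42
(.lf 2 true 1 false false 2 1) (.s 0 3 0 0 0 0 0 39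
(.s 4 0 10 10 0 11 0 0
(.lf 2 true 1 false false 2 0) (.lf 2 true 1 false false 2 1)) (.s 3 1 0 0 1 0 0 0
(.s 4 0 10 10 0 11 0 0
(.lf 2 true 1 false false 2 0) (.lf 2 true 1 false false 2 1)) (.lf 2 true 1 false false 2 0))))) (.s 3 1 0 0 1 0 0 0
(.s 4 0 10 10 0 11 0 0
(.lf 2 true 1 false false 2 0) (.lf 2 true 1 false false 2 1)) (.lf 2 true 1 false false 2 0))) (.lf 2 true 1 false false 2 2))) (.s 4 1 0 0 1 0 0 0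
(.s 0 3 0 0 0 0 0 19
(.lf 2 true 1 false false 2 0) (.lf 2 true 1 false false 2 0)) (.lf 2 true 0 false true 2 0))) (.lf 2 true 1 false true 2 0)))) (.lf 2 true 1 false false 2 2)) (.s 2 1 0 0 0 15 0 15
(.s 0 1 0 0 0 0 0 4
(.s 0 1 0 0 0 0 0 9
(.s 2 1 0 0 0 31 0 31
(.s 4 0 0 0 0 11 0 20
(.s 0 47 0 0 0 0 0 1099
(.s 0 71 0 0 0 0 0 4399
(.lf 2 true 1 false false 1 1) (.s 3 110 0 0 110 0 0 116
(.lf 2 true 1 false false 1 1) (.s 0 13 0 0 0 0 0 419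
(.s 4 0 10 10 0 11 0 0
(.lf 2 true 1 false false 1 0) (.lf 2 true 1 false false 1 1)) (.s 3 21 0 0 21 0 0 21
(.s 4 0 10 10 0 11 0 0
(.lf 2 true 1 false false 1 0) (.lf 2 true 1 false false 1 1)) (.lf 2 true 1 false false 1 0))))) (.s 0 2 0 0 0 0 0 34
(.s 3 21 0 0 21 0 0 21
(.s 4 0 10 10 0 11 0 0
(.lf 2 true 1 false false 1 0) (.lf 2 true 1 false false 1 1)) (.lf 2 true 1 false false 1 0)) (.lf 2 true 1 false false 1 0))) (.s 0 2 0 0 0 0 0 34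
(.s 0 13 0 0 0 0 0 419
(.lf 2 true 1 false false 2 1) (.s 3 21 0 0 21 0 0 21
(.lf 2 true 1 false false 2 1) (.s 4 0 10 10 0 11 0 0
(.lf 2 true 1 false false 2 0) (.lf 2 true 1 false false 2 1)))) (.s 0 3 0 0 0 0 0 39
(.s 4 0 10 10 0 11 0 0
(.lf 2 true 1 false false 2 0) (.lf 2 true 1 false false 2 1)) (.s 3 1 0 0 1 0 0 0
(.s 4 0 10 10 0 11 0 0
(.lf 2 true 1 false false 2 0) (.lf 2 true 1 false false 2 1)) (.lf 2 true 1 false false 2 0))))) (.s 4 0 0 0 0 11 0 20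
(.s 2 3 0 0 0 61 0 63
(.s 2 5 0 0 0 123 0 127
(.s 0 1 0 0 0 0 0 19
(.s 0 47 0 0 0 0 0 1099
(.s 0 71 0 0 0 0 0 4399
(.lf 2 true 1 false false 1 1) (.s 3 110 0 0 110 0 0 116
(.lf 2 true 1 false false 1 1) (.s 0 13 0 0 0 0 0 419
(.s 4 0 10 10 0 11 0 0
(.lf 2 true 1 false false 1 0) (.lf 2 true 1 false false 1 1)) (.s 3 21 0 0 21 0 0 21
(.s 4 0 10 10 0 11 0 0
(.lf 2 true 1 false false 1 0) (.lf 2 true 1 false false 1 1)) (.lf 2 true 1 false false 1 0))))) (.s 3 21 0 0 21 0 0 21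
(.s 4 0 10 10 0 11 0 0
(.lf 2 true 1 false false 1 0) (.lf 2 true 1 false false 1 1)) (.lf 2 true 1 false false 1 0))) (.s 0 2 0 0 0 0 0 34
(.s 3 21 0 0 21 0 0 21
(.s 4 0 10 10 0 11 0 0
(.lf 2 true 1 false false 1 0) (.lf 2 true 1 false false 1 1)) (.lf 2 true 1 false false 1 0)) (.lf 2 true 1 false false 1 0))) (.lf 2 true 1 false false 1 2)) (.lf 2 true 1 false false 1 2)) (.s 0 2 0 0 0 0 0 34
(.s 0 13 0 0 0 0 0 419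
(.lf 2 true 1 false false 2 1) (.s 3 21 0 0 21 0 0 21
(.lf 2 true 1 false false 2 1) (.s 4 0 10 10 0 11 0 0
(.lf 2 true 1 false false 2 0) (.lf 2 true 1 false false 2 1)))) (.s 0 3 0 0 0 0 0 39
(.s 4 0 10 10 0 11 0 0
(.lf 2 true 1 false false 2 0) (.lf 2 true 1 false false 2 1)) (.s 3 1 0 0 1 0 0 0
(.s 4 0 10 10 0 11 0 0
(.lf 2 true 1 false false 2 0) (.lf 2 true 1 false false 2 1)) (.lf 2 true 1 false false 2 0)))))) (.s 4 1 0 0 1 0 0 0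
(.s 0 3 0 0 0 0 0 19
(.s 4 7 0 0 7 0 4 2
(.lf 2 true 1 false false 2 0) (.lf 2 true 1 false true 2 0)) (.s 1 0 0 3 0 0 0 3
(.s 4 7 0 0 7 0 4 2
(.lf 2 true 1 false false 2 0) (.lf 2 true 1 false true 2 0)) (.lf 2 true 1 false false 2 0))) (.s 2 1 0 0 0 31 0 31
(.lf 2 true 0 false true 2 0) (.lf 2 true 0 false false 2 0)))) (.s 4 1 0 0 1 0 0 0
(.lf 2 true 1 false false 2 0) (.lf 2 true 0 false false 2 0))) (.s 0 1 0 0 0 0 0 4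
(.lf 2 true 1 false false 2 2) (.lf 2 true 1 false false 2 0)))) (.lf 2 true 1 false false 2 2)) (.lf 2 true 1 false false 2 2)) (.s 1 0 4 12 0 0 0 6
(.s 0 153053 0 0 0 0 0 320348
(.s 2 79320 0 0 0 45233 0 365581
(.lf 1 true 1 false true 1 0) (.lf 1 true 2 false false 1 0)) (.s 1 26440 0 0 0 0 0 106782
(.s 2 79320 0 0 0 45233 0 365581
(.lf 1 true 1 true true 1 0) (.lf 1 true 2 false false 1 0)) (.lf 1 true 2 false false 1 0))) (.s 0 153053 0 0 0 0 0 320348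
(.s 1 26440 0 0 0 0 0 106782
(.s 2 79320 0 0 0 45233 0 365581
(.lf 2 true 1 false true 1 0) (.lf 2 true 2 false false 1 0)) (.lf 2 true 2 false false 1 0)) (.lf 2 true 2 false false 2 0)))) (.s 0 1 0 0 0 0 0 3
(.s 0 1 0 0 0 0 0 9
(.s 1 1 0 2 0 0 0 3
(.s 1 1 0 6 0 0 0 7
(.s 2 79320 0 0 0 45233 0 365581
(.s 1 1 0 14 0 0 0 15
(.s 1 1 0 30 0 0 0 31
(.s 2 79320 0 0 0 410815 0 731163
(.s 2 79320 0 0 0 1141979 0 1462327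
(.s 1 1 0 62 0 0 0 63
(.s 2 79320 0 0 0 2604307 0 2924655
(.s 4 0 0 0 0 11 0 20
(.s 0 47 0 0 0 0 0 1099
(.s 0 71 0 0 0 0 0 4399
(.lf 3 true 1 false false 1 1) (.s 3 110 0 0 110 0 0 116
(.lf 3 true 1 false false 1 1) (.s 0 13 0 0 0 0 0 419
(.s 4 0 10 10 0 11 0 0
(.lf 3 true 1 false false 1 0) (.lf 3 true 1 false false 1 1)) (.s 3 21 0 0 21 0 0 21
(.s 4 0 10 10 0 11 0 0
(.lf 3 true 1 false false 1 0) (.lf 3 true 1 false false 1 1)) (.lf 3 true 1 false false 1 0))))) (.s 0 2 0 0 0 0 0 34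
(.s 3 21 0 0 21 0 0 21
(.s 4 0 10 10 0 11 0 0
(.lf 3 true 1 false false 1 0) (.lf 3 true 1 false false 1 1)) (.lf 3 true 1 false false 1 0)) (.lf 3 true 1 false false 1 0))) (.s 0 2 0 0 0 0 0 34
(.s 0 13 0 0 0 0 0 419
(.lf 3 true 1 false false 2 1) (.s 3 21 0 0 21 0 0 21
(.lf 3 true 1 false false 2 1) (.s 4 0 10 10 0 11 0 0
(.lf 3 true 1 false false 2 0) (.lf 3 true 1 false false 2 1)))) (.s 0 3 0 0 0 0 0 39
(.s 4 0 10 10 0 11 0 0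
(.lf 3 true 1 false false 2 0) (.lf 3 true 1 false false 2 1)) (.s 3 1 0 0 1 0 0 0
(.s 4 0 10 10 0 11 0 0
(.lf 3 true 1 false false 2 0) (.lf 3 true 1 false false 2 1)) (.lf 3 true 1 false false 2 0))))) (.s 0 47 0 0 0 0 0 1099
(.s 0 71 0 0 0 0 0 4399
(.lf 3 true 1 false false 1 1) (.s 3 110 0 0 110 0 0 116
(.lf 3 true 1 false false 2 1) (.s 4 0 10 10 0 11 0 0
(.lf 3 true 1 false false 1 0) (.lf 3 true 1 false false 2 1)))) (.s 0 3 0 0 0 0 0 39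
(.s 4 0 10 10 0 11 0 0
(.lf 3 true 1 false false 2 0) (.lf 3 true 1 false false 2 1)) (.s 3 1 0 0 1 0 0 0
(.s 4 0 10 10 0 11 0 0
(.lf 3 true 1 false false 2 0) (.lf 3 true 1 false false 2 1)) (.lf 3 true 1 false false 2 0))))) (.s 0 47 0 0 0 0 0 1099
(.s 0 71 0 0 0 0 0 4399
(.lf 3 true 1 false false 1 1) (.s 3 110 0 0 110 0 0 116
(.lf 3 true 1 false false 2 1) (.s 4 0 10 10 0 11 0 0
(.lf 3 true 1 false false 1 0) (.lf 3 true 1 false false 2 1)))) (.s 0 3 0 0 0 0 0 39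
(.s 4 0 10 10 0 11 0 0
(.lf 3 true 1 false false 2 0) (.lf 3 true 1 false false 2 1)) (.s 3 1 0 0 1 0 0 0
(.s 4 0 10 10 0 11 0 0
(.lf 3 true 1 false false 2 0) (.lf 3 true 1 false false 2 1)) (.lf 3 true 1 false false 2 0))))) (.lf 3 true 1 false false 2 2)) (.lf 3 true 1 false false 2 2)) (.lf 3 true 1 false false 2 2)) (.lf 3 true 1 false false 2 2)) (.lf 3 true 1 false false 2 2)) (.lf 3 true 1 false false 2 2)) (.lf 3 true 1 false false 2 2)) (.s 4 1 0 0 1 0 0 0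
(.lf 3 true 1 false false 2 0) (.lf 3 true 0 false false 2 0))) (.lf 3 true 1 false false 2 0))) (.s 1 0 4 12 0 0 0 6
(.s 1 26440 0 0 0 0 0 106782
(.s 2 79320 0 0 0 45233 0 365581
(.lf 1 true 1 true true 1 0) (.lf 1 true 2 false false 1 0)) (.lf 1 true 2 false false 1 0)) (.lf 2 true 2 false false 2 0))) (.s 0 5 0 0 0 0 0 7
(.s 1 0 4 12 0 0 0 6
(.s 1 26440 0 0 0 0 0 106782
(.s 2 79320 0 0 0 45233 0 365581
(.lf 1 false 1 false true 1 0) (.lf 1 false 2 false false 1 0)) (.lf 1 false 2 false false 1 0)) (.lf 2 false 2 false false 2 0)) (.s 1 26440 0 0 0 0 0 106782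
(.s 2 79320 0 0 0 45233 0 365581
(.lf 1 false 0 false true 1 0) (.lf 1 false 2 false false 1 0)) (.lf 1 false 2 false false 1 0))))

def i1_37b : T2 :=
(.k 1017280 0 0 1462328 180932 0 t1_37b_0)

theorem hi1_37b : chk2 (leaf1 a1_37 e1_37) 10000 i1_37b R37_1b = true := by
  decide +kernel

def i1_37 : T2 := .s 3 0 0 4 0 10 i1_37a i1_37b

theorem hi1_37 : chk2 (leaf1 a1_37 e1_37) 10000 i1_37 R37 = true := chk2_s hi1_37a hi1_37b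

theorem ok37 : CellOk R37 a0_37 e0_37 a1_37 e1_37 :=
  ⟨lin37, ⟨_, ho00_37⟩, ⟨_, ho01_37⟩, ⟨_, ho10_37⟩, ⟨_, ho11_37⟩, ⟨_, hi0_37⟩, ⟨_, hi1_37⟩⟩

def R39 : Reg := ⟨⟨0, 0, 0, 0, 0, 0, 0⟩, ⟨1, 0, 0, 0, 0, 0, 0⟩, ⟨0, 0, 0, 0, 0, 0, 0⟩, ⟨1, 0, 0, 0, 0, 0, 1⟩, ⟨0, 0, 0, 0, 1, 0, 0⟩, ⟨1, 0, 0, 0, 1, 0, 1⟩, ⟨19, 0, 0, 0, 0, 0, 19⟩, ⟨39, 0, 0, 0, 0, 0, 39⟩, ⟨0, 0, 0, 0, 0, 0, 0⟩, ⟨0, 0, 0, 0, 1, 0, 0⟩⟩

def a0_39 : SF := mu 0 0 0 0 73 0 494194 0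

def e0_39 : SF := mu 0 0 0 0 2778460 0 0 1498027

def a1_39 : SF := mu 0 0 0 0 30 0 345915 0

def e1_39 : SF := mu 0 0 0 0 1944901 0 0 1740734

theorem lin39 : chkLin R39 a0_39 e0_39 a1_39 e1_39 = true := by decide +kernel

def o00_39 : T3 :=
(.s 0 8 0 0 0 0 0 14
(.s 0 1 0 0 0 0 0 1
(.s 1 0 0 1 0 0 0 0
(.s 0 1 0 0 0 0 0 2
(.s 2 0 0 1 0 0 0 0
(.s 1 0 0 1 0 0 0 1
(.lf 2 true 0 true false 0 0) (.s 1 0 0 3 0 0 0 3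
(.lf 2 true 0 true false 0 0) (.lf 2 true 0 true false 0 0))) (.s 1 0 0 1 0 0 0 1
(.lf 2 true 0 false false 0 0) (.s 1 0 0 3 0 0 0 3
(.lf 2 true 0 false false 0 0) (.lf 2 true 0 false false 0 0)))) (.s 1 0 4 12 0 0 0 6
(.s 2 0 0 1 0 0 0 0
(.lf 1 true 0 true false 0 0) (.lf 1 true 0 false false 0 0)) (.s 2 0 0 1 0 0 0 0
(.s 1 0 4 19 0 0 0 13
(.s 0 2 0 0 0 0 0 4
(.lf 2 true 0 true false 0 0) (.lf 2 true 0 true false 0 0)) (.s 1 0 4 33 0 0 0 27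
(.lf 2 true 0 true false 0 0) (.lf 2 true 0 true false 0 0))) (.s 1 0 4 19 0 0 0 13
(.s 0 2 0 0 0 0 0 4
(.lf 2 true 0 false false 0 0) (.lf 2 true 0 false false 0 0)) (.s 1 0 4 33 0 0 0 27
(.lf 2 true 0 false false 0 0) (.lf 2 true 0 false false 0 0)))))) (.lf 3 true 0 false false 0 0)) (.s 1 0 4 12 0 0 0 6
(.s 1 0 1 2 0 0 0 0
(.lf 1 true 0 true false 0 0) (.s 2 0 0 1 0 0 0 0
(.lf 1 true 0 true false 0 0) (.lf 1 true 0 false false 0 0))) (.s 2 0 0 1 0 0 0 0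
(.lf 2 true 0 true false 0 0) (.lf 2 true 0 false false 0 0)))) (.s 0 5 0 0 0 0 0 7
(.s 1 0 4 12 0 0 0 6
(.s 1 0 1 2 0 0 0 0
(.lf 1 false 0 true false 0 0) (.s 2 0 0 1 0 0 0 0
(.lf 1 false 0 true false 0 0) (.lf 1 false 0 false false 0 0))) (.s 2 0 0 1 0 0 0 0
(.lf 2 false 0 true false 0 0) (.lf 2 false 0 false false 0 0))) (.s 0 3 0 0 0 0 0 3
(.s 1 0 1 2 0 0 0 0
(.lf 1 false 0 true false 0 0) (.s 2 0 0 1 0 0 0 0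
(.lf 1 false 0 true false 0 0) (.lf 1 false 0 false false 0 0))) (.lf 1 false 0 true false 0 0))))

theorem ho00_39 : chk3 (leafO 10500000 3 a0_39 e0_39 R39.x0.ap R39.x0.m) o00_39 (full R39) = true := by
  decide +kernel

def o01_39 : T3 :=
(.s 0 8 0 0 0 0 0 14
(.s 0 1 0 0 0 0 0 1
(.s 1 0 0 1 0 0 0 0
(.s 0 1 0 0 0 0 0 2
(.s 2 0 0 1 0 0 0 0
(.s 1 0 0 1 0 0 0 1
(.lf 2 true 0 true false 0 0) (.s 1 0 0 3 0 0 0 3
(.s 1 0 0 5 0 0 0 7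
(.lf 2 true 0 true false 0 0) (.lf 2 true 0 true false 0 0)) (.lf 2 true 0 true false 0 0))) (.s 1 0 0 1 0 0 0 1
(.lf 2 true 0 false false 0 0) (.s 1 0 0 3 0 0 0 3
(.s 1 0 0 5 0 0 0 7
(.lf 2 true 0 false false 0 0) (.lf 2 true 0 false false 0 0)) (.lf 2 true 0 false false 0 0)))) (.s 1 0 4 12 0 0 0 6
(.s 2 0 0 1 0 0 0 0
(.lf 1 true 0 true false 0 0) (.lf 1 true 0 false false 0 0)) (.s 2 0 0 1 0 0 0 0
(.s 1 0 4 19 0 0 0 13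
(.s 0 2 0 0 0 0 0 4
(.lf 2 true 0 true false 0 0) (.s 1 0 12 43 0 0 0 27
(.lf 2 true 0 true false 0 0) (.s 0 9 0 0 0 0 0 19
(.s 0 17 0 0 0 0 0 39
(.lf 2 true 0 true false 0 0) (.lf 2 true 0 true false 0 0)) (.lf 2 true 0 true false 0 0)))) (.s 1 0 4 33 0 0 0 27
(.s 0 2 0 0 0 0 0 4
(.s 1 0 12 71 0 0 0 55
(.lf 2 true 0 true false 0 0) (.lf 2 true 0 true false 0 0)) (.lf 2 true 0 true false 0 0)) (.lf 2 true 0 true false 0 0))) (.s 1 0 4 19 0 0 0 13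
(.s 0 2 0 0 0 0 0 4
(.lf 2 true 0 false false 0 0) (.s 1 0 12 43 0 0 0 27
(.lf 2 true 0 false false 0 0) (.s 0 9 0 0 0 0 0 19
(.s 0 17 0 0 0 0 0 39
(.lf 2 true 0 false false 0 0) (.lf 2 true 0 false false 0 0)) (.lf 2 true 0 false false 0 0)))) (.s 1 0 4 33 0 0 0 27
(.s 0 2 0 0 0 0 0 4
(.s 1 0 12 71 0 0 0 55
(.lf 2 true 0 false false 0 0) (.lf 2 true 0 false false 0 0)) (.lf 2 true 0 false false 0 0)) (.lf 2 true 0 false false 0 0)))))) (.lf 3 true 0 false false 0 0)) (.s 1 0 4 12 0 0 0 6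
(.s 1 0 1 2 0 0 0 0
(.lf 1 true 0 true false 0 0) (.s 2 0 0 1 0 0 0 0
(.lf 1 true 0 true false 0 0) (.lf 1 true 0 false false 0 0))) (.s 2 0 0 1 0 0 0 0
(.s 1 0 1 24 0 0 0 27
(.lf 2 true 0 true false 0 0) (.lf 2 true 0 true false 0 0)) (.s 1 0 1 24 0 0 0 27
(.lf 2 true 0 false false 0 0) (.lf 2 true 0 false false 0 0))))) (.s 0 5 0 0 0 0 0 7
(.s 1 0 4 12 0 0 0 6
(.s 1 0 1 2 0 0 0 0
(.lf 1 false 0 true false 0 0) (.s 2 0 0 1 0 0 0 0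
(.lf 1 false 0 true false 0 0) (.lf 1 false 0 false false 0 0))) (.s 2 0 0 1 0 0 0 0
(.lf 2 false 0 true false 0 0) (.lf 2 false 0 false false 0 0))) (.s 0 3 0 0 0 0 0 3
(.s 1 0 1 2 0 0 0 0
(.lf 1 false 0 true false 0 0) (.s 2 0 0 1 0 0 0 0
(.lf 1 false 0 true false 0 0) (.lf 1 false 0 false false 0 0))) (.lf 1 false 0 true false 0 0))))

theorem ho01_39 : chk3 (leafO 10500000 3 a0_39 e0_39 R39.x1.ap R39.x1.m) o01_39 (full R39) = true := by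
  decide +kernel

def o10_39 : T3 :=
(.s 0 8 0 0 0 0 0 14
(.s 0 1 0 0 0 0 0 1
(.s 1 0 0 1 0 0 0 0
(.s 0 1 0 0 0 0 0 2
(.s 2 0 0 1 0 0 0 0
(.s 1 0 0 1 0 0 0 1
(.lf 2 true 0 true false 0 0) (.s 1 0 0 3 0 0 0 3
(.lf 2 true 0 true false 0 0) (.lf 2 true 0 true false 0 0))) (.s 1 0 0 1 0 0 0 1
(.lf 2 true 0 false false 0 0) (.s 1 0 0 3 0 0 0 3
(.lf 2 true 0 false false 0 0) (.lf 2 true 0 false false 0 0)))) (.s 1 0 4 12 0 0 0 6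
(.s 2 0 0 1 0 0 0 0
(.lf 1 true 0 true false 0 0) (.lf 1 true 0 false false 0 0)) (.s 2 0 0 1 0 0 0 0
(.s 1 0 4 19 0 0 0 13
(.s 1 0 12 43 0 0 0 27
(.lf 2 true 0 true false 0 0) (.s 0 2 0 0 0 0 0 4
(.lf 2 true 0 true false 0 0) (.s 0 9 0 0 0 0 0 19
(.lf 2 true 0 true false 0 0) (.lf 2 true 0 true false 0 0)))) (.s 1 0 4 33 0 0 0 27
(.s 0 2 0 0 0 0 0 4
(.s 1 0 12 71 0 0 0 55
(.lf 2 true 0 true false 0 0) (.lf 2 true 0 true false 0 0)) (.lf 2 true 0 true false 0 0)) (.lf 2 true 0 true false 0 0))) (.s 1 0 4 19 0 0 0 13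
(.s 1 0 12 43 0 0 0 27
(.lf 2 true 0 false false 0 0) (.s 0 2 0 0 0 0 0 4
(.lf 2 true 0 false false 0 0) (.s 0 9 0 0 0 0 0 19
(.lf 2 true 0 false false 0 0) (.lf 2 true 0 false false 0 0)))) (.s 1 0 4 33 0 0 0 27
(.s 0 2 0 0 0 0 0 4
(.s 1 0 12 71 0 0 0 55
(.lf 2 true 0 false false 0 0) (.lf 2 true 0 false false 0 0)) (.lf 2 true 0 false false 0 0)) (.lf 2 true 0 false false 0 0)))))) (.lf 3 true 0 false false 0 0)) (.s 1 0 4 12 0 0 0 6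
(.s 1 0 1 2 0 0 0 0
(.lf 1 true 0 true false 0 0) (.s 2 0 0 1 0 0 0 0
(.lf 1 true 0 true false 0 0) (.lf 1 true 0 false false 0 0))) (.s 2 0 0 1 0 0 0 0
(.s 1 0 1 24 0 0 0 27
(.lf 2 true 0 true false 0 0) (.lf 2 true 0 true false 0 0)) (.s 1 0 1 24 0 0 0 27
(.lf 2 true 0 false false 0 0) (.lf 2 true 0 false false 0 0))))) (.s 0 5 0 0 0 0 0 7
(.s 1 0 4 12 0 0 0 6
(.s 1 0 1 2 0 0 0 0
(.lf 1 false 0 true false 0 0) (.s 2 0 0 1 0 0 0 0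
(.lf 1 false 0 true false 0 0) (.lf 1 false 0 false false 0 0))) (.s 2 0 0 1 0 0 0 0
(.lf 2 false 0 true false 0 0) (.lf 2 false 0 false false 0 0))) (.s 0 3 0 0 0 0 0 3
(.s 1 0 1 2 0 0 0 0
(.lf 1 false 0 true false 0 0) (.s 2 0 0 1 0 0 0 0
(.lf 1 false 0 true false 0 0) (.lf 1 false 0 false false 0 0))) (.lf 1 false 0 true false 0 0))))

theorem ho10_39 : chk3 (leafO 5554500 1 a1_39 e1_39 R39.x0.ap R39.x0.m) o10_39 (full R39) = true := by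
  decide +kernel

def o11_39 : T3 :=
(.s 0 8 0 0 0 0 0 14
(.s 0 1 0 0 0 0 0 1
(.s 1 0 0 1 0 0 0 0
(.s 0 1 0 0 0 0 0 2
(.s 2 0 0 1 0 0 0 0
(.s 1 0 0 1 0 0 0 1
(.lf 2 true 0 true false 0 0) (.s 1 0 0 3 0 0 0 3
(.s 1 0 0 5 0 0 0 7
(.lf 2 true 0 true false 0 0) (.lf 2 true 0 true false 0 0)) (.lf 2 true 0 true false 0 0))) (.s 1 0 0 1 0 0 0 1
(.lf 2 true 0 false false 0 0) (.s 1 0 0 3 0 0 0 3
(.s 1 0 0 5 0 0 0 7
(.lf 2 true 0 false false 0 0) (.lf 2 true 0 false false 0 0)) (.lf 2 true 0 false false 0 0)))) (.s 1 0 4 12 0 0 0 6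
(.s 2 0 0 1 0 0 0 0
(.lf 1 true 0 true false 0 0) (.lf 1 true 0 false false 0 0)) (.s 2 0 0 1 0 0 0 0
(.s 1 0 4 19 0 0 0 13
(.s 1 0 12 43 0 0 0 27
(.lf 2 true 0 true false 0 0) (.s 0 2 0 0 0 0 0 4
(.lf 2 true 0 true false 0 0) (.s 0 9 0 0 0 0 0 19
(.lf 2 true 0 true false 0 0) (.s 0 19 0 0 0 0 0 39
(.lf 2 true 0 true false 0 0) (.lf 2 true 0 true false 0 0))))) (.s 1 0 4 33 0 0 0 27
(.s 0 2 0 0 0 0 0 4
(.s 1 0 12 71 0 0 0 55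
(.lf 2 true 0 true false 0 0) (.lf 2 true 0 true false 0 0)) (.lf 2 true 0 true false 0 0)) (.lf 2 true 0 true false 0 0))) (.s 1 0 4 19 0 0 0 13
(.s 1 0 12 43 0 0 0 27
(.lf 2 true 0 false false 0 0) (.s 0 2 0 0 0 0 0 4
(.lf 2 true 0 false false 0 0) (.s 0 9 0 0 0 0 0 19
(.lf 2 true 0 false false 0 0) (.s 0 19 0 0 0 0 0 39
(.lf 2 true 0 false false 0 0) (.lf 2 true 0 false false 0 0))))) (.s 1 0 4 33 0 0 0 27
(.s 0 2 0 0 0 0 0 4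
(.s 1 0 12 71 0 0 0 55
(.lf 2 true 0 false false 0 0) (.lf 2 true 0 false false 0 0)) (.lf 2 true 0 false false 0 0)) (.lf 2 true 0 false false 0 0)))))) (.lf 3 true 0 false false 0 0)) (.s 1 0 4 12 0 0 0 6
(.s 1 0 1 2 0 0 0 0
(.lf 1 true 0 true false 0 0) (.s 2 0 0 1 0 0 0 0
(.lf 1 true 0 true false 0 0) (.lf 1 true 0 false false 0 0))) (.s 2 0 0 1 0 0 0 0
(.s 1 0 1 24 0 0 0 27
(.s 1 0 17 72 0 0 0 55
(.lf 2 true 0 true false 0 0) (.lf 2 true 0 true false 0 0)) (.lf 2 true 0 true false 0 0)) (.s 1 0 1 24 0 0 0 27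
(.s 1 0 17 72 0 0 0 55
(.lf 2 true 0 false false 0 0) (.lf 2 true 0 false false 0 0)) (.lf 2 true 0 false false 0 0))))) (.s 0 5 0 0 0 0 0 7
(.s 1 0 4 12 0 0 0 6
(.s 1 0 1 2 0 0 0 0
(.lf 1 false 0 true false 0 0) (.s 2 0 0 1 0 0 0 0
(.lf 1 false 0 true false 0 0) (.lf 1 false 0 false false 0 0))) (.s 2 0 0 1 0 0 0 0
(.s 1 0 1 24 0 0 0 27
(.lf 2 false 0 true false 0 0) (.lf 2 false 0 true false 0 0)) (.s 1 0 1 24 0 0 0 27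
(.lf 2 false 0 false false 0 0) (.lf 2 false 0 false false 0 0)))) (.s 0 3 0 0 0 0 0 3
(.s 1 0 1 2 0 0 0 0
(.lf 1 false 0 true false 0 0) (.s 2 0 0 1 0 0 0 0
(.lf 1 false 0 true false 0 0) (.lf 1 false 0 false false 0 0))) (.lf 1 false 0 true false 0 0))))

theorem ho11_39 : chk3 (leafO 5554500 1 a1_39 e1_39 R39.x1.ap R39.x1.m) o11_39 (full R39) = true := by
  decide +kernel

def t0_39_0 : T3 :=
(.s 0 8 0 0 0 0 0 14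
(.s 0 1 0 0 0 0 0 1
(.s 1 0 0 1 0 0 0 0
(.s 0 1 0 0 0 0 0 2
(.s 0 1 0 0 0 0 0 19
(.s 0 1 0 0 0 0 0 39
(.lf 2 true 1 true false 0 0) (.s 3 1 0 0 1 0 0 0
(.lf 2 true 1 true false 0 0) (.s 4 1000 0 0 1000 0 0 2736
(.lf 2 true 1 true false 0 0) (.lf 2 true 1 false false 0 0)))) (.s 4 1000 0 0 1000 0 0 2736
(.lf 2 true 1 true false 0 0) (.lf 2 true 1 false false 0 0))) (.s 1 0 4 12 0 0 0 6
(.lf 1 true 1 false false 0 0) (.lf 2 true 1 false false 0 0))) (.s 0 1 0 0 0 0 0 19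
(.s 0 1 0 0 0 0 0 39
(.lf 3 true 1 true false 0 0) (.s 3 1 0 0 1 0 0 0
(.lf 3 true 1 true false 0 0) (.s 4 1000 0 0 1000 0 0 2736
(.lf 3 true 1 true false 0 0) (.lf 3 true 1 false false 0 0)))) (.s 4 1000 0 0 1000 0 0 2736
(.lf 3 true 1 true false 0 0) (.lf 3 true 1 false false 0 0)))) (.s 1 0 4 12 0 0 0 6
(.lf 1 true 1 false false 0 0) (.lf 2 true 1 false false 0 0))) (.s 0 5 0 0 0 0 0 7
(.s 1 0 4 12 0 0 0 6
(.lf 1 false 1 false false 0 0) (.lf 2 false 1 false false 0 0)) (.lf 1 false 0 false false 0 0)))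

def t0_39_1 : T3 :=
(.s 0 8 0 0 0 0 0 14
(.s 0 1 0 0 0 0 0 1
(.s 1 0 0 1 0 0 0 0
(.s 0 1 0 0 0 0 0 2
(.lf 2 true 1 false false 0 0) (.s 1 0 4 12 0 0 0 6
(.lf 1 true 1 true false 0 0) (.lf 2 true 1 false false 0 0))) (.lf 3 true 1 false false 0 0)) (.s 1 0 4 12 0 0 0 6
(.lf 1 true 1 false false 0 0) (.lf 2 true 1 false false 0 0))) (.s 0 5 0 0 0 0 0 7
(.s 1 0 4 12 0 0 0 6
(.lf 1 false 1 false false 0 0) (.lf 2 false 1 false false 0 0)) (.lf 1 false 0 true false 0 0)))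

def i0_39 : T2 :=
(.s 3 0 0 1000 0 2736
(.k 748512 0 0 1050936 81380 0 t0_39_0) (.k 1035494 0 0 1224947 21867 0 t0_39_1))

theorem hi0_39 : chk2 (leaf0 a0_39 e0_39) 0 i0_39 R39 = true := by
  decide +kernel

def R39_1a : Reg := hi R39 (Nat.succ 3) ⟨0, 0, 0, 0, 4, 0, 10⟩

def R39_1b : Reg := lo R39 (Nat.succ 3) ⟨0, 0, 0, 0, 4, 0, 10⟩

def t1_39a_0 : T3 :=
(.s 0 8 0 0 0 0 0 14
(.s 0 1 0 0 0 0 0 1
(.s 1 0 0 1 0 0 0 0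
(.s 0 1 0 0 0 0 0 2
(.lf 2 true 1 true false 0 0) (.s 1 0 4 12 0 0 0 6
(.lf 1 true 2 false false 0 0) (.lf 2 true 1 true false 0 0))) (.s 0 1 0 0 0 0 0 3
(.lf 3 true 1 true false 0 0) (.lf 3 true 1 true false 0 0))) (.s 1 0 4 12 0 0 0 6
(.lf 1 true 2 false false 0 0) (.lf 2 true 2 true false 0 0))) (.s 0 5 0 0 0 0 0 7
(.s 1 0 4 12 0 0 0 6
(.lf 1 false 2 true false 0 0) (.lf 2 false 2 true false 0 0)) (.lf 1 false 2 true false 0 0)))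

def i1_39a : T2 :=
(.k 101711 0 0 181422 235649 0 t1_39a_0)

theorem hi1_39a : chk2 (leaf1 a1_39 e1_39) 10000 i1_39a R39_1a = true := by
  decide +kernel

def t1_39b_0 : T3 :=
(.s 0 8 0 0 0 0 0 14
(.s 0 1 0 0 0 0 0 1
(.s 1 0 0 1 0 0 0 0
(.s 0 1 0 0 0 0 0 2
(.s 2 1 0 0 0 3 0 3
(.s 4 0 0 0 0 11 0 20
(.s 0 1 0 0 0 0 0 209
(.s 3 21 0 0 21 0 0 21
(.s 4 0 10 10 0 11 0 0
(.lf 2 true 1 false false 1 0) (.lf 2 true 1 false false 1 1)) (.lf 2 true 1 false false 1 0)) (.s 0 2997 0 0 0 0 0 54999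
(.s 0 3257 0 0 0 0 0 109999
(.s 4 1000 0 0 1000 0 0 2736
(.lf 2 true 1 true false 1 0) (.lf 2 true 1 false false 1 0)) (.s 3 2750 0 0 2750 0 0 2736
(.s 4 1000 0 0 1000 0 0 2736
(.lf 2 true 1 false false 1 0) (.lf 2 true 1 false false 1 0)) (.lf 2 true 1 false false 1 0))) (.lf 2 true 1 false false 1 0))) (.s 4 0 0 0 0 16 0 20
(.s 0 309178 0 0 0 0 0 1996354
(.s 2 1 0 0 0 7 0 7
(.s 2 1 0 0 0 15 0 15
(.s 0 1 0 0 0 0 0 9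
(.s 0 1 0 0 0 0 0 19
(.s 0 1 0 0 0 0 0 209
(.s 3 21 0 0 21 0 0 21
(.lf 2 true 1 false false 2 1) (.s 0 1 0 0 0 0 0 559
(.s 4 0 10 10 0 11 0 0
(.lf 2 true 1 false false 2 0) (.lf 2 true 1 false false 2 1)) (.s 3 42 0 0 42 0 0 42
(.s 4 0 10 10 0 11 0 0
(.lf 2 true 1 false false 2 0) (.lf 2 true 1 false false 2 1)) (.lf 2 true 1 false false 2 0)))) (.s 0 23 0 0 0 0 0 839
(.s 3 42 0 0 42 0 0 42
(.s 4 0 10 10 0 11 0 0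
(.lf 2 true 1 false false 2 0) (.lf 2 true 1 false false 2 1)) (.lf 2 true 1 false false 2 0)) (.lf 2 true 1 false false 2 0))) (.lf 2 true 1 false false 2 0)) (.s 1 0 0 1 0 0 0 1
(.lf 2 true 1 false false 2 0) (.lf 2 true 1 false false 2 0))) (.lf 2 true 1 false false 2 2)) (.lf 2 true 1 false false 2 2)) (.s 1 309178 0 0 0 0 0 1996354
(.s 0 239 0 0 0 0 0 979
(.s 0 439 0 0 0 0 0 1959
(.s 4 7 0 0 7 0 4 2
(.lf 2 true 1 false false 2 0) (.lf 2 true 1 false true 2 0)) (.s 3 49 0 0 49 0 0 38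
(.s 4 7 0 0 7 0 4 2
(.lf 2 true 1 false false 2 0) (.lf 2 true 1 false true 2 0)) (.lf 2 true 1 false true 1 0))) (.lf 2 true 1 false true 1 0)) (.lf 2 true 1 false false 2 0))) (.s 0 309178 0 0 0 0 0 1996354
(.s 2 1 0 0 0 7 0 7
(.s 2 1 0 0 0 15 0 15
(.s 0 1 0 0 0 0 0 9
(.s 0 1 0 0 0 0 0 19
(.s 2 1 0 0 0 31 0 31
(.s 0 23 0 0 0 0 0 839
(.s 0 1 0 0 0 0 0 559
(.lf 2 true 1 false false 2 1) (.s 3 42 0 0 42 0 0 42
(.lf 2 true 1 false false 2 1) (.s 0 1 0 0 0 0 0 39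
(.s 4 0 10 10 0 11 0 0
(.lf 2 true 1 false false 2 0) (.lf 2 true 1 false false 2 1)) (.s 3 1 0 0 1 0 0 0
(.s 4 0 10 10 0 11 0 0
(.lf 2 true 1 false false 2 0) (.lf 2 true 1 false false 2 1)) (.lf 2 true 1 false false 2 0))))) (.s 3 1 0 0 1 0 0 0
(.s 4 0 10 10 0 11 0 0
(.lf 2 true 1 false false 2 0) (.lf 2 true 1 false false 2 1)) (.lf 2 true 1 false false 2 0))) (.lf 2 true 1 false false 2 2)) (.s 4 7 0 0 7 0 4 2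
(.s 0 3 0 0 0 0 0 39
(.lf 2 true 1 false false 2 0) (.s 1 0 0 1 0 0 0 1
(.s 0 9 0 0 0 0 0 99
(.lf 2 true 1 false false 2 0) (.lf 2 true 1 false false 2 0)) (.lf 2 true 1 false false 2 0))) (.s 0 3 0 0 0 0 0 39
(.lf 2 true 1 false true 2 0) (.s 1 0 0 1 0 0 0 1
(.s 0 9 0 0 0 0 0 99
(.lf 2 true 1 false true 2 0) (.lf 2 true 1 false true 2 0)) (.lf 2 true 1 false true 2 0))))) (.s 4 1 0 0 1 0 0 0
(.s 1 0 0 1 0 0 0 1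
(.s 0 36 0 0 0 0 0 244
(.s 0 61 0 0 0 0 0 489
(.s 4 7 0 0 7 0 4 2
(.lf 2 true 1 false false 2 0) (.lf 2 true 1 false true 2 0)) (.s 3 49 0 0 49 0 0 43
(.s 4 7 0 0 7 0 4 2
(.lf 2 true 1 false false 2 0) (.lf 2 true 1 false true 2 0)) (.lf 2 true 1 false true 2 0))) (.lf 2 true 1 false true 2 0)) (.lf 2 true 1 false false 2 0)) (.lf 2 true 0 false true 2 0))) (.s 0 1 0 0 0 0 0 9
(.lf 2 true 1 false false 2 2) (.lf 2 true 1 false false 2 0))) (.lf 2 true 1 false false 2 2)) (.s 1 309178 0 0 0 0 0 1996354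
(.lf 2 true 1 false true 2 0) (.lf 2 true 2 false false 2 0))))) (.s 0 309178 0 0 0 0 0 1996354
(.lf 2 true 1 false false 2 2) (.s 1 309178 0 0 0 0 0 1996354
(.lf 2 true 1 false false 2 0) (.lf 2 true 1 false false 2 0)))) (.s 1 0 4 12 0 0 0 6
(.s 0 1691611 0 0 0 0 0 3992709
(.lf 1 true 1 false true 1 0) (.s 1 309178 0 0 0 0 0 1996354
(.lf 1 true 1 true true 1 0) (.lf 1 true 2 true false 1 0))) (.s 4 1 0 0 1 0 0 0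
(.lf 2 true 1 false false 2 0) (.lf 2 true 0 false false 2 0)))) (.s 0 1 0 0 0 0 0 3
(.s 0 1 0 0 0 0 0 9
(.s 0 1 0 0 0 0 0 19
(.s 1 309178 0 0 0 0 0 1996354
(.s 1 309178 0 1996355 0 0 0 3992709
(.s 1 309178 0 5989065 0 0 0 7985419
(.s 2 1 0 0 0 3 0 3
(.s 2 1 0 0 0 7 0 7
(.s 2 1 0 0 0 15 0 15
(.s 2 1 0 0 0 31 0 31
(.s 0 1 0 0 0 0 0 39
(.s 4 0 10 10 0 11 0 0
(.s 0 1 0 0 0 0 0 209
(.s 3 21 0 0 21 0 0 21
(.lf 3 true 1 false false 1 0) (.s 4 0 0 0 0 11 0 20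
(.lf 3 true 1 false false 1 0) (.lf 3 true 1 false false 2 0))) (.s 4 0 0 0 0 11 0 20
(.lf 3 true 1 false false 1 0) (.lf 3 true 1 false false 2 0))) (.s 0 1 0 0 0 0 0 209
(.s 3 21 0 0 21 0 0 21
(.s 4 0 0 0 0 11 0 20
(.lf 3 true 1 false false 1 1) (.lf 3 true 1 false false 2 1)) (.lf 3 true 1 false false 2 1)) (.lf 3 true 1 false false 2 1))) (.s 3 1 0 0 1 0 0 0
(.s 4 0 10 10 0 11 0 0
(.s 4 0 0 0 0 11 0 20
(.lf 3 true 1 false false 1 0) (.lf 3 true 1 false false 2 0)) (.lf 3 true 1 false false 2 1)) (.s 4 0 0 0 0 11 0 20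
(.lf 3 true 1 false false 1 0) (.lf 3 true 1 false false 2 0)))) (.s 0 1 0 0 0 0 0 39
(.s 4 0 10 10 0 11 0 0
(.lf 3 true 1 false false 1 0) (.lf 3 true 1 false false 2 1)) (.s 3 1 0 0 1 0 0 0
(.s 4 0 10 10 0 11 0 0
(.lf 3 true 1 false false 2 0) (.lf 3 true 1 false false 2 1)) (.lf 3 true 1 false false 2 0)))) (.lf 3 true 1 false false 2 2)) (.lf 3 true 1 false false 2 2)) (.lf 3 true 1 false false 2 2)) (.lf 3 true 1 false false 2 2)) (.lf 3 true 1 false false 2 2)) (.lf 3 true 1 false false 2 2)) (.lf 3 true 1 false false 2 0)) (.lf 3 true 1 false false 2 0)) (.lf 3 true 1 false false 2 0))) (.s 1 0 4 12 0 0 0 6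
(.s 1 309178 0 0 0 0 0 1996354
(.lf 1 true 1 true true 1 0) (.lf 1 true 2 true false 1 0)) (.lf 2 true 2 false false 2 0))) (.s 0 5 0 0 0 0 0 7
(.s 1 0 4 12 0 0 0 6
(.s 1 309178 0 0 0 0 0 1996354
(.lf 1 false 1 true true 1 0) (.lf 1 false 2 true false 1 0)) (.lf 2 false 2 false false 2 0)) (.s 1 309178 0 0 0 0 0 1996354
(.lf 1 false 0 true true 1 0) (.lf 1 false 2 true false 1 0))))

def i1_39b : T2 :=
(.k 1009178 0 0 0 0 1996355 t1_39b_0)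

theorem hi1_39b : chk2 (leaf1 a1_39 e1_39) 10000 i1_39b R39_1b = true := by
  decide +kernel

def i1_39 : T2 := .s 3 0 0 4 0 10 i1_39a i1_39b

theorem hi1_39 : chk2 (leaf1 a1_39 e1_39) 10000 i1_39 R39 = true := chk2_s hi1_39a hi1_39b

theorem ok39 : CellOk R39 a0_39 e0_39 a1_39 e1_39 :=
  ⟨lin39, ⟨_, ho00_39⟩, ⟨_, ho01_39⟩, ⟨_, ho10_39⟩, ⟨_, ho11_39⟩, ⟨_, hi0_39⟩, ⟨_, hi1_39⟩⟩

end

end Vale.Agent.P334.Cert
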