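import Vale.Agent.P334.CertDefs

/-!
Data of the dual certificate, checked cell by cell.
-/

namespace Vale.Agent.P334.Cert

noncomputable section

def R3 : Reg := ⟨⟨0, 0, 0, 0, 0, 0, 0⟩, ⟨1, 0, 0, 0, 0, 0, 0⟩, ⟨0, 0, 0, 0, 0, 0, 0⟩, ⟨1, 0, 0, 0, 0, 0, 1⟩, ⟨0, 0, 0, 0, 0, 0, 0⟩, ⟨0, 0, 0, 0, 1, 0, 0⟩, ⟨1, 0, 0, 0, 0, 0, 3⟩, ⟨1, 0, 0, 0, 0, 0, 1⟩, ⟨0, 0, 0, 0, 0, 0, 0⟩, ⟨0, 0, 0, 0, 1, 0, 0⟩⟩

def a0_3 : SF := mu 0 0 0 0 714567 0 13903 0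

def e0_3 : SF := mu 0 0 0 0 0 1491356 302948 0

def a1_3 : SF := mu 0 0 0 0 500176 0 9711 0

def e1_3 : SF := mu 0 0 0 0 715931 0 0 1630137

theorem lin3 : chkLin R3 a0_3 e0_3 a1_3 e1_3 = true := by decide +kernel

def o00_3 : T3 :=
(.s 0 8 0 0 0 0 0 14
(.s 0 1 0 0 0 0 0 1
(.s 1 0 0 1 0 0 0 0
(.s 0 1 0 0 0 0 0 2
(.lf 2 true 0 true false 0 0) (.s 1 0 4 12 0 0 0 6
(.lf 1 true 0 true false 0 0) (.lf 2 true 0 true false 0 0))) (.s 2 0 0 1 0 0 0 0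
(.lf 3 true 0 true false 0 0) (.lf 3 true 0 false false 0 0))) (.s 1 0 4 12 0 0 0 6
(.lf 1 true 0 true false 0 0) (.lf 2 true 0 true false 0 0))) (.s 0 5 0 0 0 0 0 7
(.s 1 0 4 12 0 0 0 6
(.lf 1 false 0 true false 0 0) (.lf 2 false 0 true false 0 0)) (.lf 1 false 0 true false 0 0)))

theorem ho00_3 : chk3 (leafO 10500000 3 a0_3 e0_3 R3.x0.ap R3.x0.m) o00_3 (full R3) = true := by
  decide +kernel

def o01_3 : T3 :=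
(.s 0 8 0 0 0 0 0 14
(.s 0 1 0 0 0 0 0 1
(.s 1 0 0 1 0 0 0 0
(.s 0 1 0 0 0 0 0 2
(.lf 2 true 0 true false 0 0) (.s 1 0 4 12 0 0 0 6
(.lf 1 true 0 true false 0 0) (.lf 2 true 0 true false 0 0))) (.s 2 0 0 1 0 0 0 0
(.lf 3 true 0 true false 0 0) (.lf 3 true 0 false false 0 0))) (.s 1 0 4 12 0 0 0 6
(.lf 1 true 0 true false 0 0) (.lf 2 true 0 true false 0 0))) (.s 0 5 0 0 0 0 0 7
(.s 1 0 4 12 0 0 0 6
(.lf 1 false 0 true false 0 0) (.lf 2 false 0 true false 0 0)) (.lf 1 false 0 true false 0 0)))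

theorem ho01_3 : chk3 (leafO 10500000 3 a0_3 e0_3 R3.x1.ap R3.x1.m) o01_3 (full R3) = true := by
  decide +kernel

def o10_3 : T3 :=
(.s 0 8 0 0 0 0 0 14
(.s 0 1 0 0 0 0 0 1
(.s 1 0 0 1 0 0 0 0
(.s 0 1 0 0 0 0 0 2
(.lf 2 true 0 true false 0 0) (.s 1 0 4 12 0 0 0 6
(.lf 1 true 0 true false 0 0) (.lf 2 true 0 true false 0 0))) (.s 2 0 0 1 0 0 0 0
(.lf 3 true 0 true false 0 0) (.lf 3 true 0 false false 0 0))) (.s 1 0 4 12 0 0 0 6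
(.lf 1 true 0 true false 0 0) (.lf 2 true 0 true false 0 0))) (.s 0 5 0 0 0 0 0 7
(.s 1 0 4 12 0 0 0 6
(.lf 1 false 0 true false 0 0) (.lf 2 false 0 true false 0 0)) (.lf 1 false 0 true false 0 0)))

theorem ho10_3 : chk3 (leafO 5554500 1 a1_3 e1_3 R3.x0.ap R3.x0.m) o10_3 (full R3) = true := by
  decide +kernel

def o11_3 : T3 :=
(.s 0 8 0 0 0 0 0 14
(.s 0 1 0 0 0 0 0 1
(.s 1 0 0 1 0 0 0 0
(.s 0 1 0 0 0 0 0 2
(.s 1 0 0 1 0 0 0 1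
(.lf 2 true 0 true false 0 0) (.lf 2 true 0 true false 0 0)) (.s 1 0 4 12 0 0 0 6
(.lf 1 true 0 true false 0 0) (.s 1 0 4 19 0 0 0 13
(.lf 2 true 0 true false 0 0) (.lf 2 true 0 true false 0 0)))) (.s 2 0 0 1 0 0 0 0
(.lf 3 true 0 true false 0 0) (.lf 3 true 0 false false 0 0))) (.s 1 0 4 12 0 0 0 6
(.lf 1 true 0 true false 0 0) (.lf 2 true 0 true false 0 0))) (.s 0 5 0 0 0 0 0 7
(.s 1 0 4 12 0 0 0 6
(.lf 1 false 0 true false 0 0) (.lf 2 false 0 true false 0 0)) (.lf 1 false 0 true false 0 0)))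

theorem ho11_3 : chk3 (leafO 5554500 1 a1_3 e1_3 R3.x1.ap R3.x1.m) o11_3 (full R3) = true := by
  decide +kernel

def R3_0a : Reg := hi R3 (Nat.succ 3) ⟨0, 0, 0, 0, 1000, 0, 2736⟩

def R3_0b : Reg := lo R3 (Nat.succ 3) ⟨0, 0, 0, 0, 1000, 0, 2736⟩

def t0_3a_0 : T3 :=
(.s 0 8 0 0 0 0 0 14
(.s 0 1 0 0 0 0 0 1
(.s 1 0 0 1 0 0 0 0
(.s 0 1 0 0 0 0 0 2
(.lf 2 true 1 true false 0 0) (.s 1 0 4 12 0 0 0 6
(.lf 1 true 1 false false 0 0) (.lf 2 true 1 true false 0 0))) (.lf 3 true 1 true false 0 0)) (.s 1 0 4 12 0 0 0 6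
(.lf 1 true 1 false false 0 0) (.lf 2 true 1 true false 0 0))) (.s 0 5 0 0 0 0 0 7
(.s 1 0 4 12 0 0 0 6
(.lf 1 false 1 false false 0 0) (.lf 2 false 1 true false 0 0)) (.lf 1 false 0 false false 0 0)))

def t0_3a_1 : T3 :=
(.s 0 8 0 0 0 0 0 14
(.s 0 1 0 0 0 0 0 1
(.s 1 0 0 1 0 0 0 0
(.s 0 1 0 0 0 0 0 2
(.lf 2 true 1 true false 0 0) (.s 1 0 4 12 0 0 0 6
(.lf 1 true 1 false false 0 0) (.lf 2 true 1 true false 0 0))) (.s 0 1 0 0 0 0 0 3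
(.lf 3 true 1 true false 0 0) (.s 0 2 0 0 0 0 0 4
(.lf 3 true 1 true false 0 0) (.lf 3 true 1 true false 0 0)))) (.s 1 0 4 12 0 0 0 6
(.lf 1 true 1 true false 0 0) (.lf 2 true 1 true false 0 0))) (.s 0 5 0 0 0 0 0 7
(.s 1 0 4 12 0 0 0 6
(.lf 1 false 1 false false 0 0) (.lf 2 false 1 true false 0 0)) (.lf 1 false 0 false false 0 0)))

def i0_3a : T2 :=
(.s 3 0 0 1 0 4
(.k 727610 0 0 869793 0 459543 t0_3a_0) (.k 988006 0 0 738582 0 923088 t0_3a_1))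

theorem hi0_3a : chk2 (leaf0 a0_3 e0_3) 0 i0_3a R3_0a = true := by
  decide +kernel

def R3_0ba : Reg := hi R3_0b (Nat.succ 0) ⟨1, 0, 0, 0, 0, 0, 3⟩

def R3_0bb : Reg := lo R3_0b (Nat.succ 0) ⟨1, 0, 0, 0, 0, 0, 3⟩

def t0_3ba_0 : T3 :=
(.s 0 8 0 0 0 0 0 14
(.s 0 1 0 0 0 0 0 3
(.s 1 0 0 1 0 0 0 0
(.lf 2 true 1 false false 0 0) (.s 3 1000 0 0 1000 0 0 2736
(.lf 3 true 1 true false 0 0) (.s 4 1000 0 0 1000 0 0 2736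
(.lf 3 true 1 false false 0 0) (.lf 3 true 1 false false 0 0)))) (.s 0 1 0 0 0 0 0 2
(.lf 2 true 1 false false 0 0) (.s 0 23 0 0 0 0 0 47
(.s 1 0 4 12 0 0 0 6
(.lf 1 true 1 false false 0 0) (.lf 2 true 1 false false 0 0)) (.lf 1 true 1 false false 0 0)))) (.lf 1 false 0 false false 0 0))

def i0_3ba : T2 :=
(.k 1273796 0 0 1315239 0 779403 t0_3ba_0)

theorem hi0_3ba : chk2 (leaf0 a0_3 e0_3) 0 i0_3ba R3_0ba = true := by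
  decide +kernel

def R3_0bba : Reg := hi R3_0bb (Nat.succ 3) ⟨0, 0, 0, 0, 3, 0, 3⟩

def R3_0bbb : Reg := lo R3_0bb (Nat.succ 3) ⟨0, 0, 0, 0, 3, 0, 3⟩

def R3_0bbaa : Reg := hi R3_0bba (Nat.succ 3) ⟨0, 0, 0, 0, 1, 0, 1⟩

def R3_0bbab : Reg := lo R3_0bba (Nat.succ 3) ⟨0, 0, 0, 0, 1, 0, 1⟩

def t0_3bbaa_0 : T3 :=
(.s 0 8 0 0 0 0 0 14
(.s 0 1 0 0 0 0 0 3
(.lf 3 true 1 true false 0 0) (.s 0 1 0 0 0 0 0 1
(.s 1 0 0 1 0 0 0 0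
(.s 0 23 0 0 0 0 0 47
(.lf 2 true 1 true false 0 0) (.s 1 0 4 12 0 0 0 6
(.lf 1 true 1 false false 0 0) (.lf 2 true 1 true false 0 0))) (.lf 3 true 1 true false 0 0)) (.s 1 0 4 12 0 0 0 6
(.lf 1 true 1 false false 0 0) (.lf 2 true 1 true false 0 0)))) (.s 0 5 0 0 0 0 0 7
(.s 1 0 4 12 0 0 0 6
(.lf 1 false 1 false false 0 0) (.lf 2 false 1 true false 0 0)) (.lf 1 false 0 false false 0 0)))

def t0_3bbaa_1 : T3 :=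
(.s 0 8 0 0 0 0 0 14
(.s 0 1 0 0 0 0 0 3
(.lf 3 true 1 true false 0 0) (.s 0 2 0 0 0 0 0 4
(.s 1 0 0 1 0 0 0 0
(.lf 2 true 1 true false 0 0) (.lf 3 true 1 true false 0 0)) (.s 0 23 0 0 0 0 0 47
(.lf 2 true 1 true false 0 0) (.s 1 0 4 12 0 0 0 6
(.lf 1 true 1 false false 0 0) (.lf 2 true 1 true false 0 0))))) (.s 0 17 0 0 0 0 0 29
(.s 1 0 4 12 0 0 0 6
(.lf 1 false 1 true false 0 0) (.lf 2 false 1 true false 0 0)) (.lf 1 false 0 false false 0 0)))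

def t0_3bbaa_2 : T3 :=
(.s 0 8 0 0 0 0 0 14
(.s 0 2 0 0 0 0 0 4
(.lf 3 true 1 true false 0 0) (.s 0 1 0 0 0 0 0 1
(.s 1 0 0 1 0 0 0 0
(.lf 2 true 1 true false 0 0) (.lf 3 true 1 true false 0 0)) (.lf 2 true 1 true false 0 0))) (.s 0 17 0 0 0 0 0 29
(.lf 2 false 1 true false 0 0) (.s 0 5 0 0 0 0 0 7
(.s 1 0 4 12 0 0 0 6
(.lf 1 false 1 false false 0 0) (.lf 2 false 1 true false 0 0)) (.lf 1 false 0 true false 0 0))))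

def t0_3bbaa_3 : T3 :=
(.s 0 8 0 0 0 0 0 14
(.s 0 2 0 0 0 0 0 4
(.lf 3 true 1 true false 0 0) (.s 0 1 0 0 0 0 0 1
(.s 1 0 0 1 0 0 0 0
(.lf 2 true 1 true false 0 0) (.lf 3 true 1 true false 0 0)) (.lf 2 true 1 true false 0 0))) (.s 0 17 0 0 0 0 0 29
(.lf 2 false 1 true false 0 0) (.s 0 5 0 0 0 0 0 7
(.s 1 0 4 12 0 0 0 6
(.lf 1 false 1 false false 0 0) (.lf 2 false 1 true false 0 0)) (.lf 1 false 0 false false 0 0))))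

def t0_3bbaa_4 : T3 :=
(.s 0 8 0 0 0 0 0 14
(.s 0 2 0 0 0 0 0 4
(.lf 3 true 1 true false 0 0) (.s 0 1 0 0 0 0 0 1
(.s 1 0 0 1 0 0 0 0
(.lf 2 true 1 true false 0 0) (.lf 3 true 1 true false 0 0)) (.lf 2 true 1 true false 0 0))) (.s 0 17 0 0 0 0 0 29
(.lf 2 false 1 true false 0 0) (.s 0 5 0 0 0 0 0 7
(.s 1 0 4 12 0 0 0 6
(.lf 1 false 1 false false 0 0) (.lf 2 false 1 true false 0 0)) (.lf 1 false 0 false false 0 0))))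

def t0_3bbaa_5 : T3 :=
(.s 0 8 0 0 0 0 0 14
(.s 0 1 0 0 0 0 0 3
(.lf 3 true 1 true false 0 0) (.s 0 1 0 0 0 0 0 1
(.s 1 0 0 1 0 0 0 0
(.s 0 23 0 0 0 0 0 47
(.s 0 2263 0 0 0 0 0 4999
(.s 0 1263 0 0 0 0 0 3999
(.lf 2 true 1 true false 0 0) (.s 3 2000 0 0 2000 0 0 2736
(.lf 2 true 1 true false 0 0) (.s 4 1000 0 0 1000 0 0 2736
(.lf 2 true 1 true false 0 0) (.lf 2 true 1 false false 0 0)))) (.s 4 1000 0 0 1000 0 0 2736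
(.lf 2 true 1 true false 0 0) (.lf 2 true 1 false false 0 0))) (.s 1 0 4 12 0 0 0 6
(.lf 1 true 1 true false 0 0) (.lf 2 true 1 false false 0 0))) (.s 0 2263 0 0 0 0 0 4999
(.s 0 1263 0 0 0 0 0 3999
(.lf 3 true 1 true false 0 0) (.s 3 2000 0 0 2000 0 0 2736
(.lf 3 true 1 true false 0 0) (.s 4 1000 0 0 1000 0 0 2736
(.lf 3 true 1 true false 0 0) (.lf 3 true 1 false false 0 0)))) (.s 4 1000 0 0 1000 0 0 2736
(.lf 3 true 1 true false 0 0) (.lf 3 true 1 false false 0 0)))) (.s 1 0 4 12 0 0 0 6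
(.lf 1 true 1 false false 0 0) (.lf 2 true 1 false false 0 0)))) (.s 0 5 0 0 0 0 0 7
(.s 1 0 4 12 0 0 0 6
(.lf 1 false 1 false false 0 0) (.lf 2 false 1 false false 0 0)) (.lf 1 false 0 false false 0 0)))

def i0_3bbaa : T2 :=
(.s 2 2 0 0 0 4
(.s 1 0 0 1 0 1
(.k 1274443 0 0 1370538 0 724104 t0_3bbaa_0) (.s 0 2 0 0 0 4
(.k 1532801 0 0 1421169 0 1788369 t0_3bbaa_1) (.s 1 0 0 3 0 3
(.k 1269788 0 0 1370538 0 724104 t0_3bbaa_2) (.s 3 0 0 9 0 19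
(.k 1290777 0 0 630207 0 1464435 t0_3bbaa_3) (.k 1509479 0 0 630207 0 1786768 t0_3bbaa_4))))) (.k 752941 0 0 856586 623531 0 t0_3bbaa_5))

theorem hi0_3bbaa : chk2 (leaf0 a0_3 e0_3) 0 i0_3bbaa R3_0bbaa = true := by
  decide +kernel

def R3_0bbaba : Reg := hi R3_0bbab (Nat.succ 1) ⟨0, 0, 0, 0, 1, 0, 1⟩

def R3_0bbabb : Reg := lo R3_0bbab (Nat.succ 1) ⟨0, 0, 0, 0, 1, 0, 1⟩

def t0_3bbaba_0 : T3 :=
(.s 0 8 0 0 0 0 0 14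
(.s 0 1 0 0 0 0 0 3
(.s 3 4000 0 0 4000 0 0 8210
(.lf 3 true 1 true false 0 0) (.s 4 1000 0 0 1000 0 0 2736
(.lf 3 true 1 true false 0 0) (.lf 3 true 1 false false 0 0))) (.s 0 1 0 0 0 0 0 1
(.s 1 0 0 1 0 0 0 0
(.s 0 23 0 0 0 0 0 47
(.lf 2 true 1 false false 0 0) (.s 1 0 4 12 0 0 0 6
(.lf 1 true 1 false false 0 0) (.lf 2 true 1 false false 0 0))) (.s 0 1263 0 0 0 0 0 3999
(.s 3 4000 0 0 4000 0 0 8210
(.lf 3 true 1 true false 0 0) (.s 4 1000 0 0 1000 0 0 2736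
(.lf 3 true 1 true false 0 0) (.lf 3 true 1 false false 0 0))) (.s 3 2000 0 0 2000 0 0 2736
(.s 0 7789 0 0 0 0 0 15999
(.s 3 4000 0 0 4000 0 0 8210
(.lf 3 true 1 true false 0 0) (.s 4 1000 0 0 1000 0 0 2736
(.lf 3 true 1 true false 0 0) (.lf 3 true 1 false false 0 0))) (.s 4 1000 0 0 1000 0 0 2736
(.lf 3 true 1 true false 0 0) (.lf 3 true 1 false false 0 0))) (.lf 3 true 1 false false 0 0)))) (.s 1 0 4 12 0 0 0 6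
(.lf 1 true 1 false false 0 0) (.lf 2 true 1 false false 0 0)))) (.s 0 5 0 0 0 0 0 7
(.s 1 0 4 12 0 0 0 6
(.lf 1 false 1 false false 0 0) (.lf 2 false 1 false false 0 0)) (.lf 1 false 0 false false 0 0)))

def i0_3bbaba : T2 :=
(.k 1104051 0 0 1565103 81670 0 t0_3bbaba_0)

theorem hi0_3bbaba : chk2 (leaf0 a0_3 e0_3) 0 i0_3bbaba R3_0bbaba = true := by
  decide +kernel

def R3_0bbabba : Reg := hi R3_0bbabb (Nat.succ 3) ⟨0, 0, 0, 0, 3, 0, 4⟩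

def R3_0bbabbb : Reg := lo R3_0bbabb (Nat.succ 3) ⟨0, 0, 0, 0, 3, 0, 4⟩

def t0_3bbabba_0 : T3 :=
(.s 0 8 0 0 0 0 0 14
(.s 0 1 0 0 0 0 0 3
(.s 0 1789 0 0 0 0 0 9999
(.lf 3 true 1 true false 0 0) (.s 3 5000 0 0 5000 0 0 8210
(.lf 3 true 1 true false 0 0) (.s 4 1000 0 0 1000 0 0 2736
(.lf 3 true 1 true false 0 0) (.lf 3 true 1 false false 0 0)))) (.s 0 1 0 0 0 0 0 1
(.s 1 0 0 1 0 0 0 0
(.s 0 23 0 0 0 0 0 47
(.s 3 2 0 0 0 0 0 4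
(.s 0 2263 0 0 0 0 0 4999
(.s 0 4289 0 0 0 0 0 12499
(.lf 2 true 1 true false 0 0) (.s 3 5000 0 0 5000 0 0 8210
(.lf 2 true 1 true false 0 0) (.s 4 1000 0 0 1000 0 0 2736
(.lf 2 true 1 true false 0 0) (.lf 2 true 1 false false 0 0)))) (.s 3 2000 0 0 2000 0 0 2736
(.s 3 5000 0 0 5000 0 0 8210
(.lf 2 true 1 true false 0 0) (.s 4 1000 0 0 1000 0 0 2736
(.lf 2 true 1 true false 0 0) (.lf 2 true 1 false false 0 0))) (.lf 2 true 1 false false 0 0))) (.s 0 2 0 0 0 0 0 4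
(.s 0 1263 0 0 0 0 0 3999
(.s 3 5000 0 0 5000 0 0 8210
(.lf 2 true 1 true false 0 0) (.s 4 1000 0 0 1000 0 0 2736
(.lf 2 true 1 true false 0 0) (.lf 2 true 1 false false 0 0))) (.s 3 2000 0 0 2000 0 0 2736
(.s 0 4289 0 0 0 0 0 12499
(.s 3 5000 0 0 5000 0 0 8210
(.lf 2 true 1 true false 0 0) (.s 4 1000 0 0 1000 0 0 2736
(.lf 2 true 1 true false 0 0) (.lf 2 true 1 false false 0 0))) (.s 4 1000 0 0 1000 0 0 2736
(.lf 2 true 1 true false 0 0) (.lf 2 true 1 false false 0 0))) (.lf 2 true 1 false false 0 0))) (.lf 2 true 1 false false 0 0))) (.s 1 0 4 12 0 0 0 6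
(.lf 1 true 1 false false 0 0) (.s 3 2000 0 0 2000 0 0 2736
(.s 3 5000 0 0 5000 0 0 8210
(.lf 2 true 1 true false 0 0) (.s 4 1000 0 0 1000 0 0 2736
(.lf 2 true 1 true false 0 0) (.lf 2 true 1 false false 0 0))) (.lf 2 true 1 false false 0 0)))) (.s 3 2 0 0 0 0 0 4
(.s 0 2263 0 0 0 0 0 4999
(.s 0 4289 0 0 0 0 0 12499
(.lf 3 true 1 true false 0 0) (.s 3 5000 0 0 5000 0 0 8210
(.lf 3 true 1 true false 0 0) (.s 4 1000 0 0 1000 0 0 2736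
(.lf 3 true 1 true false 0 0) (.lf 3 true 1 false false 0 0)))) (.s 3 2000 0 0 2000 0 0 2736
(.s 3 5000 0 0 5000 0 0 8210
(.lf 3 true 1 true false 0 0) (.s 4 1000 0 0 1000 0 0 2736
(.lf 3 true 1 true false 0 0) (.lf 3 true 1 false false 0 0))) (.lf 3 true 1 false false 0 0))) (.s 0 2 0 0 0 0 0 4
(.s 0 1263 0 0 0 0 0 3999
(.s 3 5000 0 0 5000 0 0 8210
(.lf 3 true 1 true false 0 0) (.s 4 1000 0 0 1000 0 0 2736
(.lf 3 true 1 true false 0 0) (.lf 3 true 1 false false 0 0))) (.s 3 2000 0 0 2000 0 0 2736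
(.s 0 4289 0 0 0 0 0 12499
(.s 3 5000 0 0 5000 0 0 8210
(.lf 3 true 1 true false 0 0) (.s 4 1000 0 0 1000 0 0 2736
(.lf 3 true 1 true false 0 0) (.lf 3 true 1 false false 0 0))) (.s 4 1000 0 0 1000 0 0 2736
(.lf 3 true 1 true false 0 0) (.lf 3 true 1 false false 0 0))) (.lf 3 true 1 false false 0 0))) (.lf 3 true 1 false false 0 0)))) (.s 1 0 4 12 0 0 0 6
(.lf 1 true 1 false false 0 0) (.s 3 2000 0 0 2000 0 0 2736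
(.s 3 5000 0 0 5000 0 0 8210
(.lf 2 true 1 true false 0 0) (.s 4 1000 0 0 1000 0 0 2736
(.lf 2 true 1 true false 0 0) (.lf 2 true 1 false false 0 0))) (.lf 2 true 1 false false 0 0))))) (.s 0 5 0 0 0 0 0 7
(.s 1 0 4 12 0 0 0 6
(.lf 1 false 1 false false 0 0) (.lf 2 false 1 true false 0 0)) (.lf 1 false 0 false false 0 0)))

def i0_3bbabba : T2 :=
(.k 914454 0 0 1147916 61415 0 t0_3bbabba_0)

theorem hi0_3bbabba : chk2 (leaf0 a0_3 e0_3) 0 i0_3bbabba R3_0bbabba = true := by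
  decide +kernel

def t0_3bbabbb_0 : T3 :=
(.s 0 8 0 0 0 0 0 14
(.s 0 1 0 0 0 0 0 3
(.s 0 1789 0 0 0 0 0 9999
(.s 3 4000 0 0 4000 0 0 8210
(.lf 3 true 1 true false 0 0) (.s 4 1000 0 0 1000 0 0 2736
(.lf 3 true 1 true false 0 0) (.lf 3 true 1 false false 0 0))) (.s 3 5000 0 0 5000 0 0 8210
(.s 3 4000 0 0 4000 0 0 8210
(.lf 3 true 1 true false 0 0) (.s 4 1000 0 0 1000 0 0 2736
(.lf 3 true 1 true false 0 0) (.lf 3 true 1 false false 0 0))) (.lf 3 true 1 false false 0 0))) (.s 0 1 0 0 0 0 0 1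
(.s 1 0 0 1 0 0 0 0
(.s 0 23 0 0 0 0 0 47
(.lf 2 true 1 false false 0 0) (.s 1 0 4 12 0 0 0 6
(.lf 1 true 1 false false 0 0) (.lf 2 true 1 false false 0 0))) (.s 3 5000 0 0 5000 0 0 8210
(.s 0 7789 0 0 0 0 0 15999
(.s 3 4000 0 0 4000 0 0 8210
(.lf 3 true 1 true false 0 0) (.s 4 1000 0 0 1000 0 0 2736
(.lf 3 true 1 true false 0 0) (.lf 3 true 1 false false 0 0))) (.s 4 1000 0 0 1000 0 0 2736
(.lf 3 true 1 true false 0 0) (.lf 3 true 1 false false 0 0))) (.lf 3 true 1 false false 0 0))) (.s 1 0 4 12 0 0 0 6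
(.lf 1 true 1 false false 0 0) (.lf 2 true 1 false false 0 0)))) (.s 0 5 0 0 0 0 0 7
(.s 1 0 4 12 0 0 0 6
(.lf 1 false 1 true false 0 0) (.lf 2 false 1 false false 0 0)) (.lf 1 false 0 true false 0 0)))

def i0_3bbabbb : T2 :=
(.k 2000000 0 0 937331 0 2058942 t0_3bbabbb_0)

theorem hi0_3bbabbb : chk2 (leaf0 a0_3 e0_3) 0 i0_3bbabbb R3_0bbabbb = true := by
  decide +kernel

def i0_3bbabb : T2 := .s 3 0 0 3 0 4 i0_3bbabba i0_3bbabbb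

theorem hi0_3bbabb : chk2 (leaf0 a0_3 e0_3) 0 i0_3bbabb R3_0bbabb = true := chk2_s hi0_3bbabba hi0_3bbabbb

def i0_3bbab : T2 := .s 1 0 0 1 0 1 i0_3bbaba i0_3bbabb

theorem hi0_3bbab : chk2 (leaf0 a0_3 e0_3) 0 i0_3bbab R3_0bbab = true := chk2_s hi0_3bbaba hi0_3bbabb

def i0_3bba : T2 := .s 3 0 0 1 0 1 i0_3bbaa i0_3bbab

theorem hi0_3bba : chk2 (leaf0 a0_3 e0_3) 0 i0_3bba R3_0bba = true := chk2_s hi0_3bbaa hi0_3bbab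

def t0_3bbb_0 : T3 :=
(.s 0 8 0 0 0 0 0 14
(.s 0 1 0 0 0 0 0 3
(.s 3 4000 0 0 4000 0 0 8210
(.s 3 1000 0 0 1000 0 0 2736
(.lf 3 true 1 true false 0 0) (.s 4 1000 0 0 1000 0 0 2736
(.lf 3 true 1 false false 0 0) (.lf 3 true 1 false false 0 0))) (.lf 3 true 1 false false 0 0)) (.s 0 1 0 0 0 0 0 1
(.s 1 0 0 1 0 0 0 0
(.s 0 23 0 0 0 0 0 47
(.lf 2 true 1 false false 0 0) (.s 1 0 4 12 0 0 0 6
(.lf 1 true 1 true false 0 0) (.lf 2 true 1 false false 0 0))) (.lf 3 true 1 false false 0 0)) (.s 1 0 4 12 0 0 0 6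
(.lf 1 true 1 false false 0 0) (.lf 2 true 1 false false 0 0)))) (.s 0 5 0 0 0 0 0 7
(.s 1 0 4 12 0 0 0 6
(.lf 1 false 1 false false 0 0) (.lf 2 false 1 false false 0 0)) (.lf 1 false 0 false false 0 0)))

def i0_3bbb : T2 :=
(.k 2000000 0 0 1194687 0 1710229 t0_3bbb_0)

theorem hi0_3bbb : chk2 (leaf0 a0_3 e0_3) 0 i0_3bbb R3_0bbb = true := by
  decide +kernel

def i0_3bb : T2 := .s 3 0 0 3 0 3 i0_3bba i0_3bbb

theorem hi0_3bb : chk2 (leaf0 a0_3 e0_3) 0 i0_3bb R3_0bb = true := chk2_s hi0_3bba hi0_3bbb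

def i0_3b : T2 := .s 0 1 0 0 0 3 i0_3ba i0_3bb

theorem hi0_3b : chk2 (leaf0 a0_3 e0_3) 0 i0_3b R3_0b = true := chk2_s hi0_3ba hi0_3bb

def i0_3 : T2 := .s 3 0 0 1000 0 2736 i0_3a i0_3b

theorem hi0_3 : chk2 (leaf0 a0_3 e0_3) 0 i0_3 R3 = true := chk2_s hi0_3a hi0_3b

def t1_3_0 : T3 :=
(.s 0 8 0 0 0 0 0 14
(.s 0 1 0 0 0 0 0 1
(.s 1 0 0 1 0 0 0 0
(.s 0 1 0 0 0 0 0 2
(.s 1 0 0 1 0 0 0 1
(.s 0 1 0 0 0 0 0 4
(.lf 2 true 1 true false 0 1) (.s 1 0 0 1 0 0 0 3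
(.lf 2 true 1 true false 0 1) (.lf 2 true 1 true false 0 1))) (.s 0 10448 0 0 0 0 0 53124
(.lf 2 true 1 true false 0 1) (.s 1 0 5224 37500 0 0 0 21874
(.lf 2 true 1 true false 0 1) (.lf 2 true 1 true false 0 1)))) (.s 1 0 4 12 0 0 0 6
(.s 0 2 0 0 0 0 0 4
(.lf 1 true 1 false false 0 1) (.s 0 9 0 0 0 0 0 19
(.lf 1 true 1 false false 0 1) (.lf 1 true 1 false false 0 2))) (.s 1 0 4 19 0 0 0 13
(.s 0 2 0 0 0 0 0 4
(.s 1 0 12 43 0 0 0 27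
(.lf 2 true 1 true false 0 1) (.s 0 3 0 0 0 0 0 7
(.lf 2 true 1 true false 0 1) (.lf 2 true 1 true false 0 1))) (.s 0 9 0 0 0 0 0 19
(.s 1 0 12 43 0 0 0 27
(.lf 2 true 1 true false 0 1) (.lf 2 true 1 true false 0 1)) (.lf 2 true 1 true false 0 2))) (.lf 2 true 1 true false 0 2)))) (.s 0 5224 0 0 0 0 0 15624
(.lf 3 true 1 true false 0 1) (.lf 3 true 1 true false 0 2))) (.s 1 0 4 12 0 0 0 6
(.lf 1 true 1 false false 0 2) (.lf 2 true 1 true false 0 2))) (.s 0 5 0 0 0 0 0 7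
(.s 1 0 4 12 0 0 0 6
(.lf 1 false 1 false false 0 2) (.lf 2 false 1 true false 0 2)) (.lf 1 false 2 false false 0 2)))

def t1_3_1 : T3 :=
(.s 0 8 0 0 0 0 0 14
(.s 0 1 0 0 0 0 0 1
(.s 1 0 0 1 0 0 0 0
(.s 0 1 0 0 0 0 0 2
(.s 4 0 0 0 0 11 0 20
(.lf 2 true 1 true false 1 1) (.s 0 1699 0 0 0 0 0 5999
(.s 3 1000 0 0 1000 0 0 2736
(.lf 2 true 1 true false 2 1) (.s 4 1000 0 0 1000 0 0 2736
(.lf 2 true 1 true false 2 1) (.lf 2 true 1 false false 2 1))) (.s 3 3000 0 0 3000 0 0 4300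
(.s 0 1263 0 0 0 0 0 3999
(.s 3 1000 0 0 1000 0 0 2736
(.lf 2 true 1 true false 2 1) (.s 4 1000 0 0 1000 0 0 2736
(.lf 2 true 1 false false 1 1) (.lf 2 true 1 false false 2 1))) (.s 4 1000 0 0 1000 0 0 2736
(.lf 2 true 1 false false 1 1) (.lf 2 true 1 false false 2 1))) (.lf 2 true 1 false false 2 1)))) (.s 1 0 4 12 0 0 0 6
(.lf 1 true 1 false false 2 2) (.s 0 2 0 0 0 0 0 4
(.lf 2 true 1 false false 2 1) (.lf 2 true 1 false false 2 2)))) (.s 0 1 0 0 0 0 0 3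
(.s 3 1000 0 0 1000 0 0 2736
(.lf 3 true 1 true false 2 1) (.s 4 1000 0 0 1000 0 0 2736
(.lf 3 true 1 true false 2 1) (.lf 3 true 1 false false 2 1))) (.lf 3 true 1 false false 2 2))) (.s 1 0 4 12 0 0 0 6
(.lf 1 true 1 false false 2 2) (.lf 2 true 1 false false 2 2))) (.s 0 5 0 0 0 0 0 7
(.s 1 0 4 12 0 0 0 6
(.lf 1 false 1 false true 1 2) (.lf 2 false 1 false true 1 2)) (.s 0 3 0 0 0 0 0 3
(.lf 1 false 1 false true 1 2) (.lf 1 false 0 true true 1 0))))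

def i1_3 : T2 :=
(.s 3 0 0 4 0 10
(.k 117920 0 0 0 0 0 t1_3_0) (.k 1009831 0 0 0 0 0 t1_3_1))

theorem hi1_3 : chk2 (leaf1 a1_3 e1_3) 10000 i1_3 R3 = true := by
  decide +kernel

theorem ok3 : CellOk R3 a0_3 e0_3 a1_3 e1_3 :=
  ⟨lin3, ⟨_, ho00_3⟩, ⟨_, ho01_3⟩, ⟨_, ho10_3⟩, ⟨_, ho11_3⟩, ⟨_, hi0_3⟩, ⟨_, hi1_3⟩⟩

def R4 : Reg := ⟨⟨0, 0, 0, 0, 0, 0, 0⟩, ⟨1, 0, 0, 0, 0, 0, 0⟩, ⟨0, 0, 0, 0, 0, 0, 0⟩, ⟨1, 0, 0, 0, 0, 0, 1⟩, ⟨0, 0, 0, 0, 1, 0, 0⟩, ⟨1, 0, 0, 0, 7, 0, 7⟩, ⟨0, 0, 0, 0, 0, 0, 0⟩, ⟨1, 0, 0, 0, 0, 0, 3⟩, ⟨0, 0, 0, 0, 0, 0, 0⟩, ⟨0, 0, 0, 0, 1, 0, 0⟩⟩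

def a0_4 : SF := mu 0 0 230691 0 0 0 0 0

def e0_4 : SF := mu 0 0 740708 0 0 0 0 0

def a1_4 : SF := mu 0 0 115657 0 0 0 0 0

def e1_4 : SF := mu 0 0 518475 0 0 0 0 0

theorem lin4 : chkLin R4 a0_4 e0_4 a1_4 e1_4 = true := by decide +kernel

def o00_4 : T3 :=
(.s 0 8 0 0 0 0 0 14
(.s 0 1 0 0 0 0 0 1
(.s 1 0 0 1 0 0 0 0
(.s 0 1 0 0 0 0 0 2
(.lf 2 true 0 false false 0 0) (.s 1 0 4 12 0 0 0 6
(.lf 1 true 0 true false 0 0) (.lf 2 true 0 false false 0 0))) (.lf 3 true 0 false false 0 0)) (.s 1 0 4 12 0 0 0 6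
(.lf 1 true 0 true false 0 0) (.lf 2 true 0 false false 0 0))) (.s 0 5 0 0 0 0 0 7
(.s 1 0 4 12 0 0 0 6
(.lf 1 false 0 true false 0 0) (.lf 2 false 0 false false 0 0)) (.lf 1 false 0 true false 0 0)))

theorem ho00_4 : chk3 (leafO 10500000 3 a0_4 e0_4 R4.x0.ap R4.x0.m) o00_4 (full R4) = true := by
  decide +kernel

def o01_4 : T3 :=
(.s 0 8 0 0 0 0 0 14
(.s 0 1 0 0 0 0 0 1
(.s 1 0 0 1 0 0 0 0
(.s 0 1 0 0 0 0 0 2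
(.lf 2 true 0 false false 0 0) (.s 1 0 4 12 0 0 0 6
(.lf 1 true 0 true false 0 0) (.s 1 0 1 8 0 0 0 6
(.lf 2 true 0 true false 0 0) (.s 2 0 0 1 0 0 0 0
(.lf 2 true 0 false false 0 0) (.lf 2 true 0 false false 0 0))))) (.lf 3 true 0 false false 0 0)) (.s 1 0 4 12 0 0 0 6
(.lf 1 true 0 true false 0 0) (.s 1 0 1 8 0 0 0 6
(.lf 2 true 0 true false 0 0) (.s 2 0 0 1 0 0 0 0
(.lf 2 true 0 false false 0 0) (.lf 2 true 0 false false 0 0))))) (.s 0 5 0 0 0 0 0 7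
(.s 1 0 4 12 0 0 0 6
(.lf 1 false 0 true false 0 0) (.s 0 9 0 0 0 0 0 15
(.s 1 0 1 8 0 0 0 6
(.lf 2 false 0 true false 0 0) (.s 2 0 0 1 0 0 0 0
(.lf 2 false 0 false false 0 0) (.lf 2 false 0 false false 0 0))) (.lf 2 false 0 true false 0 0))) (.lf 1 false 0 true false 0 0)))

theorem ho01_4 : chk3 (leafO 10500000 3 a0_4 e0_4 R4.x1.ap R4.x1.m) o01_4 (full R4) = true := by
  decide +kernel

def o10_4 : T3 :=
(.s 0 8 0 0 0 0 0 14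
(.s 0 1 0 0 0 0 0 1
(.s 1 0 0 1 0 0 0 0
(.s 0 1 0 0 0 0 0 2
(.lf 2 true 0 false false 0 0) (.s 1 0 4 12 0 0 0 6
(.lf 1 true 0 true false 0 0) (.lf 2 true 0 false false 0 0))) (.lf 3 true 0 false false 0 0)) (.s 1 0 4 12 0 0 0 6
(.lf 1 true 0 true false 0 0) (.lf 2 true 0 false false 0 0))) (.s 0 5 0 0 0 0 0 7
(.s 1 0 4 12 0 0 0 6
(.lf 1 false 0 true false 0 0) (.lf 2 false 0 false false 0 0)) (.lf 1 false 0 true false 0 0)))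

theorem ho10_4 : chk3 (leafO 5554500 1 a1_4 e1_4 R4.x0.ap R4.x0.m) o10_4 (full R4) = true := by
  decide +kernel

def o11_4 : T3 :=
(.s 0 8 0 0 0 0 0 14
(.s 0 1 0 0 0 0 0 1
(.s 1 0 0 1 0 0 0 0
(.s 0 1 0 0 0 0 0 2
(.lf 2 true 0 false false 0 0) (.s 1 0 4 12 0 0 0 6
(.lf 1 true 0 true false 0 0) (.lf 2 true 0 false false 0 0))) (.lf 3 true 0 false false 0 0)) (.s 1 0 4 12 0 0 0 6
(.lf 1 true 0 true false 0 0) (.lf 2 true 0 false false 0 0))) (.s 0 5 0 0 0 0 0 7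
(.s 1 0 4 12 0 0 0 6
(.lf 1 false 0 true false 0 0) (.lf 2 false 0 false false 0 0)) (.lf 1 false 0 true false 0 0)))

theorem ho11_4 : chk3 (leafO 5554500 1 a1_4 e1_4 R4.x1.ap R4.x1.m) o11_4 (full R4) = true := by
  decide +kernel

def t0_4_0 : T3 :=
(.s 0 8 0 0 0 0 0 14
(.s 0 1 0 0 0 0 0 1
(.s 1 0 0 1 0 0 0 0
(.s 0 1 0 0 0 0 0 2
(.s 0 1 0 0 0 0 0 4
(.lf 2 true 1 true false 0 0) (.s 1 0 0 1 0 0 0 1
(.s 1 0 0 1 0 0 0 3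
(.s 0 1 0 0 0 0 0 3
(.lf 2 true 1 true false 0 0) (.lf 2 true 1 true false 0 0)) (.lf 2 true 1 true false 0 0)) (.lf 2 true 1 true false 0 0))) (.s 1 0 4 12 0 0 0 6
(.lf 1 true 1 false false 0 0) (.s 1 0 4 19 0 0 0 13
(.lf 2 true 1 true false 0 0) (.lf 2 true 1 true false 0 0)))) (.lf 3 true 1 true false 0 0)) (.s 1 0 4 12 0 0 0 6
(.lf 1 true 1 false false 0 0) (.s 1 0 1 24 0 0 0 27
(.lf 2 true 1 true false 0 0) (.lf 2 true 1 true false 0 0)))) (.s 0 5 0 0 0 0 0 7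
(.s 1 0 4 12 0 0 0 6
(.lf 1 false 1 false false 0 0) (.lf 2 false 1 true false 0 0)) (.lf 1 false 0 false false 0 0)))

def t0_4_1 : T3 :=
(.s 0 8 0 0 0 0 0 14
(.s 0 1 0 0 0 0 0 1
(.s 1 0 0 1 0 0 0 0
(.s 0 1 0 0 0 0 0 2
(.s 0 1 0 0 0 0 0 4
(.s 0 1 0 0 0 0 0 9
(.lf 2 true 1 true false 0 0) (.s 0 3 0 0 0 0 0 19
(.lf 2 true 1 true false 0 0) (.lf 2 true 1 true false 0 0))) (.lf 2 true 1 true false 0 0)) (.s 1 0 4 12 0 0 0 6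
(.lf 1 true 1 false false 0 0) (.lf 2 true 1 true false 0 0))) (.lf 3 true 1 true false 0 0)) (.s 1 0 4 12 0 0 0 6
(.lf 1 true 1 false false 0 0) (.lf 2 true 1 true false 0 0))) (.s 0 5 0 0 0 0 0 7
(.s 1 0 4 12 0 0 0 6
(.lf 1 false 1 false false 0 0) (.lf 2 false 1 true false 0 0)) (.lf 1 false 0 false false 0 0)))

def t0_4_2 : T3 :=
(.s 0 8 0 0 0 0 0 14
(.s 0 1 0 0 0 0 0 1
(.s 1 0 0 1 0 0 0 0
(.s 0 1 0 0 0 0 0 2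
(.lf 2 true 1 true false 0 0) (.s 1 0 4 12 0 0 0 6
(.lf 1 true 1 false false 0 0) (.lf 2 true 1 true false 0 0))) (.lf 3 true 1 true false 0 0)) (.s 1 0 4 12 0 0 0 6
(.lf 1 true 1 false false 0 0) (.lf 2 true 1 false false 0 0))) (.s 0 5 0 0 0 0 0 7
(.s 1 0 4 12 0 0 0 6
(.lf 1 false 1 false false 0 0) (.lf 2 false 1 false false 0 0)) (.lf 1 false 0 false false 0 0)))

def i0_4 : T2 :=
(.s 3 0 0 1 0 1
(.s 3 0 0 1 0 3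
(.k 247406 0 0 1482465 1250093 0 t0_4_0) (.k 320057 0 625214 0 0 849178 t0_4_1)) (.k 743602 0 0 1333333 1197273 0 t0_4_2))

theorem hi0_4 : chk2 (leaf0 a0_4 e0_4) 0 i0_4 R4 = true := by
  decide +kernel

def t1_4_0 : T3 :=
(.s 0 8 0 0 0 0 0 14
(.s 0 1 0 0 0 0 0 1
(.s 1 0 0 1 0 0 0 0
(.s 0 1 0 0 0 0 0 2
(.s 0 1 0 0 0 0 0 4
(.s 0 1 0 0 0 0 0 9
(.lf 2 true 1 true false 0 1) (.s 1 0 0 1 0 0 0 1
(.s 0 3 0 0 0 0 0 19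
(.s 0 1 0 0 0 0 0 7
(.lf 2 true 1 true false 0 1) (.lf 2 true 1 true false 0 1)) (.lf 2 true 1 true false 0 1)) (.lf 2 true 1 true false 0 1))) (.s 1 0 0 1 0 0 0 1
(.s 0 1 0 0 0 0 0 3
(.s 1 0 0 1 0 0 0 3
(.lf 2 true 1 true false 0 1) (.lf 2 true 1 true false 0 1)) (.s 1 0 0 1 0 0 0 3
(.s 0 3 0 0 0 0 0 9
(.s 1 0 0 1 0 0 0 7
(.lf 2 true 1 true false 0 1) (.s 0 11 0 0 0 0 0 39
(.lf 2 true 1 true false 0 1) (.lf 2 true 1 true false 0 1))) (.lf 2 true 1 true false 0 1)) (.s 0 3 0 0 0 0 0 9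
(.lf 2 true 1 true false 0 1) (.s 0 8 0 0 0 0 0 24
(.lf 2 true 1 true false 0 1) (.lf 2 true 1 true false 0 1))))) (.s 0 1 0 0 0 0 0 3
(.lf 2 true 1 true false 0 1) (.lf 2 true 1 true false 0 1)))) (.s 1 0 4 12 0 0 0 6
(.lf 1 true 1 false false 0 1) (.s 1 0 4 19 0 0 0 13
(.s 1 0 12 43 0 0 0 27
(.lf 2 true 1 true false 0 1) (.lf 2 true 1 true false 0 1)) (.lf 2 true 1 true false 0 1)))) (.lf 3 true 1 true false 0 1)) (.s 1 0 4 12 0 0 0 6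
(.lf 1 true 1 false false 0 1) (.s 1 0 1 24 0 0 0 27
(.lf 2 true 1 true false 0 1) (.lf 2 true 1 true false 0 1)))) (.s 0 5 0 0 0 0 0 7
(.s 1 0 4 12 0 0 0 6
(.lf 1 false 1 true false 0 1) (.s 1 0 1 24 0 0 0 27
(.lf 2 false 1 true false 0 1) (.s 0 23 0 0 0 0 0 39
(.lf 2 false 1 true false 0 1) (.lf 2 false 1 true false 0 1)))) (.s 0 8263 0 0 0 0 0 10999
(.lf 1 false 1 false false 0 2) (.s 3 2750 0 0 2750 0 0 2736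
(.lf 1 false 1 false false 0 2) (.s 4 1000 0 0 1000 0 0 2736
(.lf 1 false 2 false false 0 0) (.lf 1 false 2 false false 0 0))))))

def t1_4_1 : T3 :=
(.s 0 8 0 0 0 0 0 14
(.s 0 1 0 0 0 0 0 1
(.s 1 0 0 1 0 0 0 0
(.s 0 1 0 0 0 0 0 2
(.s 0 1 0 0 0 0 0 4
(.lf 2 true 1 true false 2 1) (.lf 2 true 1 true false 2 1)) (.s 1 0 4 12 0 0 0 6
(.lf 1 true 1 true false 2 1) (.lf 2 true 1 false false 2 1))) (.lf 3 true 1 true false 2 1)) (.s 1 0 4 12 0 0 0 6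
(.lf 1 true 1 false false 2 1) (.lf 2 true 1 false false 2 1))) (.s 0 5 0 0 0 0 0 7
(.s 1 0 4 12 0 0 0 6
(.lf 1 false 1 true false 2 1) (.lf 2 false 1 false false 2 1)) (.s 1 1318717 0 0 0 0 0 5690380
(.s 2 1827 0 0 0 1877964 0 1333332
(.s 0 8263 0 0 0 0 0 10999
(.s 3 1000 0 0 1000 0 0 2736
(.lf 1 false 1 true false 2 1) (.s 4 1000 0 0 1000 0 0 2736
(.lf 1 false 1 false false 1 2) (.lf 1 false 1 false false 2 2))) (.s 3 2750 0 0 2750 0 0 2736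
(.s 3 1000 0 0 1000 0 0 2736
(.lf 1 false 1 false false 1 1) (.s 4 1000 0 0 1000 0 0 2736
(.lf 1 false 0 false true 1 2) (.lf 1 false 0 false true 1 2))) (.lf 1 false 0 false true 1 0))) (.s 0 3 0 0 0 0 0 3
(.lf 1 false 1 false false 2 2) (.s 3 110 0 0 110 0 0 116
(.lf 1 false 1 false false 1 1) (.s 3 1 0 0 1 0 0 0
(.s 4 0 10 10 0 11 0 0
(.lf 1 false 1 false false 1 0) (.lf 1 false 1 false false 1 1)) (.lf 1 false 2 false false 1 0))))) (.s 0 3 0 0 0 0 0 3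
(.lf 1 false 1 false false 2 2) (.s 3 110 0 0 110 0 0 116
(.lf 1 false 1 false false 1 1) (.s 3 1 0 0 1 0 0 0
(.s 4 0 10 10 0 11 0 0
(.lf 1 false 0 false true 1 0) (.lf 1 false 0 false true 1 1)) (.lf 1 false 0 false true 1 0)))))))

def i1_4 : T2 :=
(.s 3 0 0 4 0 10
(.k 143184 0 0 693993 539717 0 t1_4_0) (.k 701827 0 0 1333333 1877964 0 t1_4_1))

theorem hi1_4 : chk2 (leaf1 a1_4 e1_4) 10000 i1_4 R4 = true := by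
  decide +kernel

theorem ok4 : CellOk R4 a0_4 e0_4 a1_4 e1_4 :=
  ⟨lin4, ⟨_, ho00_4⟩, ⟨_, ho01_4⟩, ⟨_, ho10_4⟩, ⟨_, ho11_4⟩, ⟨_, hi0_4⟩, ⟨_, hi1_4⟩⟩

def R11 : Reg := ⟨⟨0, 0, 0, 0, 0, 0, 0⟩, ⟨1, 0, 0, 0, 0, 0, 0⟩, ⟨1, 0, 0, 0, 0, 0, 1⟩, ⟨1, 0, 0, 0, 0, 0, 0⟩, ⟨1, 0, 0, 0, 0, 0, 1⟩, ⟨1, 0, 0, 0, 0, 0, 0⟩, ⟨0, 0, 0, 0, 0, 0, 0⟩, ⟨1, 0, 0, 0, 0, 0, 3⟩, ⟨0, 0, 0, 0, 0, 0, 0⟩, ⟨0, 0, 0, 0, 1, 0, 0⟩⟩

def a0_11 : SF := mu 0 0 328599 0 0 0 0 0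

def e0_11 : SF := mu 0 0 562203 0 0 0 0 0

def a1_11 : SF := mu 0 0 229998 0 0 0 0 0

def e1_11 : SF := mu 0 0 151505 0 0 0 0 0

theorem lin11 : chkLin R11 a0_11 e0_11 a1_11 e1_11 = true := by decide +kernel

def o00_11 : T3 :=
(.s 0 8 0 0 0 0 0 14
(.s 0 1 0 0 0 0 0 1
(.lf 3 true 0 false false 0 0) (.s 1 0 0 1 0 0 0 0
(.lf 2 true 0 false false 0 0) (.lf 3 true 0 false false 0 0))) (.s 1 0 0 1 0 0 0 0
(.s 0 5 0 0 0 0 0 7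
(.lf 2 false 0 false false 0 0) (.s 0 4 0 0 0 0 0 4
(.s 1 0 4 12 0 0 0 6
(.lf 1 false 0 false false 0 0) (.lf 2 false 0 false false 0 0)) (.lf 0 false 0 false false 0 0))) (.s 0 4 0 0 0 0 0 4
(.lf 3 false 0 false false 0 0) (.s 0 11 0 0 0 0 0 11
(.s 1 0 4 12 0 0 0 6
(.lf 0 false 0 false false 0 0) (.lf 0 false 0 false false 0 0)) (.lf 0 false 0 false false 0 0)))))

theorem ho00_11 : chk3 (leafO 10500000 3 a0_11 e0_11 R11.x0.ap R11.x0.m) o00_11 (full R11) = true := by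
  decide +kernel

def o01_11 : T3 :=
(.s 0 8 0 0 0 0 0 14
(.s 0 1 0 0 0 0 0 1
(.lf 3 true 0 false false 0 0) (.s 1 0 0 1 0 0 0 0
(.lf 2 true 0 false false 0 0) (.lf 3 true 0 false false 0 0))) (.s 1 0 0 1 0 0 0 0
(.s 0 5 0 0 0 0 0 7
(.lf 2 false 0 false false 0 0) (.s 0 4 0 0 0 0 0 4
(.s 1 0 4 12 0 0 0 6
(.lf 1 false 0 false false 0 0) (.lf 2 false 0 false false 0 0)) (.lf 0 false 0 false false 0 0))) (.s 0 4 0 0 0 0 0 4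
(.lf 3 false 0 false false 0 0) (.s 0 11 0 0 0 0 0 11
(.s 1 0 4 12 0 0 0 6
(.lf 0 false 0 false false 0 0) (.lf 0 false 0 false false 0 0)) (.lf 0 false 0 false false 0 0)))))

theorem ho01_11 : chk3 (leafO 10500000 3 a0_11 e0_11 R11.x1.ap R11.x1.m) o01_11 (full R11) = true := by
  decide +kernel

def o10_11 : T3 :=
(.s 0 8 0 0 0 0 0 14
(.s 0 1 0 0 0 0 0 1
(.lf 3 true 0 false false 0 0) (.s 1 0 0 1 0 0 0 0
(.lf 2 true 0 false false 0 0) (.lf 3 true 0 false false 0 0))) (.s 1 0 0 1 0 0 0 0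
(.s 0 5 0 0 0 0 0 7
(.lf 2 false 0 false false 0 0) (.s 0 4 0 0 0 0 0 4
(.s 1 0 4 12 0 0 0 6
(.lf 1 false 0 false false 0 0) (.lf 2 false 0 false false 0 0)) (.lf 0 false 0 false false 0 0))) (.s 0 4 0 0 0 0 0 4
(.lf 3 false 0 false false 0 0) (.s 0 11 0 0 0 0 0 11
(.s 1 0 4 12 0 0 0 6
(.lf 0 false 0 false false 0 0) (.lf 0 false 0 false false 0 0)) (.lf 0 false 0 false false 0 0)))))

theorem ho10_11 : chk3 (leafO 5554500 1 a1_11 e1_11 R11.x0.ap R11.x0.m) o10_11 (full R11) = true := by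
  decide +kernel

def o11_11 : T3 :=
(.s 0 8 0 0 0 0 0 14
(.s 0 1 0 0 0 0 0 1
(.lf 3 true 0 false false 0 0) (.s 1 0 0 1 0 0 0 0
(.lf 2 true 0 false false 0 0) (.lf 3 true 0 false false 0 0))) (.s 1 0 0 1 0 0 0 0
(.s 0 5 0 0 0 0 0 7
(.lf 2 false 0 false false 0 0) (.s 0 4 0 0 0 0 0 4
(.s 1 0 4 12 0 0 0 6
(.lf 1 false 0 false false 0 0) (.lf 2 false 0 false false 0 0)) (.lf 0 false 0 false false 0 0))) (.s 0 4 0 0 0 0 0 4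
(.lf 3 false 0 false false 0 0) (.s 0 11 0 0 0 0 0 11
(.s 1 0 4 12 0 0 0 6
(.lf 0 false 0 false false 0 0) (.lf 0 false 0 false false 0 0)) (.lf 0 false 0 false false 0 0)))))

theorem ho11_11 : chk3 (leafO 5554500 1 a1_11 e1_11 R11.x1.ap R11.x1.m) o11_11 (full R11) = true := by
  decide +kernel

def t0_11_0 : T3 :=
(.s 0 8 0 0 0 0 0 14
(.s 0 1 0 0 0 0 0 1
(.lf 3 true 1 true false 0 0) (.s 1 0 0 1 0 0 0 0
(.lf 2 true 1 true false 0 0) (.lf 3 true 1 true false 0 0))) (.s 1 0 0 1 0 0 0 0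
(.s 0 5 0 0 0 0 0 7
(.lf 2 false 1 true false 0 0) (.s 0 4 0 0 0 0 0 4
(.s 1 0 4 12 0 0 0 6
(.lf 1 false 1 false false 0 0) (.lf 2 false 1 true false 0 0)) (.lf 0 false 0 false false 0 0))) (.s 0 4 0 0 0 0 0 4
(.lf 3 false 1 true false 0 0) (.s 0 11 0 0 0 0 0 11
(.s 1 0 4 12 0 0 0 6
(.lf 0 false 1 false false 0 0) (.lf 0 false 1 false false 0 0)) (.lf 0 false 0 false false 0 0)))))

def t0_11_1 : T3 :=
(.s 0 8 0 0 0 0 0 14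
(.s 0 1 0 0 0 0 0 1
(.s 0 1 0 0 0 0 0 3
(.lf 3 true 1 true false 0 0) (.s 4 0 0 0 0 3 0 3
(.lf 3 true 1 true false 0 0) (.lf 3 true 1 false false 0 0))) (.s 1 0 0 1 0 0 0 0
(.lf 2 true 1 false false 0 0) (.lf 3 true 1 false false 0 0))) (.s 1 0 0 1 0 0 0 0
(.s 0 5 0 0 0 0 0 7
(.lf 2 false 1 false false 0 0) (.s 0 4 0 0 0 0 0 4
(.s 1 0 4 12 0 0 0 6
(.lf 1 false 1 false false 0 0) (.lf 2 false 1 false false 0 0)) (.lf 0 false 0 false false 0 0))) (.s 0 4 0 0 0 0 0 4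
(.lf 3 false 1 false false 0 0) (.s 0 11 0 0 0 0 0 11
(.s 1 0 4 12 0 0 0 6
(.lf 0 false 1 false false 0 0) (.lf 0 false 1 false false 0 0)) (.lf 0 false 0 false false 0 0)))))

def i0_11 : T2 :=
(.s 3 0 0 1 0 1
(.k 388000 0 0 358000 0 0 t0_11_0) (.k 893906 0 0 863906 0 0 t0_11_1))

theorem hi0_11 : chk2 (leaf0 a0_11 e0_11) 0 i0_11 R11 = true := by
  decide +kernel

def t1_11_0 : T3 :=
(.s 0 8 0 0 0 0 0 14
(.s 0 1 0 0 0 0 0 1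
(.lf 3 true 1 true false 0 1) (.s 1 0 0 1 0 0 0 0
(.lf 2 true 1 true false 0 1) (.lf 3 true 1 true false 0 1))) (.s 1 0 0 1 0 0 0 0
(.s 0 5 0 0 0 0 0 7
(.lf 2 false 1 true false 0 1) (.s 0 4 0 0 0 0 0 4
(.s 1 0 4 12 0 0 0 6
(.lf 1 false 1 false false 0 2) (.s 0 7 0 0 0 0 0 9
(.lf 2 false 1 true false 0 1) (.lf 2 false 1 true false 0 2))) (.s 3 2750 0 0 2750 0 0 2736
(.lf 0 false 1 false false 0 2) (.s 4 1000 0 0 1000 0 0 2736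
(.lf 0 false 2 false false 0 0) (.lf 0 false 2 false false 0 0))))) (.s 0 4 0 0 0 0 0 4
(.s 0 7 0 0 0 0 0 9
(.lf 3 false 1 true false 0 1) (.lf 3 false 1 true false 0 2)) (.s 0 11 0 0 0 0 0 11
(.s 1 0 4 12 0 0 0 6
(.s 3 1 0 0 0 0 0 9
(.lf 0 false 1 true false 0 2) (.lf 0 false 2 false false 0 2)) (.s 3 1 0 0 0 0 0 9
(.lf 0 false 1 true false 0 2) (.lf 0 false 2 false false 0 2))) (.s 3 2750 0 0 2750 0 0 2736
(.lf 0 false 1 false false 0 2) (.s 4 1000 0 0 1000 0 0 2736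
(.lf 0 false 2 false false 0 0) (.lf 0 false 2 false false 0 0)))))))

def t1_11_1 : T3 :=
(.s 0 8 0 0 0 0 0 14
(.s 0 1 0 0 0 0 0 1
(.s 0 1263 0 0 0 0 0 3999
(.lf 3 true 1 true false 2 1) (.s 3 1000 0 0 1000 0 0 2736
(.lf 3 true 1 true false 2 1) (.s 4 1000 0 0 1000 0 0 2736
(.lf 3 true 1 false false 2 1) (.lf 3 true 1 false false 2 1)))) (.s 1 0 0 1 0 0 0 0
(.lf 2 true 1 false false 2 1) (.lf 3 true 1 false false 1 1))) (.s 1 0 0 1 0 0 0 0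
(.s 0 5 0 0 0 0 0 7
(.lf 2 false 1 false false 2 1) (.s 0 4 0 0 0 0 0 4
(.s 1 0 4 12 0 0 0 6
(.lf 1 false 1 false false 2 2) (.lf 2 false 1 false false 2 2)) (.s 1 1675371 0 0 0 0 0 2254167
(.s 2 1208286 0 0 0 0 1127084 741200
(.s 3 2750 0 0 2750 0 0 2736
(.s 3 1000 0 0 1000 0 0 2736
(.lf 0 false 1 false false 1 1) (.s 4 1000 0 0 1000 0 0 2736
(.lf 0 false 0 false true 1 2) (.lf 0 false 0 false true 1 2))) (.lf 0 false 0 false true 1 0)) (.s 3 2750 0 0 2750 0 0 2736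
(.s 3 1000 0 0 1000 0 0 2736
(.lf 0 false 1 false false 1 1) (.s 4 1000 0 0 1000 0 0 2736
(.lf 0 false 1 false false 1 2) (.lf 0 false 1 false false 1 2))) (.lf 0 false 2 false false 1 0))) (.s 3 2750 0 0 2750 0 0 2736
(.s 3 1000 0 0 1000 0 0 2736
(.lf 0 false 1 false false 1 1) (.s 4 1000 0 0 1000 0 0 2736
(.lf 0 false 1 false false 1 2) (.lf 0 false 1 false false 1 2))) (.lf 0 false 2 false false 1 0))))) (.s 0 4 0 0 0 0 0 4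
(.lf 3 false 1 false false 1 2) (.s 0 11 0 0 0 0 0 11
(.s 1 0 4 12 0 0 0 6
(.s 3 1 0 0 0 0 0 9
(.lf 0 false 1 true false 1 2) (.lf 0 false 2 false false 1 2)) (.s 3 1 0 0 0 0 0 9
(.lf 0 false 1 true false 1 2) (.lf 0 false 2 false false 1 2))) (.s 3 2750 0 0 2750 0 0 2736
(.s 3 1000 0 0 1000 0 0 2736
(.lf 0 false 1 false false 1 1) (.s 4 1000 0 0 1000 0 0 2736
(.lf 0 false 0 false false 1 2) (.lf 0 false 0 false false 1 2))) (.lf 0 false 0 false false 1 0))))))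

def i1_11 : T2 :=
(.s 3 0 0 4 0 10
(.k 194104 0 0 168831 0 5 t1_11_0) (.k 1908286 0 0 741201 0 1127084 t1_11_1))

theorem hi1_11 : chk2 (leaf1 a1_11 e1_11) 10000 i1_11 R11 = true := by
  decide +kernel

theorem ok11 : CellOk R11 a0_11 e0_11 a1_11 e1_11 :=
  ⟨lin11, ⟨_, ho00_11⟩, ⟨_, ho01_11⟩, ⟨_, ho10_11⟩, ⟨_, ho11_11⟩, ⟨_, hi0_11⟩, ⟨_, hi1_11⟩⟩

def R24 : Reg := ⟨⟨0, 0, 0, 0, 0, 0, 0⟩, ⟨1, 0, 0, 0, 0, 0, 0⟩, ⟨0, 0, 0, 0, 0, 0, 0⟩, ⟨1, 0, 0, 0, 0, 0, 1⟩, ⟨1, 0, 0, 0, 3, 0, 3⟩, ⟨1, 0, 0, 0, 1, 0, 1⟩, ⟨1, 0, 0, 0, 0, 0, 1⟩, ⟨3, 0, 0, 0, 0, 0, 4⟩, ⟨0, 0, 0, 0, 0, 0, 0⟩, ⟨0, 0, 0, 0, 1, 0, 0⟩⟩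

def a0_24 : SF := mu 0 331294 762352 0 0 0 114970 0

def e0_24 : SF := mu 442759 0 0 855784 1374300 0 0 703213

def a1_24 : SF := mu 0 123429 246918 0 0 0 116795 0

def e1_24 : SF := mu 309911 0 0 599049 962010 0 0 492249

theorem lin24 : chkLin R24 a0_24 e0_24 a1_24 e1_24 = true := by decide +kernel

def o00_24 : T3 :=
(.s 0 8 0 0 0 0 0 14
(.s 0 1 0 0 0 0 0 1
(.s 1 0 0 1 0 0 0 0
(.s 0 1 0 0 0 0 0 2
(.s 0 1 0 0 0 0 0 3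
(.lf 2 true 0 false false 0 0) (.s 1 0 1 4 0 0 0 2
(.s 2 0 0 1 0 0 0 0
(.lf 2 true 0 true false 0 0) (.lf 2 true 0 false false 0 0)) (.lf 2 true 0 false false 0 0))) (.s 1 0 4 12 0 0 0 6
(.s 2 0 0 1 0 0 0 0
(.lf 1 true 0 true false 0 0) (.lf 1 true 0 false false 0 0)) (.s 1 0 1 4 0 0 0 2
(.s 2 0 0 1 0 0 0 0
(.lf 2 true 0 true false 0 0) (.lf 2 true 0 false false 0 0)) (.lf 2 true 0 false false 0 0)))) (.lf 3 true 0 false false 0 0)) (.s 1 0 4 12 0 0 0 6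
(.s 1 0 1 2 0 0 0 0
(.lf 1 true 0 true false 0 0) (.s 2 0 0 1 0 0 0 0
(.lf 1 true 0 true false 0 0) (.lf 1 true 0 false false 0 0))) (.s 1 0 1 4 0 0 0 2
(.s 2 0 0 1 0 0 0 0
(.lf 2 true 0 true false 0 0) (.lf 2 true 0 false false 0 0)) (.lf 2 true 0 false false 0 0)))) (.s 0 5 0 0 0 0 0 7
(.s 1 0 4 12 0 0 0 6
(.s 1 0 1 2 0 0 0 0
(.lf 1 false 0 true false 0 0) (.s 2 0 0 1 0 0 0 0
(.lf 1 false 0 true false 0 0) (.lf 1 false 0 false false 0 0))) (.s 1 0 1 4 0 0 0 2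
(.s 2 0 0 1 0 0 0 0
(.lf 2 false 0 true false 0 0) (.lf 2 false 0 false false 0 0)) (.lf 2 false 0 false false 0 0))) (.s 0 3 0 0 0 0 0 3
(.s 1 0 1 2 0 0 0 0
(.lf 1 false 0 true false 0 0) (.s 2 0 0 1 0 0 0 0
(.lf 1 false 0 true false 0 0) (.lf 1 false 0 false false 0 0))) (.lf 1 false 0 true false 0 0))))

theorem ho00_24 : chk3 (leafO 10500000 3 a0_24 e0_24 R24.x0.ap R24.x0.m) o00_24 (full R24) = true := by
  decide +kernel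

def o01_24 : T3 :=
(.s 0 8 0 0 0 0 0 14
(.s 0 1 0 0 0 0 0 1
(.s 1 0 0 1 0 0 0 0
(.s 0 1 0 0 0 0 0 2
(.s 0 1 0 0 0 0 0 3
(.lf 2 true 0 false false 0 0) (.s 1 0 1 4 0 0 0 2
(.s 2 0 0 1 0 0 0 0
(.lf 2 true 0 true false 0 0) (.lf 2 true 0 false false 0 0)) (.lf 2 true 0 false false 0 0))) (.s 1 0 4 12 0 0 0 6
(.s 2 0 0 1 0 0 0 0
(.lf 1 true 0 true false 0 0) (.lf 1 true 0 false false 0 0)) (.s 1 0 1 4 0 0 0 2
(.s 2 0 0 1 0 0 0 0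
(.lf 2 true 0 true false 0 0) (.lf 2 true 0 false false 0 0)) (.lf 2 true 0 false false 0 0)))) (.lf 3 true 0 false false 0 0)) (.s 1 0 4 12 0 0 0 6
(.s 1 0 1 2 0 0 0 0
(.lf 1 true 0 true false 0 0) (.s 2 0 0 1 0 0 0 0
(.lf 1 true 0 true false 0 0) (.lf 1 true 0 false false 0 0))) (.s 1 0 1 4 0 0 0 2
(.s 2 0 0 1 0 0 0 0
(.lf 2 true 0 true false 0 0) (.lf 2 true 0 false false 0 0)) (.lf 2 true 0 false false 0 0)))) (.s 0 5 0 0 0 0 0 7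
(.s 1 0 4 12 0 0 0 6
(.s 1 0 1 2 0 0 0 0
(.lf 1 false 0 true false 0 0) (.s 2 0 0 1 0 0 0 0
(.lf 1 false 0 true false 0 0) (.lf 1 false 0 false false 0 0))) (.s 1 0 1 4 0 0 0 2
(.s 2 0 0 1 0 0 0 0
(.lf 2 false 0 true false 0 0) (.lf 2 false 0 false false 0 0)) (.lf 2 false 0 false false 0 0))) (.s 0 3 0 0 0 0 0 3
(.s 1 0 1 2 0 0 0 0
(.lf 1 false 0 true false 0 0) (.s 2 0 0 1 0 0 0 0
(.lf 1 false 0 true false 0 0) (.lf 1 false 0 false false 0 0))) (.lf 1 false 0 true false 0 0))))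

theorem ho01_24 : chk3 (leafO 10500000 3 a0_24 e0_24 R24.x1.ap R24.x1.m) o01_24 (full R24) = true := by
  decide +kernel

def o10_24 : T3 :=
(.s 0 8 0 0 0 0 0 14
(.s 0 1 0 0 0 0 0 1
(.s 1 0 0 1 0 0 0 0
(.s 0 1 0 0 0 0 0 2
(.lf 2 true 0 false false 0 0) (.s 1 0 4 12 0 0 0 6
(.s 2 0 0 1 0 0 0 0
(.lf 1 true 0 true false 0 0) (.lf 1 true 0 false false 0 0)) (.lf 2 true 0 false false 0 0))) (.lf 3 true 0 false false 0 0)) (.s 1 0 4 12 0 0 0 6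
(.s 1 0 1 2 0 0 0 0
(.lf 1 true 0 true false 0 0) (.s 2 0 0 1 0 0 0 0
(.lf 1 true 0 true false 0 0) (.lf 1 true 0 false false 0 0))) (.lf 2 true 0 false false 0 0))) (.s 0 5 0 0 0 0 0 7
(.s 1 0 4 12 0 0 0 6
(.s 1 0 1 2 0 0 0 0
(.lf 1 false 0 true false 0 0) (.s 2 0 0 1 0 0 0 0
(.lf 1 false 0 true false 0 0) (.lf 1 false 0 false false 0 0))) (.lf 2 false 0 false false 0 0)) (.s 0 3 0 0 0 0 0 3
(.s 1 0 1 2 0 0 0 0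
(.lf 1 false 0 true false 0 0) (.s 2 0 0 1 0 0 0 0
(.lf 1 false 0 true false 0 0) (.lf 1 false 0 false false 0 0))) (.lf 1 false 0 true false 0 0))))

theorem ho10_24 : chk3 (leafO 5554500 1 a1_24 e1_24 R24.x0.ap R24.x0.m) o10_24 (full R24) = true := by
  decide +kernel

def o11_24 : T3 :=
(.s 0 8 0 0 0 0 0 14
(.s 0 1 0 0 0 0 0 1
(.s 1 0 0 1 0 0 0 0
(.s 0 1 0 0 0 0 0 2
(.s 0 1 0 0 0 0 0 3
(.lf 2 true 0 false false 0 0) (.s 1 0 1 4 0 0 0 2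
(.s 2 0 0 1 0 0 0 0
(.lf 2 true 0 true false 0 0) (.lf 2 true 0 false false 0 0)) (.lf 2 true 0 false false 0 0))) (.s 1 0 4 12 0 0 0 6
(.s 2 0 0 1 0 0 0 0
(.lf 1 true 0 true false 0 0) (.lf 1 true 0 false false 0 0)) (.s 1 0 1 4 0 0 0 2
(.s 2 0 0 1 0 0 0 0
(.lf 2 true 0 true false 0 0) (.lf 2 true 0 false false 0 0)) (.lf 2 true 0 false false 0 0)))) (.lf 3 true 0 false false 0 0)) (.s 1 0 4 12 0 0 0 6
(.s 1 0 1 2 0 0 0 0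
(.lf 1 true 0 true false 0 0) (.s 2 0 0 1 0 0 0 0
(.lf 1 true 0 true false 0 0) (.lf 1 true 0 false false 0 0))) (.s 1 0 1 4 0 0 0 2
(.s 2 0 0 1 0 0 0 0
(.lf 2 true 0 true false 0 0) (.lf 2 true 0 false false 0 0)) (.lf 2 true 0 false false 0 0)))) (.s 0 5 0 0 0 0 0 7
(.s 1 0 4 12 0 0 0 6
(.s 1 0 1 2 0 0 0 0
(.lf 1 false 0 true false 0 0) (.s 2 0 0 1 0 0 0 0
(.lf 1 false 0 true false 0 0) (.lf 1 false 0 false false 0 0))) (.s 1 0 1 4 0 0 0 2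
(.s 2 0 0 1 0 0 0 0
(.lf 2 false 0 true false 0 0) (.lf 2 false 0 false false 0 0)) (.lf 2 false 0 false false 0 0))) (.s 0 3 0 0 0 0 0 3
(.s 1 0 1 2 0 0 0 0
(.lf 1 false 0 true false 0 0) (.s 2 0 0 1 0 0 0 0
(.lf 1 false 0 true false 0 0) (.lf 1 false 0 false false 0 0))) (.lf 1 false 0 true false 0 0))))

theorem ho11_24 : chk3 (leafO 5554500 1 a1_24 e1_24 R24.x1.ap R24.x1.m) o11_24 (full R24) = true := by
  decide +kernel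

def R24_0a : Reg := hi R24 (Nat.succ 3) ⟨0, 0, 0, 0, 1000, 0, 2736⟩

def R24_0b : Reg := lo R24 (Nat.succ 3) ⟨0, 0, 0, 0, 1000, 0, 2736⟩

def t0_24a_0 : T3 :=
(.s 0 8 0 0 0 0 0 14
(.s 0 1 0 0 0 0 0 1
(.s 1 0 0 1 0 0 0 0
(.s 0 1 0 0 0 0 0 2
(.lf 2 true 1 true false 0 0) (.s 1 0 4 12 0 0 0 6
(.lf 1 true 1 true false 0 0) (.lf 2 true 1 true false 0 0))) (.lf 3 true 1 true false 0 0)) (.s 1 0 4 12 0 0 0 6
(.lf 1 true 1 true false 0 0) (.lf 2 true 1 true false 0 0))) (.s 0 5 0 0 0 0 0 7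
(.s 1 0 4 12 0 0 0 6
(.lf 1 false 1 false false 0 0) (.lf 2 false 1 true false 0 0)) (.lf 1 false 0 false false 0 0)))

def i0_24a : T2 :=
(.k 690482 0 0 1289072 554644 0 t0_24a_0)

theorem hi0_24a : chk2 (leaf0 a0_24 e0_24) 0 i0_24a R24_0a = true := by
  decide +kernel

def R24_0ba : Reg := hi R24_0b (Nat.succ 0) ⟨1, 0, 0, 0, 0, 0, 3⟩

def R24_0bb : Reg := lo R24_0b (Nat.succ 0) ⟨1, 0, 0, 0, 0, 0, 3⟩

def t0_24ba_0 : T3 :=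
(.s 0 8 0 0 0 0 0 14
(.s 0 1 0 0 0 0 0 3
(.s 1 0 0 1 0 0 0 0
(.s 0 1 0 0 0 0 0 9
(.lf 2 true 1 true false 0 0) (.s 1 0 0 1 0 0 0 1
(.s 0 1 0 0 0 0 0 4
(.lf 2 true 1 true false 0 0) (.lf 2 true 1 true false 0 0)) (.lf 2 true 1 true false 0 0))) (.lf 3 true 1 true false 0 0)) (.s 0 1 0 0 0 0 0 2
(.lf 2 true 1 true false 0 0) (.s 0 23 0 0 0 0 0 47
(.s 1 0 4 12 0 0 0 6
(.lf 1 true 1 false false 0 0) (.lf 2 true 1 false false 0 0)) (.lf 1 true 1 false false 0 0)))) (.lf 1 false 0 true false 0 0))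

def t0_24ba_1 : T3 :=
(.s 0 8 0 0 0 0 0 14
(.s 0 1 0 0 0 0 0 3
(.s 1 0 0 1 0 0 0 0
(.s 0 1789 0 0 0 0 0 9999
(.lf 2 true 1 true false 0 0) (.s 3 2000 0 0 2000 0 0 2736
(.lf 2 true 1 true false 0 0) (.s 4 1000 0 0 1000 0 0 2736
(.lf 2 true 1 true false 0 0) (.lf 2 true 1 false false 0 0)))) (.s 0 1789 0 0 0 0 0 9999
(.lf 3 true 1 true false 0 0) (.s 3 2000 0 0 2000 0 0 2736
(.lf 3 true 1 true false 0 0) (.s 4 1000 0 0 1000 0 0 2736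
(.lf 3 true 1 true false 0 0) (.lf 3 true 1 false false 0 0))))) (.s 0 1 0 0 0 0 0 2
(.lf 2 true 1 false false 0 0) (.s 0 23 0 0 0 0 0 47
(.s 1 0 4 12 0 0 0 6
(.lf 1 true 1 false false 0 0) (.lf 2 true 1 false false 0 0)) (.lf 1 true 1 false false 0 0)))) (.lf 1 false 0 true false 0 0))

def t0_24ba_2 : T3 :=
(.s 0 8 0 0 0 0 0 14
(.s 0 1 0 0 0 0 0 9
(.s 1 0 0 1 0 0 0 0
(.lf 2 true 1 false false 0 0) (.lf 3 true 1 false false 0 0)) (.s 0 1 0 0 0 0 0 2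
(.lf 2 true 1 false false 0 0) (.s 0 47 0 0 0 0 0 119
(.s 1 0 4 12 0 0 0 6
(.lf 1 true 1 true false 0 0) (.lf 2 true 1 false false 0 0)) (.lf 1 true 1 false false 0 0)))) (.lf 1 false 0 false false 0 0))

def t0_24ba_3 : T3 :=
(.s 0 8 0 0 0 0 0 14
(.s 0 1 0 0 0 0 0 9
(.s 1 0 0 1 0 0 0 0
(.lf 2 true 1 true false 0 0) (.lf 3 true 1 true false 0 0)) (.s 0 1 0 0 0 0 0 2
(.lf 2 true 1 false false 0 0) (.s 0 47 0 0 0 0 0 119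
(.s 1 0 4 12 0 0 0 6
(.lf 1 true 1 true false 0 0) (.lf 2 true 1 false false 0 0)) (.lf 1 true 1 true false 0 0)))) (.lf 1 false 0 false false 0 0))

def t0_24ba_4 : T3 :=
(.s 0 8 0 0 0 0 0 14
(.s 0 1 0 0 0 0 0 9
(.s 1 0 0 1 0 0 0 0
(.lf 2 true 1 false false 0 0) (.lf 3 true 1 false false 0 0)) (.s 0 1 0 0 0 0 0 2
(.lf 2 true 1 false false 0 0) (.s 0 47 0 0 0 0 0 119
(.s 1 0 4 12 0 0 0 6
(.lf 1 true 1 true false 0 0) (.lf 2 true 1 false false 0 0)) (.lf 1 true 1 false false 0 0)))) (.lf 1 false 0 true false 0 0))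

def t0_24ba_5 : T3 :=
(.s 0 8 0 0 0 0 0 14
(.s 0 1 0 0 0 0 0 9
(.s 1 0 0 1 0 0 0 0
(.lf 2 true 1 false false 0 0) (.lf 3 true 1 false false 0 0)) (.s 0 1 0 0 0 0 0 2
(.lf 2 true 1 false false 0 0) (.s 0 47 0 0 0 0 0 119
(.s 1 0 4 12 0 0 0 6
(.lf 1 true 1 true false 0 0) (.lf 2 true 1 false false 0 0)) (.lf 1 true 1 false false 0 0)))) (.lf 1 false 0 false false 0 0))

def t0_24ba_6 : T3 :=
(.s 0 8 0 0 0 0 0 14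
(.s 0 1 0 0 0 0 0 9
(.lf 3 true 1 false false 0 0) (.s 0 1 0 0 0 0 0 3
(.s 1 0 0 1 0 0 0 0
(.lf 2 true 1 false false 0 0) (.lf 3 true 1 false false 0 0)) (.s 0 47 0 0 0 0 0 119
(.lf 2 true 1 false false 0 0) (.s 0 23 0 0 0 0 0 47
(.s 1 0 4 12 0 0 0 6
(.lf 1 true 1 true false 0 0) (.lf 2 true 1 false false 0 0)) (.lf 1 true 1 false false 0 0))))) (.lf 1 false 0 false false 0 0))

def t0_24ba_7 : T3 :=
(.s 0 8 0 0 0 0 0 14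
(.s 0 1 0 0 0 0 0 3
(.s 1 0 0 1 0 0 0 0
(.lf 2 true 1 false false 0 0) (.lf 3 true 1 false false 0 0)) (.s 0 1 0 0 0 0 0 2
(.lf 2 true 1 false false 0 0) (.s 0 23 0 0 0 0 0 47
(.s 1 0 4 12 0 0 0 6
(.lf 1 true 1 false false 0 0) (.lf 2 true 1 false false 0 0)) (.lf 1 true 1 true false 0 0)))) (.lf 1 false 0 false false 0 0))

def i0_24ba : T2 :=
(.s 3 0 0 3 0 3
(.s 3 0 0 1 0 1
(.s 3 0 0 9 0 19
(.k 717756 0 0 1422247 1921905 0 t0_24ba_0) (.k 1209769 0 0 1437963 320379 0 t0_24ba_1)) (.s 0 1 0 0 0 9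
(.s 1 3 0 5 0 7
(.k 1278746 0 0 1354750 0 107587 t0_24ba_2) (.s 3 0 0 3 0 4
(.s 2 11 0 0 0 19
(.k 1146507 0 0 1189545 156310 0 t0_24ba_3) (.k 1260686 0 0 1358741 280768 0 t0_24ba_4)) (.k 1293867 0 0 1354750 0 83140 t0_24ba_5))) (.k 1284434 0 0 1393449 0 107206 t0_24ba_6))) (.k 1308116 0 0 1194315 0 636345 t0_24ba_7))

theorem hi0_24ba : chk2 (leaf0 a0_24 e0_24) 0 i0_24ba R24_0ba = true := by
  decide +kernel

def t0_24bb_0 : T3 :=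
(.s 0 8 0 0 0 0 0 14
(.s 0 1 0 0 0 0 0 3
(.lf 3 true 1 true false 0 0) (.s 0 2 0 0 0 0 0 4
(.s 1 0 0 1 0 0 0 0
(.s 0 15367 0 0 0 0 0 39999
(.s 0 26101 0 0 0 0 0 99999
(.lf 2 true 1 true false 0 0) (.s 3 20000 0 0 20000 0 0 24632
(.lf 2 true 1 true false 0 0) (.s 4 1000 0 0 1000 0 0 2736
(.lf 2 true 1 true false 0 0) (.lf 2 true 1 false false 0 0)))) (.s 4 1000 0 0 1000 0 0 2736
(.lf 2 true 1 true false 0 0) (.lf 2 true 1 false false 0 0))) (.s 0 15367 0 0 0 0 0 39999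
(.s 0 26101 0 0 0 0 0 99999
(.lf 3 true 1 true false 0 0) (.s 3 20000 0 0 20000 0 0 24632
(.lf 3 true 1 true false 0 0) (.s 4 1000 0 0 1000 0 0 2736
(.lf 3 true 1 true false 0 0) (.lf 3 true 1 false false 0 0)))) (.s 4 1000 0 0 1000 0 0 2736
(.lf 3 true 1 true false 0 0) (.lf 3 true 1 false false 0 0)))) (.s 0 23 0 0 0 0 0 47
(.lf 2 true 1 false false 0 0) (.s 1 0 4 12 0 0 0 6
(.lf 1 true 1 false false 0 0) (.lf 2 true 1 false false 0 0))))) (.s 0 17 0 0 0 0 0 29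
(.s 1 0 4 12 0 0 0 6
(.lf 1 false 1 false false 0 0) (.lf 2 false 1 false false 0 0)) (.lf 1 false 0 true false 0 0)))

def t0_24bb_1 : T3 :=
(.s 0 8 0 0 0 0 0 14
(.s 0 1 0 0 0 0 0 3
(.lf 3 true 1 false false 0 0) (.s 0 2 0 0 0 0 0 4
(.s 1 0 0 1 0 0 0 0
(.lf 2 true 1 false false 0 0) (.lf 3 true 1 false false 0 0)) (.s 0 23 0 0 0 0 0 47
(.lf 2 true 1 false false 0 0) (.s 1 0 4 12 0 0 0 6
(.lf 1 true 1 false false 0 0) (.lf 2 true 1 false false 0 0))))) (.s 0 17 0 0 0 0 0 29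
(.s 1 0 4 12 0 0 0 6
(.lf 1 false 1 false false 0 0) (.lf 2 false 1 false false 0 0)) (.lf 1 false 0 true false 0 0)))

def t0_24bb_2 : T3 :=
(.s 0 8 0 0 0 0 0 14
(.s 0 1 0 0 0 0 0 3
(.lf 3 true 1 false false 0 0) (.s 0 2 0 0 0 0 0 4
(.s 1 0 0 1 0 0 0 0
(.lf 2 true 1 false false 0 0) (.lf 3 true 1 false false 0 0)) (.s 0 23 0 0 0 0 0 47
(.lf 2 true 1 false false 0 0) (.s 1 0 4 12 0 0 0 6
(.lf 1 true 1 false false 0 0) (.lf 2 true 1 false false 0 0))))) (.s 0 17 0 0 0 0 0 29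
(.s 1 0 4 12 0 0 0 6
(.lf 1 false 1 false false 0 0) (.lf 2 false 1 false false 0 0)) (.lf 1 false 0 false false 0 0)))

def t0_24bb_3 : T3 :=
(.s 0 8 0 0 0 0 0 14
(.s 0 1 0 0 0 0 0 3
(.lf 3 true 1 false false 0 0) (.s 0 2 0 0 0 0 0 4
(.s 1 0 0 1 0 0 0 0
(.lf 2 true 1 false false 0 0) (.lf 3 true 1 false false 0 0)) (.s 0 23 0 0 0 0 0 47
(.lf 2 true 1 false false 0 0) (.s 1 0 4 12 0 0 0 6
(.lf 1 true 1 false false 0 0) (.lf 2 true 1 false false 0 0))))) (.s 0 17 0 0 0 0 0 29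
(.s 1 0 4 12 0 0 0 6
(.lf 1 false 1 true false 0 0) (.lf 2 false 1 false false 0 0)) (.lf 1 false 0 false false 0 0)))

def t0_24bb_4 : T3 :=
(.s 0 8 0 0 0 0 0 14
(.s 0 2 0 0 0 0 0 4
(.lf 3 true 1 false false 0 0) (.s 0 1 0 0 0 0 0 1
(.s 1 0 0 1 0 0 0 0
(.lf 2 true 1 false false 0 0) (.lf 3 true 1 false false 0 0)) (.lf 2 true 1 false false 0 0))) (.s 0 17 0 0 0 0 0 29
(.lf 2 false 1 false false 0 0) (.s 0 5 0 0 0 0 0 7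
(.s 1 0 4 12 0 0 0 6
(.lf 1 false 1 false false 0 0) (.lf 2 false 1 false false 0 0)) (.lf 1 false 0 true false 0 0))))

def i0_24bb : T2 :=
(.s 0 2 0 0 0 4
(.s 3 0 0 3 0 3
(.s 3 0 0 1 0 1
(.s 3 0 0 9 0 19
(.k 1140270 0 0 1551461 497022 0 t0_24bb_0) (.k 1303110 0 0 1650019 426407 0 t0_24bb_1)) (.k 1227031 0 0 1413606 268340 0 t0_24bb_2)) (.k 2000000 0 0 2804449 621456 0 t0_24bb_3)) (.k 1117201 0 0 1083800 0 238869 t0_24bb_4))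

theorem hi0_24bb : chk2 (leaf0 a0_24 e0_24) 0 i0_24bb R24_0bb = true := by
  decide +kernel

def i0_24b : T2 := .s 0 1 0 0 0 3 i0_24ba i0_24bb

theorem hi0_24b : chk2 (leaf0 a0_24 e0_24) 0 i0_24b R24_0b = true := chk2_s hi0_24ba hi0_24bb

def i0_24 : T2 := .s 3 0 0 1000 0 2736 i0_24a i0_24b

theorem hi0_24 : chk2 (leaf0 a0_24 e0_24) 0 i0_24 R24 = true := chk2_s hi0_24a hi0_24b

def t1_24_0 : T3 :=
(.s 0 8 0 0 0 0 0 14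
(.s 0 1 0 0 0 0 0 1
(.s 1 0 0 1 0 0 0 0
(.s 0 1 0 0 0 0 0 2
(.lf 2 true 1 true false 0 1) (.s 1 0 4 12 0 0 0 6
(.lf 1 true 1 false false 0 2) (.lf 2 true 1 true false 0 2))) (.lf 3 true 1 true false 0 2)) (.s 1 0 4 12 0 0 0 6
(.lf 1 true 1 false false 0 0) (.lf 2 true 1 true false 0 0))) (.s 0 5 0 0 0 0 0 7
(.s 1 0 4 12 0 0 0 6
(.lf 1 false 1 false false 0 0) (.lf 2 false 1 true false 0 0)) (.lf 1 false 2 false false 0 0)))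

def t1_24_1 : T3 :=
(.s 0 8 0 0 0 0 0 14
(.s 0 1 0 0 0 0 0 1
(.s 1 0 0 1 0 0 0 0
(.s 0 1 0 0 0 0 0 2
(.lf 2 true 1 false false 1 1) (.s 1 0 4 12 0 0 0 6
(.lf 1 true 1 false false 2 2) (.s 4 0 0 0 0 11 0 20
(.lf 2 true 1 false false 1 2) (.s 2 941255 0 0 0 1940724 0 2587630
(.s 0 2 0 0 0 0 0 4
(.lf 2 true 1 false false 2 2) (.s 3 1 0 0 1 0 0 0
(.lf 2 true 1 false false 2 2) (.s 4 7 0 0 7 0 4 2
(.lf 2 true 1 false false 2 0) (.lf 2 true 1 false true 2 0)))) (.lf 2 true 1 false false 2 2))))) (.s 0 1 0 0 0 0 0 3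
(.lf 3 true 1 false false 1 1) (.s 4 0 0 0 0 11 0 20
(.lf 3 true 1 false false 1 2) (.s 2 941255 0 0 0 1940724 0 2587630
(.s 0 2 0 0 0 0 0 4
(.lf 3 true 1 false false 2 2) (.s 3 1 0 0 1 0 0 0
(.lf 3 true 1 false false 2 2) (.s 4 7 0 0 7 0 4 2
(.lf 3 true 1 false false 2 0) (.lf 3 true 1 false true 2 0)))) (.lf 3 true 1 false false 2 2))))) (.s 1 0 4 12 0 0 0 6
(.lf 1 true 1 true false 2 0) (.s 4 7 0 0 7 0 4 2
(.lf 2 true 1 false false 2 0) (.s 2 941255 0 0 0 1940724 0 2587630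
(.lf 2 true 1 false true 2 0) (.lf 2 true 2 false false 2 0))))) (.s 0 5 0 0 0 0 0 7
(.s 1 0 4 12 0 0 0 6
(.s 2 941255 0 0 0 1940724 0 2587630
(.lf 1 false 1 false true 1 0) (.lf 1 false 2 false false 1 0)) (.s 2 941255 0 0 0 1940724 0 2587630
(.s 0 31 0 0 0 0 0 54
(.s 4 7 0 0 7 0 4 2
(.lf 2 false 1 false false 1 0) (.lf 2 false 1 false true 1 0)) (.s 3 11 0 0 11 0 0 7
(.s 4 7 0 0 7 0 4 2
(.lf 2 false 1 false false 1 0) (.lf 2 false 1 false true 1 0)) (.lf 2 false 1 false true 1 0))) (.lf 2 false 1 false false 2 0))) (.s 2 941255 0 0 0 1940724 0 2587630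
(.lf 1 false 0 true true 1 0) (.lf 1 false 2 false false 1 0))))

def i1_24 : T2 :=
(.s 3 0 0 4 0 10
(.k 11000 0 0 0 0 0 t1_24_0) (.k 1641255 0 0 2587631 1940724 0 t1_24_1))

theorem hi1_24 : chk2 (leaf1 a1_24 e1_24) 10000 i1_24 R24 = true := by
  decide +kernel

theorem ok24 : CellOk R24 a0_24 e0_24 a1_24 e1_24 :=
  ⟨lin24, ⟨_, ho00_24⟩, ⟨_, ho01_24⟩, ⟨_, ho10_24⟩, ⟨_, ho11_24⟩, ⟨_, hi0_24⟩, ⟨_, hi1_24⟩⟩

def R34 : Reg := ⟨⟨0, 0, 0, 0, 0, 0, 0⟩, ⟨1, 0, 0, 0, 0, 0, 0⟩, ⟨1, 0, 0, 0, 0, 0, 9⟩, ⟨1, 0, 0, 0, 0, 0, 3⟩, ⟨1, 0, 0, 0, 3, 0, 3⟩, ⟨1, 0, 0, 0, 1, 0, 1⟩, ⟨17, 0, 0, 0, 0, 0, 19⟩, ⟨9, 0, 0, 0, 0, 0, 9⟩, ⟨0, 0, 0, 0, 0, 0, 0⟩, ⟨0, 0, 0, 0, 1, 0, 0⟩⟩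

def a0_34 : SF := mu 0 90916 106960 0 0 0 363663 0

def e0_34 : SF := mu 0 1059728 1172523 0 2523734 0 0 1063789

def a1_34 : SF := mu 0 20843 23159 0 0 0 208430 0

def e1_34 : SF := mu 1531111 0 0 1853283 1766613 0 0 744652

theorem lin34 : chkLin R34 a0_34 e0_34 a1_34 e1_34 = true := by decide +kernel

def o00_34 : T3 :=
(.s 0 8 0 0 0 0 0 14
(.s 0 1 0 0 0 0 0 9
(.lf 3 true 0 false false 0 0) (.s 0 1 0 0 0 0 0 3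
(.s 1 0 0 1 0 0 0 0
(.lf 2 true 0 false false 0 0) (.lf 3 true 0 false false 0 0)) (.s 0 47 0 0 0 0 0 119
(.s 0 13 0 0 0 0 0 39
(.lf 2 true 0 false false 0 0) (.s 1 0 1 4 0 0 0 2
(.s 2 0 0 1 0 0 0 0
(.lf 2 true 0 true false 0 0) (.lf 2 true 0 false false 0 0)) (.lf 2 true 0 false false 0 0))) (.s 0 23 0 0 0 0 0 47
(.s 1 0 4 12 0 0 0 6
(.s 2 0 0 1 0 0 0 0
(.lf 1 true 0 true false 0 0) (.lf 1 true 0 false false 0 0)) (.s 0 7 0 0 0 0 0 15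
(.s 1 0 1 4 0 0 0 2
(.s 2 0 0 1 0 0 0 0
(.lf 2 true 0 true false 0 0) (.lf 2 true 0 false false 0 0)) (.lf 2 true 0 false false 0 0)) (.s 2 0 0 1 0 0 0 0
(.lf 2 true 0 true false 0 0) (.lf 2 true 0 false false 0 0)))) (.s 2 0 0 1 0 0 0 0
(.lf 1 true 0 true false 0 0) (.lf 1 true 0 false false 0 0)))))) (.s 0 11 0 0 0 0 0 19
(.s 2 0 0 1 0 0 0 0
(.lf 1 false 0 true false 0 0) (.lf 1 false 0 false false 0 0)) (.s 0 5 0 0 0 0 0 7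
(.s 1 0 1 2 0 0 0 0
(.lf 1 false 0 true false 0 0) (.s 2 0 0 1 0 0 0 0
(.lf 1 false 0 true false 0 0) (.lf 1 false 0 false false 0 0))) (.lf 1 false 0 true false 0 0))))

theorem ho00_34 : chk3 (leafO 10500000 3 a0_34 e0_34 R34.x0.ap R34.x0.m) o00_34 (full R34) = true := by
  decide +kernel

def o01_34 : T3 :=
(.s 0 8 0 0 0 0 0 14
(.s 0 1 0 0 0 0 0 9
(.lf 3 true 0 false false 0 0) (.s 0 1 0 0 0 0 0 3
(.s 1 0 0 1 0 0 0 0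
(.lf 2 true 0 false false 0 0) (.lf 3 true 0 false false 0 0)) (.s 0 47 0 0 0 0 0 119
(.s 0 13 0 0 0 0 0 39
(.lf 2 true 0 false false 0 0) (.s 1 0 1 4 0 0 0 2
(.s 2 0 0 1 0 0 0 0
(.lf 2 true 0 true false 0 0) (.lf 2 true 0 false false 0 0)) (.lf 2 true 0 false false 0 0))) (.s 0 23 0 0 0 0 0 47
(.s 1 0 4 12 0 0 0 6
(.s 2 0 0 1 0 0 0 0
(.lf 1 true 0 true false 0 0) (.lf 1 true 0 false false 0 0)) (.s 0 7 0 0 0 0 0 15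
(.s 1 0 1 4 0 0 0 2
(.s 2 0 0 1 0 0 0 0
(.lf 2 true 0 true false 0 0) (.lf 2 true 0 false false 0 0)) (.lf 2 true 0 false false 0 0)) (.s 2 0 0 1 0 0 0 0
(.lf 2 true 0 true false 0 0) (.lf 2 true 0 false false 0 0)))) (.s 2 0 0 1 0 0 0 0
(.lf 1 true 0 true false 0 0) (.lf 1 true 0 false false 0 0)))))) (.s 0 11 0 0 0 0 0 19
(.s 2 0 0 1 0 0 0 0
(.lf 1 false 0 true false 0 0) (.lf 1 false 0 false false 0 0)) (.s 0 5 0 0 0 0 0 7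
(.s 1 0 1 2 0 0 0 0
(.lf 1 false 0 true false 0 0) (.s 2 0 0 1 0 0 0 0
(.lf 1 false 0 true false 0 0) (.lf 1 false 0 false false 0 0))) (.lf 1 false 0 true false 0 0))))

theorem ho01_34 : chk3 (leafO 10500000 3 a0_34 e0_34 R34.x1.ap R34.x1.m) o01_34 (full R34) = true := by
  decide +kernel

def o10_34 : T3 :=
(.s 0 8 0 0 0 0 0 14
(.s 0 1 0 0 0 0 0 9
(.lf 3 true 0 false false 0 0) (.s 0 1 0 0 0 0 0 3
(.s 1 0 0 1 0 0 0 0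
(.lf 2 true 0 false false 0 0) (.lf 3 true 0 false false 0 0)) (.s 0 47 0 0 0 0 0 119
(.lf 2 true 0 false false 0 0) (.s 0 23 0 0 0 0 0 47
(.s 1 0 4 12 0 0 0 6
(.lf 1 true 0 true false 0 0) (.lf 2 true 0 false false 0 0)) (.lf 1 true 0 true false 0 0))))) (.lf 1 false 0 true false 0 0))

theorem ho10_34 : chk3 (leafO 5554500 1 a1_34 e1_34 R34.x0.ap R34.x0.m) o10_34 (full R34) = true := by
  decide +kernel

def o11_34 : T3 :=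
(.s 0 8 0 0 0 0 0 14
(.s 0 1 0 0 0 0 0 9
(.lf 3 true 0 false false 0 0) (.s 0 1 0 0 0 0 0 3
(.s 1 0 0 1 0 0 0 0
(.lf 2 true 0 false false 0 0) (.lf 3 true 0 false false 0 0)) (.s 0 47 0 0 0 0 0 119
(.s 0 13 0 0 0 0 0 39
(.lf 2 true 0 false false 0 0) (.s 1 0 1 4 0 0 0 2
(.s 2 0 0 1 0 0 0 0
(.lf 2 true 0 true false 0 0) (.lf 2 true 0 false false 0 0)) (.lf 2 true 0 false false 0 0))) (.s 0 23 0 0 0 0 0 47
(.s 1 0 4 12 0 0 0 6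
(.s 2 0 0 1 0 0 0 0
(.lf 1 true 0 true false 0 0) (.lf 1 true 0 false false 0 0)) (.s 0 7 0 0 0 0 0 15
(.s 1 0 1 4 0 0 0 2
(.s 2 0 0 1 0 0 0 0
(.lf 2 true 0 true false 0 0) (.lf 2 true 0 false false 0 0)) (.lf 2 true 0 false false 0 0)) (.s 2 0 0 1 0 0 0 0
(.lf 2 true 0 true false 0 0) (.lf 2 true 0 false false 0 0)))) (.s 2 0 0 1 0 0 0 0
(.lf 1 true 0 true false 0 0) (.lf 1 true 0 false false 0 0)))))) (.s 0 11 0 0 0 0 0 19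
(.s 2 0 0 1 0 0 0 0
(.lf 1 false 0 true false 0 0) (.lf 1 false 0 false false 0 0)) (.s 0 5 0 0 0 0 0 7
(.s 1 0 1 2 0 0 0 0
(.lf 1 false 0 true false 0 0) (.s 2 0 0 1 0 0 0 0
(.lf 1 false 0 true false 0 0) (.lf 1 false 0 false false 0 0))) (.lf 1 false 0 true false 0 0))))

theorem ho11_34 : chk3 (leafO 5554500 1 a1_34 e1_34 R34.x1.ap R34.x1.m) o11_34 (full R34) = true := by
  decide +kernel

def t0_34_0 : T3 :=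
(.s 0 8 0 0 0 0 0 14
(.s 0 1 0 0 0 0 0 9
(.lf 3 true 1 true false 0 0) (.s 0 1 0 0 0 0 0 3
(.s 1 0 0 1 0 0 0 0
(.s 0 3 0 0 0 0 0 19
(.s 3 1 0 0 1 0 0 0
(.lf 2 true 1 true false 0 0) (.s 4 1000 0 0 1000 0 0 2736
(.lf 2 true 1 true false 0 0) (.lf 2 true 1 false false 0 0))) (.s 4 1000 0 0 1000 0 0 2736
(.lf 2 true 1 true false 0 0) (.lf 2 true 1 false false 0 0))) (.s 0 3 0 0 0 0 0 19
(.s 3 1 0 0 1 0 0 0
(.lf 3 true 1 true false 0 0) (.s 4 1000 0 0 1000 0 0 2736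
(.lf 3 true 1 true false 0 0) (.lf 3 true 1 false false 0 0))) (.s 4 1000 0 0 1000 0 0 2736
(.lf 3 true 1 true false 0 0) (.lf 3 true 1 false false 0 0)))) (.s 0 47 0 0 0 0 0 119
(.lf 2 true 1 false false 0 0) (.s 0 23 0 0 0 0 0 47
(.s 1 0 4 12 0 0 0 6
(.lf 1 true 1 true false 0 0) (.lf 2 true 1 false false 0 0)) (.lf 1 true 1 false false 0 0))))) (.lf 1 false 0 false false 0 0))

def t0_34_1 : T3 :=
(.s 0 8 0 0 0 0 0 14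
(.s 0 1 0 0 0 0 0 9
(.lf 3 true 1 false false 0 0) (.s 0 1 0 0 0 0 0 3
(.s 1 0 0 1 0 0 0 0
(.lf 2 true 1 false false 0 0) (.lf 3 true 1 false false 0 0)) (.s 0 47 0 0 0 0 0 119
(.lf 2 true 1 false false 0 0) (.s 0 23 0 0 0 0 0 47
(.s 1 0 4 12 0 0 0 6
(.lf 1 true 1 false false 0 0) (.lf 2 true 1 false false 0 0)) (.lf 1 true 1 true false 0 0))))) (.lf 1 false 0 false false 0 0))

def i0_34 : T2 :=
(.s 3 0 0 1000 0 2736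
(.k 0 113204 769865 0 0 890449 t0_34_0) (.k 1035957 0 0 1058369 0 345832 t0_34_1))

theorem hi0_34 : chk2 (leaf0 a0_34 e0_34) 0 i0_34 R34 = true := by
  decide +kernel

def t1_34_0 : T3 :=
(.s 0 8 0 0 0 0 0 14
(.s 0 1 0 0 0 0 0 9
(.lf 3 true 1 true false 0 2) (.s 0 1 0 0 0 0 0 3
(.s 1 0 0 1 0 0 0 0
(.lf 2 true 1 true false 0 0) (.lf 3 true 1 true false 0 0)) (.s 0 47 0 0 0 0 0 119
(.lf 2 true 1 true false 0 0) (.s 0 23 0 0 0 0 0 47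
(.s 1 0 4 12 0 0 0 6
(.lf 1 true 1 true false 0 0) (.lf 2 true 1 true false 0 0)) (.lf 1 true 2 false false 0 0))))) (.lf 1 false 2 false false 0 0))

def t1_34_1 : T3 :=
(.s 0 8 0 0 0 0 0 14
(.s 0 1 0 0 0 0 0 9
(.lf 3 true 1 false false 2 2) (.s 0 1 0 0 0 0 0 3
(.s 1 0 0 1 0 0 0 0
(.s 0 1 0 0 0 0 0 4
(.lf 2 true 1 false false 2 2) (.lf 2 true 1 false false 2 0)) (.s 0 1 0 0 0 0 0 4
(.lf 3 true 1 false false 2 2) (.lf 3 true 1 false false 2 0))) (.s 0 47 0 0 0 0 0 119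
(.lf 2 true 1 false false 2 0) (.s 0 23 0 0 0 0 0 47
(.s 1 0 4 12 0 0 0 6
(.s 4 0 0 0 0 15 0 21
(.s 0 18858267 0 0 0 0 0 44651091
(.s 0 4359275 0 0 0 0 0 10775181
(.lf 1 true 1 false true 1 0) (.s 1 657898 0 0 0 0 0 5387590
(.lf 1 true 1 false true 1 0) (.s 2 1045489 0 0 0 0 5000000 775181
(.lf 1 true 1 true true 1 0) (.lf 1 true 2 false false 1 0)))) (.s 1 1703387 0 0 0 0 0 11162772
(.s 1 657898 0 0 0 0 0 5387590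
(.lf 1 true 1 true true 1 0) (.s 2 1045489 0 0 0 0 5000000 775181
(.lf 1 true 1 true true 1 0) (.lf 1 true 2 false false 1 0))) (.lf 1 true 2 false false 1 0))) (.lf 1 true 0 true false 2 0)) (.lf 2 true 1 false false 2 0)) (.s 1 1703387 0 0 0 0 0 11162772
(.s 1 657898 0 0 0 0 0 5387590
(.lf 1 true 1 true true 1 0) (.s 2 1045489 0 0 0 0 5000000 775181
(.lf 1 true 1 false true 1 0) (.lf 1 true 2 false false 1 0))) (.lf 1 true 2 false false 1 0)))))) (.s 1 1703387 0 0 0 0 0 11162772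
(.s 1 657898 0 0 0 0 0 5387590
(.lf 1 false 0 true true 1 0) (.s 2 1045489 0 0 0 0 5000000 775181
(.lf 1 false 0 false true 1 0) (.lf 1 false 2 false false 1 0))) (.lf 1 false 2 false false 1 0)))

def i1_34 : T2 :=
(.s 3 0 0 4 0 10
(.k 268284 0 0 514568 257284 0 t1_34_0) (.k 1745489 0 0 775182 0 5000000 t1_34_1))

theorem hi1_34 : chk2 (leaf1 a1_34 e1_34) 10000 i1_34 R34 = true := by
  decide +kernel

theorem ok34 : CellOk R34 a0_34 e0_34 a1_34 e1_34 :=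
  ⟨lin34, ⟨_, ho00_34⟩, ⟨_, ho01_34⟩, ⟨_, ho10_34⟩, ⟨_, ho11_34⟩, ⟨_, hi0_34⟩, ⟨_, hi1_34⟩⟩

def R35 : Reg := ⟨⟨0, 0, 0, 0, 0, 0, 0⟩, ⟨1, 0, 0, 0, 0, 0, 0⟩, ⟨1, 0, 0, 0, 0, 0, 3⟩, ⟨1, 0, 0, 0, 0, 0, 1⟩, ⟨0, 0, 0, 0, 1, 0, 0⟩, ⟨1, 0, 0, 0, 3, 0, 3⟩, ⟨3, 0, 0, 0, 0, 0, 3⟩, ⟨9, 0, 0, 0, 0, 0, 9⟩, ⟨0, 0, 0, 0, 0, 0, 0⟩, ⟨0, 0, 0, 0, 1, 0, 0⟩⟩

def a0_35 : SF := mu 0 176196 105655 0 0 687507 1907920 0

def e0_35 : SF := mu 0 467780 909770 0 4624727 0 0 6098540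

def a1_35 : SF := mu 0 75142 56593 0 0 279738 790111 0

def e1_35 : SF := mu 0 399798 636839 0 3526632 0 0 4485970

theorem lin35 : chkLin R35 a0_35 e0_35 a1_35 e1_35 = true := by decide +kernel

def o00_35 : T3 :=
(.s 0 8 0 0 0 0 0 14
(.s 0 1 0 0 0 0 0 3
(.lf 3 true 0 false false 0 0) (.s 0 1 0 0 0 0 0 1
(.s 1 0 0 1 0 0 0 0
(.s 0 23 0 0 0 0 0 47
(.s 0 7 0 0 0 0 0 15
(.s 2 0 0 1 0 0 0 0
(.s 1 1 0 4 0 0 0 7
(.s 0 7 0 0 0 0 0 19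
(.lf 2 true 0 true false 0 0) (.s 1 3 0 4 0 0 0 15
(.s 0 2 0 0 0 0 0 4
(.s 0 3 0 0 0 0 0 7
(.lf 2 true 0 true false 0 0) (.s 1 7 0 4 0 0 0 31
(.s 0 39 0 0 0 0 0 99
(.lf 2 true 0 true false 0 0) (.lf 2 true 0 true false 0 0)) (.lf 2 true 0 true false 0 0))) (.s 1 7 0 4 0 0 0 31
(.s 0 17 0 0 0 0 0 39
(.lf 2 true 0 true false 0 0) (.lf 2 true 0 true false 0 0)) (.lf 2 true 0 true false 0 0))) (.lf 2 true 0 true false 0 0))) (.lf 2 true 0 true false 0 0)) (.s 1 1 0 4 0 0 0 7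
(.s 0 7 0 0 0 0 0 19
(.lf 2 true 0 false false 0 0) (.s 1 3 0 4 0 0 0 15
(.s 0 2 0 0 0 0 0 4
(.s 0 3 0 0 0 0 0 7
(.lf 2 true 0 false false 0 0) (.s 1 7 0 4 0 0 0 31
(.s 0 39 0 0 0 0 0 99
(.lf 2 true 0 false false 0 0) (.lf 2 true 0 false false 0 0)) (.lf 2 true 0 false false 0 0))) (.s 1 7 0 4 0 0 0 31
(.s 0 17 0 0 0 0 0 39
(.lf 2 true 0 false false 0 0) (.lf 2 true 0 false false 0 0)) (.lf 2 true 0 false false 0 0))) (.lf 2 true 0 false false 0 0))) (.lf 2 true 0 false false 0 0))) (.s 1 0 1 4 0 0 0 2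
(.lf 2 true 0 true false 0 0) (.s 2 0 0 1 0 0 0 0
(.s 1 0 1 7 0 0 0 5
(.s 1 0 1 5 0 0 0 3
(.s 1 0 7 31 0 0 0 23
(.s 0 23 0 0 0 0 0 49
(.lf 2 true 0 true false 0 0) (.lf 2 true 0 true false 0 0)) (.lf 2 true 0 true false 0 0)) (.lf 2 true 0 true false 0 0)) (.lf 2 true 0 true false 0 0)) (.s 1 0 1 7 0 0 0 5
(.s 1 0 1 5 0 0 0 3
(.s 1 0 7 31 0 0 0 23
(.s 0 23 0 0 0 0 0 49
(.lf 2 true 0 false false 0 0) (.lf 2 true 0 false false 0 0)) (.lf 2 true 0 false false 0 0)) (.lf 2 true 0 false false 0 0)) (.lf 2 true 0 false false 0 0))))) (.s 1 0 4 12 0 0 0 6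
(.lf 1 true 0 true false 0 0) (.s 1 0 1 4 0 0 0 2
(.lf 2 true 0 true false 0 0) (.s 2 0 0 1 0 0 0 0
(.lf 2 true 0 true false 0 0) (.lf 2 true 0 false false 0 0))))) (.lf 3 true 0 false false 0 0)) (.s 1 0 4 12 0 0 0 6
(.lf 1 true 0 true false 0 0) (.s 1 0 1 4 0 0 0 2
(.lf 2 true 0 true false 0 0) (.s 2 0 0 1 0 0 0 0
(.lf 2 true 0 true false 0 0) (.lf 2 true 0 false false 0 0)))))) (.s 0 5 0 0 0 0 0 7
(.s 1 0 4 12 0 0 0 6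
(.lf 1 false 0 true false 0 0) (.s 1 0 1 4 0 0 0 2
(.lf 2 false 0 true false 0 0) (.s 2 0 0 1 0 0 0 0
(.lf 2 false 0 true false 0 0) (.lf 2 false 0 false false 0 0)))) (.lf 1 false 0 true false 0 0)))

theorem ho00_35 : chk3 (leafO 10500000 3 a0_35 e0_35 R35.x0.ap R35.x0.m) o00_35 (full R35) = true := by
  decide +kernel

def o01_35 : T3 :=
(.s 0 8 0 0 0 0 0 14
(.s 0 1 0 0 0 0 0 3
(.lf 3 true 0 false false 0 0) (.s 0 1 0 0 0 0 0 1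
(.s 1 0 0 1 0 0 0 0
(.s 0 23 0 0 0 0 0 47
(.s 0 7 0 0 0 0 0 15
(.s 2 0 0 1 0 0 0 0
(.s 1 1 0 4 0 0 0 7
(.s 1 3 0 4 0 0 0 15
(.s 0 7 0 0 0 0 0 19
(.lf 2 true 0 true false 0 0) (.s 1 7 0 4 0 0 0 31
(.s 0 2 0 0 0 0 0 4
(.lf 2 true 0 true false 0 0) (.lf 2 true 0 true false 0 0)) (.lf 2 true 0 true false 0 0))) (.lf 2 true 0 true false 0 0)) (.lf 2 true 0 true false 0 0)) (.s 1 1 0 4 0 0 0 7
(.s 1 3 0 4 0 0 0 15
(.s 0 7 0 0 0 0 0 19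
(.lf 2 true 0 false false 0 0) (.s 1 7 0 4 0 0 0 31
(.s 0 2 0 0 0 0 0 4
(.lf 2 true 0 false false 0 0) (.lf 2 true 0 false false 0 0)) (.lf 2 true 0 false false 0 0))) (.lf 2 true 0 false false 0 0)) (.lf 2 true 0 false false 0 0))) (.s 1 0 1 4 0 0 0 2
(.lf 2 true 0 true false 0 0) (.s 2 0 0 1 0 0 0 0
(.s 1 0 1 7 0 0 0 5
(.s 1 0 1 5 0 0 0 3
(.s 1 0 7 31 0 0 0 23
(.s 0 23 0 0 0 0 0 49
(.lf 2 true 0 true false 0 0) (.s 0 47 0 0 0 0 0 99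
(.lf 2 true 0 true false 0 0) (.lf 2 true 0 true false 0 0))) (.lf 2 true 0 true false 0 0)) (.lf 2 true 0 true false 0 0)) (.lf 2 true 0 true false 0 0)) (.s 1 0 1 7 0 0 0 5
(.s 1 0 1 5 0 0 0 3
(.s 1 0 7 31 0 0 0 23
(.s 0 23 0 0 0 0 0 49
(.lf 2 true 0 false false 0 0) (.s 0 47 0 0 0 0 0 99
(.lf 2 true 0 false false 0 0) (.lf 2 true 0 false false 0 0))) (.lf 2 true 0 false false 0 0)) (.lf 2 true 0 false false 0 0)) (.lf 2 true 0 false false 0 0))))) (.s 1 0 4 12 0 0 0 6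
(.lf 1 true 0 true false 0 0) (.s 1 0 1 4 0 0 0 2
(.lf 2 true 0 true false 0 0) (.s 2 0 0 1 0 0 0 0
(.lf 2 true 0 true false 0 0) (.lf 2 true 0 false false 0 0))))) (.lf 3 true 0 false false 0 0)) (.s 1 0 4 12 0 0 0 6
(.lf 1 true 0 true false 0 0) (.s 1 0 1 4 0 0 0 2
(.lf 2 true 0 true false 0 0) (.s 2 0 0 1 0 0 0 0
(.lf 2 true 0 true false 0 0) (.lf 2 true 0 false false 0 0)))))) (.s 0 5 0 0 0 0 0 7
(.s 1 0 4 12 0 0 0 6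
(.lf 1 false 0 true false 0 0) (.s 1 0 1 4 0 0 0 2
(.lf 2 false 0 true false 0 0) (.s 2 0 0 1 0 0 0 0
(.lf 2 false 0 true false 0 0) (.lf 2 false 0 false false 0 0)))) (.lf 1 false 0 true false 0 0)))

theorem ho01_35 : chk3 (leafO 10500000 3 a0_35 e0_35 R35.x1.ap R35.x1.m) o01_35 (full R35) = true := by
  decide +kernel

def o10_35 : T3 :=
(.s 0 8 0 0 0 0 0 14
(.s 0 1 0 0 0 0 0 3
(.lf 3 true 0 false false 0 0) (.s 0 1 0 0 0 0 0 1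
(.s 1 0 0 1 0 0 0 0
(.s 0 23 0 0 0 0 0 47
(.s 0 7 0 0 0 0 0 15
(.s 2 0 0 1 0 0 0 0
(.s 1 1 0 4 0 0 0 7
(.s 0 7 0 0 0 0 0 19
(.s 0 3 0 0 0 0 0 9
(.lf 2 true 0 true false 0 0) (.s 1 3 0 4 0 0 0 15
(.s 0 13 0 0 0 0 0 39
(.lf 2 true 0 true false 0 0) (.s 0 17 0 0 0 0 0 49
(.lf 2 true 0 true false 0 0) (.lf 2 true 0 true false 0 0))) (.lf 2 true 0 true false 0 0))) (.s 1 3 0 4 0 0 0 15
(.s 1 7 0 4 0 0 0 31
(.lf 2 true 0 true false 0 0) (.s 0 2 0 0 0 0 0 4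
(.s 0 3 0 0 0 0 0 7
(.lf 2 true 0 true false 0 0) (.lf 2 true 0 true false 0 0)) (.lf 2 true 0 true false 0 0))) (.s 0 2 0 0 0 0 0 4
(.s 0 3 0 0 0 0 0 7
(.lf 2 true 0 true false 0 0) (.lf 2 true 0 true false 0 0)) (.s 0 17 0 0 0 0 0 39
(.lf 2 true 0 true false 0 0) (.lf 2 true 0 true false 0 0))))) (.lf 2 true 0 true false 0 0)) (.s 1 1 0 4 0 0 0 7
(.s 0 7 0 0 0 0 0 19
(.s 0 3 0 0 0 0 0 9
(.lf 2 true 0 false false 0 0) (.s 1 3 0 4 0 0 0 15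
(.s 0 13 0 0 0 0 0 39
(.lf 2 true 0 false false 0 0) (.s 0 17 0 0 0 0 0 49
(.lf 2 true 0 false false 0 0) (.lf 2 true 0 false false 0 0))) (.lf 2 true 0 false false 0 0))) (.s 1 3 0 4 0 0 0 15
(.s 1 7 0 4 0 0 0 31
(.lf 2 true 0 false false 0 0) (.s 0 2 0 0 0 0 0 4
(.s 0 3 0 0 0 0 0 7
(.lf 2 true 0 false false 0 0) (.lf 2 true 0 false false 0 0)) (.lf 2 true 0 false false 0 0))) (.s 0 2 0 0 0 0 0 4
(.s 0 3 0 0 0 0 0 7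
(.lf 2 true 0 false false 0 0) (.lf 2 true 0 false false 0 0)) (.s 0 17 0 0 0 0 0 39
(.lf 2 true 0 false false 0 0) (.lf 2 true 0 false false 0 0))))) (.lf 2 true 0 false false 0 0))) (.s 1 0 1 4 0 0 0 2
(.lf 2 true 0 true false 0 0) (.s 2 0 0 1 0 0 0 0
(.s 1 0 1 7 0 0 0 5
(.s 1 0 1 5 0 0 0 3
(.lf 2 true 0 true false 0 0) (.s 0 23 0 0 0 0 0 49
(.lf 2 true 0 true false 0 0) (.lf 2 true 0 true false 0 0))) (.lf 2 true 0 true false 0 0)) (.s 1 0 1 7 0 0 0 5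
(.s 1 0 1 5 0 0 0 3
(.lf 2 true 0 false false 0 0) (.s 0 23 0 0 0 0 0 49
(.lf 2 true 0 false false 0 0) (.lf 2 true 0 false false 0 0))) (.lf 2 true 0 false false 0 0))))) (.s 1 0 4 12 0 0 0 6
(.lf 1 true 0 true false 0 0) (.s 1 0 1 4 0 0 0 2
(.lf 2 true 0 true false 0 0) (.s 2 0 0 1 0 0 0 0
(.s 1 0 1 7 0 0 0 5
(.s 1 0 1 5 0 0 0 3
(.lf 2 true 0 true false 0 0) (.lf 2 true 0 true false 0 0)) (.lf 2 true 0 true false 0 0)) (.s 1 0 1 7 0 0 0 5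
(.s 1 0 1 5 0 0 0 3
(.lf 2 true 0 false false 0 0) (.lf 2 true 0 false false 0 0)) (.lf 2 true 0 false false 0 0)))))) (.lf 3 true 0 false false 0 0)) (.s 1 0 4 12 0 0 0 6
(.lf 1 true 0 true false 0 0) (.s 1 0 1 4 0 0 0 2
(.lf 2 true 0 true false 0 0) (.s 2 0 0 1 0 0 0 0
(.s 1 1 0 8 0 0 0 11
(.s 1 0 1 8 0 0 0 7
(.lf 2 true 0 true false 0 0) (.lf 2 true 0 true false 0 0)) (.lf 2 true 0 true false 0 0)) (.s 1 1 0 8 0 0 0 11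
(.s 1 0 1 8 0 0 0 7
(.lf 2 true 0 false false 0 0) (.lf 2 true 0 false false 0 0)) (.lf 2 true 0 false false 0 0))))))) (.s 0 5 0 0 0 0 0 7
(.s 1 0 4 12 0 0 0 6
(.lf 1 false 0 true false 0 0) (.s 1 0 1 4 0 0 0 2
(.lf 2 false 0 true false 0 0) (.s 2 0 0 1 0 0 0 0
(.s 1 1 0 8 0 0 0 11
(.lf 2 false 0 true false 0 0) (.lf 2 false 0 true false 0 0)) (.s 1 1 0 8 0 0 0 11
(.lf 2 false 0 false false 0 0) (.lf 2 false 0 false false 0 0))))) (.lf 1 false 0 true false 0 0)))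

theorem ho10_35 : chk3 (leafO 5554500 1 a1_35 e1_35 R35.x0.ap R35.x0.m) o10_35 (full R35) = true := by
  decide +kernel

def o11_35 : T3 :=
(.s 0 8 0 0 0 0 0 14
(.s 0 1 0 0 0 0 0 3
(.lf 3 true 0 false false 0 0) (.s 0 1 0 0 0 0 0 1
(.s 1 0 0 1 0 0 0 0
(.s 0 23 0 0 0 0 0 47
(.s 0 7 0 0 0 0 0 15
(.s 2 0 0 1 0 0 0 0
(.s 1 1 0 4 0 0 0 7
(.s 0 7 0 0 0 0 0 19
(.lf 2 true 0 true false 0 0) (.s 1 3 0 4 0 0 0 15
(.lf 2 true 0 true false 0 0) (.lf 2 true 0 true false 0 0))) (.lf 2 true 0 true false 0 0)) (.s 1 1 0 4 0 0 0 7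
(.s 0 7 0 0 0 0 0 19
(.lf 2 true 0 false false 0 0) (.s 1 3 0 4 0 0 0 15
(.lf 2 true 0 false false 0 0) (.lf 2 true 0 false false 0 0))) (.lf 2 true 0 false false 0 0))) (.s 1 0 1 4 0 0 0 2
(.lf 2 true 0 true false 0 0) (.s 2 0 0 1 0 0 0 0
(.s 1 0 1 7 0 0 0 5
(.s 1 0 1 5 0 0 0 3
(.lf 2 true 0 true false 0 0) (.lf 2 true 0 true false 0 0)) (.lf 2 true 0 true false 0 0)) (.s 1 0 1 7 0 0 0 5
(.s 1 0 1 5 0 0 0 3
(.lf 2 true 0 false false 0 0) (.lf 2 true 0 false false 0 0)) (.lf 2 true 0 false false 0 0))))) (.s 1 0 4 12 0 0 0 6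
(.lf 1 true 0 true false 0 0) (.s 1 0 1 4 0 0 0 2
(.lf 2 true 0 true false 0 0) (.s 2 0 0 1 0 0 0 0
(.s 1 0 1 7 0 0 0 5
(.s 1 0 1 5 0 0 0 3
(.lf 2 true 0 true false 0 0) (.lf 2 true 0 true false 0 0)) (.lf 2 true 0 true false 0 0)) (.s 1 0 1 7 0 0 0 5
(.s 1 0 1 5 0 0 0 3
(.lf 2 true 0 false false 0 0) (.lf 2 true 0 false false 0 0)) (.lf 2 true 0 false false 0 0)))))) (.lf 3 true 0 false false 0 0)) (.s 1 0 4 12 0 0 0 6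
(.lf 1 true 0 true false 0 0) (.s 1 0 1 4 0 0 0 2
(.lf 2 true 0 true false 0 0) (.s 2 0 0 1 0 0 0 0
(.s 1 1 0 8 0 0 0 11
(.s 1 0 1 8 0 0 0 7
(.lf 2 true 0 true false 0 0) (.lf 2 true 0 true false 0 0)) (.lf 2 true 0 true false 0 0)) (.s 1 1 0 8 0 0 0 11
(.s 1 0 1 8 0 0 0 7
(.lf 2 true 0 false false 0 0) (.lf 2 true 0 false false 0 0)) (.lf 2 true 0 false false 0 0))))))) (.s 0 5 0 0 0 0 0 7
(.s 1 0 4 12 0 0 0 6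
(.lf 1 false 0 true false 0 0) (.s 1 0 1 4 0 0 0 2
(.lf 2 false 0 true false 0 0) (.s 2 0 0 1 0 0 0 0
(.s 1 1 0 8 0 0 0 11
(.lf 2 false 0 true false 0 0) (.lf 2 false 0 true false 0 0)) (.s 1 1 0 8 0 0 0 11
(.lf 2 false 0 false false 0 0) (.lf 2 false 0 false false 0 0))))) (.lf 1 false 0 true false 0 0)))

theorem ho11_35 : chk3 (leafO 5554500 1 a1_35 e1_35 R35.x1.ap R35.x1.m) o11_35 (full R35) = true := by
  decide +kernel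

def t0_35_0 : T3 :=
(.s 0 8 0 0 0 0 0 14
(.s 0 1 0 0 0 0 0 3
(.s 0 1 0 0 0 0 0 9
(.lf 3 true 1 true false 0 0) (.s 3 1 0 0 1 0 0 0
(.lf 3 true 1 true false 0 0) (.s 4 1000 0 0 1000 0 0 2736
(.lf 3 true 1 true false 0 0) (.lf 3 true 1 false false 0 0)))) (.s 0 1 0 0 0 0 0 1
(.s 1 0 0 1 0 0 0 0
(.s 0 23 0 0 0 0 0 47
(.s 4 1000 0 0 1000 0 0 2736
(.lf 2 true 1 true false 0 0) (.lf 2 true 1 false false 0 0)) (.s 1 0 4 12 0 0 0 6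
(.lf 1 true 1 false false 0 0) (.lf 2 true 1 false false 0 0))) (.s 4 1000 0 0 1000 0 0 2736
(.lf 3 true 1 true false 0 0) (.lf 3 true 1 false false 0 0))) (.s 1 0 4 12 0 0 0 6
(.lf 1 true 1 false false 0 0) (.lf 2 true 1 false false 0 0)))) (.s 0 5 0 0 0 0 0 7
(.s 1 0 4 12 0 0 0 6
(.lf 1 false 1 false false 0 0) (.lf 2 false 1 false false 0 0)) (.lf 1 false 0 false false 0 0)))

def t0_35_1 : T3 :=
(.s 0 8 0 0 0 0 0 14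
(.s 0 1 0 0 0 0 0 3
(.lf 3 true 1 false false 0 0) (.s 0 1 0 0 0 0 0 1
(.s 1 0 0 1 0 0 0 0
(.s 0 23 0 0 0 0 0 47
(.lf 2 true 1 false false 0 0) (.s 1 0 4 12 0 0 0 6
(.lf 1 true 1 false false 0 0) (.lf 2 true 1 false false 0 0))) (.lf 3 true 1 false false 0 0)) (.s 1 0 4 12 0 0 0 6
(.lf 1 true 1 false false 0 0) (.lf 2 true 1 false false 0 0)))) (.s 0 5 0 0 0 0 0 7
(.s 1 0 4 12 0 0 0 6
(.lf 1 false 1 false false 0 0) (.lf 2 false 1 false false 0 0)) (.lf 1 false 0 true false 0 0)))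

def i0_35 : T2 :=
(.s 3 0 0 1000 0 2736
(.k 193843 0 1207252 0 0 1592939 t0_35_0) (.k 1037262 0 0 1062681 0 123317 t0_35_1))

theorem hi0_35 : chk2 (leaf0 a0_35 e0_35) 0 i0_35 R35 = true := by
  decide +kernel

def t1_35_0 : T3 :=
(.s 0 8 0 0 0 0 0 14
(.s 0 1 0 0 0 0 0 3
(.lf 3 true 1 true false 0 2) (.s 0 1 0 0 0 0 0 1
(.s 1 0 0 1 0 0 0 0
(.s 0 23 0 0 0 0 0 47
(.lf 2 true 1 true false 0 0) (.s 1 0 4 12 0 0 0 6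
(.lf 1 true 1 false false 0 0) (.lf 2 true 1 true false 0 0))) (.lf 3 true 1 true false 0 0)) (.s 1 0 4 12 0 0 0 6
(.lf 1 true 1 false false 0 0) (.lf 2 true 1 true false 0 0)))) (.s 0 5 0 0 0 0 0 7
(.s 1 0 4 12 0 0 0 6
(.lf 1 false 2 false false 0 0) (.lf 2 false 1 true false 0 0)) (.lf 1 false 2 false false 0 0)))

def t1_35_1 : T3 :=
(.s 0 8 0 0 0 0 0 14
(.s 0 1 0 0 0 0 0 3
(.s 4 0 0 0 0 15 0 21
(.s 0 1 0 0 0 0 0 9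
(.s 3 4 0 0 0 0 0 4
(.lf 3 true 1 false false 1 1) (.lf 3 true 1 false false 1 2)) (.lf 3 true 1 false false 2 2)) (.lf 3 true 1 false false 2 2)) (.s 0 1 0 0 0 0 0 1
(.s 1 0 0 1 0 0 0 0
(.s 0 23 0 0 0 0 0 47
(.s 0 1304235 0 0 0 0 0 3212971
(.lf 2 true 1 false false 2 0) (.s 1 1304235 0 0 0 0 0 3212971
(.lf 2 true 2 false false 1 0) (.s 0 1408429 0 0 0 0 0 3317165
(.s 2 0 1304235 0 0 3629748 0 416775
(.lf 2 true 0 false true 1 0) (.lf 2 true 2 false false 1 0)) (.s 1 1408429 0 0 0 0 0 3317165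
(.s 2 0 1304235 0 0 3629748 0 416775
(.lf 2 true 0 false true 1 0) (.lf 2 true 2 false false 1 0)) (.lf 2 true 1 false true 1 0))))) (.s 1 0 4 12 0 0 0 6
(.lf 1 true 2 false false 2 0) (.s 1 1304235 0 0 0 0 0 3212971
(.lf 2 true 2 false false 1 0) (.s 1 1408429 0 0 0 0 0 3317165
(.s 2 0 1304235 0 0 3629748 0 416775
(.lf 2 true 1 false true 1 0) (.lf 2 true 2 false false 1 0)) (.lf 2 true 1 false true 1 0))))) (.s 0 1304235 0 0 0 0 0 3212971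
(.s 1 1304235 0 0 0 0 0 3212971
(.lf 3 true 1 false false 2 0) (.s 1 1408429 0 0 0 0 0 3317165
(.s 2 0 1304235 0 0 3629748 0 416775
(.lf 3 true 1 false true 1 0) (.lf 3 true 2 false false 1 0)) (.lf 3 true 1 false true 1 0))) (.s 0 1408429 0 0 0 0 0 3317165
(.s 1 1408429 0 0 0 0 0 3317165
(.s 2 0 1304235 0 0 3629748 0 416775
(.lf 3 true 1 false true 1 0) (.lf 3 true 2 false false 1 0)) (.lf 3 true 1 false true 1 0)) (.lf 3 true 1 false true 1 0)))) (.s 1 0 4 12 0 0 0 6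
(.lf 1 true 2 false false 2 0) (.s 1 1304235 0 0 0 0 0 3212971
(.lf 2 true 2 false false 1 0) (.s 1 1408429 0 0 0 0 0 3317165
(.s 2 0 1304235 0 0 3629748 0 416775
(.lf 2 true 1 false true 1 0) (.lf 2 true 2 false false 1 0)) (.lf 2 true 1 false true 1 0)))))) (.s 0 5 0 0 0 0 0 7
(.s 1 0 4 12 0 0 0 6
(.s 0 3140219 0 0 0 0 0 5507951
(.lf 1 false 2 false false 1 0) (.s 1 1304235 0 0 0 0 0 3212971
(.lf 1 false 2 false false 1 0) (.s 0 23127667 0 0 0 0 0 39805991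
(.s 2 0 1304235 0 0 3629748 0 416775
(.lf 1 false 1 true true 1 0) (.lf 1 false 2 false false 1 0)) (.s 1 1408429 0 0 0 0 0 3317165
(.s 2 0 1304235 0 0 3629748 0 416775
(.lf 1 false 1 true true 1 0) (.lf 1 false 2 false false 1 0)) (.lf 1 false 1 false true 1 0))))) (.s 0 3140219 0 0 0 0 0 5507951
(.s 1 1304235 0 0 0 0 0 3212971
(.lf 2 false 2 false false 1 0) (.s 1 1408429 0 0 0 0 0 3317165
(.s 2 0 1304235 0 0 3629748 0 416775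
(.lf 2 false 1 false true 1 0) (.lf 2 false 2 false false 1 0)) (.lf 2 false 1 false true 1 0))) (.s 0 23127667 0 0 0 0 0 39805991
(.s 1 1408429 0 0 0 0 0 3317165
(.s 2 0 1304235 0 0 3629748 0 416775
(.lf 2 false 1 false true 1 0) (.lf 2 false 2 false false 1 0)) (.lf 2 false 1 false true 1 0)) (.lf 2 false 1 false true 1 0)))) (.s 1 1304235 0 0 0 0 0 3212971
(.lf 1 false 2 false false 1 0) (.s 1 1408429 0 0 0 0 0 3317165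
(.s 2 0 1304235 0 0 3629748 0 416775
(.lf 1 false 0 true true 1 0) (.lf 1 false 2 false false 1 0)) (.lf 1 false 0 false true 1 0)))))

def i1_35 : T2 :=
(.s 3 0 0 4 0 10
(.k 98984 0 0 351938 263953 0 t1_35_0) (.k 0 604235 0 416776 3629748 0 t1_35_1))

theorem hi1_35 : chk2 (leaf1 a1_35 e1_35) 10000 i1_35 R35 = true := by
  decide +kernel

theorem ok35 : CellOk R35 a0_35 e0_35 a1_35 e1_35 :=
  ⟨lin35, ⟨_, ho00_35⟩, ⟨_, ho01_35⟩, ⟨_, ho10_35⟩, ⟨_, ho11_35⟩, ⟨_, hi0_35⟩, ⟨_, hi1_35⟩⟩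

def R48 : Reg := ⟨⟨0, 0, 0, 0, 0, 0, 0⟩, ⟨1, 0, 0, 0, 0, 0, 0⟩, ⟨0, 0, 0, 0, 0, 0, 0⟩, ⟨1, 0, 0, 0, 0, 0, 0⟩, ⟨0, 0, 0, 0, 1, 0, 0⟩, ⟨1, 0, 0, 0, 0, 0, 0⟩, ⟨2, 0, 0, 0, 0, 0, 0⟩, ⟨4, 0, 0, 0, 0, 0, 0⟩, ⟨0, 0, 0, 0, 0, 0, 0⟩, ⟨0, 0, 0, 0, 1, 0, 0⟩⟩

def a0_48 : SF := mu 0 1453955 751000 0 0 47972 4487527 0

def e0_48 : SF := mu 2800666 0 0 0 388003 0 0 12188669

def a1_48 : SF := mu 0 599485 299758 0 0 0 2841470 0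

def e1_48 : SF := mu 1960445 0 0 0 0 0 0 8883545

theorem lin48 : chkLin R48 a0_48 e0_48 a1_48 e1_48 = true := by decide +kernel

def o00_48 : T3 :=
(.s 0 8 0 0 0 0 0 14
(.s 1 0 0 1 0 0 0 0
(.s 0 1 0 0 0 0 0 2
(.s 2 0 0 1 0 0 0 0
(.s 1 0 0 1 0 0 0 1
(.lf 2 true 0 false false 0 0) (.lf 2 true 0 false false 0 0)) (.s 1 0 0 1 0 0 0 1
(.lf 2 true 0 false false 0 0) (.lf 2 true 0 false false 0 0))) (.s 1 0 4 12 0 0 0 6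
(.s 2 0 0 1 0 0 0 0
(.s 0 2 0 0 0 0 0 4
(.lf 1 true 0 true false 0 0) (.s 0 9 0 0 0 0 0 19
(.lf 1 true 0 true false 0 0) (.s 0 1 0 0 0 0 0 1
(.s 0 19 0 0 0 0 0 39
(.s 0 23 0 0 0 0 0 49
(.lf 1 true 0 true false 0 0) (.s 0 47 0 0 0 0 0 99
(.lf 1 true 0 true false 0 0) (.lf 1 true 0 true false 0 0))) (.lf 1 true 0 true false 0 0)) (.lf 1 true 0 true false 0 0)))) (.s 0 2 0 0 0 0 0 4
(.lf 1 true 0 false false 0 0) (.s 0 9 0 0 0 0 0 19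
(.lf 1 true 0 false false 0 0) (.s 0 1 0 0 0 0 0 1
(.s 0 19 0 0 0 0 0 39
(.s 0 23 0 0 0 0 0 49
(.lf 1 true 0 false false 0 0) (.s 0 47 0 0 0 0 0 99
(.lf 1 true 0 false false 0 0) (.lf 1 true 0 false false 0 0))) (.lf 1 true 0 false false 0 0)) (.lf 1 true 0 false false 0 0))))) (.s 2 0 0 1 0 0 0 0
(.s 1 0 4 19 0 0 0 13
(.s 0 2 0 0 0 0 0 4
(.s 0 3 0 0 0 0 0 7
(.lf 2 true 0 true false 0 0) (.lf 2 true 0 true false 0 0)) (.s 0 9 0 0 0 0 0 19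
(.s 1 0 12 43 0 0 0 27
(.s 0 17 0 0 0 0 0 39
(.lf 2 true 0 true false 0 0) (.lf 2 true 0 true false 0 0)) (.lf 2 true 0 true false 0 0)) (.s 0 1 0 0 0 0 0 1
(.s 0 19 0 0 0 0 0 39
(.s 0 23 0 0 0 0 0 49
(.lf 2 true 0 true false 0 0) (.s 0 47 0 0 0 0 0 99
(.lf 2 true 0 true false 0 0) (.lf 2 true 0 true false 0 0))) (.lf 2 true 0 true false 0 0)) (.lf 2 true 0 true false 0 0)))) (.lf 2 true 0 true false 0 0)) (.s 1 0 4 19 0 0 0 13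
(.s 0 2 0 0 0 0 0 4
(.s 0 3 0 0 0 0 0 7
(.lf 2 true 0 false false 0 0) (.lf 2 true 0 false false 0 0)) (.s 0 9 0 0 0 0 0 19
(.s 1 0 12 43 0 0 0 27
(.s 0 17 0 0 0 0 0 39
(.lf 2 true 0 false false 0 0) (.lf 2 true 0 false false 0 0)) (.lf 2 true 0 false false 0 0)) (.s 0 1 0 0 0 0 0 1
(.s 0 19 0 0 0 0 0 39
(.s 0 23 0 0 0 0 0 49
(.lf 2 true 0 false false 0 0) (.s 0 47 0 0 0 0 0 99
(.lf 2 true 0 false false 0 0) (.lf 2 true 0 false false 0 0))) (.lf 2 true 0 false false 0 0)) (.lf 2 true 0 false false 0 0)))) (.lf 2 true 0 false false 0 0))))) (.lf 3 true 0 false false 0 0)) (.s 1 0 0 1 0 0 0 0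
(.s 0 4 0 0 0 0 0 4
(.s 1 0 4 12 0 0 0 6
(.s 2 0 0 1 0 0 0 0
(.lf 1 false 0 true false 0 0) (.lf 1 false 0 false false 0 0)) (.lf 2 false 0 false false 0 0)) (.s 2 0 0 1 0 0 0 0
(.lf 0 false 0 true false 0 0) (.lf 0 false 0 false false 0 0))) (.s 0 4 0 0 0 0 0 4
(.lf 3 false 0 false false 0 0) (.s 0 11 0 0 0 0 0 11
(.s 1 0 4 12 0 0 0 6
(.lf 0 false 0 false false 0 0) (.lf 0 false 0 false false 0 0)) (.lf 0 false 0 false false 0 0)))))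

theorem ho00_48 : chk3 (leafO 10500000 3 a0_48 e0_48 R48.x0.ap R48.x0.m) o00_48 (full R48) = true := by
  decide +kernel

def o01_48 : T3 :=
(.s 0 8 0 0 0 0 0 14
(.s 1 0 0 1 0 0 0 0
(.s 0 1 0 0 0 0 0 2
(.lf 2 true 0 false false 0 0) (.s 1 0 4 12 0 0 0 6
(.s 2 0 0 1 0 0 0 0
(.s 0 2 0 0 0 0 0 4
(.lf 1 true 0 true false 0 0) (.lf 1 true 0 true false 0 0)) (.s 0 2 0 0 0 0 0 4
(.lf 1 true 0 false false 0 0) (.lf 1 true 0 false false 0 0))) (.s 2 0 0 1 0 0 0 0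
(.s 0 2 0 0 0 0 0 4
(.lf 2 true 0 false false 0 0) (.lf 2 true 0 true false 0 0)) (.s 0 2 0 0 0 0 0 4
(.lf 2 true 0 false false 0 0) (.lf 2 true 0 false false 0 0))))) (.lf 3 true 0 false false 0 0)) (.s 1 0 0 1 0 0 0 0
(.s 0 4 0 0 0 0 0 4
(.s 1 0 4 12 0 0 0 6
(.lf 1 false 0 false false 0 0) (.lf 2 false 0 false false 0 0)) (.lf 0 false 0 false false 0 0)) (.s 0 4 0 0 0 0 0 4
(.lf 3 false 0 false false 0 0) (.s 0 11 0 0 0 0 0 11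
(.s 1 0 4 12 0 0 0 6
(.lf 0 false 0 false false 0 0) (.lf 0 false 0 false false 0 0)) (.lf 0 false 0 false false 0 0)))))

theorem ho01_48 : chk3 (leafO 10500000 3 a0_48 e0_48 R48.x1.ap R48.x1.m) o01_48 (full R48) = true := by
  decide +kernel

def o10_48 : T3 :=
(.s 0 8 0 0 0 0 0 14
(.s 1 0 0 1 0 0 0 0
(.s 0 1 0 0 0 0 0 2
(.s 2 0 0 1 0 0 0 0
(.s 1 0 0 1 0 0 0 1
(.lf 2 true 0 false false 0 0) (.lf 2 true 0 false false 0 0)) (.s 1 0 0 1 0 0 0 1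
(.lf 2 true 0 false false 0 0) (.lf 2 true 0 false false 0 0))) (.s 1 0 4 12 0 0 0 6
(.s 2 0 0 1 0 0 0 0
(.s 0 2 0 0 0 0 0 4
(.lf 1 true 0 false false 0 0) (.s 0 9 0 0 0 0 0 19
(.lf 1 true 0 false false 0 0) (.s 0 1 0 0 0 0 0 1
(.s 0 19 0 0 0 0 0 39
(.lf 1 true 0 false false 0 0) (.lf 1 true 0 false false 0 0)) (.lf 1 true 0 false false 0 0)))) (.s 0 2 0 0 0 0 0 4
(.lf 1 true 0 false false 0 0) (.s 0 9 0 0 0 0 0 19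
(.lf 1 true 0 false false 0 0) (.s 0 1 0 0 0 0 0 1
(.s 0 19 0 0 0 0 0 39
(.lf 1 true 0 false false 0 0) (.lf 1 true 0 false false 0 0)) (.lf 1 true 0 false false 0 0))))) (.s 2 0 0 1 0 0 0 0
(.s 1 0 4 19 0 0 0 13
(.s 0 2 0 0 0 0 0 4
(.s 0 3 0 0 0 0 0 7
(.lf 2 true 0 false false 0 0) (.lf 2 true 0 false false 0 0)) (.s 0 9 0 0 0 0 0 19
(.s 1 0 12 43 0 0 0 27
(.lf 2 true 0 false false 0 0) (.lf 2 true 0 false false 0 0)) (.s 0 1 0 0 0 0 0 1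
(.s 0 19 0 0 0 0 0 39
(.lf 2 true 0 false false 0 0) (.lf 2 true 0 false false 0 0)) (.lf 2 true 0 false false 0 0)))) (.lf 2 true 0 false false 0 0)) (.s 1 0 4 19 0 0 0 13
(.s 0 2 0 0 0 0 0 4
(.s 0 3 0 0 0 0 0 7
(.lf 2 true 0 false false 0 0) (.lf 2 true 0 false false 0 0)) (.s 0 9 0 0 0 0 0 19
(.s 1 0 12 43 0 0 0 27
(.lf 2 true 0 false false 0 0) (.lf 2 true 0 false false 0 0)) (.s 0 1 0 0 0 0 0 1
(.s 0 19 0 0 0 0 0 39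
(.lf 2 true 0 false false 0 0) (.lf 2 true 0 false false 0 0)) (.lf 2 true 0 false false 0 0)))) (.lf 2 true 0 false false 0 0))))) (.lf 3 true 0 false false 0 0)) (.s 1 0 0 1 0 0 0 0
(.s 0 4 0 0 0 0 0 4
(.s 1 0 4 12 0 0 0 6
(.lf 1 false 0 false false 0 0) (.lf 2 false 0 false false 0 0)) (.lf 0 false 0 false false 0 0)) (.s 0 4 0 0 0 0 0 4
(.lf 3 false 0 false false 0 0) (.s 0 11 0 0 0 0 0 11
(.s 1 0 4 12 0 0 0 6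
(.lf 0 false 0 false false 0 0) (.lf 0 false 0 false false 0 0)) (.lf 0 false 0 false false 0 0)))))

theorem ho10_48 : chk3 (leafO 5554500 1 a1_48 e1_48 R48.x0.ap R48.x0.m) o10_48 (full R48) = true := by
  decide +kernel

def o11_48 : T3 :=
(.s 0 8 0 0 0 0 0 14
(.s 1 0 0 1 0 0 0 0
(.s 0 1 0 0 0 0 0 2
(.s 2 0 0 1 0 0 0 0
(.s 1 0 0 1 0 0 0 1
(.lf 2 true 0 false false 0 0) (.lf 2 true 0 false false 0 0)) (.s 1 0 0 1 0 0 0 1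
(.lf 2 true 0 false false 0 0) (.lf 2 true 0 false false 0 0))) (.s 1 0 4 12 0 0 0 6
(.s 2 0 0 1 0 0 0 0
(.s 0 2 0 0 0 0 0 4
(.lf 1 true 0 false false 0 0) (.s 0 9 0 0 0 0 0 19
(.lf 1 true 0 false false 0 0) (.s 0 1 0 0 0 0 0 1
(.s 0 19 0 0 0 0 0 39
(.lf 1 true 0 false false 0 0) (.lf 1 true 0 false false 0 0)) (.lf 1 true 0 false false 0 0)))) (.s 0 2 0 0 0 0 0 4
(.lf 1 true 0 false false 0 0) (.s 0 9 0 0 0 0 0 19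
(.lf 1 true 0 false false 0 0) (.s 0 1 0 0 0 0 0 1
(.s 0 19 0 0 0 0 0 39
(.lf 1 true 0 false false 0 0) (.lf 1 true 0 false false 0 0)) (.lf 1 true 0 false false 0 0))))) (.s 2 0 0 1 0 0 0 0
(.s 1 0 4 19 0 0 0 13
(.s 0 2 0 0 0 0 0 4
(.s 0 3 0 0 0 0 0 7
(.lf 2 true 0 false false 0 0) (.lf 2 true 0 false false 0 0)) (.s 0 9 0 0 0 0 0 19
(.lf 2 true 0 false false 0 0) (.s 0 1 0 0 0 0 0 1
(.s 0 19 0 0 0 0 0 39
(.lf 2 true 0 false false 0 0) (.lf 2 true 0 false false 0 0)) (.lf 2 true 0 false false 0 0)))) (.lf 2 true 0 false false 0 0)) (.s 1 0 4 19 0 0 0 13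
(.s 0 2 0 0 0 0 0 4
(.s 0 3 0 0 0 0 0 7
(.lf 2 true 0 false false 0 0) (.lf 2 true 0 false false 0 0)) (.s 0 9 0 0 0 0 0 19
(.lf 2 true 0 false false 0 0) (.s 0 1 0 0 0 0 0 1
(.s 0 19 0 0 0 0 0 39
(.lf 2 true 0 false false 0 0) (.lf 2 true 0 false false 0 0)) (.lf 2 true 0 false false 0 0)))) (.lf 2 true 0 false false 0 0))))) (.lf 3 true 0 false false 0 0)) (.s 1 0 0 1 0 0 0 0
(.s 0 4 0 0 0 0 0 4
(.s 1 0 4 12 0 0 0 6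
(.lf 1 false 0 false false 0 0) (.lf 2 false 0 false false 0 0)) (.lf 0 false 0 false false 0 0)) (.s 0 4 0 0 0 0 0 4
(.lf 3 false 0 false false 0 0) (.s 0 11 0 0 0 0 0 11
(.s 1 0 4 12 0 0 0 6
(.lf 0 false 0 false false 0 0) (.lf 0 false 0 false false 0 0)) (.lf 0 false 0 false false 0 0)))))

theorem ho11_48 : chk3 (leafO 5554500 1 a1_48 e1_48 R48.x1.ap R48.x1.m) o11_48 (full R48) = true := by
  decide +kernel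

def t0_48_0 : T3 :=
(.s 0 8 0 0 0 0 0 14
(.s 1 0 0 1 0 0 0 0
(.s 0 1 0 0 0 0 0 2
(.lf 2 true 1 false false 0 0) (.s 1 0 4 12 0 0 0 6
(.lf 1 true 1 true false 0 0) (.lf 2 true 1 false false 0 0))) (.lf 3 true 1 false false 0 0)) (.s 1 0 0 1 0 0 0 0
(.s 0 4 0 0 0 0 0 4
(.s 1 0 4 12 0 0 0 6
(.lf 1 false 1 true false 0 0) (.lf 2 false 1 false false 0 0)) (.lf 0 false 0 false false 0 0)) (.s 0 4 0 0 0 0 0 4
(.lf 3 false 1 false false 0 0) (.s 0 11 0 0 0 0 0 11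
(.s 1 0 4 12 0 0 0 6
(.lf 0 false 1 false false 0 0) (.lf 0 false 1 false false 0 0)) (.lf 0 false 0 false false 0 0)))))

def i0_48 : T2 :=
(.k 3400 0 0 2400 2850 0 t0_48_0)

theorem hi0_48 : chk2 (leaf0 a0_48 e0_48) 0 i0_48 R48 = true := by
  decide +kernel

def t1_48_0 : T3 :=
(.s 0 8 0 0 0 0 0 14
(.s 1 0 0 1 0 0 0 0
(.s 0 1 0 0 0 0 0 2
(.s 0 311 0 0 0 0 0 2999
(.s 4 0 0 0 0 4000 0 16158
(.lf 2 true 3 false true 0 0) (.lf 2 true 2 false false 0 0)) (.s 0 12440 0 0 0 0 0 44812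
(.s 1 0 12440 120000 0 0 0 75186
(.lf 2 true 2 true false 0 0) (.lf 2 true 3 false true 0 0)) (.s 1 0 0 1 0 0 0 1
(.lf 2 true 2 true false 0 0) (.lf 2 true 2 true false 0 0)))) (.s 1 0 4 12 0 0 0 6
(.s 0 2 0 0 0 0 0 4
(.lf 1 true 2 false false 0 0) (.s 0 9 0 0 0 0 0 19
(.lf 1 true 2 false false 0 0) (.s 0 1 0 0 0 0 0 1
(.s 0 19 0 0 0 0 0 39
(.lf 1 true 2 false false 0 0) (.lf 1 true 2 false false 0 0)) (.lf 1 true 2 false false 0 0)))) (.s 1 0 4 19 0 0 0 13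
(.s 0 2 0 0 0 0 0 4
(.lf 2 true 2 true false 0 0) (.s 0 9 0 0 0 0 0 19
(.s 0 17 0 0 0 0 0 39
(.lf 2 true 2 true false 0 0) (.lf 2 true 2 true false 0 0)) (.s 0 1 0 0 0 0 0 1
(.s 0 19 0 0 0 0 0 39
(.lf 2 true 2 true false 0 0) (.lf 2 true 2 true false 0 0)) (.lf 2 true 2 false false 0 0)))) (.lf 2 true 2 true false 0 0)))) (.s 0 1 0 0 0 0 0 3
(.s 4 0 0 0 0 4000 0 16158
(.lf 3 true 3 false true 0 0) (.lf 3 true 2 false false 0 0)) (.lf 3 true 2 false false 0 0))) (.s 1 0 0 1 0 0 0 0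
(.s 0 4 0 0 0 0 0 4
(.s 1 0 4 12 0 0 0 6
(.lf 1 false 2 false false 0 0) (.lf 2 false 2 false false 0 0)) (.lf 0 false 2 false false 0 0)) (.s 0 4 0 0 0 0 0 4
(.lf 3 false 2 false false 0 0) (.s 0 11 0 0 0 0 0 11
(.s 1 0 4 12 0 0 0 6
(.lf 0 false 2 true false 0 0) (.lf 0 false 2 false false 0 0)) (.lf 0 false 2 false false 0 0)))))

def t1_48_1 : T3 :=
(.s 0 8 0 0 0 0 0 14
(.s 1 0 0 1 0 0 0 0
(.s 0 1 0 0 0 0 0 2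
(.s 0 92273 0 0 0 0 0 401772
(.lf 2 true 2 false false 1 0) (.s 1 92273 0 0 0 0 0 401772
(.lf 2 true 2 false false 1 0) (.s 2 0 92273 0 0 998500 0 596726
(.lf 2 true 0 false true 1 0) (.lf 2 true 2 false false 1 0)))) (.s 1 0 4 12 0 0 0 6
(.s 0 751001 0 0 0 0 0 1607091
(.lf 1 true 2 false false 1 0) (.s 1 92273 0 0 0 0 0 401772
(.lf 1 true 2 false false 1 0) (.s 2 0 92273 0 0 998500 0 596726
(.lf 1 true 0 false true 1 0) (.lf 1 true 2 true false 1 0)))) (.s 0 751001 0 0 0 0 0 1607091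
(.s 1 92273 0 0 0 0 0 401772
(.lf 2 true 2 false false 1 0) (.s 2 0 92273 0 0 998500 0 596726
(.lf 2 true 0 false true 1 0) (.lf 2 true 2 false false 1 0))) (.s 2 0 92273 0 0 998500 0 596726
(.lf 2 true 0 false true 1 0) (.lf 2 true 2 false false 1 0))))) (.s 0 92273 0 0 0 0 0 401772
(.s 1 92273 0 0 0 0 0 401772
(.lf 3 true 2 false false 1 0) (.s 1 1378 0 0 0 0 0 1996
(.s 2 0 92273 0 0 998500 0 596726
(.lf 3 true 0 false true 1 0) (.lf 3 true 2 false false 1 0)) (.lf 3 true 1 false true 1 0))) (.s 1 1378 0 0 0 0 0 1996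
(.s 2 0 92273 0 0 998500 0 596726
(.lf 3 true 1 false true 1 0) (.lf 3 true 2 false false 1 0)) (.lf 3 true 1 false true 1 0)))) (.s 1 0 0 1 0 0 0 0
(.s 0 4 0 0 0 0 0 4
(.s 1 0 4 12 0 0 0 6
(.s 1 92273 0 0 0 0 0 401772
(.lf 1 false 2 false false 1 0) (.s 0 2939 0 0 0 0 0 3993
(.s 2 0 92273 0 0 998500 0 596726
(.lf 1 false 0 false true 1 0) (.lf 1 false 2 true false 1 0)) (.s 1 1378 0 0 0 0 0 1996
(.s 2 0 92273 0 0 998500 0 596726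
(.lf 1 false 0 false true 1 0) (.lf 1 false 2 false false 1 0)) (.lf 1 false 0 true true 1 0)))) (.s 0 2939 0 0 0 0 0 3993
(.s 1 0 622 6000 0 0 0 5496
(.s 2 907727 0 0 3000000 2748500 0 596726
(.lf 2 false 0 true true 1 0) (.lf 2 false 2 false false 1 0)) (.lf 2 false 0 true true 1 0)) (.lf 2 false 0 true true 1 0))) (.s 1 92273 0 0 0 0 0 401772
(.lf 0 false 2 false false 1 0) (.s 1 1378 0 0 0 0 0 1996
(.s 2 0 92273 0 0 998500 0 596726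
(.lf 0 false 0 false true 1 0) (.lf 0 false 2 false false 1 0)) (.lf 0 false 0 true true 1 0)))) (.s 0 4 0 0 0 0 0 4
(.lf 3 false 0 true true 1 0) (.s 0 11 0 0 0 0 0 11
(.s 1 0 4 12 0 0 0 6
(.lf 0 false 0 true true 1 0) (.lf 0 false 0 true true 1 0)) (.lf 0 false 0 true true 1 0)))))

def i1_48 : T2 :=
(.s 3 0 0 4 0 10
(.k 11000 0 0 0 129675 0 t1_48_0) (.k 607727 0 0 596727 998500 0 t1_48_1))

theorem hi1_48 : chk2 (leaf1 a1_48 e1_48) 10000 i1_48 R48 = true := by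
  decide +kernel

theorem ok48 : CellOk R48 a0_48 e0_48 a1_48 e1_48 :=
  ⟨lin48, ⟨_, ho00_48⟩, ⟨_, ho01_48⟩, ⟨_, ho10_48⟩, ⟨_, ho11_48⟩, ⟨_, hi0_48⟩, ⟨_, hi1_48⟩⟩

end

end Vale.Agent.P334.Cert
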