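import Vale.Agent.P334.CertDefs

/-!
Data of the dual certificate, checked cell by cell.
-/

namespace Vale.Agent.P334.Cert

noncomputable section

def R2 : Reg := ⟨⟨0, 0, 0, 0, 0, 0, 0⟩, ⟨1, 0, 0, 0, 0, 0, 0⟩, ⟨1, 0, 0, 0, 0, 0, 3⟩, ⟨1, 0, 0, 0, 0, 0, 1⟩, ⟨0, 0, 0, 0, 0, 0, 0⟩, ⟨0, 0, 0, 0, 1, 0, 0⟩, ⟨0, 0, 0, 0, 0, 0, 0⟩, ⟨1, 0, 0, 0, 0, 0, 3⟩, ⟨0, 0, 0, 0, 0, 0, 0⟩, ⟨0, 0, 0, 0, 1, 0, 0⟩⟩

def a0_2 : SF := mu 0 0 214848 0 0 14921 14921 0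

def e0_2 : SF := mu 0 0 1219581 0 3406874 0 0 3406874

def a1_2 : SF := mu 0 0 116723 0 0 10423 10423 0

def e1_2 : SF := mu 0 0 853686 0 2620696 0 0 2620696

theorem lin2 : chkLin R2 a0_2 e0_2 a1_2 e1_2 = true := by decide +kernel

def o00_2 : T3 :=
(.s 0 8 0 0 0 0 0 14
(.s 0 1 0 0 0 0 0 3
(.lf 3 true 0 false false 0 0) (.s 0 1 0 0 0 0 0 1
(.s 1 0 0 1 0 0 0 0
(.s 0 23 0 0 0 0 0 47
(.lf 2 true 0 true false 0 0) (.s 1 0 4 12 0 0 0 6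
(.lf 1 true 0 true false 0 0) (.lf 2 true 0 true false 0 0))) (.lf 3 true 0 false false 0 0)) (.s 1 0 4 12 0 0 0 6
(.lf 1 true 0 true false 0 0) (.lf 2 true 0 true false 0 0)))) (.s 0 5 0 0 0 0 0 7
(.s 1 0 4 12 0 0 0 6
(.lf 1 false 0 true false 0 0) (.lf 2 false 0 true false 0 0)) (.lf 1 false 0 true false 0 0)))

theorem ho00_2 : chk3 (leafO 10500000 3 a0_2 e0_2 R2.x0.ap R2.x0.m) o00_2 (full R2) = true := by
  decide +kernel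

def o01_2 : T3 :=
(.s 0 8 0 0 0 0 0 14
(.s 0 1 0 0 0 0 0 3
(.lf 3 true 0 false false 0 0) (.s 0 1 0 0 0 0 0 1
(.s 1 0 0 1 0 0 0 0
(.s 0 23 0 0 0 0 0 47
(.lf 2 true 0 true false 0 0) (.s 1 0 4 12 0 0 0 6
(.lf 1 true 0 true false 0 0) (.lf 2 true 0 true false 0 0))) (.lf 3 true 0 false false 0 0)) (.s 1 0 4 12 0 0 0 6
(.lf 1 true 0 true false 0 0) (.lf 2 true 0 true false 0 0)))) (.s 0 5 0 0 0 0 0 7
(.s 1 0 4 12 0 0 0 6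
(.lf 1 false 0 true false 0 0) (.lf 2 false 0 true false 0 0)) (.lf 1 false 0 true false 0 0)))

theorem ho01_2 : chk3 (leafO 10500000 3 a0_2 e0_2 R2.x1.ap R2.x1.m) o01_2 (full R2) = true := by
  decide +kernel

def o10_2 : T3 :=
(.s 0 8 0 0 0 0 0 14
(.s 0 1 0 0 0 0 0 3
(.lf 3 true 0 false false 0 0) (.s 0 1 0 0 0 0 0 1
(.s 1 0 0 1 0 0 0 0
(.s 0 23 0 0 0 0 0 47
(.lf 2 true 0 true false 0 0) (.s 1 0 4 12 0 0 0 6
(.lf 1 true 0 true false 0 0) (.lf 2 true 0 true false 0 0))) (.lf 3 true 0 false false 0 0)) (.s 1 0 4 12 0 0 0 6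
(.lf 1 true 0 true false 0 0) (.lf 2 true 0 true false 0 0)))) (.s 0 5 0 0 0 0 0 7
(.s 1 0 4 12 0 0 0 6
(.lf 1 false 0 true false 0 0) (.lf 2 false 0 true false 0 0)) (.lf 1 false 0 true false 0 0)))

theorem ho10_2 : chk3 (leafO 5554500 1 a1_2 e1_2 R2.x0.ap R2.x0.m) o10_2 (full R2) = true := by
  decide +kernel

def o11_2 : T3 :=
(.s 0 8 0 0 0 0 0 14
(.s 0 1 0 0 0 0 0 3
(.lf 3 true 0 false false 0 0) (.s 0 1 0 0 0 0 0 1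
(.s 1 0 0 1 0 0 0 0
(.s 0 23 0 0 0 0 0 47
(.lf 2 true 0 true false 0 0) (.s 1 0 4 12 0 0 0 6
(.lf 1 true 0 true false 0 0) (.lf 2 true 0 true false 0 0))) (.lf 3 true 0 false false 0 0)) (.s 1 0 4 12 0 0 0 6
(.lf 1 true 0 true false 0 0) (.lf 2 true 0 true false 0 0)))) (.s 0 5 0 0 0 0 0 7
(.s 1 0 4 12 0 0 0 6
(.lf 1 false 0 true false 0 0) (.lf 2 false 0 true false 0 0)) (.lf 1 false 0 true false 0 0)))

theorem ho11_2 : chk3 (leafO 5554500 1 a1_2 e1_2 R2.x1.ap R2.x1.m) o11_2 (full R2) = true := by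
  decide +kernel

def R2_0a : Reg := hi R2 (Nat.succ 3) ⟨0, 0, 0, 0, 1, 0, 1⟩

def R2_0b : Reg := lo R2 (Nat.succ 3) ⟨0, 0, 0, 0, 1, 0, 1⟩

def t0_2a_0 : T3 :=
(.s 0 8 0 0 0 0 0 14
(.s 0 1 0 0 0 0 0 3
(.lf 3 true 1 true false 0 0) (.s 0 1 0 0 0 0 0 1
(.s 1 0 0 1 0 0 0 0
(.s 0 23 0 0 0 0 0 47
(.s 0 2 0 0 0 0 0 4
(.s 0 3 0 0 0 0 0 9
(.lf 2 true 1 true false 0 0) (.s 0 7 0 0 0 0 0 19
(.lf 2 true 1 true false 0 0) (.lf 2 true 1 true false 0 0))) (.s 1 1 0 4 0 0 0 7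
(.lf 2 true 1 true false 0 0) (.lf 2 true 1 true false 0 0))) (.s 1 0 4 12 0 0 0 6
(.lf 1 true 1 false false 0 0) (.lf 2 true 1 true false 0 0))) (.lf 3 true 1 true false 0 0)) (.s 1 0 4 12 0 0 0 6
(.lf 1 true 1 false false 0 0) (.lf 2 true 1 true false 0 0)))) (.s 0 5 0 0 0 0 0 7
(.s 1 0 4 12 0 0 0 6
(.lf 1 false 1 false false 0 0) (.lf 2 false 1 true false 0 0)) (.lf 1 false 0 false false 0 0)))

def t0_2a_1 : T3 :=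
(.s 0 8 0 0 0 0 0 14
(.s 0 1 0 0 0 0 0 3
(.lf 3 true 1 true false 0 0) (.s 0 1 0 0 0 0 0 1
(.s 1 0 0 1 0 0 0 0
(.s 0 23 0 0 0 0 0 47
(.s 0 2 0 0 0 0 0 4
(.s 0 3 0 0 0 0 0 9
(.lf 2 true 1 true false 0 0) (.s 0 7 0 0 0 0 0 19
(.lf 2 true 1 true false 0 0) (.lf 2 true 1 true false 0 0))) (.lf 2 true 1 true false 0 0)) (.s 1 0 4 12 0 0 0 6
(.lf 1 true 1 false false 0 0) (.lf 2 true 1 true false 0 0))) (.lf 3 true 1 true false 0 0)) (.s 1 0 4 12 0 0 0 6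
(.lf 1 true 1 false false 0 0) (.lf 2 true 1 true false 0 0)))) (.s 0 5 0 0 0 0 0 7
(.s 1 0 4 12 0 0 0 6
(.lf 1 false 1 false false 0 0) (.lf 2 false 1 true false 0 0)) (.lf 1 false 0 false false 0 0)))

def t0_2a_2 : T3 :=
(.s 0 8 0 0 0 0 0 14
(.s 0 1 0 0 0 0 0 3
(.lf 3 true 1 true false 0 0) (.s 0 1 0 0 0 0 0 1
(.s 1 0 0 1 0 0 0 0
(.s 0 23 0 0 0 0 0 47
(.lf 2 true 1 true false 0 0) (.s 1 0 4 12 0 0 0 6
(.lf 1 true 1 false false 0 0) (.lf 2 true 1 true false 0 0))) (.lf 3 true 1 true false 0 0)) (.s 1 0 4 12 0 0 0 6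
(.lf 1 true 1 false false 0 0) (.lf 2 true 1 true false 0 0)))) (.s 0 5 0 0 0 0 0 7
(.s 1 0 4 12 0 0 0 6
(.lf 1 false 1 false false 0 0) (.lf 2 false 1 true false 0 0)) (.lf 1 false 0 false false 0 0)))

def i0_2a : T2 :=
(.s 3 0 0 1 0 3
(.k 120327 0 238654 0 0 238654 t0_2a_0) (.s 3 0 0 2 0 4
(.k 283758 0 354899 0 0 565517 t0_2a_1) (.k 357089 0 585925 0 0 712178 t0_2a_2)))

theorem hi0_2a : chk2 (leaf0 a0_2 e0_2) 0 i0_2a R2_0a = true := by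
  decide +kernel

def t0_2b_0 : T3 :=
(.s 0 8 0 0 0 0 0 14
(.s 0 1 0 0 0 0 0 3
(.lf 3 true 1 true false 0 0) (.s 0 1 0 0 0 0 0 1
(.s 1 0 0 1 0 0 0 0
(.s 0 23 0 0 0 0 0 47
(.s 0 2 0 0 0 0 0 4
(.lf 2 true 1 true false 0 0) (.lf 2 true 1 true false 0 0)) (.s 1 0 4 12 0 0 0 6
(.lf 1 true 1 false false 0 0) (.lf 2 true 1 true false 0 0))) (.lf 3 true 1 true false 0 0)) (.s 1 0 4 12 0 0 0 6
(.lf 1 true 1 false false 0 0) (.lf 2 true 1 true false 0 0)))) (.s 0 5 0 0 0 0 0 7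
(.s 1 0 4 12 0 0 0 6
(.lf 1 false 1 false false 0 0) (.lf 2 false 1 true false 0 0)) (.lf 1 false 0 false false 0 0)))

def t0_2b_1 : T3 :=
(.s 0 8 0 0 0 0 0 14
(.s 0 1 0 0 0 0 0 3
(.lf 3 true 1 true false 0 0) (.s 0 1 0 0 0 0 0 1
(.s 1 0 0 1 0 0 0 0
(.s 0 23 0 0 0 0 0 47
(.lf 2 true 1 false false 0 0) (.s 1 0 4 12 0 0 0 6
(.lf 1 true 1 false false 0 0) (.lf 2 true 1 false false 0 0))) (.lf 3 true 1 true false 0 0)) (.s 1 0 4 12 0 0 0 6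
(.lf 1 true 1 false false 0 0) (.lf 2 true 1 false false 0 0)))) (.s 0 5 0 0 0 0 0 7
(.s 1 0 4 12 0 0 0 6
(.lf 1 false 1 true false 0 0) (.lf 2 false 1 false false 0 0)) (.lf 1 false 0 true false 0 0)))

def t0_2b_2 : T3 :=
(.s 0 8 0 0 0 0 0 14
(.s 0 1 0 0 0 0 0 3
(.lf 3 true 1 true false 0 0) (.s 0 1 0 0 0 0 0 1
(.s 1 0 0 1 0 0 0 0
(.s 0 23 0 0 0 0 0 47
(.lf 2 true 1 true false 0 0) (.s 1 0 4 12 0 0 0 6
(.lf 1 true 1 false false 0 0) (.lf 2 true 1 true false 0 0))) (.lf 3 true 1 true false 0 0)) (.s 1 0 4 12 0 0 0 6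
(.lf 1 true 1 false false 0 0) (.lf 2 true 1 true false 0 0)))) (.s 0 5 0 0 0 0 0 7
(.s 1 0 4 12 0 0 0 6
(.lf 1 false 1 false false 0 0) (.lf 2 false 1 true false 0 0)) (.lf 1 false 0 false false 0 0)))

def t0_2b_3 : T3 :=
(.s 0 8 0 0 0 0 0 14
(.s 0 1 0 0 0 0 0 3
(.lf 3 true 1 true false 0 0) (.s 0 1 0 0 0 0 0 1
(.s 1 0 0 1 0 0 0 0
(.s 0 23 0 0 0 0 0 47
(.lf 2 true 1 true false 0 0) (.s 1 0 4 12 0 0 0 6
(.lf 1 true 1 false false 0 0) (.lf 2 true 1 true false 0 0))) (.lf 3 true 1 true false 0 0)) (.s 1 0 4 12 0 0 0 6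
(.lf 1 true 1 false false 0 0) (.lf 2 true 1 false false 0 0)))) (.s 0 5 0 0 0 0 0 7
(.s 1 0 4 12 0 0 0 6
(.lf 1 false 1 false false 0 0) (.lf 2 false 1 false false 0 0)) (.lf 1 false 0 false false 0 0)))

def t0_2b_4 : T3 :=
(.s 0 8 0 0 0 0 0 14
(.s 0 1 0 0 0 0 0 3
(.lf 3 true 1 true false 0 0) (.s 0 1 0 0 0 0 0 1
(.s 1 0 0 1 0 0 0 0
(.s 0 23 0 0 0 0 0 47
(.lf 2 true 1 true false 0 0) (.s 1 0 4 12 0 0 0 6
(.lf 1 true 1 false false 0 0) (.lf 2 true 1 false false 0 0))) (.lf 3 true 1 true false 0 0)) (.s 1 0 4 12 0 0 0 6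
(.lf 1 true 1 true false 0 0) (.lf 2 true 1 false false 0 0)))) (.s 0 5 0 0 0 0 0 7
(.s 1 0 4 12 0 0 0 6
(.lf 1 false 1 true false 0 0) (.lf 2 false 1 false false 0 0)) (.lf 1 false 0 false false 0 0)))

def i0_2b : T2 :=
(.s 2 1 0 0 0 9
(.k 288947 0 445242 0 0 575894 t0_2b_0) (.s 1 0 0 1 0 1
(.k 2000000 0 0 5000000 0 1041152 t0_2b_1) (.s 3 0 0 3 0 3
(.s 3 0 0 3 0 4
(.k 448241 0 866407 0 0 978356 t0_2b_2) (.k 588542 0 866795 0 0 978458 t0_2b_3)) (.k 815882 0 0 5000000 4887596 0 t0_2b_4))))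

theorem hi0_2b : chk2 (leaf0 a0_2 e0_2) 0 i0_2b R2_0b = true := by
  decide +kernel

def i0_2 : T2 := .s 3 0 0 1 0 1 i0_2a i0_2b

theorem hi0_2 : chk2 (leaf0 a0_2 e0_2) 0 i0_2 R2 = true := chk2_s hi0_2a hi0_2b

def t1_2_0 : T3 :=
(.s 0 8 0 0 0 0 0 14
(.s 0 1 0 0 0 0 0 3
(.lf 3 true 1 true false 0 1) (.s 0 1 0 0 0 0 0 1
(.s 1 0 0 1 0 0 0 0
(.s 0 23 0 0 0 0 0 47
(.s 0 2 0 0 0 0 0 4
(.s 0 3 0 0 0 0 0 9
(.lf 2 true 1 true false 0 1) (.lf 2 true 1 true false 0 1)) (.s 1 1 0 4 0 0 0 7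
(.lf 2 true 1 true false 0 1) (.lf 2 true 1 true false 0 1))) (.s 1 0 4 12 0 0 0 6
(.lf 1 true 1 false false 0 1) (.s 1 0 4 19 0 0 0 13
(.lf 2 true 1 true false 0 1) (.lf 2 true 1 true false 0 1)))) (.lf 3 true 1 true false 0 1)) (.s 1 0 4 12 0 0 0 6
(.lf 1 true 1 true false 0 1) (.s 1 0 1 24 0 0 0 27
(.lf 2 true 1 true false 0 1) (.lf 2 true 1 true false 0 1))))) (.s 0 5 0 0 0 0 0 7
(.s 1 0 4 12 0 0 0 6
(.lf 1 false 1 true false 0 1) (.lf 2 false 1 true false 0 1)) (.s 0 8263 0 0 0 0 0 10999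
(.lf 1 false 1 false false 0 2) (.s 3 2750 0 0 2750 0 0 2736
(.lf 1 false 1 false false 0 2) (.s 4 1000 0 0 1000 0 0 2736
(.lf 1 false 2 false false 0 0) (.lf 1 false 2 false false 0 0))))))

def t1_2_1 : T3 :=
(.s 0 8 0 0 0 0 0 14
(.s 0 1 0 0 0 0 0 3
(.lf 3 true 1 true false 2 1) (.s 0 1 0 0 0 0 0 1
(.s 1 0 0 1 0 0 0 0
(.s 0 23 0 0 0 0 0 47
(.lf 2 true 1 true false 2 1) (.s 1 0 4 12 0 0 0 6
(.lf 1 true 1 false false 2 1) (.lf 2 true 1 false false 2 1))) (.lf 3 true 1 true false 2 1)) (.s 1 0 4 12 0 0 0 6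
(.lf 1 true 1 false false 2 1) (.lf 2 true 1 false false 2 1)))) (.s 0 5 0 0 0 0 0 7
(.s 1 0 4 12 0 0 0 6
(.lf 1 false 1 true false 2 1) (.lf 2 false 1 false false 2 1)) (.s 1 20796 0 0 0 0 0 68338
(.s 2 145572 0 0 0 0 478373 361055
(.s 0 3 0 0 0 0 0 3
(.lf 1 false 1 true false 2 2) (.s 3 110 0 0 110 0 0 116
(.lf 1 false 1 false false 1 1) (.s 3 1 0 0 1 0 0 0
(.s 4 0 10 10 0 11 0 0
(.lf 1 false 1 false false 1 0) (.lf 1 false 1 false false 1 1)) (.lf 1 false 2 false false 1 0)))) (.s 0 8263 0 0 0 0 0 10999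
(.s 3 1000 0 0 1000 0 0 2736
(.lf 1 false 1 false false 2 1) (.s 4 1000 0 0 1000 0 0 2736
(.lf 1 false 1 false false 1 2) (.lf 1 false 1 false false 2 2))) (.s 3 2750 0 0 2750 0 0 2736
(.s 3 1000 0 0 1000 0 0 2736
(.lf 1 false 1 false false 1 1) (.s 4 1000 0 0 1000 0 0 2736
(.lf 1 false 0 false true 1 2) (.lf 1 false 0 false true 1 2))) (.lf 1 false 0 false true 1 0)))) (.s 0 3 0 0 0 0 0 3
(.lf 1 false 1 false false 2 2) (.s 3 110 0 0 110 0 0 116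
(.lf 1 false 1 false false 1 1) (.s 3 1 0 0 1 0 0 0
(.s 4 0 10 10 0 11 0 0
(.lf 1 false 0 false true 1 0) (.lf 1 false 0 false true 1 1)) (.lf 1 false 0 false true 1 0)))))))

def i1_2 : T2 :=
(.s 3 0 0 4 0 10
(.k 158727 0 72956 0 0 190081 t1_2_0) (.k 554428 0 361056 0 478373 0 t1_2_1))

theorem hi1_2 : chk2 (leaf1 a1_2 e1_2) 10000 i1_2 R2 = true := by
  decide +kernel

theorem ok2 : CellOk R2 a0_2 e0_2 a1_2 e1_2 :=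
  ⟨lin2, ⟨_, ho00_2⟩, ⟨_, ho01_2⟩, ⟨_, ho10_2⟩, ⟨_, ho11_2⟩, ⟨_, hi0_2⟩, ⟨_, hi1_2⟩⟩

def R22 : Reg := ⟨⟨0, 0, 0, 0, 0, 0, 0⟩, ⟨1, 0, 0, 0, 0, 0, 0⟩, ⟨0, 0, 0, 0, 0, 0, 0⟩, ⟨1, 0, 0, 0, 0, 0, 1⟩, ⟨1, 0, 0, 0, 7, 0, 7⟩, ⟨1, 0, 0, 0, 3, 0, 3⟩, ⟨3, 0, 0, 0, 0, 0, 4⟩, ⟨3, 0, 0, 0, 0, 0, 3⟩, ⟨0, 0, 0, 0, 0, 0, 0⟩, ⟨0, 0, 0, 0, 1, 0, 0⟩⟩

def a0_22 : SF := mu 0 166622 277825 0 0 0 389965 0

def e0_22 : SF := mu 0 230949 337633 0 2062500 0 0 1557428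

def a1_22 : SF := mu 0 81293 135538 0 0 0 153494 0

def e1_22 : SF := mu 0 161685 236343 0 1443750 0 0 1090200

theorem lin22 : chkLin R22 a0_22 e0_22 a1_22 e1_22 = true := by decide +kernel

def o00_22 : T3 :=
(.s 0 8 0 0 0 0 0 14
(.s 0 1 0 0 0 0 0 1
(.s 1 0 0 1 0 0 0 0
(.s 0 1 0 0 0 0 0 2
(.s 0 1 0 0 0 0 0 7
(.lf 2 true 0 false false 0 0) (.s 1 0 1 8 0 0 0 6
(.s 0 1 0 0 0 0 0 3
(.s 2 0 0 1 0 0 0 0
(.lf 2 true 0 true false 0 0) (.lf 2 true 0 false false 0 0)) (.s 1 0 1 4 0 0 0 2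
(.lf 2 true 0 true false 0 0) (.s 2 0 0 1 0 0 0 0
(.s 1 0 5 26 0 0 0 20
(.lf 2 true 0 true false 0 0) (.s 1 0 4 25 0 0 0 20
(.lf 2 true 0 true false 0 0) (.s 0 3 0 0 0 0 0 9
(.lf 2 true 0 true false 0 0) (.lf 2 true 0 true false 0 0)))) (.s 1 0 5 26 0 0 0 20
(.lf 2 true 0 false false 0 0) (.s 1 0 4 25 0 0 0 20
(.lf 2 true 0 false false 0 0) (.s 0 3 0 0 0 0 0 9
(.lf 2 true 0 false false 0 0) (.lf 2 true 0 false false 0 0))))))) (.s 0 1 0 0 0 0 0 3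
(.lf 2 true 0 false false 0 0) (.lf 2 true 0 false false 0 0)))) (.s 1 0 4 12 0 0 0 6
(.lf 1 true 0 true false 0 0) (.s 1 0 1 8 0 0 0 6
(.s 1 0 1 4 0 0 0 2
(.lf 2 true 0 true false 0 0) (.s 2 0 0 1 0 0 0 0
(.s 1 0 5 26 0 0 0 20
(.s 0 2 0 0 0 0 0 4
(.lf 2 true 0 true false 0 0) (.lf 2 true 0 true false 0 0)) (.s 0 2 0 0 0 0 0 4
(.lf 2 true 0 true false 0 0) (.lf 2 true 0 true false 0 0))) (.s 1 0 5 26 0 0 0 20
(.s 0 2 0 0 0 0 0 4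
(.lf 2 true 0 false false 0 0) (.lf 2 true 0 false false 0 0)) (.s 0 2 0 0 0 0 0 4
(.lf 2 true 0 false false 0 0) (.lf 2 true 0 false false 0 0))))) (.lf 2 true 0 false false 0 0)))) (.lf 3 true 0 false false 0 0)) (.s 1 0 4 12 0 0 0 6
(.lf 1 true 0 true false 0 0) (.s 1 0 1 8 0 0 0 6
(.s 1 0 1 4 0 0 0 2
(.lf 2 true 0 true false 0 0) (.s 2 0 0 1 0 0 0 0
(.lf 2 true 0 true false 0 0) (.lf 2 true 0 false false 0 0))) (.lf 2 true 0 false false 0 0)))) (.s 0 5 0 0 0 0 0 7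
(.s 1 0 4 12 0 0 0 6
(.lf 1 false 0 true false 0 0) (.s 0 9 0 0 0 0 0 15
(.s 1 0 1 8 0 0 0 6
(.s 1 0 1 4 0 0 0 2
(.lf 2 false 0 true false 0 0) (.s 2 0 0 1 0 0 0 0
(.lf 2 false 0 true false 0 0) (.lf 2 false 0 false false 0 0))) (.lf 2 false 0 false false 0 0)) (.s 1 0 1 4 0 0 0 2
(.lf 2 false 0 true false 0 0) (.s 2 0 0 1 0 0 0 0
(.lf 2 false 0 true false 0 0) (.lf 2 false 0 false false 0 0))))) (.lf 1 false 0 true false 0 0)))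

theorem ho00_22 : chk3 (leafO 10500000 3 a0_22 e0_22 R22.x0.ap R22.x0.m) o00_22 (full R22) = true := by
  decide +kernel

def o01_22 : T3 :=
(.s 0 8 0 0 0 0 0 14
(.s 0 1 0 0 0 0 0 1
(.s 1 0 0 1 0 0 0 0
(.s 0 1 0 0 0 0 0 2
(.s 0 1 0 0 0 0 0 7
(.lf 2 true 0 false false 0 0) (.s 1 0 1 8 0 0 0 6
(.s 0 1 0 0 0 0 0 3
(.s 2 0 0 1 0 0 0 0
(.lf 2 true 0 true false 0 0) (.lf 2 true 0 false false 0 0)) (.s 1 0 1 4 0 0 0 2
(.lf 2 true 0 true false 0 0) (.s 2 0 0 1 0 0 0 0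
(.s 0 3 0 0 0 0 0 9
(.lf 2 true 0 true false 0 0) (.lf 2 true 0 true false 0 0)) (.s 0 3 0 0 0 0 0 9
(.lf 2 true 0 false false 0 0) (.lf 2 true 0 false false 0 0))))) (.lf 2 true 0 false false 0 0))) (.s 1 0 4 12 0 0 0 6
(.lf 1 true 0 true false 0 0) (.s 1 0 1 8 0 0 0 6
(.s 1 0 1 4 0 0 0 2
(.s 0 2 0 0 0 0 0 4
(.lf 2 true 0 true false 0 0) (.s 0 9 0 0 0 0 0 19
(.lf 2 true 0 true false 0 0) (.lf 2 true 0 true false 0 0))) (.s 2 0 0 1 0 0 0 0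
(.s 1 0 5 26 0 0 0 20
(.s 0 2 0 0 0 0 0 4
(.lf 2 true 0 true false 0 0) (.s 0 9 0 0 0 0 0 19
(.lf 2 true 0 true false 0 0) (.lf 2 true 0 true false 0 0))) (.lf 2 true 0 true false 0 0)) (.s 1 0 5 26 0 0 0 20
(.s 0 2 0 0 0 0 0 4
(.lf 2 true 0 false false 0 0) (.s 0 9 0 0 0 0 0 19
(.lf 2 true 0 false false 0 0) (.lf 2 true 0 false false 0 0))) (.lf 2 true 0 false false 0 0)))) (.lf 2 true 0 false false 0 0)))) (.lf 3 true 0 false false 0 0)) (.s 1 0 4 12 0 0 0 6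
(.lf 1 true 0 true false 0 0) (.s 1 0 1 8 0 0 0 6
(.s 1 0 1 4 0 0 0 2
(.lf 2 true 0 true false 0 0) (.s 2 0 0 1 0 0 0 0
(.lf 2 true 0 true false 0 0) (.lf 2 true 0 false false 0 0))) (.lf 2 true 0 false false 0 0)))) (.s 0 5 0 0 0 0 0 7
(.s 1 0 4 12 0 0 0 6
(.lf 1 false 0 true false 0 0) (.s 0 9 0 0 0 0 0 15
(.s 1 0 1 8 0 0 0 6
(.s 1 0 1 4 0 0 0 2
(.lf 2 false 0 true false 0 0) (.s 2 0 0 1 0 0 0 0
(.lf 2 false 0 true false 0 0) (.lf 2 false 0 false false 0 0))) (.lf 2 false 0 false false 0 0)) (.s 1 0 1 4 0 0 0 2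
(.lf 2 false 0 true false 0 0) (.s 2 0 0 1 0 0 0 0
(.lf 2 false 0 true false 0 0) (.lf 2 false 0 false false 0 0))))) (.lf 1 false 0 true false 0 0)))

theorem ho01_22 : chk3 (leafO 10500000 3 a0_22 e0_22 R22.x1.ap R22.x1.m) o01_22 (full R22) = true := by
  decide +kernel

def o10_22 : T3 :=
(.s 0 8 0 0 0 0 0 14
(.s 0 1 0 0 0 0 0 1
(.s 1 0 0 1 0 0 0 0
(.s 0 1 0 0 0 0 0 2
(.s 0 1 0 0 0 0 0 7
(.lf 2 true 0 false false 0 0) (.s 1 0 1 8 0 0 0 6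
(.s 0 1 0 0 0 0 0 3
(.s 2 0 0 1 0 0 0 0
(.lf 2 true 0 true false 0 0) (.lf 2 true 0 false false 0 0)) (.s 1 0 1 4 0 0 0 2
(.lf 2 true 0 true false 0 0) (.s 2 0 0 1 0 0 0 0
(.lf 2 true 0 true false 0 0) (.lf 2 true 0 false false 0 0)))) (.lf 2 true 0 false false 0 0))) (.s 1 0 4 12 0 0 0 6
(.lf 1 true 0 true false 0 0) (.s 1 0 1 8 0 0 0 6
(.s 1 0 1 4 0 0 0 2
(.lf 2 true 0 true false 0 0) (.s 2 0 0 1 0 0 0 0
(.s 0 2 0 0 0 0 0 4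
(.lf 2 true 0 true false 0 0) (.lf 2 true 0 true false 0 0)) (.s 0 2 0 0 0 0 0 4
(.lf 2 true 0 false false 0 0) (.lf 2 true 0 false false 0 0)))) (.lf 2 true 0 false false 0 0)))) (.lf 3 true 0 false false 0 0)) (.s 1 0 4 12 0 0 0 6
(.lf 1 true 0 true false 0 0) (.s 1 0 1 8 0 0 0 6
(.s 1 0 1 4 0 0 0 2
(.lf 2 true 0 true false 0 0) (.s 2 0 0 1 0 0 0 0
(.lf 2 true 0 true false 0 0) (.lf 2 true 0 false false 0 0))) (.lf 2 true 0 false false 0 0)))) (.s 0 5 0 0 0 0 0 7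
(.s 1 0 4 12 0 0 0 6
(.lf 1 false 0 true false 0 0) (.s 0 9 0 0 0 0 0 15
(.s 1 0 1 8 0 0 0 6
(.s 1 0 1 4 0 0 0 2
(.lf 2 false 0 true false 0 0) (.s 2 0 0 1 0 0 0 0
(.lf 2 false 0 true false 0 0) (.lf 2 false 0 false false 0 0))) (.lf 2 false 0 false false 0 0)) (.s 1 0 1 4 0 0 0 2
(.lf 2 false 0 true false 0 0) (.s 2 0 0 1 0 0 0 0
(.lf 2 false 0 true false 0 0) (.lf 2 false 0 false false 0 0))))) (.lf 1 false 0 true false 0 0)))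

theorem ho10_22 : chk3 (leafO 5554500 1 a1_22 e1_22 R22.x0.ap R22.x0.m) o10_22 (full R22) = true := by
  decide +kernel

def o11_22 : T3 :=
(.s 0 8 0 0 0 0 0 14
(.s 0 1 0 0 0 0 0 1
(.s 1 0 0 1 0 0 0 0
(.s 0 1 0 0 0 0 0 2
(.s 0 1 0 0 0 0 0 7
(.lf 2 true 0 false false 0 0) (.s 1 0 1 8 0 0 0 6
(.s 0 1 0 0 0 0 0 3
(.s 2 0 0 1 0 0 0 0
(.lf 2 true 0 true false 0 0) (.lf 2 true 0 false false 0 0)) (.s 1 0 1 4 0 0 0 2
(.lf 2 true 0 true false 0 0) (.s 2 0 0 1 0 0 0 0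
(.lf 2 true 0 true false 0 0) (.lf 2 true 0 false false 0 0)))) (.lf 2 true 0 false false 0 0))) (.s 1 0 4 12 0 0 0 6
(.lf 1 true 0 true false 0 0) (.s 1 0 1 8 0 0 0 6
(.s 1 0 1 4 0 0 0 2
(.lf 2 true 0 true false 0 0) (.s 2 0 0 1 0 0 0 0
(.lf 2 true 0 true false 0 0) (.lf 2 true 0 false false 0 0))) (.lf 2 true 0 false false 0 0)))) (.lf 3 true 0 false false 0 0)) (.s 1 0 4 12 0 0 0 6
(.lf 1 true 0 true false 0 0) (.s 1 0 1 8 0 0 0 6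
(.s 1 0 1 4 0 0 0 2
(.lf 2 true 0 true false 0 0) (.s 2 0 0 1 0 0 0 0
(.s 1 0 5 26 0 0 0 20
(.lf 2 true 0 true false 0 0) (.lf 2 true 0 true false 0 0)) (.s 1 0 5 26 0 0 0 20
(.lf 2 true 0 false false 0 0) (.lf 2 true 0 false false 0 0)))) (.lf 2 true 0 false false 0 0)))) (.s 0 5 0 0 0 0 0 7
(.s 1 0 4 12 0 0 0 6
(.lf 1 false 0 true false 0 0) (.s 0 9 0 0 0 0 0 15
(.s 1 0 1 8 0 0 0 6
(.s 1 0 1 4 0 0 0 2
(.lf 2 false 0 true false 0 0) (.s 2 0 0 1 0 0 0 0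
(.s 1 0 5 26 0 0 0 20
(.lf 2 false 0 true false 0 0) (.lf 2 false 0 true false 0 0)) (.s 1 0 5 26 0 0 0 20
(.lf 2 false 0 false false 0 0) (.lf 2 false 0 false false 0 0)))) (.lf 2 false 0 false false 0 0)) (.s 1 0 1 4 0 0 0 2
(.lf 2 false 0 true false 0 0) (.s 2 0 0 1 0 0 0 0
(.lf 2 false 0 true false 0 0) (.lf 2 false 0 false false 0 0))))) (.lf 1 false 0 true false 0 0)))

theorem ho11_22 : chk3 (leafO 5554500 1 a1_22 e1_22 R22.x1.ap R22.x1.m) o11_22 (full R22) = true := by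
  decide +kernel

def R22_0a : Reg := hi R22 (Nat.succ 3) ⟨0, 0, 0, 0, 1000, 0, 2736⟩

def R22_0b : Reg := lo R22 (Nat.succ 3) ⟨0, 0, 0, 0, 1000, 0, 2736⟩

def t0_22a_0 : T3 :=
(.s 0 8 0 0 0 0 0 14
(.s 0 1 0 0 0 0 0 1
(.s 1 0 0 1 0 0 0 0
(.s 0 1 0 0 0 0 0 2
(.s 0 1 0 0 0 0 0 3
(.lf 2 true 1 true false 0 0) (.s 3 1 0 0 1 0 0 0
(.lf 2 true 1 true false 0 0) (.s 4 1000 0 0 1000 0 0 2736
(.lf 2 true 1 true false 0 0) (.lf 2 true 1 false false 0 0)))) (.s 1 0 4 12 0 0 0 6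
(.lf 1 true 1 true false 0 0) (.s 0 2 0 0 0 0 0 4
(.s 3 1 0 0 1 0 0 0
(.lf 2 true 1 true false 0 0) (.s 4 1000 0 0 1000 0 0 2736
(.lf 2 true 1 true false 0 0) (.lf 2 true 1 false false 0 0))) (.s 4 1000 0 0 1000 0 0 2736
(.lf 2 true 1 true false 0 0) (.lf 2 true 1 false false 0 0))))) (.s 0 1 0 0 0 0 0 3
(.lf 3 true 1 true false 0 0) (.s 0 2 0 0 0 0 0 4
(.s 3 1 0 0 1 0 0 0
(.lf 3 true 1 true false 0 0) (.s 4 1000 0 0 1000 0 0 2736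
(.lf 3 true 1 true false 0 0) (.lf 3 true 1 false false 0 0))) (.s 4 1000 0 0 1000 0 0 2736
(.lf 3 true 1 true false 0 0) (.lf 3 true 1 false false 0 0))))) (.s 1 0 4 12 0 0 0 6
(.lf 1 true 1 false false 0 0) (.lf 2 true 1 false false 0 0))) (.s 0 5 0 0 0 0 0 7
(.s 1 0 4 12 0 0 0 6
(.lf 1 false 1 true false 0 0) (.lf 2 false 1 false false 0 0)) (.lf 1 false 0 false false 0 0)))

def i0_22a : T2 :=
(.k 681765 0 0 916667 0 215696 t0_22a_0)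

theorem hi0_22a : chk2 (leaf0 a0_22 e0_22) 0 i0_22a R22_0a = true := by
  decide +kernel

def R22_0ba : Reg := hi R22_0b (Nat.succ 3) ⟨0, 0, 0, 0, 3, 0, 3⟩

def R22_0bb : Reg := lo R22_0b (Nat.succ 3) ⟨0, 0, 0, 0, 3, 0, 3⟩

def R22_0baa : Reg := hi R22_0ba (Nat.succ 0) ⟨1, 0, 0, 0, 0, 0, 3⟩

def R22_0bab : Reg := lo R22_0ba (Nat.succ 0) ⟨1, 0, 0, 0, 0, 0, 3⟩

def R22_0baaa : Reg := hi R22_0baa (Nat.succ 0) ⟨1, 0, 0, 0, 0, 0, 9⟩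

def R22_0baab : Reg := lo R22_0baa (Nat.succ 0) ⟨1, 0, 0, 0, 0, 0, 9⟩

def t0_22baaa_0 : T3 :=
(.s 0 8 0 0 0 0 0 14
(.s 0 1 0 0 0 0 0 9
(.s 1 0 0 1 0 0 0 0
(.lf 2 true 1 true false 0 0) (.lf 3 true 1 true false 0 0)) (.s 0 1 0 0 0 0 0 2
(.lf 2 true 1 true false 0 0) (.s 0 47 0 0 0 0 0 119
(.s 1 0 4 12 0 0 0 6
(.lf 1 true 1 false false 0 0) (.lf 2 true 1 false false 0 0)) (.lf 1 true 1 false false 0 0)))) (.lf 1 false 0 false false 0 0))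

def t0_22baaa_1 : T3 :=
(.s 0 8 0 0 0 0 0 14
(.s 0 1 0 0 0 0 0 9
(.s 1 0 0 1 0 0 0 0
(.lf 2 true 1 false false 0 0) (.lf 3 true 1 false false 0 0)) (.s 0 1 0 0 0 0 0 2
(.lf 2 true 1 false false 0 0) (.s 0 47 0 0 0 0 0 119
(.s 1 0 4 12 0 0 0 6
(.lf 1 true 1 false false 0 0) (.lf 2 true 1 false false 0 0)) (.lf 1 true 1 false false 0 0)))) (.lf 1 false 0 false false 0 0))

def t0_22baaa_2 : T3 :=
(.s 0 8 0 0 0 0 0 14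
(.s 0 1 0 0 0 0 0 9
(.s 1 0 0 1 0 0 0 0
(.lf 2 true 1 false false 0 0) (.lf 3 true 1 false false 0 0)) (.s 0 1 0 0 0 0 0 2
(.lf 2 true 1 false false 0 0) (.s 0 47 0 0 0 0 0 119
(.s 1 0 4 12 0 0 0 6
(.lf 1 true 1 false false 0 0) (.lf 2 true 1 false false 0 0)) (.lf 1 true 1 true false 0 0)))) (.lf 1 false 0 true false 0 0))

def t0_22baaa_3 : T3 :=
(.s 0 8 0 0 0 0 0 14
(.s 0 1 0 0 0 0 0 9
(.s 1 0 0 1 0 0 0 0
(.lf 2 true 1 false false 0 0) (.lf 3 true 1 false false 0 0)) (.s 0 1 0 0 0 0 0 2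
(.lf 2 true 1 false false 0 0) (.s 0 47 0 0 0 0 0 119
(.s 1 0 4 12 0 0 0 6
(.lf 1 true 1 false false 0 0) (.lf 2 true 1 false false 0 0)) (.lf 1 true 1 false false 0 0)))) (.lf 1 false 0 false false 0 0))

def i0_22baaa : T2 :=
(.s 3 0 0 1 0 1
(.s 3 0 0 9 0 19
(.s 3 0 0 2 0 4
(.k 412783 0 1595892 0 0 2008822 t0_22baaa_0) (.k 1200406 0 0 1234954 67444 0 t0_22baaa_1)) (.k 1384886 0 0 1666667 313158 0 t0_22baaa_2)) (.k 1543875 0 0 1833333 344474 0 t0_22baaa_3))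

theorem hi0_22baaa : chk2 (leaf0 a0_22 e0_22) 0 i0_22baaa R22_0baaa = true := by
  decide +kernel

def t0_22baab_0 : T3 :=
(.s 0 8 0 0 0 0 0 14
(.s 0 1 0 0 0 0 0 9
(.lf 3 true 1 false false 0 0) (.s 0 1 0 0 0 0 0 3
(.s 1 0 0 1 0 0 0 0
(.lf 2 true 1 false false 0 0) (.lf 3 true 1 false false 0 0)) (.s 0 47 0 0 0 0 0 119
(.lf 2 true 1 false false 0 0) (.s 0 23 0 0 0 0 0 47
(.s 1 0 4 12 0 0 0 6
(.lf 1 true 1 false false 0 0) (.lf 2 true 1 false false 0 0)) (.lf 1 true 1 false false 0 0))))) (.lf 1 false 0 true false 0 0))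

def t0_22baab_1 : T3 :=
(.s 0 8 0 0 0 0 0 14
(.s 0 1 0 0 0 0 0 9
(.s 4 0 0 0 0 4737 0 10947
(.lf 3 true 1 true false 0 0) (.lf 3 true 1 false false 0 0)) (.s 0 1 0 0 0 0 0 4
(.s 1 0 0 1 0 0 0 0
(.s 4 1000 0 0 1000 0 0 2736
(.lf 2 true 1 true false 0 0) (.lf 2 true 1 false false 0 0)) (.s 4 1000 0 0 1000 0 0 2736
(.lf 3 true 1 true false 0 0) (.lf 3 true 1 false false 0 0))) (.s 0 47 0 0 0 0 0 119
(.lf 2 true 1 false false 0 0) (.s 0 9 0 0 0 0 0 19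
(.s 1 0 4 12 0 0 0 6
(.lf 1 true 1 false false 0 0) (.lf 2 true 1 false false 0 0)) (.lf 1 true 1 false false 0 0))))) (.lf 1 false 0 false false 0 0))

def t0_22baab_2 : T3 :=
(.s 0 8 0 0 0 0 0 14
(.s 0 1 0 0 0 0 0 9
(.lf 3 true 1 true false 0 0) (.s 0 1 0 0 0 0 0 4
(.s 1 0 0 1 0 0 0 0
(.s 0 3 0 0 0 0 0 19
(.lf 2 true 1 true false 0 0) (.lf 2 true 1 false false 0 0)) (.s 0 3 0 0 0 0 0 19
(.lf 3 true 1 true false 0 0) (.lf 3 true 1 false false 0 0))) (.s 0 47 0 0 0 0 0 119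
(.lf 2 true 1 false false 0 0) (.s 0 9 0 0 0 0 0 19
(.s 1 0 4 12 0 0 0 6
(.lf 1 true 1 true false 0 0) (.lf 2 true 1 false false 0 0)) (.lf 1 true 1 true false 0 0))))) (.lf 1 false 0 true false 0 0))

def t0_22baab_3 : T3 :=
(.s 0 8 0 0 0 0 0 14
(.s 0 1 0 0 0 0 0 9
(.lf 3 true 1 false false 0 0) (.s 0 1 0 0 0 0 0 4
(.s 1 0 0 1 0 0 0 0
(.lf 2 true 1 false false 0 0) (.lf 3 true 1 false false 0 0)) (.s 0 47 0 0 0 0 0 119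
(.lf 2 true 1 false false 0 0) (.s 0 9 0 0 0 0 0 19
(.s 1 0 4 12 0 0 0 6
(.lf 1 true 1 false false 0 0) (.lf 2 true 1 false false 0 0)) (.lf 1 true 1 false false 0 0))))) (.lf 1 false 0 false false 0 0))

def t0_22baab_4 : T3 :=
(.s 0 8 0 0 0 0 0 14
(.s 0 1 0 0 0 0 0 9
(.lf 3 true 1 false false 0 0) (.s 0 1 0 0 0 0 0 4
(.s 1 0 0 1 0 0 0 0
(.lf 2 true 1 false false 0 0) (.lf 3 true 1 false false 0 0)) (.s 0 47 0 0 0 0 0 119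
(.lf 2 true 1 false false 0 0) (.s 0 9 0 0 0 0 0 19
(.s 1 0 4 12 0 0 0 6
(.lf 1 true 1 true false 0 0) (.lf 2 true 1 false false 0 0)) (.lf 1 true 1 true false 0 0))))) (.lf 1 false 0 false false 0 0))

def t0_22baab_5 : T3 :=
(.s 0 8 0 0 0 0 0 14
(.s 0 1 0 0 0 0 0 4
(.lf 3 true 1 false false 0 0) (.s 0 1 0 0 0 0 0 3
(.s 1 0 0 1 0 0 0 0
(.lf 2 true 1 false false 0 0) (.lf 3 true 1 false false 0 0)) (.s 0 9 0 0 0 0 0 19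
(.lf 2 true 1 false false 0 0) (.s 0 23 0 0 0 0 0 47
(.s 1 0 4 12 0 0 0 6
(.lf 1 true 1 true false 0 0) (.lf 2 true 1 false false 0 0)) (.lf 1 true 1 false false 0 0))))) (.lf 1 false 0 true false 0 0))

def t0_22baab_6 : T3 :=
(.s 0 8 0 0 0 0 0 14
(.s 0 1 0 0 0 0 0 9
(.lf 3 true 1 false false 0 0) (.s 0 1 0 0 0 0 0 3
(.s 1 0 0 1 0 0 0 0
(.lf 2 true 1 false false 0 0) (.lf 3 true 1 false false 0 0)) (.s 0 47 0 0 0 0 0 119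
(.lf 2 true 1 false false 0 0) (.s 0 23 0 0 0 0 0 47
(.s 1 0 4 12 0 0 0 6
(.lf 1 true 1 true false 0 0) (.lf 2 true 1 false false 0 0)) (.lf 1 true 1 true false 0 0))))) (.lf 1 false 0 false false 0 0))

def i0_22baab : T2 :=
(.s 3 0 0 1 0 1
(.s 2 7 0 0 0 9
(.k 1233157 0 0 1547568 211056 0 t0_22baab_0) (.s 0 1 0 0 0 4
(.s 1 3 0 13 0 15
(.k 1201363 0 0 1444396 271395 0 t0_22baab_1) (.s 3 0 0 9 0 19
(.s 3 0 0 2 0 4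
(.k 1198485 0 0 1444396 257883 0 t0_22baab_2) (.k 1274498 0 0 1527778 268919 0 t0_22baab_3)) (.k 1394647 0 0 1666667 282327 0 t0_22baab_4))) (.k 1153667 0 0 1250000 67604 0 t0_22baab_5))) (.k 1567769 0 0 1833333 179559 0 t0_22baab_6))

theorem hi0_22baab : chk2 (leaf0 a0_22 e0_22) 0 i0_22baab R22_0baab = true := by
  decide +kernel

def i0_22baa : T2 := .s 0 1 0 0 0 9 i0_22baaa i0_22baab

theorem hi0_22baa : chk2 (leaf0 a0_22 e0_22) 0 i0_22baa R22_0baa = true := chk2_s hi0_22baaa hi0_22baab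

def t0_22bab_0 : T3 :=
(.s 0 8 0 0 0 0 0 14
(.s 0 1 0 0 0 0 0 3
(.lf 3 true 1 false false 0 0) (.s 0 1 0 0 0 0 0 1
(.s 1 0 0 1 0 0 0 0
(.s 0 23 0 0 0 0 0 47
(.lf 2 true 1 false false 0 0) (.s 1 0 4 12 0 0 0 6
(.lf 1 true 1 false false 0 0) (.lf 2 true 1 false false 0 0))) (.lf 3 true 1 false false 0 0)) (.s 1 0 4 12 0 0 0 6
(.lf 1 true 1 false false 0 0) (.lf 2 true 1 false false 0 0)))) (.s 0 5 0 0 0 0 0 7
(.s 1 0 4 12 0 0 0 6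
(.lf 1 false 1 false false 0 0) (.lf 2 false 1 false false 0 0)) (.lf 1 false 0 false false 0 0)))

def i0_22bab : T2 :=
(.k 1290140 0 0 1665293 183685 0 t0_22bab_0)

theorem hi0_22bab : chk2 (leaf0 a0_22 e0_22) 0 i0_22bab R22_0bab = true := by
  decide +kernel

def i0_22ba : T2 := .s 0 1 0 0 0 3 i0_22baa i0_22bab

theorem hi0_22ba : chk2 (leaf0 a0_22 e0_22) 0 i0_22ba R22_0ba = true := chk2_s hi0_22baa hi0_22bab

def t0_22bb_0 : T3 :=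
(.s 0 8 0 0 0 0 0 14
(.s 0 1 0 0 0 0 0 1
(.s 1 0 0 1 0 0 0 0
(.s 0 1 0 0 0 0 0 2
(.lf 2 true 1 false false 0 0) (.s 1 0 4 12 0 0 0 6
(.lf 1 true 1 true false 0 0) (.lf 2 true 1 false false 0 0))) (.lf 3 true 1 false false 0 0)) (.s 1 0 4 12 0 0 0 6
(.lf 1 true 1 true false 0 0) (.lf 2 true 1 false false 0 0))) (.s 0 5 0 0 0 0 0 7
(.s 1 0 4 12 0 0 0 6
(.lf 1 false 0 false false 0 0) (.lf 2 false 1 false false 0 0)) (.lf 1 false 0 false false 0 0)))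

def i0_22bb : T2 :=
(.k 1258732 0 0 1250000 0 226388 t0_22bb_0)

theorem hi0_22bb : chk2 (leaf0 a0_22 e0_22) 0 i0_22bb R22_0bb = true := by
  decide +kernel

def i0_22b : T2 := .s 3 0 0 3 0 3 i0_22ba i0_22bb

theorem hi0_22b : chk2 (leaf0 a0_22 e0_22) 0 i0_22b R22_0b = true := chk2_s hi0_22ba hi0_22bb

def i0_22 : T2 := .s 3 0 0 1000 0 2736 i0_22a i0_22b

theorem hi0_22 : chk2 (leaf0 a0_22 e0_22) 0 i0_22 R22 = true := chk2_s hi0_22a hi0_22b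

def t1_22_0 : T3 :=
(.s 0 8 0 0 0 0 0 14
(.s 0 1 0 0 0 0 0 1
(.s 1 0 0 1 0 0 0 0
(.s 0 1 0 0 0 0 0 2
(.lf 2 true 1 true false 0 2) (.s 1 0 4 12 0 0 0 6
(.lf 1 true 1 false false 0 2) (.lf 2 true 1 true false 0 2))) (.lf 3 true 1 true false 0 2)) (.s 1 0 4 12 0 0 0 6
(.lf 1 true 1 false false 0 0) (.lf 2 true 1 true false 0 0))) (.s 0 5 0 0 0 0 0 7
(.s 1 0 4 12 0 0 0 6
(.lf 1 false 2 true false 0 0) (.lf 2 false 1 true false 0 0)) (.lf 1 false 2 true false 0 0)))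

def t1_22_1 : T3 :=
(.s 0 8 0 0 0 0 0 14
(.s 0 1 0 0 0 0 0 1
(.s 1 0 0 1 0 0 0 0
(.s 0 1 0 0 0 0 0 2
(.s 0 1 0 0 0 0 0 4
(.lf 2 true 1 false false 2 1) (.lf 2 true 1 false false 2 2)) (.s 1 0 4 12 0 0 0 6
(.s 1 0 2 6 0 0 0 6
(.lf 1 true 1 false true 1 2) (.lf 1 true 1 false false 2 2)) (.s 0 2 0 0 0 0 0 4
(.lf 2 true 1 false false 2 2) (.lf 2 true 1 false false 2 0)))) (.s 0 1 0 0 0 0 0 3
(.s 0 1 0 0 0 0 0 9
(.lf 3 true 1 false false 2 1) (.lf 3 true 1 false false 2 2)) (.lf 3 true 1 false false 2 2))) (.s 1 0 4 12 0 0 0 6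
(.s 1 17625 0 0 0 0 0 98475
(.lf 1 true 1 false true 1 0) (.lf 1 true 2 false false 1 0)) (.lf 2 true 2 false false 2 0))) (.s 0 5 0 0 0 0 0 7
(.s 1 0 4 12 0 0 0 6
(.s 1 17625 0 0 0 0 0 98475
(.lf 1 false 1 true true 1 0) (.lf 1 false 2 false false 1 0)) (.lf 2 false 2 false false 2 0)) (.s 1 17625 0 0 0 0 0 98475
(.lf 1 false 0 false true 1 0) (.lf 1 false 2 false false 1 0))))

def i1_22 : T2 :=
(.s 3 0 0 4 0 10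
(.k 203667 0 0 770667 578000 0 t1_22_0) (.k 982000 0 0 0 0 1575616 t1_22_1))

theorem hi1_22 : chk2 (leaf1 a1_22 e1_22) 10000 i1_22 R22 = true := by
  decide +kernel

theorem ok22 : CellOk R22 a0_22 e0_22 a1_22 e1_22 :=
  ⟨lin22, ⟨_, ho00_22⟩, ⟨_, ho01_22⟩, ⟨_, ho10_22⟩, ⟨_, ho11_22⟩, ⟨_, hi0_22⟩, ⟨_, hi1_22⟩⟩

def R23 : Reg := ⟨⟨0, 0, 0, 0, 0, 0, 0⟩, ⟨1, 0, 0, 0, 0, 0, 0⟩, ⟨1, 0, 0, 0, 0, 0, 1⟩, ⟨1, 0, 0, 0, 0, 0, 0⟩, ⟨1, 0, 0, 0, 7, 0, 7⟩, ⟨1, 0, 0, 0, 3, 0, 3⟩, ⟨3, 0, 0, 0, 0, 0, 4⟩, ⟨3, 0, 0, 0, 0, 0, 3⟩, ⟨0, 0, 0, 0, 0, 0, 0⟩, ⟨0, 0, 0, 0, 1, 0, 0⟩⟩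

def a0_23 : SF := mu 0 1691401 222222 0 13894201 0 0 12199600

def e0_23 : SF := mu 4557045 0 794271 0 0 40000000 35617255 0

def a1_23 : SF := mu 0 1282895 117556 0 10288758 0 0 9002663

def e1_23 : SF := mu 3488682 0 555990 0 0 30390173 27023480 0

theorem lin23 : chkLin R23 a0_23 e0_23 a1_23 e1_23 = true := by decide +kernel

def o00_23 : T3 :=
(.s 0 8 0 0 0 0 0 14
(.s 0 1 0 0 0 0 0 1
(.lf 3 true 0 false false 0 0) (.s 1 0 0 1 0 0 0 0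
(.lf 2 true 0 false false 0 0) (.lf 3 true 0 false false 0 0))) (.s 1 0 0 1 0 0 0 0
(.s 0 5 0 0 0 0 0 7
(.s 0 9 0 0 0 0 0 15
(.lf 2 false 0 false false 0 0) (.s 1 0 1 8 0 0 0 6
(.s 2 0 0 1 0 0 0 0
(.lf 2 false 0 true false 0 0) (.lf 2 false 0 false false 0 0)) (.lf 2 false 0 false false 0 0))) (.s 0 4 0 0 0 0 0 4
(.s 1 0 4 12 0 0 0 6
(.s 0 3 0 0 0 0 0 3
(.s 1 0 1 4 0 0 0 2
(.lf 1 false 0 true false 0 0) (.s 2 0 0 1 0 0 0 0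
(.lf 1 false 0 true false 0 0) (.lf 1 false 0 false false 0 0))) (.s 1 0 1 8 0 0 0 6
(.s 1 0 1 4 0 0 0 2
(.lf 1 false 0 true false 0 0) (.s 2 0 0 1 0 0 0 0
(.lf 1 false 0 true false 0 0) (.lf 1 false 0 false false 0 0))) (.lf 1 false 0 false false 0 0))) (.s 0 3 0 0 0 0 0 3
(.s 1 0 1 8 0 0 0 6
(.s 2 0 0 1 0 0 0 0
(.lf 2 false 0 true false 0 0) (.lf 2 false 0 false false 0 0)) (.lf 2 false 0 false false 0 0)) (.lf 2 false 0 false false 0 0))) (.s 1 0 1 8 0 0 0 6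
(.s 1 0 1 4 0 0 0 2
(.lf 0 false 0 true false 0 0) (.s 2 0 0 1 0 0 0 0
(.lf 0 false 0 true false 0 0) (.lf 0 false 0 false false 0 0))) (.lf 0 false 0 false false 0 0)))) (.s 0 4 0 0 0 0 0 4
(.lf 3 false 0 false false 0 0) (.s 0 11 0 0 0 0 0 11
(.s 1 0 4 12 0 0 0 6
(.lf 0 false 0 false false 0 0) (.lf 0 false 0 false false 0 0)) (.lf 0 false 0 false false 0 0)))))

theorem ho00_23 : chk3 (leafO 10500000 3 a0_23 e0_23 R23.x0.ap R23.x0.m) o00_23 (full R23) = true := by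
  decide +kernel

def o01_23 : T3 :=
(.s 0 8 0 0 0 0 0 14
(.s 0 1 0 0 0 0 0 1
(.lf 3 true 0 false false 0 0) (.s 1 0 0 1 0 0 0 0
(.lf 2 true 0 false false 0 0) (.lf 3 true 0 false false 0 0))) (.s 1 0 0 1 0 0 0 0
(.s 0 5 0 0 0 0 0 7
(.s 0 9 0 0 0 0 0 15
(.lf 2 false 0 false false 0 0) (.s 1 0 1 8 0 0 0 6
(.s 2 0 0 1 0 0 0 0
(.lf 2 false 0 true false 0 0) (.lf 2 false 0 false false 0 0)) (.lf 2 false 0 false false 0 0))) (.s 0 4 0 0 0 0 0 4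
(.s 1 0 4 12 0 0 0 6
(.s 0 3 0 0 0 0 0 3
(.s 1 0 1 4 0 0 0 2
(.lf 1 false 0 true false 0 0) (.s 2 0 0 1 0 0 0 0
(.lf 1 false 0 true false 0 0) (.lf 1 false 0 false false 0 0))) (.s 1 0 1 8 0 0 0 6
(.s 1 0 1 4 0 0 0 2
(.lf 1 false 0 true false 0 0) (.s 2 0 0 1 0 0 0 0
(.lf 1 false 0 true false 0 0) (.lf 1 false 0 false false 0 0))) (.lf 1 false 0 false false 0 0))) (.s 0 3 0 0 0 0 0 3
(.s 1 0 1 8 0 0 0 6
(.s 2 0 0 1 0 0 0 0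
(.lf 2 false 0 true false 0 0) (.lf 2 false 0 false false 0 0)) (.lf 2 false 0 false false 0 0)) (.lf 2 false 0 false false 0 0))) (.s 1 0 1 8 0 0 0 6
(.s 1 0 1 4 0 0 0 2
(.lf 0 false 0 true false 0 0) (.s 2 0 0 1 0 0 0 0
(.lf 0 false 0 true false 0 0) (.lf 0 false 0 false false 0 0))) (.lf 0 false 0 false false 0 0)))) (.s 0 4 0 0 0 0 0 4
(.lf 3 false 0 false false 0 0) (.s 0 11 0 0 0 0 0 11
(.s 1 0 4 12 0 0 0 6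
(.lf 0 false 0 false false 0 0) (.lf 0 false 0 false false 0 0)) (.lf 0 false 0 false false 0 0)))))

theorem ho01_23 : chk3 (leafO 10500000 3 a0_23 e0_23 R23.x1.ap R23.x1.m) o01_23 (full R23) = true := by
  decide +kernel

def o10_23 : T3 :=
(.s 0 8 0 0 0 0 0 14
(.s 0 1 0 0 0 0 0 1
(.lf 3 true 0 false false 0 0) (.s 1 0 0 1 0 0 0 0
(.lf 2 true 0 false false 0 0) (.lf 3 true 0 false false 0 0))) (.s 1 0 0 1 0 0 0 0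
(.s 0 5 0 0 0 0 0 7
(.s 0 9 0 0 0 0 0 15
(.lf 2 false 0 false false 0 0) (.s 1 0 1 8 0 0 0 6
(.s 2 0 0 1 0 0 0 0
(.lf 2 false 0 true false 0 0) (.lf 2 false 0 false false 0 0)) (.lf 2 false 0 false false 0 0))) (.s 0 4 0 0 0 0 0 4
(.s 1 0 4 12 0 0 0 6
(.s 0 3 0 0 0 0 0 3
(.s 1 0 1 4 0 0 0 2
(.lf 1 false 0 true false 0 0) (.s 2 0 0 1 0 0 0 0
(.lf 1 false 0 true false 0 0) (.lf 1 false 0 false false 0 0))) (.s 1 0 1 8 0 0 0 6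
(.s 1 0 1 4 0 0 0 2
(.lf 1 false 0 true false 0 0) (.s 2 0 0 1 0 0 0 0
(.lf 1 false 0 true false 0 0) (.lf 1 false 0 false false 0 0))) (.lf 1 false 0 false false 0 0))) (.s 0 3 0 0 0 0 0 3
(.s 1 0 1 8 0 0 0 6
(.s 2 0 0 1 0 0 0 0
(.lf 2 false 0 true false 0 0) (.lf 2 false 0 false false 0 0)) (.lf 2 false 0 false false 0 0)) (.lf 2 false 0 false false 0 0))) (.s 1 0 1 8 0 0 0 6
(.s 1 0 1 4 0 0 0 2
(.lf 0 false 0 true false 0 0) (.s 2 0 0 1 0 0 0 0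
(.lf 0 false 0 true false 0 0) (.lf 0 false 0 false false 0 0))) (.lf 0 false 0 false false 0 0)))) (.s 0 4 0 0 0 0 0 4
(.lf 3 false 0 false false 0 0) (.s 0 11 0 0 0 0 0 11
(.s 1 0 4 12 0 0 0 6
(.lf 0 false 0 false false 0 0) (.lf 0 false 0 false false 0 0)) (.lf 0 false 0 false false 0 0)))))

theorem ho10_23 : chk3 (leafO 5554500 1 a1_23 e1_23 R23.x0.ap R23.x0.m) o10_23 (full R23) = true := by
  decide +kernel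

def o11_23 : T3 :=
(.s 0 8 0 0 0 0 0 14
(.s 0 1 0 0 0 0 0 1
(.lf 3 true 0 false false 0 0) (.s 1 0 0 1 0 0 0 0
(.lf 2 true 0 false false 0 0) (.lf 3 true 0 false false 0 0))) (.s 1 0 0 1 0 0 0 0
(.s 0 5 0 0 0 0 0 7
(.lf 2 false 0 false false 0 0) (.s 0 4 0 0 0 0 0 4
(.s 1 0 4 12 0 0 0 6
(.lf 1 false 0 false false 0 0) (.lf 2 false 0 false false 0 0)) (.lf 0 false 0 false false 0 0))) (.s 0 4 0 0 0 0 0 4
(.lf 3 false 0 false false 0 0) (.s 0 11 0 0 0 0 0 11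
(.s 1 0 4 12 0 0 0 6
(.lf 0 false 0 false false 0 0) (.lf 0 false 0 false false 0 0)) (.lf 0 false 0 false false 0 0)))))

theorem ho11_23 : chk3 (leafO 5554500 1 a1_23 e1_23 R23.x1.ap R23.x1.m) o11_23 (full R23) = true := by
  decide +kernel

def t0_23_0 : T3 :=
(.s 0 8 0 0 0 0 0 14
(.s 0 1 0 0 0 0 0 1
(.lf 3 true 1 false false 0 0) (.s 1 0 0 1 0 0 0 0
(.lf 2 true 1 false false 0 0) (.lf 3 true 1 false false 0 0))) (.s 1 0 0 1 0 0 0 0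
(.s 0 5 0 0 0 0 0 7
(.lf 2 false 1 false false 0 0) (.s 0 4 0 0 0 0 0 4
(.s 1 0 4 12 0 0 0 6
(.lf 1 false 1 false false 0 0) (.lf 2 false 1 false false 0 0)) (.lf 0 false 0 false false 0 0))) (.s 0 4 0 0 0 0 0 4
(.lf 3 false 1 false false 0 0) (.s 0 11 0 0 0 0 0 11
(.s 1 0 4 12 0 0 0 6
(.lf 0 false 1 false false 0 0) (.lf 0 false 1 false false 0 0)) (.lf 0 false 1 false false 0 0)))))

def i0_23 : T2 :=
(.k 526070 0 0 856592 486662 0 t0_23_0)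

theorem hi0_23 : chk2 (leaf0 a0_23 e0_23) 0 i0_23 R23 = true := by
  decide +kernel

def R23_1a : Reg := hi R23 (Nat.succ 3) ⟨0, 0, 0, 0, 4, 0, 10⟩

def R23_1b : Reg := lo R23 (Nat.succ 3) ⟨0, 0, 0, 0, 4, 0, 10⟩

def t1_23a_0 : T3 :=
(.s 0 8 0 0 0 0 0 14
(.s 0 1 0 0 0 0 0 1
(.lf 3 true 1 true false 0 2) (.s 1 0 0 1 0 0 0 0
(.lf 2 true 1 true false 0 0) (.lf 3 true 1 true false 0 0))) (.s 1 0 0 1 0 0 0 0
(.s 0 5 0 0 0 0 0 7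
(.lf 2 false 1 true false 0 0) (.s 0 4 0 0 0 0 0 4
(.s 1 0 4 12 0 0 0 6
(.lf 1 false 2 false false 0 0) (.lf 2 false 2 true false 0 0)) (.lf 0 false 2 false false 0 0))) (.s 0 4 0 0 0 0 0 4
(.lf 3 false 2 true false 0 0) (.s 0 11 0 0 0 0 0 11
(.s 1 0 4 12 0 0 0 6
(.lf 0 false 2 false false 0 0) (.lf 0 false 2 false false 0 0)) (.lf 0 false 2 true false 0 0)))))

def i1_23a : T2 :=
(.k 396333 0 0 1541333 1156000 0 t1_23a_0)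

theorem hi1_23a : chk2 (leaf1 a1_23 e1_23) 10000 i1_23a R23_1a = true := by
  decide +kernel

def t1_23b_0 : T3 :=
(.s 0 8 0 0 0 0 0 14
(.s 0 1 0 0 0 0 0 1
(.s 0 1 0 0 0 0 0 3
(.lf 3 true 1 false false 2 2) (.s 0 2 0 0 0 0 0 4
(.lf 3 true 1 false false 2 2) (.s 1 3 0 0 0 0 0 3
(.s 1 3 0 0 0 0 0 4
(.s 2 3 0 0 0 13 0 15
(.s 2 5 0 0 0 27 0 31
(.s 2 9 0 0 0 55 0 63
(.s 1 11 0 0 0 0 0 19
(.s 4 1 0 0 1 0 0 0
(.s 0 9 0 0 0 0 0 19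
(.lf 3 true 1 false false 2 0) (.s 1 5946669 0 0 0 0 0 11458668
(.s 0 5 0 0 0 0 0 10
(.s 4 7 0 0 7 0 4 2
(.lf 3 true 1 false false 1 0) (.lf 3 true 1 false true 1 0)) (.s 3 11 0 0 11 0 0 7
(.s 4 7 0 0 7 0 4 2
(.lf 3 true 1 false false 1 0) (.lf 3 true 1 false true 1 0)) (.lf 3 true 1 false true 1 0))) (.s 1 10330137 0 0 0 0 0 19149336
(.s 2 0 233667 0 0 5000000 0 4077332
(.lf 3 true 2 false false 1 0) (.lf 3 true 0 false true 1 0)) (.lf 3 true 2 false false 1 0)))) (.s 1 5946669 0 0 0 0 0 11458668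
(.lf 3 true 0 false true 2 0) (.s 1 10330137 0 0 0 0 0 19149336
(.s 2 0 233667 0 0 5000000 0 4077332
(.lf 3 true 2 false false 2 0) (.lf 3 true 0 false true 2 0)) (.lf 3 true 2 false false 2 0)))) (.lf 3 true 2 false false 1 0)) (.lf 3 true 1 false false 2 0)) (.lf 3 true 1 false false 2 0)) (.lf 3 true 1 false false 2 0)) (.lf 3 true 1 false false 2 0)) (.lf 3 true 2 false false 1 0)))) (.s 1 0 0 1 0 0 0 0
(.s 0 5946669 0 0 0 0 0 11458668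
(.lf 2 true 1 false true 1 0) (.s 1 5946669 0 0 0 0 0 11458668
(.lf 2 true 1 false true 1 0) (.s 2 0 233667 0 0 5000000 0 4077332
(.lf 2 true 2 false false 1 0) (.lf 2 true 0 false true 1 0)))) (.s 0 5946669 0 0 0 0 0 11458668
(.s 1 5946669 0 0 0 0 0 11458668
(.lf 3 true 1 false true 1 0) (.s 1 5012001 0 0 0 0 0 7768000
(.s 2 0 233667 0 0 5000000 0 4077332
(.lf 3 true 2 false false 1 0) (.lf 3 true 0 false true 1 0)) (.lf 3 true 2 false false 1 0))) (.s 1 5012001 0 0 0 0 0 7768000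
(.s 2 0 233667 0 0 5000000 0 4077332
(.lf 3 true 2 false false 1 0) (.lf 3 true 0 false true 1 0)) (.lf 3 true 2 false false 1 0))))) (.s 1 0 0 1 0 0 0 0
(.s 0 5 0 0 0 0 0 7
(.s 1 5946669 0 0 0 0 0 11458668
(.lf 2 false 1 false true 1 0) (.s 2 0 233667 0 0 5000000 0 4077332
(.lf 2 false 2 false false 1 0) (.lf 2 false 0 false true 1 0))) (.s 0 4 0 0 0 0 0 4
(.s 1 0 4 12 0 0 0 6
(.s 0 87461359 0 0 0 0 0 137504027
(.lf 1 false 1 false true 1 0) (.s 1 5946669 0 0 0 0 0 11458668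
(.lf 1 false 0 false true 1 0) (.s 0 66156011 0 0 0 0 0 93216011
(.s 2 0 233667 0 0 5000000 0 4077332
(.lf 1 false 2 false false 1 0) (.lf 1 false 1 false true 1 0)) (.s 1 5012001 0 0 0 0 0 7768000
(.s 2 0 233667 0 0 5000000 0 4077332
(.lf 1 false 2 false false 1 0) (.lf 1 false 0 false true 1 0)) (.lf 1 false 2 false false 1 0))))) (.s 4 0 0 0 0 15 0 21
(.s 0 87461359 0 0 0 0 0 137504027
(.s 1 5946669 0 0 0 0 0 11458668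
(.lf 2 false 1 false true 1 0) (.s 2 0 233667 0 0 5000000 0 4077332
(.lf 2 false 2 false false 1 0) (.lf 2 false 1 false true 1 0))) (.s 0 66156011 0 0 0 0 0 93216011
(.s 0 5012001 0 0 0 0 0 7768000
(.s 2 0 233667 0 0 5000000 0 4077332
(.lf 2 false 2 false false 1 0) (.lf 2 false 1 false true 1 0)) (.s 1 5012001 0 0 0 0 0 7768000
(.s 2 0 233667 0 0 5000000 0 4077332
(.lf 2 false 2 false false 1 0) (.lf 2 false 1 false true 1 0)) (.lf 2 false 2 false false 1 0))) (.lf 2 false 2 false false 1 0))) (.lf 2 false 0 false false 2 0))) (.s 1 5946669 0 0 0 0 0 11458668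
(.lf 0 false 0 false true 1 0) (.s 1 5012001 0 0 0 0 0 7768000
(.s 2 0 233667 0 0 5000000 0 4077332
(.lf 0 false 2 false false 1 0) (.lf 0 false 0 false true 1 0)) (.lf 0 false 2 false false 1 0))))) (.s 0 4 0 0 0 0 0 4
(.s 0 5012001 0 0 0 0 0 7768000
(.s 1 5012001 0 0 0 0 0 7768000
(.s 2 0 233667 0 0 5000000 0 4077332
(.lf 3 false 2 false false 1 0) (.lf 3 false 0 false true 1 0)) (.lf 3 false 2 false false 1 0)) (.lf 3 false 2 false false 1 0)) (.s 0 11 0 0 0 0 0 11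
(.s 1 0 4 12 0 0 0 6
(.lf 0 false 2 false false 2 0) (.lf 0 false 2 false false 2 0)) (.lf 0 false 0 true false 2 0)))))

def i1_23b : T2 :=
(.k 933667 0 4077333 0 0 5000000 t1_23b_0)

theorem hi1_23b : chk2 (leaf1 a1_23 e1_23) 10000 i1_23b R23_1b = true := by
  decide +kernel

def i1_23 : T2 := .s 3 0 0 4 0 10 i1_23a i1_23b

theorem hi1_23 : chk2 (leaf1 a1_23 e1_23) 10000 i1_23 R23 = true := chk2_s hi1_23a hi1_23b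

theorem ok23 : CellOk R23 a0_23 e0_23 a1_23 e1_23 :=
  ⟨lin23, ⟨_, ho00_23⟩, ⟨_, ho01_23⟩, ⟨_, ho10_23⟩, ⟨_, ho11_23⟩, ⟨_, hi0_23⟩, ⟨_, hi1_23⟩⟩

def R28 : Reg := ⟨⟨0, 0, 0, 0, 0, 0, 0⟩, ⟨1, 0, 0, 0, 0, 0, 0⟩, ⟨0, 0, 0, 0, 0, 0, 0⟩, ⟨1, 0, 0, 0, 0, 0, 9⟩, ⟨0, 0, 0, 0, 1, 0, 0⟩, ⟨1, 0, 0, 0, 3, 0, 3⟩, ⟨3, 0, 0, 0, 0, 0, 3⟩, ⟨9, 0, 0, 0, 0, 0, 9⟩, ⟨0, 0, 0, 0, 0, 0, 0⟩, ⟨0, 0, 0, 0, 1, 0, 0⟩⟩

def a0_28 : SF := mu 0 0 0 0 73 0 433982 0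

def e0_28 : SF := mu 0 0 0 0 2381706 0 0 987171

def a1_28 : SF := mu 0 0 0 0 30 0 303766 0

def e1_28 : SF := mu 0 0 0 0 1667173 0 0 1371018

theorem lin28 : chkLin R28 a0_28 e0_28 a1_28 e1_28 = true := by decide +kernel

def o00_28 : T3 :=
(.s 0 8 0 0 0 0 0 14
(.s 0 1 0 0 0 0 0 9
(.s 1 0 0 1 0 0 0 0
(.s 2 0 0 1 0 0 0 0
(.lf 2 true 0 true false 0 0) (.lf 2 true 0 false false 0 0)) (.lf 3 true 0 false false 0 0)) (.s 0 1 0 0 0 0 0 2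
(.s 0 1 0 0 0 0 0 3
(.s 2 0 0 1 0 0 0 0
(.lf 2 true 0 true false 0 0) (.lf 2 true 0 false false 0 0)) (.s 0 13 0 0 0 0 0 39
(.s 1 0 1 4 0 0 0 2
(.lf 2 true 0 true false 0 0) (.s 2 0 0 1 0 0 0 0
(.lf 2 true 0 true false 0 0) (.lf 2 true 0 false false 0 0))) (.lf 2 true 0 true false 0 0))) (.s 0 47 0 0 0 0 0 119
(.s 1 0 4 12 0 0 0 6
(.lf 1 true 0 true false 0 0) (.lf 2 true 0 true false 0 0)) (.lf 1 true 0 true false 0 0)))) (.lf 1 false 0 true false 0 0))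

theorem ho00_28 : chk3 (leafO 10500000 3 a0_28 e0_28 R28.x0.ap R28.x0.m) o00_28 (full R28) = true := by
  decide +kernel

def o01_28 : T3 :=
(.s 0 8 0 0 0 0 0 14
(.s 0 1 0 0 0 0 0 9
(.s 1 0 0 1 0 0 0 0
(.s 2 0 0 1 0 0 0 0
(.s 1 0 0 1 0 0 0 1
(.lf 2 true 0 true false 0 0) (.lf 2 true 0 true false 0 0)) (.s 1 0 0 1 0 0 0 1
(.lf 2 true 0 false false 0 0) (.lf 2 true 0 false false 0 0))) (.lf 3 true 0 false false 0 0)) (.s 0 1 0 0 0 0 0 2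
(.s 0 1 0 0 0 0 0 3
(.s 2 0 0 1 0 0 0 0
(.s 1 1 0 0 0 0 0 19
(.lf 2 true 0 true false 0 0) (.s 1 3 0 0 0 0 0 39
(.lf 2 true 0 true false 0 0) (.s 0 1 0 0 0 0 0 4
(.lf 2 true 0 true false 0 0) (.lf 2 true 0 true false 0 0)))) (.s 1 1 0 0 0 0 0 19
(.lf 2 true 0 false false 0 0) (.s 1 3 0 0 0 0 0 39
(.lf 2 true 0 false false 0 0) (.s 0 1 0 0 0 0 0 4
(.lf 2 true 0 false false 0 0) (.lf 2 true 0 false false 0 0))))) (.s 0 13 0 0 0 0 0 39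
(.s 1 0 1 4 0 0 0 2
(.lf 2 true 0 true false 0 0) (.s 2 0 0 1 0 0 0 0
(.lf 2 true 0 true false 0 0) (.lf 2 true 0 false false 0 0))) (.lf 2 true 0 true false 0 0))) (.s 0 47 0 0 0 0 0 119
(.s 1 0 4 12 0 0 0 6
(.lf 1 true 0 true false 0 0) (.lf 2 true 0 true false 0 0)) (.lf 1 true 0 true false 0 0)))) (.lf 1 false 0 true false 0 0))

theorem ho01_28 : chk3 (leafO 10500000 3 a0_28 e0_28 R28.x1.ap R28.x1.m) o01_28 (full R28) = true := by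
  decide +kernel

def o10_28 : T3 :=
(.s 0 8 0 0 0 0 0 14
(.s 0 1 0 0 0 0 0 9
(.s 1 0 0 1 0 0 0 0
(.s 2 0 0 1 0 0 0 0
(.s 1 0 0 1 0 0 0 1
(.lf 2 true 0 true false 0 0) (.lf 2 true 0 true false 0 0)) (.s 1 0 0 1 0 0 0 1
(.lf 2 true 0 false false 0 0) (.lf 2 true 0 false false 0 0))) (.lf 3 true 0 false false 0 0)) (.s 0 1 0 0 0 0 0 2
(.s 0 1 0 0 0 0 0 3
(.s 2 0 0 1 0 0 0 0
(.s 1 1 0 0 0 0 0 19
(.lf 2 true 0 true false 0 0) (.s 1 3 0 0 0 0 0 39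
(.lf 2 true 0 true false 0 0) (.s 0 1 0 0 0 0 0 4
(.s 0 3 0 0 0 0 0 19
(.lf 2 true 0 true false 0 0) (.lf 2 true 0 true false 0 0)) (.lf 2 true 0 true false 0 0)))) (.s 1 1 0 0 0 0 0 19
(.lf 2 true 0 false false 0 0) (.s 1 3 0 0 0 0 0 39
(.lf 2 true 0 false false 0 0) (.s 0 1 0 0 0 0 0 4
(.s 0 3 0 0 0 0 0 19
(.lf 2 true 0 false false 0 0) (.lf 2 true 0 false false 0 0)) (.lf 2 true 0 false false 0 0))))) (.s 0 13 0 0 0 0 0 39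
(.s 1 0 1 4 0 0 0 2
(.lf 2 true 0 true false 0 0) (.s 2 0 0 1 0 0 0 0
(.lf 2 true 0 true false 0 0) (.lf 2 true 0 false false 0 0))) (.lf 2 true 0 true false 0 0))) (.s 0 47 0 0 0 0 0 119
(.s 1 0 4 12 0 0 0 6
(.lf 1 true 0 true false 0 0) (.lf 2 true 0 true false 0 0)) (.lf 1 true 0 true false 0 0)))) (.lf 1 false 0 true false 0 0))

theorem ho10_28 : chk3 (leafO 5554500 1 a1_28 e1_28 R28.x0.ap R28.x0.m) o10_28 (full R28) = true := by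
  decide +kernel

def o11_28 : T3 :=
(.s 0 8 0 0 0 0 0 14
(.s 0 1 0 0 0 0 0 9
(.s 1 0 0 1 0 0 0 0
(.s 2 0 0 1 0 0 0 0
(.s 1 0 0 1 0 0 0 1
(.lf 2 true 0 true false 0 0) (.s 1 0 0 3 0 0 0 3
(.s 1 0 0 5 0 0 0 7
(.lf 2 true 0 true false 0 0) (.lf 2 true 0 true false 0 0)) (.lf 2 true 0 true false 0 0))) (.s 1 0 0 1 0 0 0 1
(.lf 2 true 0 false false 0 0) (.s 1 0 0 3 0 0 0 3
(.s 1 0 0 5 0 0 0 7
(.lf 2 true 0 false false 0 0) (.lf 2 true 0 false false 0 0)) (.lf 2 true 0 false false 0 0)))) (.lf 3 true 0 false false 0 0)) (.s 0 1 0 0 0 0 0 2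
(.s 0 1 0 0 0 0 0 3
(.s 2 0 0 1 0 0 0 0
(.s 1 1 0 0 0 0 0 19
(.lf 2 true 0 true false 0 0) (.s 0 1 0 0 0 0 0 4
(.s 0 3 0 0 0 0 0 19
(.s 1 3 0 0 0 0 0 39
(.s 0 1 0 0 0 0 0 7
(.s 1 3 0 0 0 0 0 49
(.lf 2 true 0 true false 0 0) (.s 0 11 0 0 0 0 0 99
(.lf 2 true 0 true false 0 0) (.lf 2 true 0 true false 0 0))) (.lf 2 true 0 true false 0 0)) (.s 0 1 0 0 0 0 0 7
(.s 1 9 0 0 0 0 0 99
(.s 0 11 0 0 0 0 0 99
(.lf 2 true 0 true false 0 0) (.lf 2 true 0 true false 0 0)) (.lf 2 true 0 true false 0 0)) (.s 1 9 0 0 0 0 0 99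
(.lf 2 true 0 true false 0 0) (.lf 2 true 0 true false 0 0)))) (.lf 2 true 0 true false 0 0)) (.lf 2 true 0 true false 0 0))) (.s 1 1 0 0 0 0 0 19
(.lf 2 true 0 false false 0 0) (.s 0 1 0 0 0 0 0 4
(.s 0 3 0 0 0 0 0 19
(.s 1 3 0 0 0 0 0 39
(.s 0 1 0 0 0 0 0 7
(.s 1 3 0 0 0 0 0 49
(.lf 2 true 0 false false 0 0) (.s 0 11 0 0 0 0 0 99
(.lf 2 true 0 false false 0 0) (.lf 2 true 0 false false 0 0))) (.lf 2 true 0 false false 0 0)) (.s 0 1 0 0 0 0 0 7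
(.s 1 9 0 0 0 0 0 99
(.s 0 11 0 0 0 0 0 99
(.lf 2 true 0 false false 0 0) (.lf 2 true 0 false false 0 0)) (.lf 2 true 0 false false 0 0)) (.s 1 9 0 0 0 0 0 99
(.lf 2 true 0 false false 0 0) (.lf 2 true 0 false false 0 0)))) (.lf 2 true 0 false false 0 0)) (.lf 2 true 0 false false 0 0)))) (.s 0 13 0 0 0 0 0 39
(.s 1 0 1 4 0 0 0 2
(.lf 2 true 0 true false 0 0) (.s 2 0 0 1 0 0 0 0
(.lf 2 true 0 true false 0 0) (.lf 2 true 0 false false 0 0))) (.lf 2 true 0 true false 0 0))) (.s 0 47 0 0 0 0 0 119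
(.s 1 0 4 12 0 0 0 6
(.lf 1 true 0 true false 0 0) (.lf 2 true 0 true false 0 0)) (.lf 1 true 0 true false 0 0)))) (.lf 1 false 0 true false 0 0))

theorem ho11_28 : chk3 (leafO 5554500 1 a1_28 e1_28 R28.x1.ap R28.x1.m) o11_28 (full R28) = true := by
  decide +kernel

def R28_0a : Reg := hi R28 (Nat.succ 3) ⟨0, 0, 0, 0, 1000, 0, 2736⟩

def R28_0b : Reg := lo R28 (Nat.succ 3) ⟨0, 0, 0, 0, 1000, 0, 2736⟩

def t0_28a_0 : T3 :=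
(.s 0 8 0 0 0 0 0 14
(.s 0 1 0 0 0 0 0 9
(.s 1 0 0 1 0 0 0 0
(.lf 2 true 1 true false 0 0) (.lf 3 true 1 true false 0 0)) (.s 0 1 0 0 0 0 0 2
(.lf 2 true 1 true false 0 0) (.s 0 47 0 0 0 0 0 119
(.s 1 0 4 12 0 0 0 6
(.lf 1 true 1 true false 0 0) (.lf 2 true 1 true false 0 0)) (.lf 1 true 1 false false 0 0)))) (.lf 1 false 0 false false 0 0))

def i0_28a : T2 :=
(.k 265658 0 0 1058633 4676323 0 t0_28a_0)

theorem hi0_28a : chk2 (leaf0 a0_28 e0_28) 0 i0_28a R28_0a = true := by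
  decide +kernel

def R28_0ba : Reg := hi R28_0b (Nat.succ 3) ⟨0, 0, 0, 0, 3, 0, 3⟩

def R28_0bb : Reg := lo R28_0b (Nat.succ 3) ⟨0, 0, 0, 0, 3, 0, 3⟩

def R28_0baa : Reg := hi R28_0ba (Nat.succ 3) ⟨0, 0, 0, 0, 1, 0, 1⟩

def R28_0bab : Reg := lo R28_0ba (Nat.succ 3) ⟨0, 0, 0, 0, 1, 0, 1⟩

def R28_0baaa : Reg := hi R28_0baa (Nat.succ 3) ⟨0, 0, 0, 0, 9, 0, 19⟩

def R28_0baab : Reg := lo R28_0baa (Nat.succ 3) ⟨0, 0, 0, 0, 9, 0, 19⟩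

def R28_0baaaa : Reg := hi R28_0baaa (Nat.succ 3) ⟨0, 0, 0, 0, 2, 0, 4⟩

def R28_0baaab : Reg := lo R28_0baaa (Nat.succ 3) ⟨0, 0, 0, 0, 2, 0, 4⟩

def t0_28baaaa_0 : T3 :=
(.s 0 8 0 0 0 0 0 14
(.s 0 1 0 0 0 0 0 9
(.s 1 0 0 1 0 0 0 0
(.s 0 367 0 0 0 0 0 24999
(.lf 2 true 1 true false 0 0) (.s 3 2500 0 0 2500 0 0 2736
(.lf 2 true 1 true false 0 0) (.s 4 1000 0 0 1000 0 0 2736
(.lf 2 true 1 true false 0 0) (.lf 2 true 1 false false 0 0)))) (.s 0 367 0 0 0 0 0 24999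
(.lf 3 true 1 true false 0 0) (.s 3 2500 0 0 2500 0 0 2736
(.lf 3 true 1 true false 0 0) (.s 4 1000 0 0 1000 0 0 2736
(.lf 3 true 1 true false 0 0) (.lf 3 true 1 false false 0 0))))) (.s 0 1 0 0 0 0 0 2
(.s 3 4 0 0 0 0 0 4
(.lf 2 true 1 true false 0 0) (.s 0 1 0 0 0 0 0 4
(.s 3 1 0 0 1 0 0 0
(.s 0 388 0 0 0 0 0 3124
(.s 3 2500 0 0 2500 0 0 2736
(.lf 2 true 1 true false 0 0) (.s 4 1000 0 0 1000 0 0 2736
(.lf 2 true 1 true false 0 0) (.lf 2 true 1 false false 0 0))) (.s 4 1000 0 0 1000 0 0 2736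
(.lf 2 true 1 true false 0 0) (.lf 2 true 1 false false 0 0))) (.lf 2 true 1 false false 0 0)) (.lf 2 true 1 false false 0 0))) (.s 0 47 0 0 0 0 0 119
(.s 1 0 4 12 0 0 0 6
(.lf 1 true 1 true false 0 0) (.lf 2 true 1 false false 0 0)) (.lf 1 true 1 true false 0 0)))) (.lf 1 false 0 true false 0 0))

def i0_28baaaa : T2 :=
(.k 971365 0 0 1668094 3052244 0 t0_28baaaa_0)

theorem hi0_28baaaa : chk2 (leaf0 a0_28 e0_28) 0 i0_28baaaa R28_0baaaa = true := by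
  decide +kernel

def R28_0baaaba : Reg := hi R28_0baaab (Nat.succ 1) ⟨1, 0, 0, 0, 7, 0, 7⟩

def R28_0baaabb : Reg := lo R28_0baaab (Nat.succ 1) ⟨1, 0, 0, 0, 7, 0, 7⟩

def t0_28baaaba_0 : T3 :=
(.s 0 8 0 0 0 0 0 14
(.s 0 1 0 0 0 0 0 9
(.s 1 0 0 1 0 0 0 0
(.s 0 367 0 0 0 0 0 24999
(.s 3 20000 0 0 20000 0 0 24632
(.lf 2 true 1 true false 0 0) (.s 4 1000 0 0 1000 0 0 2736
(.lf 2 true 1 false false 0 0) (.lf 2 true 1 false false 0 0))) (.s 3 2500 0 0 2500 0 0 2736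
(.s 0 6101 0 0 0 0 0 79999
(.s 3 20000 0 0 20000 0 0 24632
(.lf 2 true 1 true false 0 0) (.s 4 1000 0 0 1000 0 0 2736
(.lf 2 true 1 true false 0 0) (.lf 2 true 1 false false 0 0))) (.s 4 1000 0 0 1000 0 0 2736
(.lf 2 true 1 false false 0 0) (.lf 2 true 1 false false 0 0))) (.lf 2 true 1 false false 0 0))) (.s 0 367 0 0 0 0 0 24999
(.s 3 20000 0 0 20000 0 0 24632
(.lf 3 true 1 true false 0 0) (.s 4 1000 0 0 1000 0 0 2736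
(.lf 3 true 1 false false 0 0) (.lf 3 true 1 false false 0 0))) (.s 3 2500 0 0 2500 0 0 2736
(.s 0 6101 0 0 0 0 0 79999
(.s 3 20000 0 0 20000 0 0 24632
(.lf 3 true 1 true false 0 0) (.s 4 1000 0 0 1000 0 0 2736
(.lf 3 true 1 true false 0 0) (.lf 3 true 1 false false 0 0))) (.s 4 1000 0 0 1000 0 0 2736
(.lf 3 true 1 false false 0 0) (.lf 3 true 1 false false 0 0))) (.lf 3 true 1 false false 0 0)))) (.s 0 1 0 0 0 0 0 2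
(.lf 2 true 1 false false 0 0) (.s 0 47 0 0 0 0 0 119
(.s 1 0 4 12 0 0 0 6
(.lf 1 true 1 false false 0 0) (.lf 2 true 1 false false 0 0)) (.lf 1 true 1 false false 0 0)))) (.lf 1 false 0 false false 0 0))

def i0_28baaaba : T2 :=
(.k 1112044 0 0 1764389 2438154 0 t0_28baaaba_0)

theorem hi0_28baaaba : chk2 (leaf0 a0_28 e0_28) 0 i0_28baaaba R28_0baaaba = true := by
  decide +kernel

def t0_28baaabb_0 : T3 :=
(.s 0 8 0 0 0 0 0 14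
(.s 0 1 0 0 0 0 0 9
(.s 1 0 0 1 0 0 0 0
(.lf 2 true 1 false false 0 0) (.lf 3 true 1 false false 0 0)) (.s 0 1 0 0 0 0 0 2
(.lf 2 true 1 false false 0 0) (.s 0 47 0 0 0 0 0 119
(.s 1 0 4 12 0 0 0 6
(.lf 1 true 1 true false 0 0) (.lf 2 true 1 false false 0 0)) (.lf 1 true 1 false false 0 0)))) (.lf 1 false 0 false false 0 0))

def t0_28baaabb_1 : T3 :=
(.s 0 8 0 0 0 0 0 14
(.s 0 1 0 0 0 0 0 9
(.s 1 0 0 1 0 0 0 0
(.lf 2 true 1 true false 0 0) (.lf 3 true 1 true false 0 0)) (.s 0 1 0 0 0 0 0 2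
(.lf 2 true 1 true false 0 0) (.s 0 47 0 0 0 0 0 119
(.s 1 0 4 12 0 0 0 6
(.lf 1 true 1 true false 0 0) (.lf 2 true 1 false false 0 0)) (.lf 1 true 1 false false 0 0)))) (.lf 1 false 0 false false 0 0))

def t0_28baaabb_2 : T3 :=
(.s 0 8 0 0 0 0 0 14
(.s 0 1 0 0 0 0 0 9
(.s 1 0 0 1 0 0 0 0
(.s 3 31 0 0 0 0 0 39
(.lf 2 true 1 true false 0 0) (.lf 2 true 1 false false 0 0)) (.s 3 31 0 0 0 0 0 39
(.lf 3 true 1 true false 0 0) (.lf 3 true 1 false false 0 0))) (.s 0 1 0 0 0 0 0 2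
(.s 3 31 0 0 0 0 0 39
(.s 3 19 0 0 0 0 0 24
(.lf 2 true 1 true false 0 0) (.s 3 77 0 0 0 0 0 99
(.lf 2 true 1 true false 0 0) (.lf 2 true 1 false false 0 0))) (.lf 2 true 1 false false 0 0)) (.s 0 47 0 0 0 0 0 119
(.s 1 0 4 12 0 0 0 6
(.lf 1 true 1 true false 0 0) (.lf 2 true 1 false false 0 0)) (.lf 1 true 1 false false 0 0)))) (.lf 1 false 0 false false 0 0))

def t0_28baaabb_3 : T3 :=
(.s 0 8 0 0 0 0 0 14
(.s 0 1 0 0 0 0 0 9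
(.s 1 0 0 1 0 0 0 0
(.lf 2 true 1 false false 0 0) (.lf 3 true 1 false false 0 0)) (.s 0 1 0 0 0 0 0 2
(.lf 2 true 1 false false 0 0) (.s 0 47 0 0 0 0 0 119
(.s 1 0 4 12 0 0 0 6
(.lf 1 true 1 true false 0 0) (.lf 2 true 1 false false 0 0)) (.lf 1 true 1 false false 0 0)))) (.lf 1 false 0 false false 0 0))

def t0_28baaabb_4 : T3 :=
(.s 0 8 0 0 0 0 0 14
(.s 0 1 0 0 0 0 0 9
(.s 1 0 0 1 0 0 0 0
(.s 3 40000 0 0 40000 0 0 46528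
(.s 0 6101 0 0 0 0 0 79999
(.s 3 20000 0 0 20000 0 0 24632
(.lf 2 true 1 true false 0 0) (.s 4 1000 0 0 1000 0 0 2736
(.lf 2 true 1 true false 0 0) (.lf 2 true 1 false false 0 0))) (.s 4 1000 0 0 1000 0 0 2736
(.lf 2 true 1 true false 0 0) (.lf 2 true 1 false false 0 0))) (.lf 2 true 1 false false 0 0)) (.s 3 40000 0 0 40000 0 0 46528
(.s 0 6101 0 0 0 0 0 79999
(.s 3 20000 0 0 20000 0 0 24632
(.lf 3 true 1 true false 0 0) (.s 4 1000 0 0 1000 0 0 2736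
(.lf 3 true 1 true false 0 0) (.lf 3 true 1 false false 0 0))) (.s 4 1000 0 0 1000 0 0 2736
(.lf 3 true 1 true false 0 0) (.lf 3 true 1 false false 0 0))) (.lf 3 true 1 false false 0 0))) (.s 0 1 0 0 0 0 0 2
(.lf 2 true 1 false false 0 0) (.s 0 47 0 0 0 0 0 119
(.s 1 0 4 12 0 0 0 6
(.lf 1 true 1 true false 0 0) (.lf 2 true 1 false false 0 0)) (.lf 1 true 1 false false 0 0)))) (.lf 1 false 0 false false 0 0))

def i0_28baaabb : T2 :=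
(.s 3 0 0 17 0 39
(.s 2 4 0 0 0 4
(.s 1 3 0 13 0 15
(.k 1172514 0 0 655333 0 1134275 t0_28baaabb_0) (.s 3 0 0 41 0 99
(.k 1383087 0 0 1764389 0 233167 t0_28baaabb_1) (.k 1132737 0 0 655333 0 1091339 t0_28baaabb_2))) (.k 1169633 0 0 810250 0 851492 t0_28baaabb_3)) (.k 1203009 0 0 1841101 2324053 0 t0_28baaabb_4))

theorem hi0_28baaabb : chk2 (leaf0 a0_28 e0_28) 0 i0_28baaabb R28_0baaabb = true := by
  decide +kernel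

def i0_28baaab : T2 := .s 1 1 0 7 0 7 i0_28baaaba i0_28baaabb

theorem hi0_28baaab : chk2 (leaf0 a0_28 e0_28) 0 i0_28baaab R28_0baaab = true := chk2_s hi0_28baaaba hi0_28baaabb

def i0_28baaa : T2 := .s 3 0 0 2 0 4 i0_28baaaa i0_28baaab

theorem hi0_28baaa : chk2 (leaf0 a0_28 e0_28) 0 i0_28baaa R28_0baaa = true := chk2_s hi0_28baaaa hi0_28baaab

def t0_28baab_0 : T3 :=
(.s 0 8 0 0 0 0 0 14
(.s 0 1 0 0 0 0 0 9
(.s 1 0 0 1 0 0 0 0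
(.lf 2 true 1 false false 0 0) (.lf 3 true 1 false false 0 0)) (.s 0 1 0 0 0 0 0 2
(.lf 2 true 1 false false 0 0) (.s 0 47 0 0 0 0 0 119
(.s 1 0 4 12 0 0 0 6
(.lf 1 true 1 true false 0 0) (.lf 2 true 1 false false 0 0)) (.lf 1 true 1 true false 0 0)))) (.lf 1 false 0 false false 0 0))

def i0_28baab : T2 :=
(.k 1304328 0 0 1924788 1930195 0 t0_28baab_0)

theorem hi0_28baab : chk2 (leaf0 a0_28 e0_28) 0 i0_28baab R28_0baab = true := by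
  decide +kernel

def i0_28baa : T2 := .s 3 0 0 9 0 19 i0_28baaa i0_28baab

theorem hi0_28baa : chk2 (leaf0 a0_28 e0_28) 0 i0_28baa R28_0baa = true := chk2_s hi0_28baaa hi0_28baab

def t0_28bab_0 : T3 :=
(.s 0 8 0 0 0 0 0 14
(.s 0 1 0 0 0 0 0 9
(.s 1 0 0 1 0 0 0 0
(.lf 2 true 1 false false 0 0) (.lf 3 true 1 false false 0 0)) (.s 0 1 0 0 0 0 0 2
(.lf 2 true 1 false false 0 0) (.s 0 47 0 0 0 0 0 119
(.s 1 0 4 12 0 0 0 6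
(.lf 1 true 1 true false 0 0) (.lf 2 true 1 false false 0 0)) (.lf 1 true 1 false false 0 0)))) (.lf 1 false 0 false false 0 0))

def i0_28bab : T2 :=
(.k 1219085 0 0 250562 0 1679829 t0_28bab_0)

theorem hi0_28bab : chk2 (leaf0 a0_28 e0_28) 0 i0_28bab R28_0bab = true := by
  decide +kernel

def i0_28ba : T2 := .s 3 0 0 1 0 1 i0_28baa i0_28bab

theorem hi0_28ba : chk2 (leaf0 a0_28 e0_28) 0 i0_28ba R28_0ba = true := chk2_s hi0_28baa hi0_28bab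

def t0_28bb_0 : T3 :=
(.s 0 8 0 0 0 0 0 14
(.s 0 1 0 0 0 0 0 9
(.s 1 0 0 1 0 0 0 0
(.lf 2 true 1 false false 0 0) (.lf 3 true 1 false false 0 0)) (.s 0 1 0 0 0 0 0 2
(.lf 2 true 1 false false 0 0) (.s 0 47 0 0 0 0 0 119
(.s 1 0 4 12 0 0 0 6
(.lf 1 true 0 false false 0 0) (.lf 2 true 1 false false 0 0)) (.lf 1 true 0 false false 0 0)))) (.lf 1 false 0 false false 0 0))

def i0_28bb : T2 :=
(.k 2000000 0 0 1893045 0 5000000 t0_28bb_0)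

theorem hi0_28bb : chk2 (leaf0 a0_28 e0_28) 0 i0_28bb R28_0bb = true := by
  decide +kernel

def i0_28b : T2 := .s 3 0 0 3 0 3 i0_28ba i0_28bb

theorem hi0_28b : chk2 (leaf0 a0_28 e0_28) 0 i0_28b R28_0b = true := chk2_s hi0_28ba hi0_28bb

def i0_28 : T2 := .s 3 0 0 1000 0 2736 i0_28a i0_28b

theorem hi0_28 : chk2 (leaf0 a0_28 e0_28) 0 i0_28 R28 = true := chk2_s hi0_28a hi0_28b

def R28_1a : Reg := hi R28 (Nat.succ 3) ⟨0, 0, 0, 0, 4, 0, 10⟩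

def R28_1b : Reg := lo R28 (Nat.succ 3) ⟨0, 0, 0, 0, 4, 0, 10⟩

def t1_28a_0 : T3 :=
(.s 0 8 0 0 0 0 0 14
(.s 0 1 0 0 0 0 0 9
(.s 1 0 0 1 0 0 0 0
(.lf 2 true 1 true false 0 2) (.lf 3 true 1 true false 0 2)) (.s 0 1 0 0 0 0 0 2
(.lf 2 true 1 true false 0 2) (.s 0 47 0 0 0 0 0 119
(.s 1 0 4 12 0 0 0 6
(.lf 1 true 1 true false 0 0) (.lf 2 true 1 true false 0 0)) (.lf 1 true 1 false false 0 0)))) (.lf 1 false 2 false false 0 0))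

def i1_28a : T2 :=
(.k 119000 0 0 0 0 0 t1_28a_0)

theorem hi1_28a : chk2 (leaf1 a1_28 e1_28) 10000 i1_28a R28_1a = true := by
  decide +kernel

def R28_1ba : Reg := hi R28_1b (Nat.succ 3) ⟨0, 0, 0, 0, 3, 0, 3⟩

def R28_1bb : Reg := lo R28_1b (Nat.succ 3) ⟨0, 0, 0, 0, 3, 0, 3⟩

def t1_28ba_0 : T3 :=
(.s 0 8 0 0 0 0 0 14
(.s 0 1 0 0 0 0 0 9
(.s 1 0 0 1 0 0 0 0
(.s 0 47 0 0 0 0 0 1099
(.lf 2 true 1 false false 1 1) (.s 3 110 0 0 110 0 0 116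
(.lf 2 true 1 false false 2 1) (.s 0 31 0 0 0 0 0 399
(.s 4 0 10 10 0 11 0 0
(.lf 2 true 1 false false 2 0) (.lf 2 true 1 false false 2 1)) (.s 3 40 0 0 40 0 0 40
(.s 4 0 10 10 0 11 0 0
(.lf 2 true 1 false false 2 0) (.lf 2 true 1 false false 2 1)) (.lf 2 true 1 false false 2 0))))) (.s 0 47 0 0 0 0 0 1099
(.lf 3 true 1 false false 1 1) (.s 3 110 0 0 110 0 0 116
(.lf 3 true 1 false false 2 1) (.s 0 31 0 0 0 0 0 399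
(.s 4 0 10 10 0 11 0 0
(.lf 3 true 1 false false 2 0) (.lf 3 true 1 false false 2 1)) (.s 3 40 0 0 40 0 0 40
(.s 4 0 10 10 0 11 0 0
(.lf 3 true 1 false false 2 0) (.lf 3 true 1 false false 2 1)) (.lf 3 true 1 false false 2 0)))))) (.s 0 1 0 0 0 0 0 2
(.s 1 1 0 0 0 0 0 19
(.lf 2 true 1 false false 2 2) (.s 2 1 0 0 0 7 0 7
(.s 2 1 0 0 0 15 0 15
(.s 3 4 0 0 0 0 0 4
(.lf 2 true 1 false false 2 2) (.s 3 17 0 0 0 0 0 19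
(.s 4 0 0 0 0 11 0 20
(.lf 2 true 1 false false 1 2) (.s 0 1 0 0 0 0 0 3
(.s 0 1 0 0 0 0 0 4
(.s 0 3 0 0 0 0 0 19
(.s 0 23 0 0 0 0 0 209
(.lf 2 true 1 false false 2 1) (.s 3 21 0 0 21 0 0 21
(.lf 2 true 1 false false 2 1) (.s 0 103 0 0 0 0 0 799
(.s 4 0 10 10 0 11 0 0
(.lf 2 true 1 false false 2 0) (.lf 2 true 1 false false 2 1)) (.s 3 40 0 0 40 0 0 40
(.s 4 0 10 10 0 11 0 0
(.lf 2 true 1 false false 2 0) (.lf 2 true 1 false false 2 1)) (.lf 2 true 1 false false 2 0))))) (.lf 2 true 1 false false 2 2)) (.lf 2 true 1 false false 2 0)) (.lf 2 true 1 false false 2 0))) (.s 0 103 0 0 0 0 0 799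
(.s 3 40 0 0 40 0 0 40
(.s 4 0 10 10 0 11 0 0
(.lf 2 true 1 false false 2 0) (.lf 2 true 1 false false 2 1)) (.lf 2 true 1 false false 2 0)) (.s 0 27 0 0 0 0 0 111
(.s 0 11 0 0 0 0 0 55
(.lf 2 true 1 false false 2 0) (.s 3 28 0 0 28 0 0 24
(.lf 2 true 1 false false 2 0) (.s 4 7 0 0 7 0 4 2
(.lf 2 true 1 false false 2 0) (.lf 2 true 1 false true 2 0)))) (.s 4 7 0 0 7 0 4 2
(.lf 2 true 1 false false 2 0) (.lf 2 true 1 false true 2 0)))))) (.lf 2 true 1 false false 2 2)) (.lf 2 true 1 false false 2 2))) (.s 0 47 0 0 0 0 0 119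
(.s 1 0 4 12 0 0 0 6
(.lf 1 true 1 false true 1 0) (.lf 2 true 1 false true 1 0)) (.lf 1 true 1 false true 1 0)))) (.lf 1 false 0 false true 1 0))

def i1_28ba : T2 :=
(.k 1016744 0 0 0 0 264501 t1_28ba_0)

theorem hi1_28ba : chk2 (leaf1 a1_28 e1_28) 10000 i1_28ba R28_1ba = true := by
  decide +kernel

def t1_28bb_0 : T3 :=
(.s 0 8 0 0 0 0 0 14
(.s 0 1 0 0 0 0 0 9
(.s 1 0 0 1 0 0 0 0
(.s 0 31 0 0 0 0 0 399
(.lf 2 true 1 false false 2 1) (.s 3 40 0 0 40 0 0 40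
(.lf 2 true 1 false false 2 1) (.s 4 0 10 10 0 11 0 0
(.lf 2 true 1 false false 2 0) (.lf 2 true 1 false false 2 1)))) (.s 0 31 0 0 0 0 0 399
(.lf 3 true 1 false false 2 1) (.s 3 40 0 0 40 0 0 40
(.lf 3 true 1 false false 2 1) (.s 4 0 10 10 0 11 0 0
(.lf 3 true 1 false false 2 0) (.lf 3 true 1 false false 2 1))))) (.s 0 1 0 0 0 0 0 2
(.s 0 1 0 0 0 0 0 3
(.s 3 4 0 0 0 0 0 4
(.s 0 1 0 0 0 0 0 4
(.s 0 3 0 0 0 0 0 19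
(.lf 2 true 1 false false 2 1) (.lf 2 true 1 false false 2 2)) (.lf 2 true 1 false false 2 2)) (.s 3 17 0 0 0 0 0 19
(.s 0 1 0 0 0 0 0 4
(.s 1 1 0 0 0 0 0 19
(.lf 2 true 1 false false 2 2) (.s 2 1 0 0 0 7 0 7
(.s 2 1 0 0 0 15 0 15
(.s 2 1 0 0 0 31 0 31
(.s 0 9 0 0 0 0 0 49
(.s 0 103 0 0 0 0 0 799
(.lf 2 true 1 false false 2 1) (.s 3 40 0 0 40 0 0 40
(.lf 2 true 1 false false 2 1) (.s 0 3 0 0 0 0 0 19
(.s 4 0 10 10 0 11 0 0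
(.lf 2 true 1 false false 2 0) (.lf 2 true 1 false false 2 1)) (.s 3 1 0 0 1 0 0 0
(.s 4 0 10 10 0 11 0 0
(.lf 2 true 1 false false 2 0) (.lf 2 true 1 false false 2 1)) (.lf 2 true 1 false false 2 0))))) (.s 3 1 0 0 1 0 0 0
(.s 4 0 10 10 0 11 0 0
(.lf 2 true 1 false false 2 0) (.lf 2 true 1 false false 2 1)) (.lf 2 true 1 false false 2 0))) (.lf 2 true 1 false false 2 2)) (.lf 2 true 1 false false 2 2)) (.lf 2 true 1 false false 2 2))) (.lf 2 true 1 false false 2 0)) (.s 0 1 0 0 0 0 0 4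
(.s 0 3 0 0 0 0 0 19
(.s 2 1 0 0 0 7 0 7
(.s 2 1 0 0 0 15 0 15
(.s 2 1 0 0 0 31 0 31
(.s 0 103 0 0 0 0 0 799
(.s 3 40 0 0 40 0 0 40
(.lf 2 true 1 false false 2 1) (.s 3 1 0 0 1 0 0 0
(.s 4 0 10 10 0 11 0 0
(.s 0 11 0 0 0 0 0 99
(.lf 2 true 1 false false 2 0) (.lf 2 true 1 false false 2 0)) (.s 0 11 0 0 0 0 0 99
(.lf 2 true 1 false false 2 1) (.lf 2 true 1 false false 2 1))) (.s 1 1 0 0 0 0 0 19
(.lf 2 true 1 false false 2 0) (.lf 2 true 1 false false 2 0)))) (.s 3 1 0 0 1 0 0 0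
(.s 4 0 10 10 0 11 0 0
(.lf 2 true 1 false false 2 0) (.lf 2 true 1 false false 2 1)) (.s 4 1 0 0 1 0 0 0
(.lf 2 true 1 false false 2 0) (.lf 2 true 0 false true 2 0)))) (.s 3 1 0 0 1 0 0 0
(.lf 2 true 1 false false 2 2) (.s 4 1 0 0 1 0 0 0
(.lf 2 true 1 false false 2 0) (.lf 2 true 0 false true 2 0)))) (.lf 2 true 1 false false 2 2)) (.lf 2 true 1 false false 2 2)) (.s 4 1 0 0 1 0 0 0
(.s 0 7 0 0 0 0 0 39
(.lf 2 true 1 false false 2 0) (.lf 2 true 1 false false 2 0)) (.lf 2 true 0 false true 2 0))) (.s 0 27 0 0 0 0 0 111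
(.s 3 28 0 0 28 0 0 24
(.s 4 7 0 0 7 0 4 2
(.lf 2 true 1 false false 2 0) (.lf 2 true 1 false true 2 0)) (.lf 2 true 1 false true 2 0)) (.lf 2 true 1 false true 2 0))))) (.lf 2 true 1 false true 2 0)) (.s 0 47 0 0 0 0 0 119
(.s 1 0 4 12 0 0 0 6
(.lf 1 true 0 true true 2 0) (.lf 2 true 1 false true 2 0)) (.lf 1 true 0 true true 2 0)))) (.lf 1 false 0 true true 2 0))

def i1_28bb : T2 :=
(.k 1006168 0 2631761 0 0 3497371 t1_28bb_0)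

theorem hi1_28bb : chk2 (leaf1 a1_28 e1_28) 10000 i1_28bb R28_1bb = true := by
  decide +kernel

def i1_28b : T2 := .s 3 0 0 3 0 3 i1_28ba i1_28bb

theorem hi1_28b : chk2 (leaf1 a1_28 e1_28) 10000 i1_28b R28_1b = true := chk2_s hi1_28ba hi1_28bb

def i1_28 : T2 := .s 3 0 0 4 0 10 i1_28a i1_28b

theorem hi1_28 : chk2 (leaf1 a1_28 e1_28) 10000 i1_28 R28 = true := chk2_s hi1_28a hi1_28b

theorem ok28 : CellOk R28 a0_28 e0_28 a1_28 e1_28 :=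
  ⟨lin28, ⟨_, ho00_28⟩, ⟨_, ho01_28⟩, ⟨_, ho10_28⟩, ⟨_, ho11_28⟩, ⟨_, hi0_28⟩, ⟨_, hi1_28⟩⟩

def R41 : Reg := ⟨⟨0, 0, 0, 0, 0, 0, 0⟩, ⟨1, 0, 0, 0, 0, 0, 0⟩, ⟨1, 0, 0, 0, 0, 0, 1⟩, ⟨1, 0, 0, 0, 0, 0, 0⟩, ⟨0, 0, 0, 0, 1, 0, 0⟩, ⟨1, 0, 0, 0, 1, 0, 1⟩, ⟨3, 0, 0, 0, 0, 0, 3⟩, ⟨1, 0, 0, 0, 0, 0, 0⟩, ⟨0, 0, 0, 0, 0, 0, 0⟩, ⟨0, 0, 0, 0, 1, 0, 0⟩⟩

def a0_41 : SF := mu 3200 0 222222 0 0 0 0 0

def e0_41 : SF := mu 0 219377 833333 0 675678 0 0 396244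

def a1_41 : SF := mu 3200 0 117556 0 0 0 0 0

def e1_41 : SF := mu 0 153585 583333 0 472975 0 0 277371

theorem lin41 : chkLin R41 a0_41 e0_41 a1_41 e1_41 = true := by decide +kernel

def o00_41 : T3 :=
(.s 0 8 0 0 0 0 0 14
(.s 0 1 0 0 0 0 0 1
(.lf 3 true 0 false false 0 0) (.s 1 0 0 1 0 0 0 0
(.lf 2 true 0 false false 0 0) (.lf 3 true 0 false false 0 0))) (.s 1 0 0 1 0 0 0 0
(.s 0 5 0 0 0 0 0 7
(.s 2 0 0 1 0 0 0 0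
(.lf 2 false 0 true false 0 0) (.lf 2 false 0 false false 0 0)) (.s 0 4 0 0 0 0 0 4
(.s 1 0 4 12 0 0 0 6
(.s 0 3 0 0 0 0 0 3
(.s 2 0 0 1 0 0 0 0
(.lf 1 false 0 true false 0 0) (.lf 1 false 0 false false 0 0)) (.s 1 0 1 2 0 0 0 0
(.lf 1 false 0 true false 0 0) (.s 2 0 0 1 0 0 0 0
(.lf 1 false 0 true false 0 0) (.lf 1 false 0 false false 0 0)))) (.s 2 0 0 1 0 0 0 0
(.lf 2 false 0 true false 0 0) (.lf 2 false 0 false false 0 0))) (.s 1 0 1 2 0 0 0 0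
(.lf 0 false 0 true false 0 0) (.s 2 0 0 1 0 0 0 0
(.lf 0 false 0 true false 0 0) (.lf 0 false 0 false false 0 0))))) (.s 0 4 0 0 0 0 0 4
(.lf 3 false 0 false false 0 0) (.s 0 11 0 0 0 0 0 11
(.s 1 0 4 12 0 0 0 6
(.lf 0 false 0 false false 0 0) (.lf 0 false 0 false false 0 0)) (.lf 0 false 0 false false 0 0)))))

theorem ho00_41 : chk3 (leafO 10500000 3 a0_41 e0_41 R41.x0.ap R41.x0.m) o00_41 (full R41) = true := by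
  decide +kernel

def o01_41 : T3 :=
(.s 0 8 0 0 0 0 0 14
(.s 0 1 0 0 0 0 0 1
(.lf 3 true 0 false false 0 0) (.s 1 0 0 1 0 0 0 0
(.lf 2 true 0 false false 0 0) (.lf 3 true 0 false false 0 0))) (.s 1 0 0 1 0 0 0 0
(.s 0 5 0 0 0 0 0 7
(.s 2 0 0 1 0 0 0 0
(.lf 2 false 0 true false 0 0) (.lf 2 false 0 false false 0 0)) (.s 0 4 0 0 0 0 0 4
(.s 1 0 4 12 0 0 0 6
(.s 0 3 0 0 0 0 0 3
(.s 2 0 0 1 0 0 0 0
(.lf 1 false 0 true false 0 0) (.lf 1 false 0 false false 0 0)) (.s 1 0 1 2 0 0 0 0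
(.lf 1 false 0 true false 0 0) (.s 2 0 0 1 0 0 0 0
(.lf 1 false 0 true false 0 0) (.lf 1 false 0 false false 0 0)))) (.s 2 0 0 1 0 0 0 0
(.lf 2 false 0 true false 0 0) (.lf 2 false 0 false false 0 0))) (.s 1 0 1 2 0 0 0 0
(.lf 0 false 0 true false 0 0) (.s 2 0 0 1 0 0 0 0
(.lf 0 false 0 true false 0 0) (.lf 0 false 0 false false 0 0))))) (.s 0 4 0 0 0 0 0 4
(.lf 3 false 0 false false 0 0) (.s 0 11 0 0 0 0 0 11
(.s 1 0 4 12 0 0 0 6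
(.lf 0 false 0 false false 0 0) (.lf 0 false 0 false false 0 0)) (.lf 0 false 0 false false 0 0)))))

theorem ho01_41 : chk3 (leafO 10500000 3 a0_41 e0_41 R41.x1.ap R41.x1.m) o01_41 (full R41) = true := by
  decide +kernel

def o10_41 : T3 :=
(.s 0 8 0 0 0 0 0 14
(.s 0 1 0 0 0 0 0 1
(.lf 3 true 0 false false 0 0) (.s 1 0 0 1 0 0 0 0
(.lf 2 true 0 false false 0 0) (.lf 3 true 0 false false 0 0))) (.s 1 0 0 1 0 0 0 0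
(.s 0 5 0 0 0 0 0 7
(.lf 2 false 0 false false 0 0) (.s 0 4 0 0 0 0 0 4
(.s 1 0 4 12 0 0 0 6
(.lf 1 false 0 false false 0 0) (.lf 2 false 0 false false 0 0)) (.lf 0 false 0 false false 0 0))) (.s 0 4 0 0 0 0 0 4
(.lf 3 false 0 false false 0 0) (.s 0 11 0 0 0 0 0 11
(.s 1 0 4 12 0 0 0 6
(.lf 0 false 0 false false 0 0) (.lf 0 false 0 false false 0 0)) (.lf 0 false 0 false false 0 0)))))

theorem ho10_41 : chk3 (leafO 5554500 1 a1_41 e1_41 R41.x0.ap R41.x0.m) o10_41 (full R41) = true := by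
  decide +kernel

def o11_41 : T3 :=
(.s 0 8 0 0 0 0 0 14
(.s 0 1 0 0 0 0 0 1
(.lf 3 true 0 false false 0 0) (.s 1 0 0 1 0 0 0 0
(.lf 2 true 0 false false 0 0) (.lf 3 true 0 false false 0 0))) (.s 1 0 0 1 0 0 0 0
(.s 0 5 0 0 0 0 0 7
(.lf 2 false 0 false false 0 0) (.s 0 4 0 0 0 0 0 4
(.s 1 0 4 12 0 0 0 6
(.lf 1 false 0 false false 0 0) (.lf 2 false 0 false false 0 0)) (.lf 0 false 0 false false 0 0))) (.s 0 4 0 0 0 0 0 4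
(.lf 3 false 0 false false 0 0) (.s 0 11 0 0 0 0 0 11
(.s 1 0 4 12 0 0 0 6
(.lf 0 false 0 false false 0 0) (.lf 0 false 0 false false 0 0)) (.lf 0 false 0 false false 0 0)))))

theorem ho11_41 : chk3 (leafO 5554500 1 a1_41 e1_41 R41.x1.ap R41.x1.m) o11_41 (full R41) = true := by
  decide +kernel

def t0_41_0 : T3 :=
(.s 0 8 0 0 0 0 0 14
(.s 0 1 0 0 0 0 0 1
(.s 0 1 0 0 0 0 0 3
(.s 3 1 0 0 1 0 0 0
(.lf 3 true 1 true false 0 0) (.s 4 1000 0 0 1000 0 0 2736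
(.lf 3 true 1 true false 0 0) (.lf 3 true 1 false false 0 0))) (.s 4 1000 0 0 1000 0 0 2736
(.lf 3 true 1 true false 0 0) (.lf 3 true 1 false false 0 0))) (.s 1 0 0 1 0 0 0 0
(.lf 2 true 1 false false 0 0) (.lf 3 true 1 false false 0 0))) (.s 1 0 0 1 0 0 0 0
(.s 0 5 0 0 0 0 0 7
(.lf 2 false 1 false false 0 0) (.s 0 4 0 0 0 0 0 4
(.s 1 0 4 12 0 0 0 6
(.lf 1 false 1 false false 0 0) (.lf 2 false 1 false false 0 0)) (.lf 0 false 0 false false 0 0))) (.s 0 4 0 0 0 0 0 4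
(.lf 3 false 1 false false 0 0) (.s 0 11 0 0 0 0 0 11
(.s 1 0 4 12 0 0 0 6
(.lf 0 false 1 false false 0 0) (.lf 0 false 1 false false 0 0)) (.lf 0 false 0 false false 0 0)))))

def t0_41_1 : T3 :=
(.s 0 8 0 0 0 0 0 14
(.s 0 1 0 0 0 0 0 1
(.lf 3 true 1 false false 0 0) (.s 1 0 0 1 0 0 0 0
(.lf 2 true 1 false false 0 0) (.lf 3 true 1 false false 0 0))) (.s 1 0 0 1 0 0 0 0
(.s 0 5 0 0 0 0 0 7
(.lf 2 false 1 false false 0 0) (.s 0 4 0 0 0 0 0 4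
(.s 1 0 4 12 0 0 0 6
(.lf 1 false 0 false false 0 0) (.s 0 1987 0 0 0 0 0 2736
(.s 0 1737 0 0 0 0 0 2736
(.s 4 1 0 0 1 0 0 0
(.lf 2 false 1 false false 0 0) (.lf 2 false 0 false false 0 0)) (.s 3 2737 0 0 2737 0 0 999
(.s 4 1 0 0 1 0 0 0
(.lf 2 false 1 false false 0 0) (.lf 2 false 0 false false 0 0)) (.lf 2 false 0 false false 0 0))) (.lf 2 false 0 false false 0 0))) (.lf 0 false 0 false false 0 0))) (.s 0 4 0 0 0 0 0 4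
(.s 0 7 0 0 0 0 0 9
(.s 0 1737 0 0 0 0 0 2736
(.s 4 1 0 0 1 0 0 0
(.lf 3 false 1 false false 0 0) (.lf 3 false 0 false false 0 0)) (.s 3 2737 0 0 2737 0 0 999
(.s 4 1 0 0 1 0 0 0
(.lf 3 false 1 false false 0 0) (.lf 3 false 0 false false 0 0)) (.lf 3 false 0 false false 0 0))) (.lf 3 false 0 false false 0 0)) (.s 0 11 0 0 0 0 0 11
(.s 1 0 4 12 0 0 0 6
(.lf 0 false 0 false false 0 0) (.lf 0 false 0 false false 0 0)) (.lf 0 false 0 false false 0 0)))))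

def i0_41 : T2 :=
(.s 3 0 0 1000 0 2736
(.k 322666 0 0 1049415 930791 0 t0_41_0) (.k 436180 0 0 37490 48296 0 t0_41_1))

theorem hi0_41 : chk2 (leaf0 a0_41 e0_41) 0 i0_41 R41 = true := by
  decide +kernel

def t1_41_0 : T3 :=
(.s 0 8 0 0 0 0 0 14
(.s 0 1 0 0 0 0 0 1
(.s 0 1 0 0 0 0 0 3
(.lf 3 true 1 true false 0 2) (.s 0 2 0 0 0 0 0 4
(.lf 3 true 1 true false 0 0) (.lf 3 true 1 true false 0 0))) (.s 1 0 0 1 0 0 0 0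
(.lf 2 true 1 true false 0 0) (.lf 3 true 1 true false 0 0))) (.s 1 0 0 1 0 0 0 0
(.s 0 5 0 0 0 0 0 7
(.lf 2 false 2 true false 0 0) (.s 0 4 0 0 0 0 0 4
(.s 1 0 4 12 0 0 0 6
(.lf 1 false 2 false false 0 0) (.lf 2 false 2 true false 0 0)) (.lf 0 false 2 false false 0 0))) (.s 0 4 0 0 0 0 0 4
(.lf 3 false 2 true false 0 0) (.s 0 11 0 0 0 0 0 11
(.s 1 0 4 12 0 0 0 6
(.lf 0 false 2 false false 0 0) (.lf 0 false 2 false false 0 0)) (.lf 0 false 2 false false 0 0)))))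

def t1_41_1 : T3 :=
(.s 0 8 0 0 0 0 0 14
(.s 0 1 0 0 0 0 0 1
(.s 1 504748 0 0 0 0 0 789644
(.s 0 1 0 0 0 0 0 3
(.lf 3 true 1 false false 2 2) (.s 0 5 0 0 0 0 0 10
(.s 0 3 0 0 0 0 0 10
(.s 4 7 0 0 7 0 4 2
(.lf 3 true 1 false false 2 0) (.lf 3 true 2 false false 2 0)) (.s 3 11 0 0 11 0 0 7
(.s 4 7 0 0 7 0 4 2
(.lf 3 true 1 false false 1 0) (.lf 3 true 2 false false 1 0)) (.lf 3 true 2 false false 1 0))) (.lf 3 true 2 false false 1 0))) (.s 1 1662897 0 0 0 0 0 1947793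
(.s 2 0 504748 0 0 3105943 0 2316297
(.lf 3 true 0 false true 1 2) (.lf 3 true 2 false false 1 2)) (.lf 3 true 1 false true 1 2))) (.s 1 0 0 1 0 0 0 0
(.lf 2 true 2 false false 1 0) (.s 1 504748 0 0 0 0 0 789644
(.lf 3 true 2 false false 1 0) (.s 1 1662897 0 0 0 0 0 1947793
(.s 2 0 504748 0 0 3105943 0 2316297
(.lf 3 true 1 false true 1 0) (.lf 3 true 2 false false 1 0)) (.lf 3 true 1 false true 1 0))))) (.s 1 0 0 1 0 0 0 0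
(.s 0 5 0 0 0 0 0 7
(.lf 2 false 2 false false 1 0) (.s 0 4 0 0 0 0 0 4
(.s 1 0 4 12 0 0 0 6
(.s 0 1672954 0 0 0 0 0 2368934
(.lf 1 false 2 false false 1 0) (.s 1 504748 0 0 0 0 0 789644
(.lf 1 false 2 false false 1 0) (.s 2 0 504748 0 0 3105943 0 2316297
(.lf 1 false 0 true true 1 0) (.lf 1 false 2 false false 1 0)))) (.s 0 1672954 0 0 0 0 0 2368934
(.s 0 504748 0 0 0 0 0 789644
(.lf 2 false 2 false false 1 0) (.s 1 504748 0 0 0 0 0 789644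
(.lf 2 false 2 false false 1 0) (.s 2 0 504748 0 0 3105943 0 2316297
(.lf 2 false 0 false true 1 0) (.lf 2 false 2 false false 1 0)))) (.s 2 0 504748 0 0 3105943 0 2316297
(.lf 2 false 0 false true 1 0) (.lf 2 false 2 false false 1 0)))) (.s 1 504748 0 0 0 0 0 789644
(.lf 0 false 2 false false 1 0) (.s 0 1662897 0 0 0 0 0 1947793
(.s 2 0 504748 0 0 3105943 0 2316297
(.lf 0 false 0 true true 1 0) (.lf 0 false 2 false false 1 0)) (.s 1 1662897 0 0 0 0 0 1947793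
(.s 2 0 504748 0 0 3105943 0 2316297
(.lf 0 false 0 true true 1 0) (.lf 0 false 2 false false 1 0)) (.lf 0 false 0 true true 1 0)))))) (.s 0 4 0 0 0 0 0 4
(.s 0 504748 0 0 0 0 0 789644
(.s 1 504748 0 0 0 0 0 789644
(.lf 3 false 2 false false 1 0) (.s 1 1662897 0 0 0 0 0 1947793
(.s 2 0 504748 0 0 3105943 0 2316297
(.lf 3 false 1 false true 1 0) (.lf 3 false 2 false false 1 0)) (.lf 3 false 1 false true 1 0))) (.s 1 1662897 0 0 0 0 0 1947793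
(.s 2 0 504748 0 0 3105943 0 2316297
(.lf 3 false 1 false true 1 0) (.lf 3 false 2 false false 1 0)) (.lf 3 false 0 false true 1 0))) (.s 0 11 0 0 0 0 0 11
(.s 1 0 4 12 0 0 0 6
(.s 0 1662897 0 0 0 0 0 1947793
(.s 0 19431455 0 0 0 0 0 23373527
(.s 2 0 504748 0 0 3105943 0 2316297
(.lf 0 false 0 false true 1 0) (.lf 0 false 2 false false 1 0)) (.s 1 1662897 0 0 0 0 0 1947793
(.s 2 0 504748 0 0 3105943 0 2316297
(.lf 0 false 0 true true 1 0) (.lf 0 false 2 false false 1 0)) (.lf 0 false 0 false true 1 0))) (.lf 0 false 0 false true 1 0)) (.s 0 19431455 0 0 0 0 0 23373527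
(.s 1 1662897 0 0 0 0 0 1947793
(.s 2 0 504748 0 0 3105943 0 2316297
(.lf 0 false 0 false true 1 0) (.lf 0 false 2 false false 1 0)) (.lf 0 false 0 true true 1 0)) (.lf 0 false 0 true true 1 0))) (.lf 0 false 0 true true 1 0)))))

def i1_41 : T2 :=
(.s 3 0 0 4 0 10
(.k 170605 0 0 319209 159605 0 t1_41_0) (.k 195252 0 0 2316298 3105943 0 t1_41_1))

theorem hi1_41 : chk2 (leaf1 a1_41 e1_41) 10000 i1_41 R41 = true := by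
  decide +kernel

theorem ok41 : CellOk R41 a0_41 e0_41 a1_41 e1_41 :=
  ⟨lin41, ⟨_, ho00_41⟩, ⟨_, ho01_41⟩, ⟨_, ho10_41⟩, ⟨_, ho11_41⟩, ⟨_, hi0_41⟩, ⟨_, hi1_41⟩⟩

def R45 : Reg := ⟨⟨0, 0, 0, 0, 0, 0, 0⟩, ⟨1, 0, 0, 0, 0, 0, 0⟩, ⟨1, 0, 0, 0, 0, 0, 1⟩, ⟨1, 0, 0, 0, 0, 0, 0⟩, ⟨0, 0, 0, 0, 1, 0, 0⟩, ⟨1, 0, 0, 0, 1, 0, 1⟩, ⟨1, 0, 0, 0, 0, 0, 0⟩, ⟨2, 0, 0, 0, 0, 0, 0⟩, ⟨0, 0, 0, 0, 0, 0, 0⟩, ⟨0, 0, 0, 0, 1, 0, 0⟩⟩

def a0_45 : SF := mu 0 276285 522522 0 13740888 0 0 13740888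

def e0_45 : SF := mu 0 1078387 850858 0 0 37662212 38948375 0

def a1_45 : SF := mu 106378 0 65966 0 9618621 0 0 9618621

def e1_45 : SF := mu 0 754892 595601 0 0 28855864 29756179 0

theorem lin45 : chkLin R45 a0_45 e0_45 a1_45 e1_45 = true := by decide +kernel

def o00_45 : T3 :=
(.s 0 8 0 0 0 0 0 14
(.s 0 1 0 0 0 0 0 1
(.lf 3 true 0 false false 0 0) (.s 1 0 0 1 0 0 0 0
(.lf 2 true 0 true false 0 0) (.lf 3 true 0 false false 0 0))) (.s 1 0 0 1 0 0 0 0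
(.s 0 5 0 0 0 0 0 7
(.s 2 0 0 1 0 0 0 0
(.lf 2 false 0 true false 0 0) (.lf 2 false 0 false false 0 0)) (.s 0 4 0 0 0 0 0 4
(.s 1 0 4 12 0 0 0 6
(.s 0 3 0 0 0 0 0 3
(.s 2 0 0 1 0 0 0 0
(.lf 1 false 0 true false 0 0) (.lf 1 false 0 false false 0 0)) (.s 1 0 1 2 0 0 0 0
(.lf 1 false 0 true false 0 0) (.s 2 0 0 1 0 0 0 0
(.lf 1 false 0 true false 0 0) (.lf 1 false 0 false false 0 0)))) (.s 2 0 0 1 0 0 0 0
(.s 0 7 0 0 0 0 0 9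
(.lf 2 false 0 true false 0 0) (.lf 2 false 0 true false 0 0)) (.s 0 7 0 0 0 0 0 9
(.lf 2 false 0 false false 0 0) (.lf 2 false 0 false false 0 0)))) (.s 1 0 1 2 0 0 0 0
(.lf 0 false 0 true false 0 0) (.s 2 0 0 1 0 0 0 0
(.lf 0 false 0 true false 0 0) (.lf 0 false 0 false false 0 0))))) (.s 0 4 0 0 0 0 0 4
(.s 0 7 0 0 0 0 0 9
(.lf 3 false 0 false false 0 0) (.lf 3 false 0 false false 0 0)) (.s 0 11 0 0 0 0 0 11
(.s 1 0 4 12 0 0 0 6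
(.lf 0 false 0 false false 0 0) (.lf 0 false 0 false false 0 0)) (.lf 0 false 0 false false 0 0)))))

theorem ho00_45 : chk3 (leafO 10500000 3 a0_45 e0_45 R45.x0.ap R45.x0.m) o00_45 (full R45) = true := by
  decide +kernel

def o01_45 : T3 :=
(.s 0 8 0 0 0 0 0 14
(.s 0 1 0 0 0 0 0 1
(.lf 3 true 0 false false 0 0) (.s 1 0 0 1 0 0 0 0
(.lf 2 true 0 true false 0 0) (.lf 3 true 0 false false 0 0))) (.s 1 0 0 1 0 0 0 0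
(.s 0 5 0 0 0 0 0 7
(.lf 2 false 0 false false 0 0) (.s 0 4 0 0 0 0 0 4
(.s 1 0 4 12 0 0 0 6
(.lf 1 false 0 false false 0 0) (.lf 2 false 0 false false 0 0)) (.lf 0 false 0 false false 0 0))) (.s 0 4 0 0 0 0 0 4
(.lf 3 false 0 false false 0 0) (.s 0 11 0 0 0 0 0 11
(.s 1 0 4 12 0 0 0 6
(.lf 0 false 0 false false 0 0) (.lf 0 false 0 false false 0 0)) (.lf 0 false 0 false false 0 0)))))

theorem ho01_45 : chk3 (leafO 10500000 3 a0_45 e0_45 R45.x1.ap R45.x1.m) o01_45 (full R45) = true := by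
  decide +kernel

def o10_45 : T3 :=
(.s 0 8 0 0 0 0 0 14
(.s 0 1 0 0 0 0 0 1
(.lf 3 true 0 false false 0 0) (.s 1 0 0 1 0 0 0 0
(.lf 2 true 0 true false 0 0) (.lf 3 true 0 false false 0 0))) (.s 1 0 0 1 0 0 0 0
(.s 0 5 0 0 0 0 0 7
(.lf 2 false 0 false false 0 0) (.s 0 4 0 0 0 0 0 4
(.s 1 0 4 12 0 0 0 6
(.lf 1 false 0 false false 0 0) (.lf 2 false 0 false false 0 0)) (.lf 0 false 0 false false 0 0))) (.s 0 4 0 0 0 0 0 4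
(.lf 3 false 0 false false 0 0) (.s 0 11 0 0 0 0 0 11
(.s 1 0 4 12 0 0 0 6
(.lf 0 false 0 false false 0 0) (.lf 0 false 0 false false 0 0)) (.lf 0 false 0 false false 0 0)))))

theorem ho10_45 : chk3 (leafO 5554500 1 a1_45 e1_45 R45.x0.ap R45.x0.m) o10_45 (full R45) = true := by
  decide +kernel

def o11_45 : T3 :=
(.s 0 8 0 0 0 0 0 14
(.s 0 1 0 0 0 0 0 1
(.lf 3 true 0 false false 0 0) (.s 1 0 0 1 0 0 0 0
(.lf 2 true 0 false false 0 0) (.lf 3 true 0 false false 0 0))) (.s 1 0 0 1 0 0 0 0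
(.s 0 5 0 0 0 0 0 7
(.lf 2 false 0 false false 0 0) (.s 0 4 0 0 0 0 0 4
(.s 1 0 4 12 0 0 0 6
(.lf 1 false 0 false false 0 0) (.lf 2 false 0 false false 0 0)) (.lf 0 false 0 false false 0 0))) (.s 0 4 0 0 0 0 0 4
(.lf 3 false 0 false false 0 0) (.s 0 11 0 0 0 0 0 11
(.s 1 0 4 12 0 0 0 6
(.lf 0 false 0 false false 0 0) (.lf 0 false 0 false false 0 0)) (.lf 0 false 0 false false 0 0)))))

theorem ho11_45 : chk3 (leafO 5554500 1 a1_45 e1_45 R45.x1.ap R45.x1.m) o11_45 (full R45) = true := by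
  decide +kernel

def t0_45_0 : T3 :=
(.s 0 8 0 0 0 0 0 14
(.s 0 1 0 0 0 0 0 1
(.lf 3 true 1 false false 0 0) (.s 1 0 0 1 0 0 0 0
(.lf 2 true 1 false false 0 0) (.lf 3 true 1 false false 0 0))) (.s 1 0 0 1 0 0 0 0
(.s 0 5 0 0 0 0 0 7
(.lf 2 false 1 false false 0 0) (.s 0 4 0 0 0 0 0 4
(.s 1 0 4 12 0 0 0 6
(.lf 1 false 1 false false 0 0) (.lf 2 false 1 false false 0 0)) (.lf 0 false 0 false false 0 0))) (.s 0 4 0 0 0 0 0 4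
(.lf 3 false 1 false false 0 0) (.s 0 11 0 0 0 0 0 11
(.s 1 0 4 12 0 0 0 6
(.lf 0 false 1 false false 0 0) (.lf 0 false 1 false false 0 0)) (.lf 0 false 0 false false 0 0)))))

def i0_45 : T2 :=
(.k 259232 0 0 604208 389848 0 t0_45_0)

theorem hi0_45 : chk2 (leaf0 a0_45 e0_45) 0 i0_45 R45 = true := by
  decide +kernel

def t1_45_0 : T3 :=
(.s 0 8 0 0 0 0 0 14
(.s 0 1 0 0 0 0 0 1
(.s 4 0 0 0 0 2 0 10
(.lf 3 true 1 true false 0 0) (.lf 3 true 1 false false 0 0)) (.s 1 0 0 1 0 0 0 0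
(.lf 2 true 2 true false 0 0) (.lf 3 true 2 true false 0 0))) (.s 1 0 0 1 0 0 0 0
(.s 0 5 0 0 0 0 0 7
(.lf 2 false 2 true false 0 0) (.s 0 4 0 0 0 0 0 4
(.s 1 0 4 12 0 0 0 6
(.lf 1 false 2 false false 0 0) (.lf 2 false 2 true false 0 0)) (.lf 0 false 2 false false 0 0))) (.s 0 4 0 0 0 0 0 4
(.lf 3 false 2 true false 0 0) (.s 0 11 0 0 0 0 0 11
(.s 1 0 4 12 0 0 0 6
(.lf 0 false 2 false false 0 0) (.lf 0 false 2 false false 0 0)) (.lf 0 false 2 true false 0 0)))))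

def t1_45_1 : T3 :=
(.s 0 8 0 0 0 0 0 14
(.s 0 1 0 0 0 0 0 1
(.s 1 3243979 0 0 0 0 0 3731954
(.s 2 237758 0 0 0 3725725 0 3719494
(.lf 3 true 1 false true 1 0) (.lf 3 true 1 false false 2 0)) (.lf 3 true 1 false true 1 0)) (.s 1 0 0 1 0 0 0 0
(.s 2 237758 0 0 0 3725725 0 3719494
(.s 3 11 0 0 11 0 0 3
(.s 4 1 0 0 1 0 0 0
(.lf 2 true 1 false true 1 0) (.lf 2 true 0 false true 1 0)) (.lf 2 true 0 false true 1 0)) (.lf 2 true 2 false false 1 0)) (.s 1 3243979 0 0 0 0 0 3731954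
(.s 2 237758 0 0 0 3725725 0 3719494
(.s 3 11 0 0 11 0 0 3
(.s 4 1 0 0 1 0 0 0
(.lf 3 true 1 false true 1 0) (.lf 3 true 0 false true 1 0)) (.lf 3 true 0 false true 1 0)) (.lf 3 true 2 false false 1 0)) (.s 3 3 0 0 0 0 0 1
(.lf 3 true 1 false true 1 0) (.lf 3 true 0 false true 1 0))))) (.s 1 0 0 1 0 0 0 0
(.s 0 5 0 0 0 0 0 7
(.s 2 237758 0 0 0 3725725 0 3719494
(.s 3 11 0 0 11 0 0 3
(.s 4 1 0 0 1 0 0 0
(.lf 2 false 1 false true 1 0) (.lf 2 false 0 false true 1 0)) (.lf 2 false 0 false true 1 0)) (.lf 2 false 2 false false 1 0)) (.s 0 4 0 0 0 0 0 4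
(.s 1 0 4 12 0 0 0 6
(.s 2 237758 0 0 0 3725725 0 3719494
(.lf 1 false 0 true true 1 0) (.lf 1 false 2 false false 1 0)) (.s 2 237758 0 0 0 3725725 0 3719494
(.lf 2 false 0 false true 1 0) (.lf 2 false 2 false false 1 0))) (.s 0 3243979 0 0 0 0 0 3731954
(.s 2 237758 0 0 0 3725725 0 3719494
(.lf 0 false 0 false true 1 0) (.lf 0 false 2 false false 1 0)) (.s 1 3243979 0 0 0 0 0 3731954
(.s 2 237758 0 0 0 3725725 0 3719494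
(.lf 0 false 0 false true 1 0) (.lf 0 false 2 false false 1 0)) (.lf 0 false 0 true true 1 0))))) (.s 0 4 0 0 0 0 0 4
(.s 1 3243979 0 0 0 0 0 3731954
(.s 2 237758 0 0 0 3725725 0 3719494
(.s 0 7 0 0 0 0 0 10
(.s 3 11 0 0 11 0 0 3
(.s 4 1 0 0 1 0 0 0
(.lf 3 false 1 false true 1 0) (.lf 3 false 0 false true 1 0)) (.lf 3 false 0 false true 1 0)) (.lf 3 false 0 false true 1 0)) (.lf 3 false 2 false false 1 0)) (.s 0 7 0 0 0 0 0 10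
(.s 3 11 0 0 11 0 0 3
(.s 4 1 0 0 1 0 0 0
(.lf 3 false 1 false true 1 0) (.lf 3 false 0 false true 1 0)) (.lf 3 false 0 false true 1 0)) (.lf 3 false 0 false true 1 0))) (.s 0 11 0 0 0 0 0 11
(.s 1 0 4 12 0 0 0 6
(.s 0 3243979 0 0 0 0 0 3731954
(.s 0 37635673 0 0 0 0 0 44783459
(.s 2 237758 0 0 0 3725725 0 3719494
(.lf 0 false 0 true true 1 0) (.lf 0 false 2 false false 1 0)) (.s 1 3243979 0 0 0 0 0 3731954
(.s 2 237758 0 0 0 3725725 0 3719494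
(.lf 0 false 0 false true 1 0) (.lf 0 false 2 false false 1 0)) (.lf 0 false 0 true true 1 0))) (.lf 0 false 0 true true 1 0)) (.s 0 37635673 0 0 0 0 0 44783459
(.s 1 3243979 0 0 0 0 0 3731954
(.s 2 237758 0 0 0 3725725 0 3719494
(.lf 0 false 0 false true 1 0) (.lf 0 false 2 false false 1 0)) (.lf 0 false 0 true true 1 0)) (.lf 0 false 0 true true 1 0))) (.lf 0 false 0 true true 1 0)))))

def i1_45 : T2 :=
(.s 3 0 0 4 0 10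
(.k 130667 0 0 478667 478667 0 t1_45_0) (.k 937758 0 0 3719495 3725725 0 t1_45_1))

theorem hi1_45 : chk2 (leaf1 a1_45 e1_45) 10000 i1_45 R45 = true := by
  decide +kernel

theorem ok45 : CellOk R45 a0_45 e0_45 a1_45 e1_45 :=
  ⟨lin45, ⟨_, ho00_45⟩, ⟨_, ho01_45⟩, ⟨_, ho10_45⟩, ⟨_, ho11_45⟩, ⟨_, hi0_45⟩, ⟨_, hi1_45⟩⟩

end

end Vale.Agent.P334.Cert
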