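import Vale.Agent.P334.CertDefs

/-!
Data of the dual certificate, checked cell by cell.
-/

namespace Vale.Agent.P334.Cert

noncomputable section

def R0 : Reg := ⟨⟨0, 0, 0, 0, 0, 0, 0⟩, ⟨1, 0, 0, 0, 0, 0, 0⟩, ⟨0, 0, 0, 0, 0, 0, 0⟩, ⟨1, 0, 0, 0, 0, 0, 3⟩, ⟨0, 0, 0, 0, 0, 0, 0⟩, ⟨0, 0, 0, 0, 1, 0, 0⟩, ⟨0, 0, 0, 0, 0, 0, 0⟩, ⟨1, 0, 0, 0, 0, 0, 9⟩, ⟨0, 0, 0, 0, 0, 0, 0⟩, ⟨0, 0, 0, 0, 1, 0, 0⟩⟩

def a0_0 : SF := mu 0 0 105690 0 0 6995 6995 0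

def e0_0 : SF := mu 0 0 1586114 0 3469634 0 0 3469634

def a1_0 : SF := mu 0 0 56628 0 0 4875 4875 0

def e1_0 : SF := mu 0 0 1110259 0 2668973 0 0 2668973

theorem lin0 : chkLin R0 a0_0 e0_0 a1_0 e1_0 = true := by decide +kernel

def o00_0 : T3 :=
(.s 0 8 0 0 0 0 0 14
(.s 0 1 0 0 0 0 0 3
(.s 1 0 0 1 0 0 0 0
(.lf 2 true 0 true false 0 0) (.lf 3 true 0 false false 0 0)) (.s 0 1 0 0 0 0 0 2
(.lf 2 true 0 true false 0 0) (.s 0 23 0 0 0 0 0 47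
(.s 1 0 4 12 0 0 0 6
(.lf 1 true 0 true false 0 0) (.lf 2 true 0 true false 0 0)) (.lf 1 true 0 true false 0 0)))) (.lf 1 false 0 true false 0 0))

theorem ho00_0 : chk3 (leafO 10500000 3 a0_0 e0_0 R0.x0.ap R0.x0.m) o00_0 (full R0) = true := by
  decide +kernel

def o01_0 : T3 :=
(.s 0 8 0 0 0 0 0 14
(.s 0 1 0 0 0 0 0 3
(.s 1 0 0 1 0 0 0 0
(.lf 2 true 0 true false 0 0) (.lf 3 true 0 false false 0 0)) (.s 0 1 0 0 0 0 0 2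
(.lf 2 true 0 true false 0 0) (.s 0 23 0 0 0 0 0 47
(.s 1 0 4 12 0 0 0 6
(.lf 1 true 0 true false 0 0) (.lf 2 true 0 true false 0 0)) (.lf 1 true 0 true false 0 0)))) (.lf 1 false 0 true false 0 0))

theorem ho01_0 : chk3 (leafO 10500000 3 a0_0 e0_0 R0.x1.ap R0.x1.m) o01_0 (full R0) = true := by
  decide +kernel

def o10_0 : T3 :=
(.s 0 8 0 0 0 0 0 14
(.s 0 1 0 0 0 0 0 3
(.s 1 0 0 1 0 0 0 0
(.s 1 0 0 1 0 0 0 1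
(.lf 2 true 0 true false 0 0) (.lf 2 true 0 true false 0 0)) (.lf 3 true 0 false false 0 0)) (.s 0 1 0 0 0 0 0 2
(.s 1 1 0 0 0 0 0 9
(.lf 2 true 0 true false 0 0) (.lf 2 true 0 true false 0 0)) (.s 0 23 0 0 0 0 0 47
(.s 1 0 4 12 0 0 0 6
(.lf 1 true 0 true false 0 0) (.lf 2 true 0 true false 0 0)) (.lf 1 true 0 true false 0 0)))) (.lf 1 false 0 true false 0 0))

theorem ho10_0 : chk3 (leafO 5554500 1 a1_0 e1_0 R0.x0.ap R0.x0.m) o10_0 (full R0) = true := by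
  decide +kernel

def o11_0 : T3 :=
(.s 0 8 0 0 0 0 0 14
(.s 0 1 0 0 0 0 0 3
(.s 1 0 0 1 0 0 0 0
(.lf 2 true 0 true false 0 0) (.lf 3 true 0 false false 0 0)) (.s 0 1 0 0 0 0 0 2
(.lf 2 true 0 true false 0 0) (.s 0 23 0 0 0 0 0 47
(.s 1 0 4 12 0 0 0 6
(.lf 1 true 0 true false 0 0) (.lf 2 true 0 true false 0 0)) (.lf 1 true 0 true false 0 0)))) (.lf 1 false 0 true false 0 0))

theorem ho11_0 : chk3 (leafO 5554500 1 a1_0 e1_0 R0.x1.ap R0.x1.m) o11_0 (full R0) = true := by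
  decide +kernel

def t0_0_0 : T3 :=
(.s 0 8 0 0 0 0 0 14
(.s 0 1 0 0 0 0 0 3
(.s 1 0 0 1 0 0 0 0
(.s 0 1 0 0 0 0 0 9
(.lf 2 true 1 true false 0 0) (.s 1 0 0 1 0 0 0 1
(.s 0 1 0 0 0 0 0 4
(.s 0 3 0 0 0 0 0 19
(.lf 2 true 1 true false 0 0) (.s 1 0 0 1 0 0 0 3
(.s 0 7 0 0 0 0 0 39
(.lf 2 true 1 true false 0 0) (.s 1 0 0 1 0 0 0 7
(.lf 2 true 1 true false 0 0) (.lf 2 true 1 true false 0 0))) (.lf 2 true 1 true false 0 0))) (.s 1 0 0 1 0 0 0 3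
(.s 0 9 0 0 0 0 0 39
(.lf 2 true 1 true false 0 0) (.lf 2 true 1 true false 0 0)) (.s 1 0 0 3 0 0 0 7
(.s 0 9 0 0 0 0 0 39
(.lf 2 true 1 true false 0 0) (.lf 2 true 1 true false 0 0)) (.lf 2 true 1 true false 0 0)))) (.lf 2 true 1 true false 0 0))) (.lf 3 true 1 true false 0 0)) (.s 0 1 0 0 0 0 0 2
(.s 1 1 0 0 0 0 0 9
(.lf 2 true 1 true false 0 0) (.s 1 1 0 0 0 0 0 4
(.s 0 3 0 0 0 0 0 9
(.s 1 3 0 0 0 0 0 19
(.s 0 11 0 0 0 0 0 39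
(.s 1 1 0 0 0 0 0 7
(.lf 2 true 1 true false 0 0) (.lf 2 true 1 true false 0 0)) (.lf 2 true 1 true false 0 0)) (.s 0 11 0 0 0 0 0 39
(.lf 2 true 1 true false 0 0) (.s 0 29 0 0 0 0 0 99
(.lf 2 true 1 true false 0 0) (.lf 2 true 1 true false 0 0)))) (.s 1 3 0 0 0 0 0 19
(.lf 2 true 1 true false 0 0) (.s 1 7 0 0 0 0 0 39
(.lf 2 true 1 true false 0 0) (.lf 2 true 1 true false 0 0)))) (.s 0 3 0 0 0 0 0 9
(.lf 2 true 1 true false 0 0) (.lf 2 true 1 true false 0 0)))) (.s 0 23 0 0 0 0 0 47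
(.s 1 0 4 12 0 0 0 6
(.lf 1 true 1 false false 0 0) (.s 1 0 9 48 0 0 0 55
(.lf 2 true 1 true false 0 0) (.s 0 2 0 0 0 0 0 4
(.s 1 5 0 48 0 0 0 111
(.lf 2 true 1 true false 0 0) (.s 0 3 0 0 0 0 0 7
(.s 1 33 0 48 0 0 0 223
(.lf 2 true 1 true false 0 0) (.s 0 7 0 0 0 0 0 19
(.lf 2 true 1 true false 0 0) (.lf 2 true 1 true false 0 0))) (.lf 2 true 1 true false 0 0))) (.lf 2 true 1 true false 0 0)))) (.lf 1 true 1 false false 0 0)))) (.lf 1 false 0 false false 0 0))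

def t0_0_1 : T3 :=
(.s 0 8 0 0 0 0 0 14
(.s 0 1 0 0 0 0 0 3
(.s 1 0 0 1 0 0 0 0
(.s 0 1 0 0 0 0 0 9
(.lf 2 true 1 true false 0 0) (.s 1 0 0 1 0 0 0 1
(.s 0 1 0 0 0 0 0 4
(.lf 2 true 1 true false 0 0) (.lf 2 true 1 true false 0 0)) (.lf 2 true 1 true false 0 0))) (.lf 3 true 1 true false 0 0)) (.s 0 1 0 0 0 0 0 2
(.s 1 1 0 0 0 0 0 9
(.lf 2 true 1 true false 0 0) (.s 1 1 0 0 0 0 0 4
(.s 0 3 0 0 0 0 0 9
(.lf 2 true 1 true false 0 0) (.lf 2 true 1 true false 0 0)) (.lf 2 true 1 true false 0 0))) (.s 0 23 0 0 0 0 0 47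
(.s 1 0 4 12 0 0 0 6
(.lf 1 true 1 false false 0 0) (.lf 2 true 1 true false 0 0)) (.lf 1 true 1 false false 0 0)))) (.lf 1 false 0 false false 0 0))

def t0_0_2 : T3 :=
(.s 0 8 0 0 0 0 0 14
(.s 0 1 0 0 0 0 0 3
(.s 1 0 0 1 0 0 0 0
(.s 0 1 0 0 0 0 0 9
(.lf 2 true 1 true false 0 0) (.s 1 0 0 1 0 0 0 1
(.s 0 1 0 0 0 0 0 4
(.s 0 3 0 0 0 0 0 19
(.lf 2 true 1 true false 0 0) (.lf 2 true 1 true false 0 0)) (.lf 2 true 1 true false 0 0)) (.s 1 0 0 3 0 0 0 3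
(.s 0 1 0 0 0 0 0 4
(.lf 2 true 1 true false 0 0) (.lf 2 true 1 true false 0 0)) (.lf 2 true 1 true false 0 0)))) (.s 0 1 0 0 0 0 0 9
(.lf 3 true 1 true false 0 0) (.lf 3 true 1 true false 0 0))) (.s 0 1 0 0 0 0 0 2
(.s 1 1 0 0 0 0 0 9
(.lf 2 true 1 true false 0 0) (.s 1 1 0 0 0 0 0 4
(.lf 2 true 1 true false 0 0) (.s 0 3 0 0 0 0 0 9
(.lf 2 true 1 true false 0 0) (.lf 2 true 1 true false 0 0)))) (.s 0 23 0 0 0 0 0 47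
(.s 1 0 4 12 0 0 0 6
(.lf 1 true 1 false false 0 0) (.lf 2 true 1 true false 0 0)) (.lf 1 true 1 false false 0 0)))) (.lf 1 false 0 false false 0 0))

def i0_0 : T2 :=
(.s 3 0 0 1000 0 2736
(.s 3 0 0 1 0 4
(.k 117280 0 277037 0 0 465120 t0_0_0) (.k 164507 0 0 5000000 4823492 0 t0_0_1)) (.k 290797 0 461720 0 0 640151 t0_0_2))

theorem hi0_0 : chk2 (leaf0 a0_0 e0_0) 0 i0_0 R0 = true := by
  decide +kernel

def t1_0_0 : T3 :=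
(.s 0 8 0 0 0 0 0 14
(.s 0 1 0 0 0 0 0 3
(.s 1 0 0 1 0 0 0 0
(.s 1 0 0 1 0 0 0 1
(.s 0 1 0 0 0 0 0 9
(.lf 2 true 1 true false 0 1) (.s 1 0 0 1 0 0 0 3
(.s 0 1 0 0 0 0 0 4
(.lf 2 true 1 true false 0 1) (.lf 2 true 1 true false 0 1)) (.s 0 1 0 0 0 0 0 4
(.lf 2 true 1 true false 0 1) (.lf 2 true 1 true false 0 1)))) (.lf 2 true 1 true false 0 1)) (.lf 3 true 1 true false 0 1)) (.s 0 1 0 0 0 0 0 2
(.s 1 1 0 0 0 0 0 9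
(.s 1 1 0 0 0 0 0 19
(.lf 2 true 1 true false 0 1) (.s 0 3 0 0 0 0 0 9
(.s 0 11 0 0 0 0 0 39
(.lf 2 true 1 true false 0 1) (.lf 2 true 1 true false 0 1)) (.lf 2 true 1 true false 0 1))) (.s 1 1 0 0 0 0 0 4
(.s 1 3 0 0 0 0 0 19
(.s 0 3 0 0 0 0 0 9
(.lf 2 true 1 true false 0 1) (.s 1 1 0 0 0 0 0 7
(.lf 2 true 1 true false 0 1) (.lf 2 true 1 true false 0 1))) (.s 0 3 0 0 0 0 0 9
(.lf 2 true 1 true false 0 1) (.lf 2 true 1 true false 0 1))) (.s 0 3 0 0 0 0 0 9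
(.lf 2 true 1 true false 0 1) (.lf 2 true 1 true false 0 1)))) (.s 0 23 0 0 0 0 0 47
(.s 1 0 4 12 0 0 0 6
(.s 0 2 0 0 0 0 0 4
(.lf 1 true 1 false false 0 1) (.lf 1 true 1 false false 0 1)) (.s 1 0 9 48 0 0 0 55
(.s 0 2 0 0 0 0 0 4
(.lf 2 true 1 true false 0 1) (.lf 2 true 1 true false 0 1)) (.s 0 2 0 0 0 0 0 4
(.s 1 5 0 48 0 0 0 111
(.lf 2 true 1 true false 0 1) (.s 0 3 0 0 0 0 0 7
(.lf 2 true 1 true false 0 1) (.lf 2 true 1 true false 0 1))) (.lf 2 true 1 true false 0 1)))) (.lf 1 true 1 false false 0 1)))) (.s 0 24763 0 0 0 0 0 27499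
(.lf 1 false 1 false false 0 2) (.s 3 2750 0 0 2750 0 0 2736
(.lf 0 false 1 false false 0 2) (.s 4 1000 0 0 1000 0 0 2736
(.lf 0 false 2 false false 0 0) (.lf 0 false 2 false false 0 0)))))

def t1_0_1 : T3 :=
(.s 0 8 0 0 0 0 0 14
(.s 0 1 0 0 0 0 0 3
(.s 1 0 0 1 0 0 0 0
(.lf 2 true 1 true false 2 1) (.lf 3 true 1 true false 2 1)) (.s 0 1 0 0 0 0 0 2
(.lf 2 true 1 true false 2 1) (.s 0 23 0 0 0 0 0 47
(.s 1 0 4 12 0 0 0 6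
(.lf 1 true 1 true false 1 1) (.lf 2 true 1 true false 2 1)) (.lf 1 true 1 false false 1 1)))) (.s 0 3 0 0 0 0 0 3
(.lf 1 false 1 false false 1 1) (.s 1 274143 0 0 0 0 0 2829913
(.s 0 9 0 0 0 0 0 9
(.lf 1 false 1 true false 2 2) (.s 3 110 0 0 110 0 0 116
(.lf 0 false 1 false false 1 1) (.s 3 1 0 0 1 0 0 0
(.s 4 0 10 10 0 11 0 0
(.lf 0 false 0 false true 1 0) (.lf 0 false 0 false true 1 1)) (.lf 0 false 0 false true 1 0)))) (.s 2 274143 0 0 0 0 0 2829913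
(.s 0 9 0 0 0 0 0 9
(.lf 1 false 1 true false 2 2) (.s 3 110 0 0 110 0 0 116
(.lf 0 false 1 false false 1 1) (.s 3 1 0 0 1 0 0 0
(.s 4 0 10 10 0 11 0 0
(.lf 0 false 0 false true 1 0) (.lf 0 false 0 false true 1 1)) (.lf 0 false 0 false true 1 0)))) (.s 0 9 0 0 0 0 0 9
(.lf 1 false 1 false false 2 2) (.s 3 110 0 0 110 0 0 116
(.lf 0 false 1 false false 1 1) (.s 3 1 0 0 1 0 0 0
(.s 4 0 10 10 0 11 0 0
(.lf 0 false 1 false false 1 0) (.lf 0 false 1 false false 1 1)) (.lf 0 false 2 false false 1 0))))))))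

def i1_0 : T2 :=
(.s 3 0 0 4 0 10
(.k 142197 0 0 236762 0 9865 t1_0_0) (.k 974143 0 0 2829914 0 0 t1_0_1))

theorem hi1_0 : chk2 (leaf1 a1_0 e1_0) 10000 i1_0 R0 = true := by
  decide +kernel

theorem ok0 : CellOk R0 a0_0 e0_0 a1_0 e1_0 :=
  ⟨lin0, ⟨_, ho00_0⟩, ⟨_, ho01_0⟩, ⟨_, ho10_0⟩, ⟨_, ho11_0⟩, ⟨_, hi0_0⟩, ⟨_, hi1_0⟩⟩

def R5 : Reg := ⟨⟨0, 0, 0, 0, 0, 0, 0⟩, ⟨1, 0, 0, 0, 0, 0, 0⟩, ⟨0, 0, 0, 0, 0, 0, 0⟩, ⟨1, 0, 0, 0, 0, 0, 1⟩, ⟨0, 0, 0, 0, 1, 0, 0⟩, ⟨1, 0, 0, 0, 7, 0, 7⟩, ⟨1, 0, 0, 0, 0, 0, 3⟩, ⟨1, 0, 0, 0, 0, 0, 1⟩, ⟨0, 0, 0, 0, 0, 0, 0⟩, ⟨0, 0, 0, 0, 1, 0, 0⟩⟩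

def a0_5 : SF := mu 0 0 0 0 1159113 0 0 905299

def e0_5 : SF := mu 0 0 0 0 84950 0 0 512657

def a1_5 : SF := mu 0 0 0 0 629432 0 0 451804

def e1_5 : SF := mu 0 0 0 0 59444 0 0 388496

theorem lin5 : chkLin R5 a0_5 e0_5 a1_5 e1_5 = true := by decide +kernel

def o00_5 : T3 :=
(.s 0 8 0 0 0 0 0 14
(.s 0 1 0 0 0 0 0 1
(.s 1 0 0 1 0 0 0 0
(.s 0 1 0 0 0 0 0 2
(.s 0 1 0 0 0 0 0 7
(.s 2 0 0 1 0 0 0 0
(.lf 2 true 0 true false 0 0) (.lf 2 true 0 false false 0 0)) (.s 1 0 1 8 0 0 0 6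
(.lf 2 true 0 true false 0 0) (.s 2 0 0 1 0 0 0 0
(.lf 2 true 0 true false 0 0) (.lf 2 true 0 false false 0 0)))) (.s 1 0 4 12 0 0 0 6
(.lf 1 true 0 true false 0 0) (.s 1 0 1 8 0 0 0 6
(.lf 2 true 0 true false 0 0) (.s 2 0 0 1 0 0 0 0
(.lf 2 true 0 true false 0 0) (.lf 2 true 0 false false 0 0))))) (.lf 3 true 0 false false 0 0)) (.s 1 0 4 12 0 0 0 6
(.lf 1 true 0 true false 0 0) (.lf 2 true 0 true false 0 0))) (.s 0 5 0 0 0 0 0 7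
(.s 1 0 4 12 0 0 0 6
(.lf 1 false 0 true false 0 0) (.lf 2 false 0 true false 0 0)) (.lf 1 false 0 true false 0 0)))

theorem ho00_5 : chk3 (leafO 10500000 3 a0_5 e0_5 R5.x0.ap R5.x0.m) o00_5 (full R5) = true := by
  decide +kernel

def o01_5 : T3 :=
(.s 0 8 0 0 0 0 0 14
(.s 0 1 0 0 0 0 0 1
(.s 1 0 0 1 0 0 0 0
(.s 0 1 0 0 0 0 0 2
(.s 0 1 0 0 0 0 0 7
(.s 2 0 0 1 0 0 0 0
(.lf 2 true 0 true false 0 0) (.lf 2 true 0 false false 0 0)) (.s 1 0 1 8 0 0 0 6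
(.lf 2 true 0 true false 0 0) (.s 2 0 0 1 0 0 0 0
(.lf 2 true 0 true false 0 0) (.lf 2 true 0 false false 0 0)))) (.s 1 0 4 12 0 0 0 6
(.lf 1 true 0 true false 0 0) (.s 1 0 1 8 0 0 0 6
(.lf 2 true 0 true false 0 0) (.s 2 0 0 1 0 0 0 0
(.lf 2 true 0 true false 0 0) (.lf 2 true 0 false false 0 0))))) (.lf 3 true 0 false false 0 0)) (.s 1 0 4 12 0 0 0 6
(.lf 1 true 0 true false 0 0) (.s 1 0 1 8 0 0 0 6
(.lf 2 true 0 true false 0 0) (.s 2 0 0 1 0 0 0 0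
(.lf 2 true 0 true false 0 0) (.lf 2 true 0 false false 0 0))))) (.s 0 5 0 0 0 0 0 7
(.s 1 0 4 12 0 0 0 6
(.lf 1 false 0 true false 0 0) (.s 0 9 0 0 0 0 0 15
(.s 1 0 1 8 0 0 0 6
(.lf 2 false 0 true false 0 0) (.s 2 0 0 1 0 0 0 0
(.lf 2 false 0 true false 0 0) (.lf 2 false 0 false false 0 0))) (.lf 2 false 0 true false 0 0))) (.lf 1 false 0 true false 0 0)))

theorem ho01_5 : chk3 (leafO 10500000 3 a0_5 e0_5 R5.x1.ap R5.x1.m) o01_5 (full R5) = true := by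
  decide +kernel

def o10_5 : T3 :=
(.s 0 8 0 0 0 0 0 14
(.s 0 1 0 0 0 0 0 1
(.s 1 0 0 1 0 0 0 0
(.s 0 1 0 0 0 0 0 2
(.s 0 1 0 0 0 0 0 7
(.s 2 0 0 1 0 0 0 0
(.lf 2 true 0 true false 0 0) (.lf 2 true 0 false false 0 0)) (.s 1 0 1 8 0 0 0 6
(.lf 2 true 0 true false 0 0) (.s 2 0 0 1 0 0 0 0
(.lf 2 true 0 true false 0 0) (.lf 2 true 0 false false 0 0)))) (.s 1 0 4 12 0 0 0 6
(.lf 1 true 0 true false 0 0) (.lf 2 true 0 true false 0 0))) (.lf 3 true 0 false false 0 0)) (.s 1 0 4 12 0 0 0 6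
(.lf 1 true 0 true false 0 0) (.lf 2 true 0 true false 0 0))) (.s 0 5 0 0 0 0 0 7
(.s 1 0 4 12 0 0 0 6
(.lf 1 false 0 true false 0 0) (.lf 2 false 0 true false 0 0)) (.lf 1 false 0 true false 0 0)))

theorem ho10_5 : chk3 (leafO 5554500 1 a1_5 e1_5 R5.x0.ap R5.x0.m) o10_5 (full R5) = true := by
  decide +kernel

def o11_5 : T3 :=
(.s 0 8 0 0 0 0 0 14
(.s 0 1 0 0 0 0 0 1
(.s 1 0 0 1 0 0 0 0
(.s 0 1 0 0 0 0 0 2
(.s 0 1 0 0 0 0 0 7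
(.s 2 0 0 1 0 0 0 0
(.s 1 0 0 1 0 0 0 1
(.lf 2 true 0 true false 0 0) (.lf 2 true 0 true false 0 0)) (.s 1 0 0 1 0 0 0 1
(.lf 2 true 0 false false 0 0) (.lf 2 true 0 false false 0 0))) (.s 1 0 1 8 0 0 0 6
(.lf 2 true 0 true false 0 0) (.s 2 0 0 1 0 0 0 0
(.s 1 0 1 15 0 0 0 13
(.s 0 1 0 0 0 0 0 3
(.s 0 1 0 0 0 0 0 4
(.lf 2 true 0 true false 0 0) (.lf 2 true 0 true false 0 0)) (.lf 2 true 0 true false 0 0)) (.lf 2 true 0 true false 0 0)) (.s 1 0 1 15 0 0 0 13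
(.s 0 1 0 0 0 0 0 3
(.s 0 1 0 0 0 0 0 4
(.lf 2 true 0 false false 0 0) (.lf 2 true 0 false false 0 0)) (.lf 2 true 0 false false 0 0)) (.lf 2 true 0 false false 0 0))))) (.s 1 0 4 12 0 0 0 6
(.lf 1 true 0 true false 0 0) (.s 1 0 1 8 0 0 0 6
(.lf 2 true 0 true false 0 0) (.s 2 0 0 1 0 0 0 0
(.lf 2 true 0 true false 0 0) (.lf 2 true 0 false false 0 0))))) (.lf 3 true 0 false false 0 0)) (.s 1 0 4 12 0 0 0 6
(.lf 1 true 0 true false 0 0) (.lf 2 true 0 true false 0 0))) (.s 0 5 0 0 0 0 0 7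
(.s 1 0 4 12 0 0 0 6
(.lf 1 false 0 true false 0 0) (.lf 2 false 0 true false 0 0)) (.lf 1 false 0 true false 0 0)))

theorem ho11_5 : chk3 (leafO 5554500 1 a1_5 e1_5 R5.x1.ap R5.x1.m) o11_5 (full R5) = true := by
  decide +kernel

def R5_0a : Reg := hi R5 (Nat.succ 3) ⟨0, 0, 0, 0, 1, 0, 1⟩

def R5_0b : Reg := lo R5 (Nat.succ 3) ⟨0, 0, 0, 0, 1, 0, 1⟩

def t0_5a_0 : T3 :=
(.s 0 8 0 0 0 0 0 14
(.s 0 1 0 0 0 0 0 1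
(.s 1 0 0 1 0 0 0 0
(.s 0 1 0 0 0 0 0 2
(.s 0 1 0 0 0 0 0 4
(.s 0 1 0 0 0 0 0 9
(.lf 2 true 1 true false 0 0) (.s 1 0 0 1 0 0 0 1
(.lf 2 true 1 true false 0 0) (.lf 2 true 1 true false 0 0))) (.s 1 0 0 1 0 0 0 1
(.lf 2 true 1 true false 0 0) (.s 0 1 0 0 0 0 0 3
(.lf 2 true 1 true false 0 0) (.lf 2 true 1 true false 0 0)))) (.s 1 0 4 12 0 0 0 6
(.lf 1 true 1 false false 0 0) (.s 1 0 4 19 0 0 0 13
(.lf 2 true 1 true false 0 0) (.lf 2 true 1 true false 0 0)))) (.lf 3 true 1 true false 0 0)) (.s 1 0 4 12 0 0 0 6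
(.lf 1 true 1 true false 0 0) (.lf 2 true 1 true false 0 0))) (.s 0 5 0 0 0 0 0 7
(.s 1 0 4 12 0 0 0 6
(.lf 1 false 1 false false 0 0) (.lf 2 false 1 true false 0 0)) (.lf 1 false 0 false false 0 0)))

def t0_5a_1 : T3 :=
(.s 0 8 0 0 0 0 0 14
(.s 0 1 0 0 0 0 0 1
(.s 1 0 0 1 0 0 0 0
(.s 0 1 0 0 0 0 0 2
(.s 0 1 0 0 0 0 0 4
(.s 0 1 0 0 0 0 0 9
(.lf 2 true 1 true false 0 0) (.lf 2 true 1 true false 0 0)) (.lf 2 true 1 true false 0 0)) (.s 1 0 4 12 0 0 0 6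
(.lf 1 true 1 false false 0 0) (.lf 2 true 1 true false 0 0))) (.s 0 1 0 0 0 0 0 3
(.lf 3 true 1 true false 0 0) (.lf 3 true 1 true false 0 0))) (.s 1 0 4 12 0 0 0 6
(.lf 1 true 1 false false 0 0) (.lf 2 true 1 true false 0 0))) (.s 0 5 0 0 0 0 0 7
(.s 1 0 4 12 0 0 0 6
(.lf 1 false 1 false false 0 0) (.lf 2 false 1 true false 0 0)) (.lf 1 false 0 true false 0 0)))

def t0_5a_2 : T3 :=
(.s 0 8 0 0 0 0 0 14
(.s 0 1 0 0 0 0 0 1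
(.s 1 0 0 1 0 0 0 0
(.s 0 1 0 0 0 0 0 2
(.lf 2 true 1 true false 0 0) (.s 1 0 4 12 0 0 0 6
(.lf 1 true 1 false false 0 0) (.lf 2 true 1 true false 0 0))) (.lf 3 true 1 true false 0 0)) (.s 1 0 4 12 0 0 0 6
(.lf 1 true 1 true false 0 0) (.lf 2 true 1 false false 0 0))) (.s 0 5 0 0 0 0 0 7
(.s 1 0 4 12 0 0 0 6
(.lf 1 false 1 false false 0 0) (.lf 2 false 1 false false 0 0)) (.lf 1 false 0 true false 0 0)))

def i0_5a : T2 :=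
(.s 3 0 0 1000 0 2736
(.k 35962 0 798760 0 0 868683 t0_5a_0) (.s 2 2 0 0 0 4
(.k 941817 0 0 5000000 4154554 0 t0_5a_1) (.k 398500 0 374859 0 279172 0 t0_5a_2)))

theorem hi0_5a : chk2 (leaf0 a0_5 e0_5) 0 i0_5a R5_0a = true := by
  decide +kernel

def R5_0ba : Reg := hi R5_0b (Nat.succ 0) ⟨1, 0, 0, 0, 0, 0, 3⟩

def R5_0bb : Reg := lo R5_0b (Nat.succ 0) ⟨1, 0, 0, 0, 0, 0, 3⟩

def R5_0baa : Reg := hi R5_0ba (Nat.succ 2) ⟨2, 0, 0, 0, 0, 0, 4⟩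

def R5_0bab : Reg := lo R5_0ba (Nat.succ 2) ⟨2, 0, 0, 0, 0, 0, 4⟩

def t0_5baa_0 : T3 :=
(.s 0 8 0 0 0 0 0 14
(.s 0 1 0 0 0 0 0 3
(.s 1 0 0 1 0 0 0 0
(.s 0 1 0 0 0 0 0 9
(.lf 2 true 1 true false 0 0) (.lf 2 true 1 true false 0 0)) (.lf 3 true 1 true false 0 0)) (.s 0 1 0 0 0 0 0 2
(.lf 2 true 1 true false 0 0) (.s 0 23 0 0 0 0 0 47
(.s 1 0 4 12 0 0 0 6
(.lf 1 true 1 false false 0 0) (.lf 2 true 1 true false 0 0)) (.lf 1 true 1 true false 0 0)))) (.lf 1 false 0 false false 0 0))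

def t0_5baa_1 : T3 :=
(.s 0 8 0 0 0 0 0 14
(.s 0 1 0 0 0 0 0 9
(.s 1 0 0 1 0 0 0 0
(.lf 2 true 1 true false 0 0) (.lf 3 true 1 true false 0 0)) (.s 0 1 0 0 0 0 0 2
(.lf 2 true 1 true false 0 0) (.s 0 47 0 0 0 0 0 119
(.s 1 0 4 12 0 0 0 6
(.lf 1 true 1 false false 0 0) (.lf 2 true 1 true false 0 0)) (.lf 1 true 1 false false 0 0)))) (.lf 1 false 0 true false 0 0))

def t0_5baa_2 : T3 :=
(.s 0 8 0 0 0 0 0 14
(.s 0 1 0 0 0 0 0 9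
(.s 1 0 0 1 0 0 0 0
(.lf 2 true 1 true false 0 0) (.lf 3 true 1 true false 0 0)) (.s 0 1 0 0 0 0 0 2
(.lf 2 true 1 true false 0 0) (.s 0 47 0 0 0 0 0 119
(.s 1 0 4 12 0 0 0 6
(.lf 1 true 1 true false 0 0) (.lf 2 true 1 false false 0 0)) (.lf 1 true 1 false false 0 0)))) (.lf 1 false 0 false false 0 0))

def t0_5baa_3 : T3 :=
(.s 0 8 0 0 0 0 0 14
(.s 0 1 0 0 0 0 0 9
(.lf 3 true 1 true false 0 0) (.s 0 1 0 0 0 0 0 3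
(.s 1 0 0 1 0 0 0 0
(.lf 2 true 1 true false 0 0) (.lf 3 true 1 true false 0 0)) (.s 0 47 0 0 0 0 0 119
(.lf 2 true 1 false false 0 0) (.s 0 23 0 0 0 0 0 47
(.s 1 0 4 12 0 0 0 6
(.lf 1 true 1 false false 0 0) (.lf 2 true 1 false false 0 0)) (.lf 1 true 1 true false 0 0))))) (.lf 1 false 0 false false 0 0))

def t0_5baa_4 : T3 :=
(.s 0 8 0 0 0 0 0 14
(.s 0 1 0 0 0 0 0 3
(.s 1 0 0 1 0 0 0 0
(.lf 2 true 1 false false 0 0) (.s 0 1789 0 0 0 0 0 9999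
(.s 3 1000 0 0 1000 0 0 2736
(.lf 3 true 1 true false 0 0) (.s 4 1000 0 0 1000 0 0 2736
(.lf 3 true 1 true false 0 0) (.lf 3 true 1 false false 0 0))) (.s 3 4000 0 0 4000 0 0 8210
(.s 3 1000 0 0 1000 0 0 2736
(.lf 3 true 1 true false 0 0) (.s 4 1000 0 0 1000 0 0 2736
(.lf 3 true 1 true false 0 0) (.lf 3 true 1 false false 0 0))) (.lf 3 true 1 false false 0 0)))) (.s 0 1 0 0 0 0 0 2
(.lf 2 true 1 false false 0 0) (.s 0 23 0 0 0 0 0 47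
(.s 1 0 4 12 0 0 0 6
(.lf 1 true 1 false false 0 0) (.lf 2 true 1 false false 0 0)) (.lf 1 true 1 false false 0 0)))) (.lf 1 false 0 true false 0 0))

def i0_5baa : T2 :=
(.s 3 0 0 3 0 3
(.s 2 3 0 0 0 9
(.k 1121822 0 0 5000000 4356352 0 t0_5baa_0) (.s 0 1 0 0 0 9
(.s 2 7 0 0 0 19
(.k 1250986 0 0 5000000 4392412 0 t0_5baa_1) (.k 1390881 0 0 5000000 4997026 0 t0_5baa_2)) (.k 669730 0 624859 0 0 600271 t0_5baa_3))) (.k 1689048 0 0 5000000 2928633 0 t0_5baa_4))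

theorem hi0_5baa : chk2 (leaf0 a0_5 e0_5) 0 i0_5baa R5_0baa = true := by
  decide +kernel

def t0_5bab_0 : T3 :=
(.s 0 8 0 0 0 0 0 14
(.s 0 1 0 0 0 0 0 9
(.s 1 0 0 1 0 0 0 0
(.lf 2 true 1 true false 0 0) (.lf 3 true 1 true false 0 0)) (.s 0 1 0 0 0 0 0 2
(.lf 2 true 1 true false 0 0) (.s 0 47 0 0 0 0 0 119
(.s 1 0 4 12 0 0 0 6
(.lf 1 true 1 false false 0 0) (.lf 2 true 1 false false 0 0)) (.lf 1 true 1 true false 0 0)))) (.lf 1 false 0 false false 0 0))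

def t0_5bab_1 : T3 :=
(.s 0 8 0 0 0 0 0 14
(.s 0 1 0 0 0 0 0 9
(.s 1 0 0 1 0 0 0 0
(.lf 2 true 1 false false 0 0) (.lf 3 true 1 false false 0 0)) (.s 0 1 0 0 0 0 0 2
(.lf 2 true 1 false false 0 0) (.s 0 47 0 0 0 0 0 119
(.s 1 0 4 12 0 0 0 6
(.lf 1 true 1 true false 0 0) (.lf 2 true 1 false false 0 0)) (.lf 1 true 1 false false 0 0)))) (.lf 1 false 0 false false 0 0))

def t0_5bab_2 : T3 :=
(.s 0 8 0 0 0 0 0 14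
(.s 0 1 0 0 0 0 0 9
(.s 1 0 0 1 0 0 0 0
(.lf 2 true 1 false false 0 0) (.lf 3 true 1 false false 0 0)) (.s 0 1 0 0 0 0 0 2
(.lf 2 true 1 false false 0 0) (.s 0 47 0 0 0 0 0 119
(.s 1 0 4 12 0 0 0 6
(.lf 1 true 1 true false 0 0) (.lf 2 true 1 false false 0 0)) (.lf 1 true 1 false false 0 0)))) (.lf 1 false 0 false false 0 0))

def t0_5bab_3 : T3 :=
(.s 0 8 0 0 0 0 0 14
(.s 0 1 0 0 0 0 0 9
(.lf 3 true 1 false false 0 0) (.s 0 1 0 0 0 0 0 3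
(.s 1 0 0 1 0 0 0 0
(.lf 2 true 1 false false 0 0) (.lf 3 true 1 false false 0 0)) (.s 0 47 0 0 0 0 0 119
(.lf 2 true 1 false false 0 0) (.s 0 23 0 0 0 0 0 47
(.s 1 0 4 12 0 0 0 6
(.lf 1 true 1 false false 0 0) (.lf 2 true 1 false false 0 0)) (.lf 1 true 1 true false 0 0))))) (.lf 1 false 0 false false 0 0))

def i0_5bab : T2 :=
(.s 0 1 0 0 0 9
(.s 3 0 0 3 0 3
(.s 3 0 0 3 0 4
(.k 1344086 0 0 5000000 4395393 0 t0_5bab_0) (.k 1030000 0 374859 0 0 2103118 t0_5bab_1)) (.k 2000000 0 0 2766978 0 5000000 t0_5bab_2)) (.k 1025000 0 312383 0 0 1793641 t0_5bab_3))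

theorem hi0_5bab : chk2 (leaf0 a0_5 e0_5) 0 i0_5bab R5_0bab = true := by
  decide +kernel

def i0_5ba : T2 := .s 2 2 0 0 0 4 i0_5baa i0_5bab

theorem hi0_5ba : chk2 (leaf0 a0_5 e0_5) 0 i0_5ba R5_0ba = true := chk2_s hi0_5baa hi0_5bab

def t0_5bb_0 : T3 :=
(.s 0 8 0 0 0 0 0 14
(.s 0 1 0 0 0 0 0 3
(.s 0 1789 0 0 0 0 0 9999
(.lf 3 true 1 true false 0 0) (.s 3 5000 0 0 5000 0 0 8210
(.lf 3 true 1 true false 0 0) (.s 4 1000 0 0 1000 0 0 2736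
(.lf 3 true 1 true false 0 0) (.lf 3 true 1 false false 0 0)))) (.s 0 1 0 0 0 0 0 1
(.s 1 0 0 1 0 0 0 0
(.s 0 23 0 0 0 0 0 47
(.s 0 1263 0 0 0 0 0 3999
(.s 3 5000 0 0 5000 0 0 8210
(.lf 2 true 1 true false 0 0) (.s 4 1000 0 0 1000 0 0 2736
(.lf 2 true 1 true false 0 0) (.lf 2 true 1 false false 0 0))) (.s 3 2000 0 0 2000 0 0 2736
(.s 3 5000 0 0 5000 0 0 8210
(.lf 2 true 1 true false 0 0) (.s 4 1000 0 0 1000 0 0 2736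
(.lf 2 true 1 true false 0 0) (.lf 2 true 1 false false 0 0))) (.lf 2 true 1 false false 0 0))) (.s 1 0 4 12 0 0 0 6
(.lf 1 true 1 false false 0 0) (.lf 2 true 1 false false 0 0))) (.s 0 1263 0 0 0 0 0 3999
(.s 3 5000 0 0 5000 0 0 8210
(.lf 3 true 1 true false 0 0) (.s 4 1000 0 0 1000 0 0 2736
(.lf 3 true 1 true false 0 0) (.lf 3 true 1 false false 0 0))) (.s 3 2000 0 0 2000 0 0 2736
(.s 3 5000 0 0 5000 0 0 8210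
(.lf 3 true 1 true false 0 0) (.s 4 1000 0 0 1000 0 0 2736
(.lf 3 true 1 true false 0 0) (.lf 3 true 1 false false 0 0))) (.lf 3 true 1 false false 0 0)))) (.s 1 0 4 12 0 0 0 6
(.lf 1 true 1 false false 0 0) (.lf 2 true 1 false false 0 0)))) (.s 0 5 0 0 0 0 0 7
(.s 1 0 4 12 0 0 0 6
(.lf 1 false 1 false false 0 0) (.lf 2 false 1 false false 0 0)) (.lf 1 false 0 true false 0 0)))

def t0_5bb_1 : T3 :=
(.s 0 8 0 0 0 0 0 14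
(.s 0 1 0 0 0 0 0 3
(.s 3 2 0 0 0 0 0 4
(.s 0 1789 0 0 0 0 0 9999
(.lf 3 true 1 true false 0 0) (.s 3 4000 0 0 4000 0 0 8210
(.lf 3 true 1 true false 0 0) (.s 4 1000 0 0 1000 0 0 2736
(.lf 3 true 1 true false 0 0) (.lf 3 true 1 false false 0 0)))) (.s 0 1789 0 0 0 0 0 9999
(.s 3 4000 0 0 4000 0 0 8210
(.lf 3 true 1 true false 0 0) (.s 4 1000 0 0 1000 0 0 2736
(.lf 3 true 1 true false 0 0) (.lf 3 true 1 false false 0 0))) (.s 3 5000 0 0 5000 0 0 8210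
(.s 4 1000 0 0 1000 0 0 2736
(.lf 3 true 1 true false 0 0) (.lf 3 true 1 false false 0 0)) (.lf 3 true 1 false false 0 0)))) (.s 0 1 0 0 0 0 0 1
(.s 1 0 0 1 0 0 0 0
(.s 0 23 0 0 0 0 0 47
(.s 3 5000 0 0 5000 0 0 8210
(.s 3 4000 0 0 4000 0 0 8210
(.lf 2 true 1 true false 0 0) (.s 4 1000 0 0 1000 0 0 2736
(.lf 2 true 1 true false 0 0) (.lf 2 true 1 false false 0 0))) (.lf 2 true 1 false false 0 0)) (.s 1 0 4 12 0 0 0 6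
(.lf 1 true 1 false false 0 0) (.lf 2 true 1 false false 0 0))) (.s 3 5000 0 0 5000 0 0 8210
(.s 0 7789 0 0 0 0 0 15999
(.s 3 4000 0 0 4000 0 0 8210
(.lf 3 true 1 true false 0 0) (.s 4 1000 0 0 1000 0 0 2736
(.lf 3 true 1 true false 0 0) (.lf 3 true 1 false false 0 0))) (.s 4 1000 0 0 1000 0 0 2736
(.lf 3 true 1 true false 0 0) (.lf 3 true 1 false false 0 0))) (.lf 3 true 1 false false 0 0))) (.s 1 0 4 12 0 0 0 6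
(.lf 1 true 1 false false 0 0) (.lf 2 true 1 false false 0 0)))) (.s 0 5 0 0 0 0 0 7
(.s 1 0 4 12 0 0 0 6
(.lf 1 false 1 false false 0 0) (.lf 2 false 1 false false 0 0)) (.lf 1 false 0 true false 0 0)))

def t0_5bb_2 : T3 :=
(.s 0 8 0 0 0 0 0 14
(.s 0 1 0 0 0 0 0 3
(.s 3 4000 0 0 4000 0 0 8210
(.s 3 1000 0 0 1000 0 0 2736
(.lf 3 true 1 true false 0 0) (.s 4 1000 0 0 1000 0 0 2736
(.lf 3 true 1 true false 0 0) (.lf 3 true 1 false false 0 0))) (.lf 3 true 1 false false 0 0)) (.s 0 1 0 0 0 0 0 1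
(.s 1 0 0 1 0 0 0 0
(.s 0 23 0 0 0 0 0 47
(.lf 2 true 1 false false 0 0) (.s 1 0 4 12 0 0 0 6
(.lf 1 true 1 false false 0 0) (.lf 2 true 1 false false 0 0))) (.lf 3 true 1 false false 0 0)) (.s 1 0 4 12 0 0 0 6
(.lf 1 true 1 false false 0 0) (.lf 2 true 1 false false 0 0)))) (.s 0 5 0 0 0 0 0 7
(.s 1 0 4 12 0 0 0 6
(.lf 1 false 1 false false 0 0) (.lf 2 false 1 false false 0 0)) (.lf 1 false 0 false false 0 0)))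

def i0_5bb : T2 :=
(.s 3 0 0 3 0 3
(.s 3 0 0 3 0 4
(.k 1098268 0 0 5000000 4672470 0 t0_5bb_0) (.k 1619238 0 0 5000000 2995726 0 t0_5bb_1)) (.k 1165362 0 0 5000000 5000000 0 t0_5bb_2))

theorem hi0_5bb : chk2 (leaf0 a0_5 e0_5) 0 i0_5bb R5_0bb = true := by
  decide +kernel

def i0_5b : T2 := .s 0 1 0 0 0 3 i0_5ba i0_5bb

theorem hi0_5b : chk2 (leaf0 a0_5 e0_5) 0 i0_5b R5_0b = true := chk2_s hi0_5ba hi0_5bb

def i0_5 : T2 := .s 3 0 0 1 0 1 i0_5a i0_5b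

theorem hi0_5 : chk2 (leaf0 a0_5 e0_5) 0 i0_5 R5 = true := chk2_s hi0_5a hi0_5b

def t1_5_0 : T3 :=
(.s 0 8 0 0 0 0 0 14
(.s 0 1 0 0 0 0 0 1
(.s 1 0 0 1 0 0 0 0
(.s 0 1 0 0 0 0 0 2
(.s 0 1 0 0 0 0 0 4
(.s 0 1951 0 0 0 0 0 14999
(.lf 2 true 1 true false 0 1) (.s 1 0 390200 3000000 0 0 0 1615000
(.lf 2 true 1 true false 0 1) (.lf 2 true 1 true false 0 1))) (.s 1 0 0 1 0 0 0 1
(.s 1 0 0 1 0 0 0 3
(.s 0 1 0 0 0 0 0 3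
(.lf 2 true 1 true false 0 1) (.lf 2 true 1 true false 0 1)) (.lf 2 true 1 true false 0 1)) (.lf 2 true 1 true false 0 1))) (.s 1 0 4 12 0 0 0 6
(.lf 1 true 1 false false 0 2) (.s 1 0 4 19 0 0 0 13
(.s 1 0 12 43 0 0 0 27
(.s 0 2 0 0 0 0 0 4
(.lf 2 true 1 true false 0 1) (.lf 2 true 1 true false 0 2)) (.lf 2 true 1 true false 0 2)) (.lf 2 true 1 true false 0 2)))) (.lf 3 true 1 true false 0 2)) (.s 1 0 4 12 0 0 0 6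
(.lf 1 true 1 true false 0 2) (.lf 2 true 1 true false 0 2))) (.s 0 5 0 0 0 0 0 7
(.s 1 0 4 12 0 0 0 6
(.lf 1 false 1 false false 0 2) (.lf 2 false 1 true false 0 2)) (.lf 1 false 2 true false 0 2)))

def t1_5_1 : T3 :=
(.s 0 8 0 0 0 0 0 14
(.s 0 1 0 0 0 0 0 1
(.s 1 0 0 1 0 0 0 0
(.s 0 1 0 0 0 0 0 2
(.s 4 0 0 0 0 11 0 20
(.lf 2 true 1 true false 1 1) (.s 0 1699 0 0 0 0 0 5999
(.s 3 1000 0 0 1000 0 0 2736
(.lf 2 true 1 true false 2 1) (.s 4 1000 0 0 1000 0 0 2736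
(.lf 2 true 1 true false 2 1) (.lf 2 true 1 false false 2 1))) (.s 3 3000 0 0 3000 0 0 4300
(.s 0 1263 0 0 0 0 0 3999
(.s 3 1000 0 0 1000 0 0 2736
(.lf 2 true 1 false false 2 1) (.s 4 1000 0 0 1000 0 0 2736
(.lf 2 true 1 false false 2 1) (.lf 2 true 1 false false 2 1))) (.s 4 1000 0 0 1000 0 0 2736
(.lf 2 true 1 false false 2 1) (.lf 2 true 1 false false 2 1))) (.lf 2 true 1 false false 2 1)))) (.s 1 0 4 12 0 0 0 6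
(.lf 1 true 1 false false 2 2) (.lf 2 true 1 false false 2 2))) (.s 0 1 0 0 0 0 0 3
(.s 3 1000 0 0 1000 0 0 2736
(.lf 3 true 1 true false 2 1) (.s 4 1000 0 0 1000 0 0 2736
(.lf 3 true 1 true false 2 1) (.lf 3 true 1 false false 2 1))) (.lf 3 true 1 false false 2 2))) (.s 1 0 4 12 0 0 0 6
(.lf 1 true 1 false false 2 2) (.lf 2 true 1 false false 2 2))) (.s 0 5 0 0 0 0 0 7
(.s 1 0 4 12 0 0 0 6
(.lf 1 false 1 false false 2 2) (.lf 2 false 1 false false 2 2)) (.s 1 309831 0 0 0 0 0 761611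
(.s 0 3 0 0 0 0 0 3
(.lf 1 false 1 false true 1 2) (.lf 1 false 0 true true 1 0)) (.lf 1 false 2 false false 1 2))))

def i1_5 : T2 :=
(.s 3 0 0 4 0 10
(.k 90200 0 0 0 0 134999 t1_5_0) (.k 1009831 0 0 0 0 761612 t1_5_1))

theorem hi1_5 : chk2 (leaf1 a1_5 e1_5) 10000 i1_5 R5 = true := by
  decide +kernel

theorem ok5 : CellOk R5 a0_5 e0_5 a1_5 e1_5 :=
  ⟨lin5, ⟨_, ho00_5⟩, ⟨_, ho01_5⟩, ⟨_, ho10_5⟩, ⟨_, ho11_5⟩, ⟨_, hi0_5⟩, ⟨_, hi1_5⟩⟩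

def R10 : Reg := ⟨⟨0, 0, 0, 0, 0, 0, 0⟩, ⟨1, 0, 0, 0, 0, 0, 0⟩, ⟨1, 0, 0, 0, 0, 0, 1⟩, ⟨1, 0, 0, 0, 0, 0, 0⟩, ⟨0, 0, 0, 0, 0, 0, 0⟩, ⟨1, 0, 0, 0, 0, 0, 1⟩, ⟨0, 0, 0, 0, 0, 0, 0⟩, ⟨1, 0, 0, 0, 0, 0, 1⟩, ⟨0, 0, 0, 0, 0, 0, 0⟩, ⟨0, 0, 0, 0, 1, 0, 0⟩⟩

def a0_10 : SF := mu 2516255 0 215000 0 0 5032510 0 0

def e0_10 : SF := mu 0 8839961 0 320079 17679922 0 0 0

def a1_10 : SF := mu 1761368 0 116765 0 0 3522736 0 0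

def e1_10 : SF := mu 0 6799981 0 246238 13599962 0 0 0

theorem lin10 : chkLin R10 a0_10 e0_10 a1_10 e1_10 = true := by decide +kernel

def o00_10 : T3 :=
(.s 0 8 0 0 0 0 0 14
(.s 0 1 0 0 0 0 0 1
(.lf 3 true 0 false false 0 0) (.s 1 0 0 1 0 0 0 0
(.lf 2 true 0 false false 0 0) (.lf 3 true 0 false false 0 0))) (.s 1 0 0 1 0 0 0 0
(.s 0 5 0 0 0 0 0 7
(.lf 2 false 0 true false 0 0) (.s 0 4 0 0 0 0 0 4
(.s 1 0 4 12 0 0 0 6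
(.lf 1 false 0 true false 0 0) (.lf 2 false 0 true false 0 0)) (.lf 0 false 0 true false 0 0))) (.s 0 4 0 0 0 0 0 4
(.lf 3 false 0 true false 0 0) (.s 0 11 0 0 0 0 0 11
(.s 1 0 4 12 0 0 0 6
(.lf 0 false 0 true false 0 0) (.lf 0 false 0 true false 0 0)) (.lf 0 false 0 true false 0 0)))))

theorem ho00_10 : chk3 (leafO 10500000 3 a0_10 e0_10 R10.x0.ap R10.x0.m) o00_10 (full R10) = true := by
  decide +kernel

def o01_10 : T3 :=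
(.s 0 8 0 0 0 0 0 14
(.s 0 1 0 0 0 0 0 1
(.lf 3 true 0 false false 0 0) (.s 1 0 0 1 0 0 0 0
(.lf 2 true 0 true false 0 0) (.lf 3 true 0 true false 0 0))) (.s 1 0 0 1 0 0 0 0
(.s 0 5 0 0 0 0 0 7
(.lf 2 false 0 true false 0 0) (.s 0 4 0 0 0 0 0 4
(.s 1 0 4 12 0 0 0 6
(.lf 1 false 0 true false 0 0) (.lf 2 false 0 true false 0 0)) (.lf 0 false 0 true false 0 0))) (.s 0 4 0 0 0 0 0 4
(.lf 3 false 0 true false 0 0) (.s 0 11 0 0 0 0 0 11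
(.s 1 0 4 12 0 0 0 6
(.lf 0 false 0 true false 0 0) (.lf 0 false 0 true false 0 0)) (.lf 0 false 0 true false 0 0)))))

theorem ho01_10 : chk3 (leafO 10500000 3 a0_10 e0_10 R10.x1.ap R10.x1.m) o01_10 (full R10) = true := by
  decide +kernel

def o10_10 : T3 :=
(.s 0 8 0 0 0 0 0 14
(.s 0 1 0 0 0 0 0 1
(.lf 3 true 0 false false 0 0) (.s 1 0 0 1 0 0 0 0
(.lf 2 true 0 false false 0 0) (.lf 3 true 0 false false 0 0))) (.s 1 0 0 1 0 0 0 0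
(.s 0 5 0 0 0 0 0 7
(.lf 2 false 0 true false 0 0) (.s 0 4 0 0 0 0 0 4
(.s 1 0 4 12 0 0 0 6
(.lf 1 false 0 true false 0 0) (.lf 2 false 0 true false 0 0)) (.lf 0 false 0 true false 0 0))) (.s 0 4 0 0 0 0 0 4
(.lf 3 false 0 true false 0 0) (.s 0 11 0 0 0 0 0 11
(.s 1 0 4 12 0 0 0 6
(.lf 0 false 0 true false 0 0) (.lf 0 false 0 true false 0 0)) (.lf 0 false 0 true false 0 0)))))

theorem ho10_10 : chk3 (leafO 5554500 1 a1_10 e1_10 R10.x0.ap R10.x0.m) o10_10 (full R10) = true := by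
  decide +kernel

def o11_10 : T3 :=
(.s 0 8 0 0 0 0 0 14
(.s 0 1 0 0 0 0 0 1
(.lf 3 true 0 false false 0 0) (.s 1 0 0 1 0 0 0 0
(.lf 2 true 0 true false 0 0) (.lf 3 true 0 true false 0 0))) (.s 1 0 0 1 0 0 0 0
(.s 0 5 0 0 0 0 0 7
(.lf 2 false 0 true false 0 0) (.s 0 4 0 0 0 0 0 4
(.s 1 0 4 12 0 0 0 6
(.lf 1 false 0 true false 0 0) (.lf 2 false 0 true false 0 0)) (.lf 0 false 0 true false 0 0))) (.s 0 4 0 0 0 0 0 4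
(.lf 3 false 0 true false 0 0) (.s 0 11 0 0 0 0 0 11
(.s 1 0 4 12 0 0 0 6
(.lf 0 false 0 true false 0 0) (.lf 0 false 0 true false 0 0)) (.lf 0 false 0 true false 0 0)))))

theorem ho11_10 : chk3 (leafO 5554500 1 a1_10 e1_10 R10.x1.ap R10.x1.m) o11_10 (full R10) = true := by
  decide +kernel

def t0_10_0 : T3 :=
(.s 0 8 0 0 0 0 0 14
(.s 0 1 0 0 0 0 0 1
(.lf 3 true 1 false false 0 0) (.s 1 0 0 1 0 0 0 0
(.lf 2 true 1 false false 0 0) (.lf 3 true 1 false false 0 0))) (.s 1 0 0 1 0 0 0 0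
(.s 0 5 0 0 0 0 0 7
(.lf 2 false 1 false false 0 0) (.s 0 4 0 0 0 0 0 4
(.s 1 0 4 12 0 0 0 6
(.lf 1 false 1 false false 0 0) (.lf 2 false 1 false false 0 0)) (.lf 0 false 0 false false 0 0))) (.s 0 4 0 0 0 0 0 4
(.lf 3 false 1 false false 0 0) (.s 0 11 0 0 0 0 0 11
(.s 1 0 4 12 0 0 0 6
(.lf 0 false 1 false false 0 0) (.lf 0 false 1 false false 0 0)) (.lf 0 false 0 false false 0 0)))))

def i0_10 : T2 :=
(.k 1477490 0 0 1721595 0 0 t0_10_0)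

theorem hi0_10 : chk2 (leaf0 a0_10 e0_10) 0 i0_10 R10 = true := by
  decide +kernel

def R10_1a : Reg := hi R10 (Nat.succ 3) ⟨0, 0, 0, 0, 4, 0, 10⟩

def R10_1b : Reg := lo R10 (Nat.succ 3) ⟨0, 0, 0, 0, 4, 0, 10⟩

def t1_10a_0 : T3 :=
(.s 0 8 0 0 0 0 0 14
(.s 0 1 0 0 0 0 0 1
(.lf 3 true 1 true false 0 2) (.s 1 0 0 1 0 0 0 0
(.lf 2 true 1 true false 0 2) (.lf 3 true 1 true false 0 2))) (.s 1 0 0 1 0 0 0 0
(.s 0 5 0 0 0 0 0 7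
(.lf 2 false 1 true false 0 2) (.s 0 4 0 0 0 0 0 4
(.s 1 0 4 12 0 0 0 6
(.lf 1 false 1 false false 0 2) (.s 0 7 0 0 0 0 0 9
(.lf 2 false 1 true false 0 2) (.lf 2 false 1 true false 0 2))) (.s 3 2750 0 0 2750 0 0 2736
(.lf 0 false 1 false false 0 2) (.s 4 1000 0 0 1000 0 0 2736
(.lf 0 false 2 false false 0 0) (.lf 0 false 2 false false 0 0))))) (.s 0 4 0 0 0 0 0 4
(.s 0 7 0 0 0 0 0 9
(.lf 3 false 1 true false 0 2) (.lf 3 false 1 true false 0 2)) (.s 0 11 0 0 0 0 0 11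
(.s 1 0 4 12 0 0 0 6
(.s 3 2750 0 0 2750 0 0 2736
(.lf 0 false 1 false false 0 2) (.s 4 1000 0 0 1000 0 0 2736
(.lf 0 false 2 false false 0 0) (.lf 0 false 2 false false 0 0))) (.s 3 2750 0 0 2750 0 0 2736
(.lf 0 false 1 false false 0 2) (.s 4 1000 0 0 1000 0 0 2736
(.lf 0 false 2 false false 0 0) (.lf 0 false 2 false false 0 0)))) (.s 3 2750 0 0 2750 0 0 2736
(.lf 0 false 1 false false 0 2) (.s 4 1000 0 0 1000 0 0 2736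
(.lf 0 false 2 false false 0 0) (.lf 0 false 2 false false 0 0)))))))

def i1_10a : T2 :=
(.k 25268 0 168834 0 0 0 t1_10a_0)

theorem hi1_10a : chk2 (leaf1 a1_10 e1_10) 10000 i1_10a R10_1a = true := by
  decide +kernel

def t1_10b_0 : T3 :=
(.s 0 8 0 0 0 0 0 14
(.s 0 1 0 0 0 0 0 1
(.s 3 1000 0 0 1000 0 0 2736
(.lf 3 true 1 true false 2 1) (.s 4 1000 0 0 1000 0 0 2736
(.s 0 1 0 0 0 0 0 3
(.lf 3 true 1 false false 2 1) (.lf 3 true 1 false false 2 2)) (.s 0 1 0 0 0 0 0 3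
(.lf 3 true 1 false false 2 1) (.lf 3 true 1 false false 2 2)))) (.s 1 0 0 1 0 0 0 0
(.s 0 2763 0 0 0 0 0 5499
(.s 3 1000 0 0 1000 0 0 2736
(.lf 2 true 1 true false 2 1) (.s 4 1000 0 0 1000 0 0 2736
(.lf 2 true 1 false false 2 2) (.lf 2 true 1 false false 2 2))) (.s 3 2750 0 0 2750 0 0 2736
(.s 3 1000 0 0 1000 0 0 2736
(.lf 2 true 1 true false 2 1) (.s 4 1000 0 0 1000 0 0 2736
(.lf 2 true 1 false false 2 2) (.lf 2 true 1 false false 2 2))) (.lf 2 true 1 false false 2 0))) (.s 0 2763 0 0 0 0 0 5499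
(.s 3 1000 0 0 1000 0 0 2736
(.lf 3 true 1 true false 2 1) (.s 4 1000 0 0 1000 0 0 2736
(.lf 3 true 1 false false 2 2) (.lf 3 true 1 false false 2 2))) (.s 3 2750 0 0 2750 0 0 2736
(.s 3 1000 0 0 1000 0 0 2736
(.lf 3 true 1 true false 2 1) (.s 4 1000 0 0 1000 0 0 2736
(.lf 3 true 1 false false 2 2) (.lf 3 true 1 false false 2 2))) (.lf 3 true 1 false false 2 0))))) (.s 1 0 0 1 0 0 0 0
(.s 0 5 0 0 0 0 0 7
(.s 3 2750 0 0 2750 0 0 2736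
(.s 3 1000 0 0 1000 0 0 2736
(.lf 2 false 1 true false 2 1) (.s 4 1000 0 0 1000 0 0 2736
(.lf 2 false 1 false false 2 2) (.lf 2 false 1 false false 2 2))) (.lf 2 false 1 false false 2 0)) (.s 0 4 0 0 0 0 0 4
(.s 1 0 4 12 0 0 0 6
(.s 2 91381 0 0 0 0 0 444309
(.s 3 1 0 0 0 0 0 3
(.lf 1 false 1 false false 2 2) (.lf 1 false 1 false true 1 2)) (.s 3 1 0 0 0 0 0 3
(.lf 1 false 1 false false 2 2) (.lf 1 false 2 false false 1 2))) (.s 2 1274143 0 0 3000000 1750000 0 1332929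
(.s 3 1 0 0 0 0 0 3
(.lf 2 false 1 true false 2 2) (.lf 2 false 1 true true 1 2)) (.s 3 1 0 0 0 0 0 3
(.lf 2 false 1 false false 1 2) (.lf 2 false 2 false false 2 2)))) (.s 2 91381 0 0 0 0 0 444309
(.s 3 2750 0 0 2750 0 0 2736
(.s 3 1000 0 0 1000 0 0 2736
(.lf 0 false 1 false false 1 1) (.s 4 1000 0 0 1000 0 0 2736
(.lf 0 false 0 false true 1 2) (.lf 0 false 0 false true 1 2))) (.lf 0 false 0 false true 1 0)) (.s 3 2750 0 0 2750 0 0 2736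
(.s 3 1000 0 0 1000 0 0 2736
(.lf 0 false 1 false false 1 1) (.s 4 1000 0 0 1000 0 0 2736
(.lf 0 false 1 false false 1 2) (.lf 0 false 1 false false 1 2))) (.lf 0 false 2 false false 1 0))))) (.s 0 4 0 0 0 0 0 4
(.s 2 1274143 0 0 1250000 0 0 1332929
(.s 3 1 0 0 0 0 0 3
(.lf 3 false 1 false false 2 2) (.lf 3 false 1 true true 1 2)) (.s 3 2750 0 0 2750 0 0 2736
(.s 3 1000 0 0 1000 0 0 2736
(.lf 3 false 1 true false 2 1) (.s 4 1000 0 0 1000 0 0 2736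
(.lf 3 false 1 false false 2 2) (.lf 3 false 1 false false 2 2))) (.lf 3 false 2 false false 2 0))) (.s 0 11 0 0 0 0 0 11
(.s 1 0 4 12 0 0 0 6
(.s 2 91381 0 0 0 0 0 444309
(.s 3 2750 0 0 2750 0 0 2736
(.s 3 1000 0 0 1000 0 0 2736
(.lf 0 false 1 false false 2 1) (.s 4 1000 0 0 1000 0 0 2736
(.lf 0 false 1 false false 1 2) (.lf 0 false 1 false false 2 2))) (.lf 0 false 0 false true 1 0)) (.s 3 2750 0 0 2750 0 0 2736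
(.s 3 1000 0 0 1000 0 0 2736
(.lf 0 false 1 false false 2 1) (.s 4 1000 0 0 1000 0 0 2736
(.lf 0 false 1 false false 2 2) (.lf 0 false 1 false false 2 2))) (.lf 0 false 2 false false 1 0))) (.s 2 91381 0 0 0 0 0 444309
(.s 3 2750 0 0 2750 0 0 2736
(.s 3 1000 0 0 1000 0 0 2736
(.lf 0 false 1 false false 2 1) (.s 4 1000 0 0 1000 0 0 2736
(.lf 0 false 1 false false 1 2) (.lf 0 false 1 false false 2 2))) (.lf 0 false 0 false true 1 0)) (.s 3 2750 0 0 2750 0 0 2736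
(.s 3 1000 0 0 1000 0 0 2736
(.lf 0 false 1 false false 2 1) (.s 4 1000 0 0 1000 0 0 2736
(.lf 0 false 1 false false 2 2) (.lf 0 false 1 false false 2 2))) (.lf 0 false 2 false false 1 0)))) (.s 2 91381 0 0 0 0 0 444309
(.s 3 2750 0 0 2750 0 0 2736
(.s 3 1000 0 0 1000 0 0 2736
(.lf 0 false 1 false false 1 1) (.s 4 1000 0 0 1000 0 0 2736
(.lf 0 false 0 false true 1 2) (.lf 0 false 0 false true 1 2))) (.lf 0 false 0 false true 1 0)) (.s 3 2750 0 0 2750 0 0 2736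
(.s 3 1000 0 0 1000 0 0 2736
(.lf 0 false 1 false false 1 1) (.s 4 1000 0 0 1000 0 0 2736
(.lf 0 false 1 false false 1 2) (.lf 0 false 1 false false 1 2))) (.lf 0 false 2 false false 1 0)))))))

def i1_10b : T2 :=
(.k 974143 0 0 1332930 0 0 t1_10b_0)

theorem hi1_10b : chk2 (leaf1 a1_10 e1_10) 10000 i1_10b R10_1b = true := by
  decide +kernel

def i1_10 : T2 := .s 3 0 0 4 0 10 i1_10a i1_10b

theorem hi1_10 : chk2 (leaf1 a1_10 e1_10) 10000 i1_10 R10 = true := chk2_s hi1_10a hi1_10b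

theorem ok10 : CellOk R10 a0_10 e0_10 a1_10 e1_10 :=
  ⟨lin10, ⟨_, ho00_10⟩, ⟨_, ho01_10⟩, ⟨_, ho10_10⟩, ⟨_, ho11_10⟩, ⟨_, hi0_10⟩, ⟨_, hi1_10⟩⟩

def R16 : Reg := ⟨⟨0, 0, 0, 0, 0, 0, 0⟩, ⟨1, 0, 0, 0, 0, 0, 0⟩, ⟨1, 0, 0, 0, 0, 0, 1⟩, ⟨1, 0, 0, 0, 0, 0, 0⟩, ⟨0, 0, 0, 0, 1, 0, 1⟩, ⟨0, 0, 0, 0, 1, 0, 0⟩, ⟨1, 0, 0, 0, 0, 0, 1⟩, ⟨1, 0, 0, 0, 0, 0, 0⟩, ⟨0, 0, 0, 0, 0, 0, 0⟩, ⟨0, 0, 0, 0, 1, 0, 0⟩⟩

def a0_16 : SF := mu 1352428 0 1546293 0 0 188881 0 1822382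

def e0_16 : SF := mu 0 5166126 0 3189829 2035508 0 5465899 0

def a1_16 : SF := mu 946679 0 1082405 0 0 49375 0 1358509

def e1_16 : SF := mu 0 3922712 0 2453715 1565775 0 4102030 0

theorem lin16 : chkLin R16 a0_16 e0_16 a1_16 e1_16 = true := by decide +kernel

def o00_16 : T3 :=
(.s 0 8 0 0 0 0 0 14
(.s 0 1 0 0 0 0 0 1
(.lf 3 true 0 false false 0 0) (.s 1 0 0 1 0 0 0 0
(.lf 2 true 0 true false 0 0) (.lf 3 true 0 false false 0 0))) (.s 1 0 0 1 0 0 0 0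
(.s 0 5 0 0 0 0 0 7
(.lf 2 false 0 true false 0 0) (.s 0 4 0 0 0 0 0 4
(.s 1 0 4 12 0 0 0 6
(.lf 1 false 0 true false 0 0) (.lf 2 false 0 true false 0 0)) (.lf 0 false 0 true false 0 0))) (.s 0 4 0 0 0 0 0 4
(.s 2 0 0 1 0 0 0 0
(.s 0 7 0 0 0 0 0 9
(.lf 3 false 0 true false 0 0) (.s 0 3 0 0 0 0 0 3
(.lf 3 false 0 true false 0 0) (.lf 3 false 0 true false 0 0))) (.s 0 7 0 0 0 0 0 9
(.lf 3 false 0 false false 0 0) (.s 0 3 0 0 0 0 0 3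
(.lf 3 false 0 false false 0 0) (.lf 3 false 0 false false 0 0)))) (.s 0 11 0 0 0 0 0 11
(.s 1 0 4 12 0 0 0 6
(.s 2 0 0 1 0 0 0 0
(.lf 0 false 0 true false 0 0) (.lf 0 false 0 false false 0 0)) (.s 2 0 0 1 0 0 0 0
(.lf 0 false 0 true false 0 0) (.lf 0 false 0 false false 0 0))) (.s 2 0 0 1 0 0 0 0
(.lf 0 false 0 true false 0 0) (.lf 0 false 0 false false 0 0))))))

theorem ho00_16 : chk3 (leafO 10500000 3 a0_16 e0_16 R16.x0.ap R16.x0.m) o00_16 (full R16) = true := by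
  decide +kernel

def o01_16 : T3 :=
(.s 0 8 0 0 0 0 0 14
(.s 0 1 0 0 0 0 0 1
(.lf 3 true 0 false false 0 0) (.s 1 0 0 1 0 0 0 0
(.lf 2 true 0 true false 0 0) (.lf 3 true 0 false false 0 0))) (.s 1 0 0 1 0 0 0 0
(.s 0 5 0 0 0 0 0 7
(.lf 2 false 0 true false 0 0) (.s 0 4 0 0 0 0 0 4
(.s 1 0 4 12 0 0 0 6
(.lf 1 false 0 true false 0 0) (.lf 2 false 0 true false 0 0)) (.lf 0 false 0 true false 0 0))) (.s 0 4 0 0 0 0 0 4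
(.s 2 0 0 1 0 0 0 0
(.lf 3 false 0 true false 0 0) (.lf 3 false 0 false false 0 0)) (.s 0 11 0 0 0 0 0 11
(.s 1 0 4 12 0 0 0 6
(.s 2 0 0 1 0 0 0 0
(.lf 0 false 0 true false 0 0) (.lf 0 false 0 false false 0 0)) (.s 2 0 0 1 0 0 0 0
(.lf 0 false 0 true false 0 0) (.lf 0 false 0 false false 0 0))) (.s 2 0 0 1 0 0 0 0
(.lf 0 false 0 true false 0 0) (.lf 0 false 0 false false 0 0))))))

theorem ho01_16 : chk3 (leafO 10500000 3 a0_16 e0_16 R16.x1.ap R16.x1.m) o01_16 (full R16) = true := by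
  decide +kernel

def o10_16 : T3 :=
(.s 0 8 0 0 0 0 0 14
(.s 0 1 0 0 0 0 0 1
(.lf 3 true 0 false false 0 0) (.s 1 0 0 1 0 0 0 0
(.lf 2 true 0 true false 0 0) (.lf 3 true 0 false false 0 0))) (.s 1 0 0 1 0 0 0 0
(.s 0 5 0 0 0 0 0 7
(.lf 2 false 0 true false 0 0) (.s 0 4 0 0 0 0 0 4
(.s 1 0 4 12 0 0 0 6
(.lf 1 false 0 true false 0 0) (.lf 2 false 0 true false 0 0)) (.lf 0 false 0 true false 0 0))) (.s 0 4 0 0 0 0 0 4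
(.s 2 0 0 1 0 0 0 0
(.s 0 7 0 0 0 0 0 9
(.s 0 3 0 0 0 0 0 4
(.lf 3 false 0 true false 0 0) (.lf 3 false 0 true false 0 0)) (.lf 3 false 0 true false 0 0)) (.s 0 7 0 0 0 0 0 9
(.s 0 3 0 0 0 0 0 4
(.lf 3 false 0 false false 0 0) (.lf 3 false 0 false false 0 0)) (.lf 3 false 0 false false 0 0))) (.s 0 11 0 0 0 0 0 11
(.s 1 0 4 12 0 0 0 6
(.lf 0 false 0 true false 0 0) (.s 2 0 0 1 0 0 0 0
(.lf 0 false 0 true false 0 0) (.lf 0 false 0 false false 0 0))) (.lf 0 false 0 true false 0 0)))))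

theorem ho10_16 : chk3 (leafO 5554500 1 a1_16 e1_16 R16.x0.ap R16.x0.m) o10_16 (full R16) = true := by
  decide +kernel

def o11_16 : T3 :=
(.s 0 8 0 0 0 0 0 14
(.s 0 1 0 0 0 0 0 1
(.lf 3 true 0 false false 0 0) (.s 1 0 0 1 0 0 0 0
(.lf 2 true 0 true false 0 0) (.lf 3 true 0 false false 0 0))) (.s 1 0 0 1 0 0 0 0
(.s 0 5 0 0 0 0 0 7
(.lf 2 false 0 true false 0 0) (.s 0 4 0 0 0 0 0 4
(.s 1 0 4 12 0 0 0 6
(.lf 1 false 0 true false 0 0) (.lf 2 false 0 true false 0 0)) (.lf 0 false 0 true false 0 0))) (.s 0 4 0 0 0 0 0 4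
(.s 2 0 0 1 0 0 0 0
(.lf 3 false 0 true false 0 0) (.lf 3 false 0 false false 0 0)) (.s 0 11 0 0 0 0 0 11
(.s 1 0 4 12 0 0 0 6
(.lf 0 false 0 true false 0 0) (.s 2 0 0 1 0 0 0 0
(.lf 0 false 0 true false 0 0) (.lf 0 false 0 false false 0 0))) (.lf 0 false 0 true false 0 0)))))

theorem ho11_16 : chk3 (leafO 5554500 1 a1_16 e1_16 R16.x1.ap R16.x1.m) o11_16 (full R16) = true := by
  decide +kernel

def t0_16_0 : T3 :=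
(.s 0 8 0 0 0 0 0 14
(.s 0 1 0 0 0 0 0 1
(.lf 3 true 1 false false 0 0) (.s 1 0 0 1 0 0 0 0
(.lf 2 true 1 false false 0 0) (.lf 3 true 1 false false 0 0))) (.s 1 0 0 1 0 0 0 0
(.s 0 5 0 0 0 0 0 7
(.lf 2 false 1 false false 0 0) (.s 0 4 0 0 0 0 0 4
(.s 1 0 4 12 0 0 0 6
(.lf 1 false 1 false false 0 0) (.lf 2 false 1 false false 0 0)) (.lf 0 false 0 false false 0 0))) (.s 0 4 0 0 0 0 0 4
(.lf 3 false 1 false false 0 0) (.s 0 11 0 0 0 0 0 11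
(.s 1 0 4 12 0 0 0 6
(.lf 0 false 1 false false 0 0) (.lf 0 false 1 false false 0 0)) (.lf 0 false 0 false false 0 0)))))

def i0_16 : T2 :=
(.k 631192 0 0 749616 130413 0 t0_16_0)

theorem hi0_16 : chk2 (leaf0 a0_16 e0_16) 0 i0_16 R16 = true := by
  decide +kernel

def t1_16_0 : T3 :=
(.s 0 8 0 0 0 0 0 14
(.s 0 1 0 0 0 0 0 1
(.lf 3 true 1 true false 0 2) (.s 1 0 0 1 0 0 0 0
(.lf 2 true 1 true false 0 0) (.lf 3 true 1 true false 0 0))) (.s 1 0 0 1 0 0 0 0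
(.s 0 5 0 0 0 0 0 7
(.lf 2 false 1 false false 0 0) (.s 0 4 0 0 0 0 0 4
(.s 1 0 4 12 0 0 0 6
(.lf 1 false 2 false false 0 0) (.lf 2 false 2 false false 0 0)) (.lf 0 false 2 false false 0 0))) (.s 0 4 0 0 0 0 0 4
(.lf 3 false 2 true false 0 0) (.s 0 11 0 0 0 0 0 11
(.s 1 0 4 12 0 0 0 6
(.lf 0 false 2 false false 0 0) (.lf 0 false 2 false false 0 0)) (.lf 0 false 2 false false 0 0)))))

def t1_16_1 : T3 :=
(.s 0 8 0 0 0 0 0 14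
(.s 0 1 0 0 0 0 0 1
(.lf 3 true 1 false false 1 2) (.s 1 0 0 1 0 0 0 0
(.lf 2 true 1 false false 2 0) (.lf 3 true 1 false false 2 0))) (.s 1 0 0 1 0 0 0 0
(.s 0 5 0 0 0 0 0 7
(.s 2 0 274143 0 0 1822415 0 1822414
(.lf 2 false 2 false false 1 0) (.lf 2 false 1 false true 1 0)) (.s 0 4 0 0 0 0 0 4
(.s 1 0 4 12 0 0 0 6
(.s 2 0 274143 0 0 1822415 0 1822414
(.lf 1 false 2 false false 1 0) (.lf 1 false 0 true true 1 0)) (.s 2 0 274143 0 0 1822415 0 1822414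
(.lf 2 false 2 false false 1 0) (.lf 2 false 0 true true 1 0))) (.s 2 0 274143 0 0 1822415 0 1822414
(.lf 0 false 2 false false 1 0) (.lf 0 false 0 true true 1 0)))) (.s 0 4 0 0 0 0 0 4
(.s 2 0 274143 0 0 1822415 0 1822414
(.lf 3 false 2 false false 1 0) (.s 3 3 0 0 0 0 0 3
(.lf 3 false 1 false true 1 0) (.lf 3 false 0 false true 1 0))) (.s 0 11 0 0 0 0 0 11
(.s 1 0 4 12 0 0 0 6
(.s 2 0 274143 0 0 1822415 0 1822414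
(.lf 0 false 2 false false 1 0) (.lf 0 false 0 true true 1 0)) (.s 2 0 274143 0 0 1822415 0 1822414
(.lf 0 false 2 false false 1 0) (.lf 0 false 0 true true 1 0))) (.s 2 0 274143 0 0 1822415 0 1822414
(.lf 0 false 2 false false 1 0) (.lf 0 false 0 true true 1 0))))))

def i1_16 : T2 :=
(.s 3 0 0 4 0 10
(.k 11000 0 0 0 0 0 t1_16_0) (.k 974143 0 1822415 0 0 1822415 t1_16_1))

theorem hi1_16 : chk2 (leaf1 a1_16 e1_16) 10000 i1_16 R16 = true := by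
  decide +kernel

theorem ok16 : CellOk R16 a0_16 e0_16 a1_16 e1_16 :=
  ⟨lin16, ⟨_, ho00_16⟩, ⟨_, ho01_16⟩, ⟨_, ho10_16⟩, ⟨_, ho11_16⟩, ⟨_, hi0_16⟩, ⟨_, hi1_16⟩⟩

def R33 : Reg := ⟨⟨0, 0, 0, 0, 0, 0, 0⟩, ⟨1, 0, 0, 0, 0, 0, 0⟩, ⟨1, 0, 0, 0, 0, 0, 9⟩, ⟨1, 0, 0, 0, 0, 0, 3⟩, ⟨0, 0, 0, 0, 1, 0, 0⟩, ⟨1, 0, 0, 0, 3, 0, 3⟩, ⟨17, 0, 0, 0, 0, 0, 19⟩, ⟨9, 0, 0, 0, 0, 0, 9⟩, ⟨0, 0, 0, 0, 0, 0, 0⟩, ⟨0, 0, 0, 0, 1, 0, 0⟩⟩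

def a0_33 : SF := mu 0 33675 42213 0 0 47738 491894 0

def e0_33 : SF := mu 0 476672 541220 0 2674693 0 0 1546166

def a1_33 : SF := mu 0 37768 56470 0 0 40925 222690 0

def e1_33 : SF := mu 0 396434 378854 0 2123256 0 0 1270545

theorem lin33 : chkLin R33 a0_33 e0_33 a1_33 e1_33 = true := by decide +kernel

def o00_33 : T3 :=
(.s 0 8 0 0 0 0 0 14
(.s 0 1 0 0 0 0 0 9
(.lf 3 true 0 false false 0 0) (.s 0 1 0 0 0 0 0 3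
(.s 1 0 0 1 0 0 0 0
(.s 2 0 0 1 0 0 0 0
(.s 1 1 0 10 0 0 0 19
(.s 0 1 0 0 0 0 0 4
(.s 0 3 0 0 0 0 0 19
(.lf 2 true 0 true false 0 0) (.s 1 3 0 10 0 0 0 39
(.s 0 7 0 0 0 0 0 39
(.lf 2 true 0 true false 0 0) (.lf 2 true 0 true false 0 0)) (.lf 2 true 0 true false 0 0))) (.s 0 9 0 0 0 0 0 39
(.lf 2 true 0 true false 0 0) (.lf 2 true 0 true false 0 0))) (.lf 2 true 0 true false 0 0)) (.s 1 1 0 10 0 0 0 19
(.s 0 1 0 0 0 0 0 4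
(.s 0 3 0 0 0 0 0 19
(.lf 2 true 0 false false 0 0) (.s 1 3 0 10 0 0 0 39
(.s 0 7 0 0 0 0 0 39
(.lf 2 true 0 false false 0 0) (.lf 2 true 0 false false 0 0)) (.lf 2 true 0 false false 0 0))) (.s 0 9 0 0 0 0 0 39
(.lf 2 true 0 false false 0 0) (.lf 2 true 0 false false 0 0))) (.lf 2 true 0 false false 0 0))) (.lf 3 true 0 false false 0 0)) (.s 0 47 0 0 0 0 0 119
(.s 0 13 0 0 0 0 0 39
(.s 2 0 0 1 0 0 0 0
(.s 1 1 0 0 0 0 0 4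
(.s 1 3 0 0 0 0 0 19
(.lf 2 true 0 true false 0 0) (.s 0 3 0 0 0 0 0 9
(.lf 2 true 0 true false 0 0) (.lf 2 true 0 true false 0 0))) (.lf 2 true 0 true false 0 0)) (.s 1 1 0 0 0 0 0 4
(.s 1 3 0 0 0 0 0 19
(.lf 2 true 0 false false 0 0) (.s 0 3 0 0 0 0 0 9
(.lf 2 true 0 false false 0 0) (.lf 2 true 0 false false 0 0))) (.lf 2 true 0 false false 0 0))) (.s 1 0 1 4 0 0 0 2
(.lf 2 true 0 true false 0 0) (.s 2 0 0 1 0 0 0 0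
(.s 1 0 1 16 0 0 0 23
(.lf 2 true 0 true false 0 0) (.lf 2 true 0 true false 0 0)) (.s 1 0 1 16 0 0 0 23
(.lf 2 true 0 false false 0 0) (.lf 2 true 0 false false 0 0))))) (.s 0 23 0 0 0 0 0 47
(.s 1 0 4 12 0 0 0 6
(.lf 1 true 0 true false 0 0) (.s 0 7 0 0 0 0 0 15
(.s 1 0 1 4 0 0 0 2
(.lf 2 true 0 true false 0 0) (.s 2 0 0 1 0 0 0 0
(.lf 2 true 0 true false 0 0) (.lf 2 true 0 false false 0 0))) (.lf 2 true 0 true false 0 0))) (.lf 1 true 0 true false 0 0))))) (.lf 1 false 0 true false 0 0))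

theorem ho00_33 : chk3 (leafO 10500000 3 a0_33 e0_33 R33.x0.ap R33.x0.m) o00_33 (full R33) = true := by
  decide +kernel

def o01_33 : T3 :=
(.s 0 8 0 0 0 0 0 14
(.s 0 1 0 0 0 0 0 9
(.lf 3 true 0 false false 0 0) (.s 0 1 0 0 0 0 0 3
(.s 1 0 0 1 0 0 0 0
(.s 2 0 0 1 0 0 0 0
(.s 1 1 0 10 0 0 0 19
(.s 0 1 0 0 0 0 0 4
(.lf 2 true 0 true false 0 0) (.lf 2 true 0 true false 0 0)) (.lf 2 true 0 true false 0 0)) (.s 1 1 0 10 0 0 0 19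
(.s 0 1 0 0 0 0 0 4
(.lf 2 true 0 false false 0 0) (.lf 2 true 0 false false 0 0)) (.lf 2 true 0 false false 0 0))) (.lf 3 true 0 false false 0 0)) (.s 0 47 0 0 0 0 0 119
(.s 0 13 0 0 0 0 0 39
(.s 2 0 0 1 0 0 0 0
(.s 1 1 0 0 0 0 0 4
(.s 1 3 0 0 0 0 0 19
(.lf 2 true 0 true false 0 0) (.s 1 7 0 0 0 0 0 39
(.lf 2 true 0 true false 0 0) (.lf 2 true 0 true false 0 0))) (.s 0 3 0 0 0 0 0 9
(.lf 2 true 0 true false 0 0) (.lf 2 true 0 true false 0 0))) (.s 1 1 0 0 0 0 0 4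
(.s 1 3 0 0 0 0 0 19
(.lf 2 true 0 false false 0 0) (.s 1 7 0 0 0 0 0 39
(.lf 2 true 0 false false 0 0) (.lf 2 true 0 false false 0 0))) (.s 0 3 0 0 0 0 0 9
(.lf 2 true 0 false false 0 0) (.lf 2 true 0 false false 0 0)))) (.s 1 0 1 4 0 0 0 2
(.lf 2 true 0 true false 0 0) (.s 2 0 0 1 0 0 0 0
(.s 1 0 1 16 0 0 0 23
(.lf 2 true 0 true false 0 0) (.s 1 5 0 16 0 0 0 47
(.lf 2 true 0 true false 0 0) (.lf 2 true 0 true false 0 0))) (.s 1 0 1 16 0 0 0 23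
(.lf 2 true 0 false false 0 0) (.s 1 5 0 16 0 0 0 47
(.lf 2 true 0 false false 0 0) (.lf 2 true 0 false false 0 0)))))) (.s 0 23 0 0 0 0 0 47
(.s 1 0 4 12 0 0 0 6
(.lf 1 true 0 true false 0 0) (.s 0 7 0 0 0 0 0 15
(.s 1 0 1 4 0 0 0 2
(.lf 2 true 0 true false 0 0) (.s 2 0 0 1 0 0 0 0
(.lf 2 true 0 true false 0 0) (.lf 2 true 0 false false 0 0))) (.lf 2 true 0 true false 0 0))) (.lf 1 true 0 true false 0 0))))) (.lf 1 false 0 true false 0 0))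

theorem ho01_33 : chk3 (leafO 10500000 3 a0_33 e0_33 R33.x1.ap R33.x1.m) o01_33 (full R33) = true := by
  decide +kernel

def o10_33 : T3 :=
(.s 0 8 0 0 0 0 0 14
(.s 0 1 0 0 0 0 0 9
(.lf 3 true 0 false false 0 0) (.s 0 1 0 0 0 0 0 3
(.s 1 0 0 1 0 0 0 0
(.s 2 0 0 1 0 0 0 0
(.s 2 0 0 1 0 1 0 1
(.s 0 1 0 0 0 0 0 4
(.s 0 3 0 0 0 0 0 19
(.lf 2 true 0 true false 0 0) (.lf 2 true 0 true false 0 0)) (.lf 2 true 0 true false 0 0)) (.s 1 1 0 10 0 0 0 19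
(.s 0 1 0 0 0 0 0 4
(.s 0 3 0 0 0 0 0 19
(.s 0 1 0 0 0 0 0 7
(.lf 2 true 0 true false 0 0) (.s 0 7 0 0 0 0 0 49
(.lf 2 true 0 true false 0 0) (.s 0 29 0 0 0 0 0 199
(.lf 2 true 0 true false 0 0) (.lf 2 true 0 true false 0 0)))) (.s 1 3 0 10 0 0 0 39
(.lf 2 true 0 true false 0 0) (.lf 2 true 0 true false 0 0))) (.lf 2 true 0 true false 0 0)) (.s 0 1 0 0 0 0 0 4
(.s 0 3 0 0 0 0 0 19
(.lf 2 true 0 true false 0 0) (.lf 2 true 0 true false 0 0)) (.s 1 1 0 30 0 0 0 39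
(.lf 2 true 0 true false 0 0) (.lf 2 true 0 true false 0 0))))) (.s 2 1 0 4 0 3 0 7
(.s 2 1 0 12 0 3 0 15
(.s 2 1 0 28 0 3 0 31
(.s 1 1 0 10 0 0 0 19
(.s 0 1 0 0 0 0 0 4
(.s 0 3 0 0 0 0 0 19
(.s 0 1 0 0 0 0 0 7
(.lf 2 true 0 false false 0 0) (.s 0 7 0 0 0 0 0 49
(.lf 2 true 0 false false 0 0) (.s 0 29 0 0 0 0 0 199
(.lf 2 true 0 false false 0 0) (.lf 2 true 0 false false 0 0)))) (.s 1 3 0 10 0 0 0 39
(.lf 2 true 0 false false 0 0) (.lf 2 true 0 false false 0 0))) (.lf 2 true 0 false false 0 0)) (.s 0 1 0 0 0 0 0 4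
(.s 0 3 0 0 0 0 0 19
(.lf 2 true 0 false false 0 0) (.lf 2 true 0 false false 0 0)) (.s 1 1 0 30 0 0 0 39
(.lf 2 true 0 false false 0 0) (.lf 2 true 0 false false 0 0)))) (.lf 2 true 0 false false 0 0)) (.lf 2 true 0 false false 0 0)) (.lf 2 true 0 false false 0 0))) (.lf 3 true 0 false false 0 0)) (.s 0 47 0 0 0 0 0 119
(.s 0 13 0 0 0 0 0 39
(.s 2 0 0 1 0 0 0 0
(.s 1 1 0 0 0 0 0 4
(.lf 2 true 0 true false 0 0) (.s 1 9 0 0 0 0 0 39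
(.lf 2 true 0 true false 0 0) (.s 0 3 0 0 0 0 0 9
(.lf 2 true 0 true false 0 0) (.lf 2 true 0 true false 0 0)))) (.s 1 1 0 0 0 0 0 4
(.lf 2 true 0 false false 0 0) (.s 1 9 0 0 0 0 0 39
(.lf 2 true 0 false false 0 0) (.s 0 3 0 0 0 0 0 9
(.lf 2 true 0 false false 0 0) (.lf 2 true 0 false false 0 0))))) (.s 1 0 1 4 0 0 0 2
(.lf 2 true 0 true false 0 0) (.s 2 0 0 1 0 0 0 0
(.lf 2 true 0 true false 0 0) (.lf 2 true 0 false false 0 0)))) (.s 0 23 0 0 0 0 0 47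
(.s 1 0 4 12 0 0 0 6
(.lf 1 true 0 true false 0 0) (.lf 2 true 0 true false 0 0)) (.lf 1 true 0 true false 0 0))))) (.lf 1 false 0 true false 0 0))

theorem ho10_33 : chk3 (leafO 5554500 1 a1_33 e1_33 R33.x0.ap R33.x0.m) o10_33 (full R33) = true := by
  decide +kernel

def o11_33 : T3 :=
(.s 0 8 0 0 0 0 0 14
(.s 0 1 0 0 0 0 0 9
(.lf 3 true 0 false false 0 0) (.s 0 1 0 0 0 0 0 3
(.s 1 0 0 1 0 0 0 0
(.s 2 0 0 1 0 0 0 0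
(.s 2 0 0 1 0 1 0 1
(.lf 2 true 0 true false 0 0) (.s 1 1 0 10 0 0 0 19
(.s 0 1 0 0 0 0 0 4
(.s 0 3 0 0 0 0 0 19
(.lf 2 true 0 true false 0 0) (.lf 2 true 0 true false 0 0)) (.lf 2 true 0 true false 0 0)) (.s 0 1 0 0 0 0 0 4
(.lf 2 true 0 true false 0 0) (.lf 2 true 0 true false 0 0)))) (.s 2 1 0 4 0 3 0 7
(.s 2 1 0 12 0 3 0 15
(.s 2 1 0 28 0 3 0 31
(.s 2 1 0 60 0 3 0 63
(.s 1 1 0 10 0 0 0 19
(.s 0 1 0 0 0 0 0 4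
(.s 0 3 0 0 0 0 0 19
(.lf 2 true 0 false false 0 0) (.lf 2 true 0 false false 0 0)) (.lf 2 true 0 false false 0 0)) (.s 0 1 0 0 0 0 0 4
(.lf 2 true 0 false false 0 0) (.lf 2 true 0 false false 0 0))) (.lf 2 true 0 false false 0 0)) (.lf 2 true 0 false false 0 0)) (.lf 2 true 0 false false 0 0)) (.lf 2 true 0 false false 0 0))) (.lf 3 true 0 false false 0 0)) (.s 0 47 0 0 0 0 0 119
(.s 0 13 0 0 0 0 0 39
(.s 2 0 0 1 0 0 0 0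
(.s 1 1 0 0 0 0 0 4
(.lf 2 true 0 true false 0 0) (.s 1 9 0 0 0 0 0 39
(.lf 2 true 0 true false 0 0) (.lf 2 true 0 true false 0 0))) (.s 1 1 0 0 0 0 0 4
(.lf 2 true 0 false false 0 0) (.s 1 9 0 0 0 0 0 39
(.lf 2 true 0 false false 0 0) (.lf 2 true 0 false false 0 0)))) (.s 1 0 1 4 0 0 0 2
(.lf 2 true 0 true false 0 0) (.s 2 0 0 1 0 0 0 0
(.lf 2 true 0 true false 0 0) (.lf 2 true 0 false false 0 0)))) (.s 0 23 0 0 0 0 0 47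
(.s 1 0 4 12 0 0 0 6
(.lf 1 true 0 true false 0 0) (.lf 2 true 0 true false 0 0)) (.lf 1 true 0 true false 0 0))))) (.lf 1 false 0 true false 0 0))

theorem ho11_33 : chk3 (leafO 5554500 1 a1_33 e1_33 R33.x1.ap R33.x1.m) o11_33 (full R33) = true := by
  decide +kernel

def t0_33_0 : T3 :=
(.s 0 8 0 0 0 0 0 14
(.s 0 1 0 0 0 0 0 9
(.lf 3 true 1 true false 0 0) (.s 0 1 0 0 0 0 0 3
(.s 1 0 0 1 0 0 0 0
(.s 0 3 0 0 0 0 0 19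
(.s 3 1 0 0 1 0 0 0
(.lf 2 true 1 true false 0 0) (.s 4 1000 0 0 1000 0 0 2736
(.lf 2 true 1 true false 0 0) (.lf 2 true 1 false false 0 0))) (.s 4 1000 0 0 1000 0 0 2736
(.lf 2 true 1 true false 0 0) (.lf 2 true 1 false false 0 0))) (.s 0 3 0 0 0 0 0 19
(.s 3 1 0 0 1 0 0 0
(.lf 3 true 1 true false 0 0) (.s 4 1000 0 0 1000 0 0 2736
(.lf 3 true 1 true false 0 0) (.lf 3 true 1 false false 0 0))) (.s 4 1000 0 0 1000 0 0 2736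
(.lf 3 true 1 true false 0 0) (.lf 3 true 1 false false 0 0)))) (.s 0 47 0 0 0 0 0 119
(.lf 2 true 1 false false 0 0) (.s 0 23 0 0 0 0 0 47
(.s 1 0 4 12 0 0 0 6
(.lf 1 true 1 false false 0 0) (.lf 2 true 1 false false 0 0)) (.lf 1 true 1 false false 0 0))))) (.lf 1 false 0 false false 0 0))

def t0_33_1 : T3 :=
(.s 0 8 0 0 0 0 0 14
(.s 0 1 0 0 0 0 0 9
(.lf 3 true 1 false false 0 0) (.s 0 1 0 0 0 0 0 3
(.s 1 0 0 1 0 0 0 0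
(.lf 2 true 1 false false 0 0) (.lf 3 true 1 false false 0 0)) (.s 0 47 0 0 0 0 0 119
(.lf 2 true 1 false false 0 0) (.s 0 23 0 0 0 0 0 47
(.s 1 0 4 12 0 0 0 6
(.lf 1 true 1 false false 0 0) (.lf 2 true 1 false false 0 0)) (.lf 1 true 1 false false 0 0))))) (.lf 1 false 0 false false 0 0))

def i0_33 : T2 :=
(.s 3 0 0 1000 0 2736
(.k 719524 0 0 0 0 2874097 t0_33_0) (.k 1070562 0 0 1255174 3880 0 t0_33_1))

theorem hi0_33 : chk2 (leaf0 a0_33 e0_33) 0 i0_33 R33 = true := by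
  decide +kernel

def t1_33_0 : T3 :=
(.s 0 8 0 0 0 0 0 14
(.s 0 1 0 0 0 0 0 9
(.lf 3 true 1 true false 0 2) (.s 0 1 0 0 0 0 0 3
(.s 1 0 0 1 0 0 0 0
(.lf 2 true 1 true false 0 0) (.lf 3 true 1 true false 0 0)) (.s 0 47 0 0 0 0 0 119
(.lf 2 true 1 true false 0 0) (.s 0 23 0 0 0 0 0 47
(.s 1 0 4 12 0 0 0 6
(.lf 1 true 1 true false 0 0) (.lf 2 true 1 true false 0 0)) (.lf 1 true 2 false false 0 0))))) (.lf 1 false 2 false false 0 0))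

def t1_33_1 : T3 :=
(.s 0 8 0 0 0 0 0 14
(.s 0 1 0 0 0 0 0 9
(.s 0 211 0 0 0 0 0 2199
(.s 0 47 0 0 0 0 0 1099
(.lf 3 true 1 false false 1 1) (.s 3 110 0 0 110 0 0 116
(.lf 3 true 1 false false 2 1) (.s 4 0 10 10 0 11 0 0
(.lf 3 true 1 false false 2 0) (.lf 3 true 1 false false 2 1)))) (.s 4 0 10 10 0 11 0 0
(.lf 3 true 1 false false 2 0) (.lf 3 true 1 false false 2 1))) (.s 0 1 0 0 0 0 0 3
(.s 1 0 0 1 0 0 0 0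
(.s 0 3 0 0 0 0 0 19
(.s 3 1 0 0 1 0 0 0
(.s 4 0 10 10 0 11 0 0
(.lf 2 true 1 false false 2 0) (.lf 2 true 1 false false 2 1)) (.lf 2 true 1 false false 2 0)) (.lf 2 true 1 false false 2 0)) (.s 0 3 0 0 0 0 0 19
(.s 3 1 0 0 1 0 0 0
(.s 4 0 10 10 0 11 0 0
(.lf 3 true 1 false false 2 0) (.lf 3 true 1 false false 2 1)) (.lf 3 true 1 false false 2 0)) (.lf 3 true 1 false false 2 0))) (.s 0 47 0 0 0 0 0 119
(.lf 2 true 1 false false 2 0) (.s 0 23 0 0 0 0 0 47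
(.s 1 0 4 12 0 0 0 6
(.s 4 1 0 0 1 0 0 0
(.lf 1 true 1 false false 2 0) (.lf 1 true 0 false false 2 0)) (.lf 2 true 1 false false 2 0)) (.s 1 630811 0 0 0 0 0 5159568
(.s 1 2363675 0 0 0 0 0 20478706
(.lf 1 true 1 true true 1 0) (.s 2 630811 0 0 0 0 5000000 159568
(.lf 1 true 1 true true 1 0) (.lf 1 true 2 false false 1 0))) (.lf 1 true 2 false false 1 0)))))) (.s 1 630811 0 0 0 0 0 5159568
(.s 1 2363675 0 0 0 0 0 20478706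
(.lf 1 false 0 false true 1 0) (.s 2 630811 0 0 0 0 5000000 159568
(.lf 1 false 0 false true 1 0) (.lf 1 false 2 false false 1 0))) (.lf 1 false 2 false false 1 0)))

def i1_33 : T2 :=
(.s 3 0 0 4 0 10
(.k 136720 0 0 502880 377160 0 t1_33_0) (.k 1330811 0 0 159569 0 5000000 t1_33_1))

theorem hi1_33 : chk2 (leaf1 a1_33 e1_33) 10000 i1_33 R33 = true := by
  decide +kernel

theorem ok33 : CellOk R33 a0_33 e0_33 a1_33 e1_33 :=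
  ⟨lin33, ⟨_, ho00_33⟩, ⟨_, ho01_33⟩, ⟨_, ho10_33⟩, ⟨_, ho11_33⟩, ⟨_, hi0_33⟩, ⟨_, hi1_33⟩⟩

def R38 : Reg := ⟨⟨0, 0, 0, 0, 0, 0, 0⟩, ⟨1, 0, 0, 0, 0, 0, 0⟩, ⟨0, 0, 0, 0, 0, 0, 0⟩, ⟨1, 0, 0, 0, 0, 0, 1⟩, ⟨0, 0, 0, 0, 1, 0, 0⟩, ⟨1, 0, 0, 0, 1, 0, 1⟩, ⟨37, 0, 0, 0, 0, 0, 39⟩, ⟨19, 0, 0, 0, 0, 0, 19⟩, ⟨0, 0, 0, 0, 0, 0, 0⟩, ⟨0, 0, 0, 0, 1, 0, 0⟩⟩

def a0_38 : SF := mu 0 0 0 0 73 0 486917 0

def e0_38 : SF := mu 0 0 0 0 2707266 0 0 1469198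

def a1_38 : SF := mu 0 0 0 0 30 0 340821 0

def e1_38 : SF := mu 0 0 0 0 1895066 0 0 1716251

theorem lin38 : chkLin R38 a0_38 e0_38 a1_38 e1_38 = true := by decide +kernel

def o00_38 : T3 :=
(.s 0 8 0 0 0 0 0 14
(.s 0 1 0 0 0 0 0 1
(.s 1 0 0 1 0 0 0 0
(.s 0 1 0 0 0 0 0 2
(.s 2 0 0 1 0 0 0 0
(.s 1 0 0 1 0 0 0 1
(.lf 2 true 0 true false 0 0) (.s 1 0 0 3 0 0 0 3
(.lf 2 true 0 true false 0 0) (.lf 2 true 0 true false 0 0))) (.s 1 0 0 1 0 0 0 1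
(.lf 2 true 0 false false 0 0) (.s 1 0 0 3 0 0 0 3
(.lf 2 true 0 false false 0 0) (.lf 2 true 0 false false 0 0)))) (.s 1 0 4 12 0 0 0 6
(.s 2 0 0 1 0 0 0 0
(.lf 1 true 0 true false 0 0) (.lf 1 true 0 false false 0 0)) (.s 2 0 0 1 0 0 0 0
(.s 1 0 4 19 0 0 0 13
(.s 0 2 0 0 0 0 0 4
(.lf 2 true 0 true false 0 0) (.lf 2 true 0 true false 0 0)) (.s 1 0 4 33 0 0 0 27
(.lf 2 true 0 true false 0 0) (.lf 2 true 0 true false 0 0))) (.s 1 0 4 19 0 0 0 13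
(.s 0 2 0 0 0 0 0 4
(.lf 2 true 0 false false 0 0) (.lf 2 true 0 false false 0 0)) (.s 1 0 4 33 0 0 0 27
(.lf 2 true 0 false false 0 0) (.lf 2 true 0 false false 0 0)))))) (.lf 3 true 0 false false 0 0)) (.s 1 0 4 12 0 0 0 6
(.s 1 0 1 2 0 0 0 0
(.lf 1 true 0 true false 0 0) (.s 2 0 0 1 0 0 0 0
(.lf 1 true 0 true false 0 0) (.lf 1 true 0 false false 0 0))) (.s 2 0 0 1 0 0 0 0
(.lf 2 true 0 true false 0 0) (.lf 2 true 0 false false 0 0)))) (.s 0 5 0 0 0 0 0 7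
(.s 1 0 4 12 0 0 0 6
(.s 1 0 1 2 0 0 0 0
(.lf 1 false 0 true false 0 0) (.s 2 0 0 1 0 0 0 0
(.lf 1 false 0 true false 0 0) (.lf 1 false 0 false false 0 0))) (.s 2 0 0 1 0 0 0 0
(.lf 2 false 0 true false 0 0) (.lf 2 false 0 false false 0 0))) (.s 0 3 0 0 0 0 0 3
(.s 1 0 1 2 0 0 0 0
(.lf 1 false 0 true false 0 0) (.s 2 0 0 1 0 0 0 0
(.lf 1 false 0 true false 0 0) (.lf 1 false 0 false false 0 0))) (.lf 1 false 0 true false 0 0))))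

theorem ho00_38 : chk3 (leafO 10500000 3 a0_38 e0_38 R38.x0.ap R38.x0.m) o00_38 (full R38) = true := by
  decide +kernel

def o01_38 : T3 :=
(.s 0 8 0 0 0 0 0 14
(.s 0 1 0 0 0 0 0 1
(.s 1 0 0 1 0 0 0 0
(.s 0 1 0 0 0 0 0 2
(.s 2 0 0 1 0 0 0 0
(.s 1 0 0 1 0 0 0 1
(.lf 2 true 0 true false 0 0) (.s 1 0 0 3 0 0 0 3
(.lf 2 true 0 true false 0 0) (.lf 2 true 0 true false 0 0))) (.s 1 0 0 1 0 0 0 1
(.lf 2 true 0 false false 0 0) (.s 1 0 0 3 0 0 0 3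
(.lf 2 true 0 false false 0 0) (.lf 2 true 0 false false 0 0)))) (.s 1 0 4 12 0 0 0 6
(.s 2 0 0 1 0 0 0 0
(.lf 1 true 0 true false 0 0) (.lf 1 true 0 false false 0 0)) (.s 2 0 0 1 0 0 0 0
(.s 1 0 4 19 0 0 0 13
(.s 0 2 0 0 0 0 0 4
(.lf 2 true 0 true false 0 0) (.s 1 0 12 43 0 0 0 27
(.lf 2 true 0 true false 0 0) (.s 0 9 0 0 0 0 0 19
(.lf 2 true 0 true false 0 0) (.lf 2 true 0 true false 0 0)))) (.s 1 0 4 33 0 0 0 27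
(.s 0 2 0 0 0 0 0 4
(.s 1 0 12 71 0 0 0 55
(.lf 2 true 0 true false 0 0) (.lf 2 true 0 true false 0 0)) (.lf 2 true 0 true false 0 0)) (.lf 2 true 0 true false 0 0))) (.s 1 0 4 19 0 0 0 13
(.s 0 2 0 0 0 0 0 4
(.lf 2 true 0 false false 0 0) (.s 1 0 12 43 0 0 0 27
(.lf 2 true 0 false false 0 0) (.s 0 9 0 0 0 0 0 19
(.lf 2 true 0 false false 0 0) (.lf 2 true 0 false false 0 0)))) (.s 1 0 4 33 0 0 0 27
(.s 0 2 0 0 0 0 0 4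
(.s 1 0 12 71 0 0 0 55
(.lf 2 true 0 false false 0 0) (.lf 2 true 0 false false 0 0)) (.lf 2 true 0 false false 0 0)) (.lf 2 true 0 false false 0 0)))))) (.lf 3 true 0 false false 0 0)) (.s 1 0 4 12 0 0 0 6
(.s 1 0 1 2 0 0 0 0
(.lf 1 true 0 true false 0 0) (.s 2 0 0 1 0 0 0 0
(.lf 1 true 0 true false 0 0) (.lf 1 true 0 false false 0 0))) (.s 2 0 0 1 0 0 0 0
(.s 1 0 1 24 0 0 0 27
(.lf 2 true 0 true false 0 0) (.lf 2 true 0 true false 0 0)) (.s 1 0 1 24 0 0 0 27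
(.lf 2 true 0 false false 0 0) (.lf 2 true 0 false false 0 0))))) (.s 0 5 0 0 0 0 0 7
(.s 1 0 4 12 0 0 0 6
(.s 1 0 1 2 0 0 0 0
(.lf 1 false 0 true false 0 0) (.s 2 0 0 1 0 0 0 0
(.lf 1 false 0 true false 0 0) (.lf 1 false 0 false false 0 0))) (.s 2 0 0 1 0 0 0 0
(.lf 2 false 0 true false 0 0) (.lf 2 false 0 false false 0 0))) (.s 0 3 0 0 0 0 0 3
(.s 1 0 1 2 0 0 0 0
(.lf 1 false 0 true false 0 0) (.s 2 0 0 1 0 0 0 0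
(.lf 1 false 0 true false 0 0) (.lf 1 false 0 false false 0 0))) (.lf 1 false 0 true false 0 0))))

theorem ho01_38 : chk3 (leafO 10500000 3 a0_38 e0_38 R38.x1.ap R38.x1.m) o01_38 (full R38) = true := by
  decide +kernel

def o10_38 : T3 :=
(.s 0 8 0 0 0 0 0 14
(.s 0 1 0 0 0 0 0 1
(.s 1 0 0 1 0 0 0 0
(.s 0 1 0 0 0 0 0 2
(.s 2 0 0 1 0 0 0 0
(.s 1 0 0 1 0 0 0 1
(.lf 2 true 0 true false 0 0) (.s 1 0 0 3 0 0 0 3
(.lf 2 true 0 true false 0 0) (.lf 2 true 0 true false 0 0))) (.s 1 0 0 1 0 0 0 1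
(.lf 2 true 0 false false 0 0) (.s 1 0 0 3 0 0 0 3
(.lf 2 true 0 false false 0 0) (.lf 2 true 0 false false 0 0)))) (.s 1 0 4 12 0 0 0 6
(.s 2 0 0 1 0 0 0 0
(.lf 1 true 0 true false 0 0) (.lf 1 true 0 false false 0 0)) (.s 2 0 0 1 0 0 0 0
(.s 1 0 4 19 0 0 0 13
(.s 1 0 12 43 0 0 0 27
(.lf 2 true 0 true false 0 0) (.s 0 2 0 0 0 0 0 4
(.lf 2 true 0 true false 0 0) (.s 0 9 0 0 0 0 0 19
(.lf 2 true 0 true false 0 0) (.lf 2 true 0 true false 0 0)))) (.s 1 0 4 33 0 0 0 27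
(.s 0 2 0 0 0 0 0 4
(.s 1 0 12 71 0 0 0 55
(.lf 2 true 0 true false 0 0) (.lf 2 true 0 true false 0 0)) (.lf 2 true 0 true false 0 0)) (.lf 2 true 0 true false 0 0))) (.s 1 0 4 19 0 0 0 13
(.s 1 0 12 43 0 0 0 27
(.lf 2 true 0 false false 0 0) (.s 0 2 0 0 0 0 0 4
(.lf 2 true 0 false false 0 0) (.s 0 9 0 0 0 0 0 19
(.lf 2 true 0 false false 0 0) (.lf 2 true 0 false false 0 0)))) (.s 1 0 4 33 0 0 0 27
(.s 0 2 0 0 0 0 0 4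
(.s 1 0 12 71 0 0 0 55
(.lf 2 true 0 false false 0 0) (.lf 2 true 0 false false 0 0)) (.lf 2 true 0 false false 0 0)) (.lf 2 true 0 false false 0 0)))))) (.lf 3 true 0 false false 0 0)) (.s 1 0 4 12 0 0 0 6
(.s 1 0 1 2 0 0 0 0
(.lf 1 true 0 true false 0 0) (.s 2 0 0 1 0 0 0 0
(.lf 1 true 0 true false 0 0) (.lf 1 true 0 false false 0 0))) (.s 2 0 0 1 0 0 0 0
(.s 1 0 1 24 0 0 0 27
(.lf 2 true 0 true false 0 0) (.lf 2 true 0 true false 0 0)) (.s 1 0 1 24 0 0 0 27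
(.lf 2 true 0 false false 0 0) (.lf 2 true 0 false false 0 0))))) (.s 0 5 0 0 0 0 0 7
(.s 1 0 4 12 0 0 0 6
(.s 1 0 1 2 0 0 0 0
(.lf 1 false 0 true false 0 0) (.s 2 0 0 1 0 0 0 0
(.lf 1 false 0 true false 0 0) (.lf 1 false 0 false false 0 0))) (.s 2 0 0 1 0 0 0 0
(.lf 2 false 0 true false 0 0) (.lf 2 false 0 false false 0 0))) (.s 0 3 0 0 0 0 0 3
(.s 1 0 1 2 0 0 0 0
(.lf 1 false 0 true false 0 0) (.s 2 0 0 1 0 0 0 0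
(.lf 1 false 0 true false 0 0) (.lf 1 false 0 false false 0 0))) (.lf 1 false 0 true false 0 0))))

theorem ho10_38 : chk3 (leafO 5554500 1 a1_38 e1_38 R38.x0.ap R38.x0.m) o10_38 (full R38) = true := by
  decide +kernel

def o11_38 : T3 :=
(.s 0 8 0 0 0 0 0 14
(.s 0 1 0 0 0 0 0 1
(.s 1 0 0 1 0 0 0 0
(.s 0 1 0 0 0 0 0 2
(.s 2 0 0 1 0 0 0 0
(.s 1 0 0 1 0 0 0 1
(.lf 2 true 0 true false 0 0) (.s 1 0 0 3 0 0 0 3
(.s 1 0 0 5 0 0 0 7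
(.lf 2 true 0 true false 0 0) (.lf 2 true 0 true false 0 0)) (.lf 2 true 0 true false 0 0))) (.s 1 0 0 1 0 0 0 1
(.lf 2 true 0 false false 0 0) (.s 1 0 0 3 0 0 0 3
(.s 1 0 0 5 0 0 0 7
(.lf 2 true 0 false false 0 0) (.lf 2 true 0 false false 0 0)) (.lf 2 true 0 false false 0 0)))) (.s 1 0 4 12 0 0 0 6
(.s 2 0 0 1 0 0 0 0
(.lf 1 true 0 true false 0 0) (.lf 1 true 0 false false 0 0)) (.s 2 0 0 1 0 0 0 0
(.s 1 0 4 19 0 0 0 13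
(.s 1 0 12 43 0 0 0 27
(.lf 2 true 0 true false 0 0) (.s 0 2 0 0 0 0 0 4
(.lf 2 true 0 true false 0 0) (.s 0 9 0 0 0 0 0 19
(.s 0 17 0 0 0 0 0 39
(.lf 2 true 0 true false 0 0) (.lf 2 true 0 true false 0 0)) (.s 0 19 0 0 0 0 0 39
(.lf 2 true 0 true false 0 0) (.lf 2 true 0 true false 0 0))))) (.s 1 0 4 33 0 0 0 27
(.s 0 2 0 0 0 0 0 4
(.s 1 0 12 71 0 0 0 55
(.s 0 3 0 0 0 0 0 7
(.lf 2 true 0 true false 0 0) (.lf 2 true 0 true false 0 0)) (.lf 2 true 0 true false 0 0)) (.lf 2 true 0 true false 0 0)) (.lf 2 true 0 true false 0 0))) (.s 1 0 4 19 0 0 0 13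
(.s 1 0 12 43 0 0 0 27
(.lf 2 true 0 false false 0 0) (.s 0 2 0 0 0 0 0 4
(.lf 2 true 0 false false 0 0) (.s 0 9 0 0 0 0 0 19
(.s 0 17 0 0 0 0 0 39
(.lf 2 true 0 false false 0 0) (.lf 2 true 0 false false 0 0)) (.s 0 19 0 0 0 0 0 39
(.lf 2 true 0 false false 0 0) (.lf 2 true 0 false false 0 0))))) (.s 1 0 4 33 0 0 0 27
(.s 0 2 0 0 0 0 0 4
(.s 1 0 12 71 0 0 0 55
(.s 0 3 0 0 0 0 0 7
(.lf 2 true 0 false false 0 0) (.lf 2 true 0 false false 0 0)) (.lf 2 true 0 false false 0 0)) (.lf 2 true 0 false false 0 0)) (.lf 2 true 0 false false 0 0)))))) (.lf 3 true 0 false false 0 0)) (.s 1 0 4 12 0 0 0 6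
(.s 1 0 1 2 0 0 0 0
(.lf 1 true 0 true false 0 0) (.s 2 0 0 1 0 0 0 0
(.lf 1 true 0 true false 0 0) (.lf 1 true 0 false false 0 0))) (.s 2 0 0 1 0 0 0 0
(.s 1 0 1 24 0 0 0 27
(.s 1 0 17 72 0 0 0 55
(.lf 2 true 0 true false 0 0) (.lf 2 true 0 true false 0 0)) (.lf 2 true 0 true false 0 0)) (.s 1 0 1 24 0 0 0 27
(.s 1 0 17 72 0 0 0 55
(.lf 2 true 0 false false 0 0) (.lf 2 true 0 false false 0 0)) (.lf 2 true 0 false false 0 0))))) (.s 0 5 0 0 0 0 0 7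
(.s 1 0 4 12 0 0 0 6
(.s 1 0 1 2 0 0 0 0
(.lf 1 false 0 true false 0 0) (.s 2 0 0 1 0 0 0 0
(.lf 1 false 0 true false 0 0) (.lf 1 false 0 false false 0 0))) (.s 2 0 0 1 0 0 0 0
(.s 1 0 1 24 0 0 0 27
(.lf 2 false 0 true false 0 0) (.lf 2 false 0 true false 0 0)) (.s 1 0 1 24 0 0 0 27
(.lf 2 false 0 false false 0 0) (.lf 2 false 0 false false 0 0)))) (.s 0 3 0 0 0 0 0 3
(.s 1 0 1 2 0 0 0 0
(.lf 1 false 0 true false 0 0) (.s 2 0 0 1 0 0 0 0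
(.lf 1 false 0 true false 0 0) (.lf 1 false 0 false false 0 0))) (.lf 1 false 0 true false 0 0))))

theorem ho11_38 : chk3 (leafO 5554500 1 a1_38 e1_38 R38.x1.ap R38.x1.m) o11_38 (full R38) = true := by
  decide +kernel

def t0_38_0 : T3 :=
(.s 0 8 0 0 0 0 0 14
(.s 0 1 0 0 0 0 0 1
(.s 1 0 0 1 0 0 0 0
(.s 0 1 0 0 0 0 0 2
(.s 0 3 0 0 0 0 0 39
(.s 0 1 0 0 0 0 0 19
(.lf 2 true 1 true false 0 0) (.s 3 1 0 0 1 0 0 0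
(.lf 2 true 1 true false 0 0) (.s 4 1000 0 0 1000 0 0 2736
(.lf 2 true 1 true false 0 0) (.lf 2 true 1 false false 0 0)))) (.s 4 1000 0 0 1000 0 0 2736
(.lf 2 true 1 true false 0 0) (.lf 2 true 1 false false 0 0))) (.s 1 0 4 12 0 0 0 6
(.lf 1 true 1 false false 0 0) (.lf 2 true 1 false false 0 0))) (.s 0 3 0 0 0 0 0 39
(.s 0 1 0 0 0 0 0 19
(.lf 3 true 1 true false 0 0) (.s 3 1 0 0 1 0 0 0
(.lf 3 true 1 true false 0 0) (.s 4 1000 0 0 1000 0 0 2736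
(.lf 3 true 1 true false 0 0) (.lf 3 true 1 false false 0 0)))) (.s 4 1000 0 0 1000 0 0 2736
(.lf 3 true 1 true false 0 0) (.lf 3 true 1 false false 0 0)))) (.s 1 0 4 12 0 0 0 6
(.lf 1 true 1 false false 0 0) (.lf 2 true 1 false false 0 0))) (.s 0 5 0 0 0 0 0 7
(.s 1 0 4 12 0 0 0 6
(.lf 1 false 1 true false 0 0) (.lf 2 false 1 false false 0 0)) (.lf 1 false 0 false false 0 0)))

def t0_38_1 : T3 :=
(.s 0 8 0 0 0 0 0 14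
(.s 0 1 0 0 0 0 0 1
(.s 1 0 0 1 0 0 0 0
(.s 0 1 0 0 0 0 0 2
(.lf 2 true 1 false false 0 0) (.s 1 0 4 12 0 0 0 6
(.lf 1 true 1 false false 0 0) (.lf 2 true 1 false false 0 0))) (.lf 3 true 1 false false 0 0)) (.s 1 0 4 12 0 0 0 6
(.lf 1 true 1 false false 0 0) (.lf 2 true 1 false false 0 0))) (.s 0 5 0 0 0 0 0 7
(.s 1 0 4 12 0 0 0 6
(.lf 1 false 1 false false 0 0) (.lf 2 false 1 false false 0 0)) (.lf 1 false 0 false false 0 0)))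

def i0_38 : T2 :=
(.s 3 0 0 1000 0 2736
(.k 749098 0 0 1047141 74515 0 t0_38_0) (.k 1049369 0 0 1241165 8950 0 t0_38_1))

theorem hi0_38 : chk2 (leaf0 a0_38 e0_38) 0 i0_38 R38 = true := by
  decide +kernel

def R38_1a : Reg := hi R38 (Nat.succ 3) ⟨0, 0, 0, 0, 4, 0, 10⟩

def R38_1b : Reg := lo R38 (Nat.succ 3) ⟨0, 0, 0, 0, 4, 0, 10⟩

def t1_38a_0 : T3 :=
(.s 0 8 0 0 0 0 0 14
(.s 0 1 0 0 0 0 0 1
(.s 1 0 0 1 0 0 0 0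
(.s 0 1 0 0 0 0 0 2
(.s 0 71 0 0 0 0 0 4399
(.s 3 110 0 0 110 0 0 116
(.s 4 0 10 10 0 11 0 0
(.lf 2 true 1 true false 0 0) (.lf 2 true 1 true false 0 1)) (.lf 2 true 1 true false 0 0)) (.lf 2 true 1 true false 0 0)) (.s 1 0 4 12 0 0 0 6
(.lf 1 true 1 false false 0 0) (.lf 2 true 1 true false 0 0))) (.s 0 71 0 0 0 0 0 4399
(.s 3 110 0 0 110 0 0 116
(.s 4 0 10 10 0 11 0 0
(.lf 3 true 1 true false 0 0) (.lf 3 true 1 true false 0 1)) (.lf 3 true 1 true false 0 0)) (.lf 3 true 1 true false 0 0))) (.s 1 0 4 12 0 0 0 6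
(.lf 1 true 2 false false 0 0) (.lf 2 true 2 true false 0 0))) (.s 0 5 0 0 0 0 0 7
(.s 1 0 4 12 0 0 0 6
(.lf 1 false 2 false false 0 0) (.lf 2 false 2 true false 0 0)) (.lf 1 false 2 false false 0 0)))

def i1_38a : T2 :=
(.k 99437 0 0 176875 233658 0 t1_38a_0)

theorem hi1_38a : chk2 (leaf1 a1_38 e1_38) 10000 i1_38a R38_1a = true := by
  decide +kernel

def t1_38b_0 : T3 :=
(.s 0 8 0 0 0 0 0 14
(.s 0 1 0 0 0 0 0 1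
(.s 1 0 0 1 0 0 0 0
(.s 0 1 0 0 0 0 0 2
(.s 2 1 0 0 0 3 0 3
(.s 1 0 0 1 0 0 0 1
(.s 2 1 0 0 0 7 0 7
(.s 0 216994 0 0 0 0 0 757980
(.s 0 1 0 0 0 0 0 9
(.s 2 1 0 0 0 15 0 15
(.s 2 1 0 0 0 31 0 31
(.s 2 1 0 0 0 63 0 63
(.s 4 0 0 0 0 11 0 20
(.s 0 1 0 0 0 0 0 19
(.s 0 71 0 0 0 0 0 4399
(.s 3 110 0 0 110 0 0 116
(.lf 2 true 1 false false 1 1) (.s 0 1 0 0 0 0 0 209
(.s 4 0 10 10 0 11 0 0
(.lf 2 true 1 false false 1 0) (.lf 2 true 1 false false 1 1)) (.s 3 21 0 0 21 0 0 21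
(.s 4 0 10 10 0 11 0 0
(.lf 2 true 1 false false 1 0) (.lf 2 true 1 false false 1 1)) (.lf 2 true 1 false false 1 0)))) (.s 0 13 0 0 0 0 0 419
(.s 3 21 0 0 21 0 0 21
(.s 4 0 10 10 0 11 0 0
(.lf 2 true 1 false false 1 0) (.lf 2 true 1 false false 1 1)) (.lf 2 true 1 false false 1 0)) (.lf 2 true 1 false false 1 0))) (.lf 2 true 1 false false 1 0)) (.s 0 13 0 0 0 0 0 419
(.s 0 1 0 0 0 0 0 209
(.lf 2 true 1 false false 2 1) (.s 3 21 0 0 21 0 0 21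
(.lf 2 true 1 false false 2 1) (.s 4 0 10 10 0 11 0 0
(.lf 2 true 1 false false 2 0) (.lf 2 true 1 false false 2 1)))) (.s 0 3 0 0 0 0 0 39
(.s 0 1 0 0 0 0 0 19
(.s 4 0 10 10 0 11 0 0
(.lf 2 true 1 false false 2 0) (.lf 2 true 1 false false 2 1)) (.s 3 1 0 0 1 0 0 0
(.s 4 0 10 10 0 11 0 0
(.lf 2 true 1 false false 2 0) (.lf 2 true 1 false false 2 1)) (.lf 2 true 1 false false 2 0))) (.s 4 7 0 0 7 0 4 2
(.lf 2 true 1 false false 2 0) (.lf 2 true 1 false true 2 0))))) (.s 0 71 0 0 0 0 0 4399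
(.s 3 110 0 0 110 0 0 116
(.lf 2 true 1 false false 1 1) (.s 4 0 10 10 0 11 0 0
(.lf 2 true 1 false false 1 0) (.lf 2 true 1 false false 1 1))) (.s 0 3 0 0 0 0 0 39
(.s 0 1 0 0 0 0 0 19
(.s 4 0 10 10 0 11 0 0
(.lf 2 true 1 false false 2 0) (.lf 2 true 1 false false 2 1)) (.s 3 1 0 0 1 0 0 0
(.s 4 0 10 10 0 11 0 0
(.lf 2 true 1 false false 2 0) (.lf 2 true 1 false false 2 1)) (.lf 2 true 1 false false 2 0))) (.lf 2 true 1 false false 2 0)))) (.s 4 0 0 0 0 11 0 20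
(.lf 2 true 1 false false 1 2) (.lf 2 true 1 false false 2 2))) (.lf 2 true 1 false false 2 2)) (.s 4 7 0 0 7 0 4 2
(.lf 2 true 1 false false 2 0) (.lf 2 true 1 false true 2 0))) (.s 1 108497 0 0 0 0 0 757980
(.lf 2 true 1 false true 1 0) (.s 2 315669 0 0 0 0 825237 789399
(.lf 2 true 1 false true 1 0) (.lf 2 true 2 false false 1 0)))) (.lf 2 true 1 false false 2 2)) (.s 2 1 0 0 0 7 0 7
(.s 0 1 0 0 0 0 0 4
(.s 2 1 0 0 0 15 0 15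
(.s 0 1 0 0 0 0 0 9
(.s 2 1 0 0 0 31 0 31
(.s 4 0 0 0 0 11 0 20
(.s 0 1 0 0 0 0 0 19
(.s 0 71 0 0 0 0 0 4399
(.s 3 110 0 0 110 0 0 116
(.lf 2 true 1 false false 1 1) (.s 0 1 0 0 0 0 0 209
(.s 4 0 10 10 0 11 0 0
(.lf 2 true 1 false false 1 0) (.lf 2 true 1 false false 1 1)) (.s 3 21 0 0 21 0 0 21
(.s 4 0 10 10 0 11 0 0
(.lf 2 true 1 false false 1 0) (.lf 2 true 1 false false 1 1)) (.lf 2 true 1 false false 1 0)))) (.s 0 13 0 0 0 0 0 419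
(.s 3 21 0 0 21 0 0 21
(.s 4 0 10 10 0 11 0 0
(.lf 2 true 1 false false 1 0) (.lf 2 true 1 false false 1 1)) (.lf 2 true 1 false false 1 0)) (.lf 2 true 1 false false 1 0))) (.lf 2 true 1 false false 1 0)) (.s 0 13 0 0 0 0 0 419
(.s 0 1 0 0 0 0 0 209
(.lf 2 true 1 false false 2 1) (.s 3 21 0 0 21 0 0 21
(.lf 2 true 1 false false 2 1) (.s 4 0 10 10 0 11 0 0
(.lf 2 true 1 false false 2 0) (.lf 2 true 1 false false 2 1)))) (.s 0 3 0 0 0 0 0 39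
(.s 0 1 0 0 0 0 0 19
(.s 4 0 10 10 0 11 0 0
(.lf 2 true 1 false false 2 0) (.lf 2 true 1 false false 2 1)) (.s 3 1 0 0 1 0 0 0
(.s 4 0 10 10 0 11 0 0
(.lf 2 true 1 false false 2 0) (.lf 2 true 1 false false 2 1)) (.lf 2 true 1 false false 2 0))) (.s 4 1 0 0 1 0 0 0
(.lf 2 true 1 false false 2 0) (.lf 2 true 0 false true 2 0))))) (.s 0 1 0 0 0 0 0 19
(.s 4 0 0 0 0 11 0 20
(.s 0 1 0 0 0 0 0 39
(.lf 2 true 1 false false 1 2) (.lf 2 true 1 false false 1 2)) (.s 0 1 0 0 0 0 0 39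
(.lf 2 true 1 false false 2 2) (.lf 2 true 1 false false 2 2))) (.lf 2 true 1 false false 2 2))) (.s 4 1 0 0 1 0 0 0
(.s 0 3 0 0 0 0 0 19
(.s 4 7 0 0 7 0 4 2
(.lf 2 true 1 false false 2 0) (.lf 2 true 1 false true 2 0)) (.lf 2 true 1 false false 2 0)) (.s 0 3 0 0 0 0 0 19
(.lf 2 true 0 false true 2 0) (.lf 2 true 0 false false 2 0)))) (.lf 2 true 1 false false 2 2)) (.s 4 1 0 0 1 0 0 0
(.lf 2 true 1 false false 2 0) (.lf 2 true 0 false false 2 0))) (.lf 2 true 1 false false 2 2))) (.lf 2 true 1 false false 2 2)) (.s 1 0 4 12 0 0 0 6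
(.s 0 8668231 0 0 0 0 0 19375643
(.s 2 315669 0 0 0 0 825237 789399
(.lf 1 true 1 true true 1 0) (.lf 1 true 2 false false 1 0)) (.s 1 315669 0 0 0 0 0 1614636
(.s 2 315669 0 0 0 0 825237 789399
(.lf 1 true 1 true true 1 0) (.lf 1 true 2 true false 1 0)) (.lf 1 true 2 false false 1 0))) (.s 0 8668231 0 0 0 0 0 19375643
(.s 1 315669 0 0 0 0 0 1614636
(.s 2 315669 0 0 0 0 825237 789399
(.lf 2 true 1 false true 1 0) (.lf 2 true 2 false false 1 0)) (.lf 2 true 2 false false 1 0)) (.lf 2 true 2 false false 1 0)))) (.s 0 1 0 0 0 0 0 3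
(.s 0 1 0 0 0 0 0 9
(.s 1 1 0 2 0 0 0 3
(.s 1 1 0 6 0 0 0 7
(.s 1 1 0 14 0 0 0 15
(.s 2 315669 0 0 0 0 825237 789399
(.s 1 1 0 30 0 0 0 31
(.s 2 315669 0 0 0 0 35837 1578799
(.s 2 315669 0 0 0 1542963 0 3157599
(.s 2 315669 0 0 0 4700563 0 6315199
(.s 1 1 0 62 0 0 0 63
(.s 2 315669 0 0 0 11015763 0 12630399
(.s 4 0 0 0 0 11 0 20
(.s 0 1 0 0 0 0 0 19
(.s 0 71 0 0 0 0 0 4399
(.s 3 110 0 0 110 0 0 116
(.lf 3 true 1 false false 1 1) (.s 0 1 0 0 0 0 0 209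
(.s 4 0 10 10 0 11 0 0
(.lf 3 true 1 false false 1 0) (.lf 3 true 1 false false 1 1)) (.s 3 21 0 0 21 0 0 21
(.s 4 0 10 10 0 11 0 0
(.lf 3 true 1 false false 1 0) (.lf 3 true 1 false false 1 1)) (.lf 3 true 1 false false 1 0)))) (.s 0 13 0 0 0 0 0 419
(.s 3 21 0 0 21 0 0 21
(.s 4 0 10 10 0 11 0 0
(.lf 3 true 1 false false 1 0) (.lf 3 true 1 false false 1 1)) (.lf 3 true 1 false false 1 0)) (.lf 3 true 1 false false 1 0))) (.lf 3 true 1 false false 1 0)) (.s 0 13 0 0 0 0 0 419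
(.s 0 1 0 0 0 0 0 209
(.lf 3 true 1 false false 2 1) (.s 3 21 0 0 21 0 0 21
(.lf 3 true 1 false false 2 1) (.s 4 0 10 10 0 11 0 0
(.lf 3 true 1 false false 2 0) (.lf 3 true 1 false false 2 1)))) (.s 0 3 0 0 0 0 0 39
(.s 0 1 0 0 0 0 0 19
(.s 4 0 10 10 0 11 0 0
(.lf 3 true 1 false false 2 0) (.lf 3 true 1 false false 2 1)) (.s 3 1 0 0 1 0 0 0
(.s 4 0 10 10 0 11 0 0
(.lf 3 true 1 false false 2 0) (.lf 3 true 1 false false 2 1)) (.lf 3 true 1 false false 2 0))) (.lf 3 true 1 false false 2 0)))) (.s 0 71 0 0 0 0 0 4399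
(.s 3 110 0 0 110 0 0 116
(.lf 3 true 1 false false 1 1) (.s 4 0 10 10 0 11 0 0
(.lf 3 true 1 false false 1 0) (.lf 3 true 1 false false 1 1))) (.s 0 3 0 0 0 0 0 39
(.s 0 1 0 0 0 0 0 19
(.s 4 0 10 10 0 11 0 0
(.lf 3 true 1 false false 2 0) (.lf 3 true 1 false false 2 1)) (.s 3 1 0 0 1 0 0 0
(.s 4 0 10 10 0 11 0 0
(.lf 3 true 1 false false 2 0) (.lf 3 true 1 false false 2 1)) (.lf 3 true 1 false false 2 0))) (.lf 3 true 1 false false 2 0)))) (.s 0 71 0 0 0 0 0 4399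
(.s 3 110 0 0 110 0 0 116
(.lf 3 true 1 false false 1 1) (.s 4 0 10 10 0 11 0 0
(.lf 3 true 1 false false 1 0) (.lf 3 true 1 false false 1 1))) (.s 0 3 0 0 0 0 0 39
(.s 0 1 0 0 0 0 0 19
(.s 4 0 10 10 0 11 0 0
(.lf 3 true 1 false false 2 0) (.lf 3 true 1 false false 2 1)) (.s 3 1 0 0 1 0 0 0
(.s 4 0 10 10 0 11 0 0
(.lf 3 true 1 false false 2 0) (.lf 3 true 1 false false 2 1)) (.lf 3 true 1 false false 2 0))) (.lf 3 true 1 false false 2 0)))) (.s 4 0 0 0 0 11 0 20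
(.lf 3 true 1 false false 1 2) (.lf 3 true 1 false false 2 2))) (.lf 3 true 1 false false 2 2)) (.lf 3 true 1 false false 2 2)) (.lf 3 true 1 false false 2 2)) (.lf 3 true 1 false false 2 2)) (.lf 3 true 1 false false 2 2)) (.lf 3 true 1 false false 2 2)) (.lf 3 true 1 false false 2 2)) (.lf 3 true 1 false false 2 0)) (.lf 3 true 1 false false 2 0))) (.s 1 0 4 12 0 0 0 6
(.s 1 315669 0 0 0 0 0 1614636
(.s 2 315669 0 0 0 0 825237 789399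
(.lf 1 true 1 false true 1 0) (.lf 1 true 2 true false 1 0)) (.lf 1 true 2 false false 1 0)) (.lf 2 true 2 false false 2 0))) (.s 0 5 0 0 0 0 0 7
(.s 1 0 4 12 0 0 0 6
(.s 1 315669 0 0 0 0 0 1614636
(.s 2 315669 0 0 0 0 825237 789399
(.lf 1 false 1 true true 1 0) (.lf 1 false 2 false false 1 0)) (.lf 1 false 2 false false 1 0)) (.lf 2 false 2 false false 2 0)) (.s 1 315669 0 0 0 0 0 1614636
(.s 2 315669 0 0 0 0 825237 789399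
(.lf 1 false 0 false true 1 0) (.lf 1 false 2 false false 1 0)) (.lf 1 false 2 false false 1 0))))

def i1_38b : T2 :=
(.k 1015669 0 0 789400 0 825237 t1_38b_0)

theorem hi1_38b : chk2 (leaf1 a1_38 e1_38) 10000 i1_38b R38_1b = true := by
  decide +kernel

def i1_38 : T2 := .s 3 0 0 4 0 10 i1_38a i1_38b

theorem hi1_38 : chk2 (leaf1 a1_38 e1_38) 10000 i1_38 R38 = true := chk2_s hi1_38a hi1_38b

theorem ok38 : CellOk R38 a0_38 e0_38 a1_38 e1_38 :=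
  ⟨lin38, ⟨_, ho00_38⟩, ⟨_, ho01_38⟩, ⟨_, ho10_38⟩, ⟨_, ho11_38⟩, ⟨_, hi0_38⟩, ⟨_, hi1_38⟩⟩

def R44 : Reg := ⟨⟨0, 0, 0, 0, 0, 0, 0⟩, ⟨1, 0, 0, 0, 0, 0, 0⟩, ⟨0, 0, 0, 0, 0, 0, 0⟩, ⟨1, 0, 0, 0, 0, 0, 1⟩, ⟨0, 0, 0, 0, 1, 0, 0⟩, ⟨1, 0, 0, 0, 1, 0, 1⟩, ⟨1, 0, 0, 0, 0, 0, 0⟩, ⟨2, 0, 0, 0, 0, 0, 0⟩, ⟨0, 0, 0, 0, 0, 0, 0⟩, ⟨0, 0, 0, 0, 1, 0, 0⟩⟩

def a0_44 : SF := mu 0 670102 670102 0 73 0 538591 0

def e0_44 : SF := mu 0 302013 302013 0 2924688 0 0 1690865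

def a1_44 : SF := mu 0 469051 469051 0 30 0 248378 0

def e1_44 : SF := mu 0 211388 211388 0 1485342 0 0 621708

theorem lin44 : chkLin R44 a0_44 e0_44 a1_44 e1_44 = true := by decide +kernel

def o00_44 : T3 :=
(.s 0 8 0 0 0 0 0 14
(.s 0 1 0 0 0 0 0 1
(.s 1 0 0 1 0 0 0 0
(.s 0 1 0 0 0 0 0 2
(.s 2 0 0 1 0 0 0 0
(.s 1 0 0 1 0 0 0 1
(.lf 2 true 0 true false 0 0) (.s 1 0 0 3 0 0 0 3
(.lf 2 true 0 true false 0 0) (.lf 2 true 0 true false 0 0))) (.s 1 0 0 1 0 0 0 1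
(.lf 2 true 0 false false 0 0) (.s 1 0 0 3 0 0 0 3
(.lf 2 true 0 false false 0 0) (.lf 2 true 0 false false 0 0)))) (.s 1 0 4 12 0 0 0 6
(.s 2 0 0 1 0 0 0 0
(.lf 1 true 0 true false 0 0) (.lf 1 true 0 false false 0 0)) (.s 2 0 0 1 0 0 0 0
(.s 1 0 4 19 0 0 0 13
(.s 0 2 0 0 0 0 0 4
(.lf 2 true 0 true false 0 0) (.s 1 0 12 43 0 0 0 27
(.lf 2 true 0 true false 0 0) (.lf 2 true 0 true false 0 0))) (.s 1 0 4 33 0 0 0 27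
(.s 0 2 0 0 0 0 0 4
(.lf 2 true 0 true false 0 0) (.lf 2 true 0 true false 0 0)) (.lf 2 true 0 true false 0 0))) (.s 1 0 4 19 0 0 0 13
(.s 0 2 0 0 0 0 0 4
(.lf 2 true 0 false false 0 0) (.s 1 0 12 43 0 0 0 27
(.lf 2 true 0 false false 0 0) (.lf 2 true 0 false false 0 0))) (.s 1 0 4 33 0 0 0 27
(.s 0 2 0 0 0 0 0 4
(.lf 2 true 0 false false 0 0) (.lf 2 true 0 false false 0 0)) (.lf 2 true 0 false false 0 0)))))) (.lf 3 true 0 false false 0 0)) (.s 1 0 4 12 0 0 0 6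
(.s 1 0 1 2 0 0 0 0
(.lf 1 true 0 true false 0 0) (.s 2 0 0 1 0 0 0 0
(.lf 1 true 0 true false 0 0) (.lf 1 true 0 false false 0 0))) (.s 2 0 0 1 0 0 0 0
(.lf 2 true 0 true false 0 0) (.lf 2 true 0 false false 0 0)))) (.s 0 5 0 0 0 0 0 7
(.s 1 0 4 12 0 0 0 6
(.s 1 0 1 2 0 0 0 0
(.lf 1 false 0 true false 0 0) (.s 2 0 0 1 0 0 0 0
(.lf 1 false 0 true false 0 0) (.lf 1 false 0 false false 0 0))) (.s 2 0 0 1 0 0 0 0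
(.lf 2 false 0 true false 0 0) (.lf 2 false 0 false false 0 0))) (.s 0 3 0 0 0 0 0 3
(.s 1 0 1 2 0 0 0 0
(.lf 1 false 0 true false 0 0) (.s 2 0 0 1 0 0 0 0
(.lf 1 false 0 true false 0 0) (.lf 1 false 0 false false 0 0))) (.lf 1 false 0 true false 0 0))))

theorem ho00_44 : chk3 (leafO 10500000 3 a0_44 e0_44 R44.x0.ap R44.x0.m) o00_44 (full R44) = true := by
  decide +kernel

def o01_44 : T3 :=
(.s 0 8 0 0 0 0 0 14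
(.s 0 1 0 0 0 0 0 1
(.s 1 0 0 1 0 0 0 0
(.s 0 1 0 0 0 0 0 2
(.s 2 0 0 1 0 0 0 0
(.lf 2 true 0 true false 0 0) (.lf 2 true 0 false false 0 0)) (.s 1 0 4 12 0 0 0 6
(.s 2 0 0 1 0 0 0 0
(.lf 1 true 0 true false 0 0) (.lf 1 true 0 false false 0 0)) (.s 2 0 0 1 0 0 0 0
(.lf 2 true 0 true false 0 0) (.lf 2 true 0 false false 0 0)))) (.lf 3 true 0 false false 0 0)) (.s 1 0 4 12 0 0 0 6
(.s 1 0 1 2 0 0 0 0
(.lf 1 true 0 true false 0 0) (.s 2 0 0 1 0 0 0 0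
(.lf 1 true 0 true false 0 0) (.lf 1 true 0 false false 0 0))) (.lf 2 true 0 false false 0 0))) (.s 0 5 0 0 0 0 0 7
(.s 1 0 4 12 0 0 0 6
(.lf 1 false 0 true false 0 0) (.lf 2 false 0 false false 0 0)) (.lf 1 false 0 true false 0 0)))

theorem ho01_44 : chk3 (leafO 10500000 3 a0_44 e0_44 R44.x1.ap R44.x1.m) o01_44 (full R44) = true := by
  decide +kernel

def o10_44 : T3 :=
(.s 0 8 0 0 0 0 0 14
(.s 0 1 0 0 0 0 0 1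
(.s 1 0 0 1 0 0 0 0
(.s 0 1 0 0 0 0 0 2
(.s 2 0 0 1 0 0 0 0
(.s 1 0 0 1 0 0 0 1
(.lf 2 true 0 true false 0 0) (.lf 2 true 0 true false 0 0)) (.s 1 0 0 1 0 0 0 1
(.lf 2 true 0 false false 0 0) (.lf 2 true 0 false false 0 0))) (.s 1 0 4 12 0 0 0 6
(.s 2 0 0 1 0 0 0 0
(.lf 1 true 0 true false 0 0) (.lf 1 true 0 false false 0 0)) (.s 2 0 0 1 0 0 0 0
(.s 1 0 4 19 0 0 0 13
(.lf 2 true 0 true false 0 0) (.lf 2 true 0 true false 0 0)) (.s 1 0 4 19 0 0 0 13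
(.lf 2 true 0 false false 0 0) (.lf 2 true 0 false false 0 0))))) (.lf 3 true 0 false false 0 0)) (.s 1 0 4 12 0 0 0 6
(.s 1 0 1 2 0 0 0 0
(.lf 1 true 0 true false 0 0) (.s 2 0 0 1 0 0 0 0
(.lf 1 true 0 true false 0 0) (.lf 1 true 0 false false 0 0))) (.s 2 0 0 1 0 0 0 0
(.lf 2 true 0 true false 0 0) (.lf 2 true 0 false false 0 0)))) (.s 0 5 0 0 0 0 0 7
(.s 1 0 4 12 0 0 0 6
(.s 1 0 1 2 0 0 0 0
(.lf 1 false 0 true false 0 0) (.s 2 0 0 1 0 0 0 0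
(.lf 1 false 0 true false 0 0) (.lf 1 false 0 false false 0 0))) (.s 2 0 0 1 0 0 0 0
(.lf 2 false 0 true false 0 0) (.lf 2 false 0 false false 0 0))) (.lf 1 false 0 true false 0 0)))

theorem ho10_44 : chk3 (leafO 5554500 1 a1_44 e1_44 R44.x0.ap R44.x0.m) o10_44 (full R44) = true := by
  decide +kernel

def o11_44 : T3 :=
(.s 0 8 0 0 0 0 0 14
(.s 0 1 0 0 0 0 0 1
(.s 1 0 0 1 0 0 0 0
(.s 0 1 0 0 0 0 0 2
(.lf 2 true 0 true false 0 0) (.s 1 0 4 12 0 0 0 6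
(.lf 1 true 0 true false 0 0) (.lf 2 true 0 true false 0 0))) (.lf 3 true 0 false false 0 0)) (.s 1 0 4 12 0 0 0 6
(.lf 1 true 0 true false 0 0) (.lf 2 true 0 true false 0 0))) (.s 0 5 0 0 0 0 0 7
(.s 1 0 4 12 0 0 0 6
(.lf 1 false 0 true false 0 0) (.lf 2 false 0 true false 0 0)) (.lf 1 false 0 true false 0 0)))

theorem ho11_44 : chk3 (leafO 5554500 1 a1_44 e1_44 R44.x1.ap R44.x1.m) o11_44 (full R44) = true := by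
  decide +kernel

def t0_44_0 : T3 :=
(.s 0 8 0 0 0 0 0 14
(.s 0 1 0 0 0 0 0 1
(.s 1 0 0 1 0 0 0 0
(.s 0 1 0 0 0 0 0 2
(.lf 2 true 1 false false 0 0) (.s 1 0 4 12 0 0 0 6
(.lf 1 true 1 false false 0 0) (.lf 2 true 1 false false 0 0))) (.lf 3 true 1 false false 0 0)) (.s 1 0 4 12 0 0 0 6
(.lf 1 true 1 false false 0 0) (.lf 2 true 1 false false 0 0))) (.s 0 5 0 0 0 0 0 7
(.s 1 0 4 12 0 0 0 6
(.lf 1 false 1 false false 0 0) (.lf 2 false 1 false false 0 0)) (.lf 1 false 0 false false 0 0)))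

def i0_44 : T2 :=
(.k 180302 0 0 121377 0 176539 t0_44_0)

theorem hi0_44 : chk2 (leaf0 a0_44 e0_44) 0 i0_44 R44 = true := by
  decide +kernel

def t1_44_0 : T3 :=
(.s 0 8 0 0 0 0 0 14
(.s 0 1 0 0 0 0 0 1
(.s 1 0 0 1 0 0 0 0
(.s 0 1 0 0 0 0 0 2
(.s 0 13 0 0 0 0 0 2749
(.s 3 2750 0 0 2750 0 0 2736
(.lf 2 true 1 true false 0 0) (.s 4 1000 0 0 1000 0 0 2736
(.lf 2 true 1 true false 0 0) (.lf 2 true 1 false false 0 0))) (.s 4 1000 0 0 1000 0 0 2736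
(.lf 2 true 1 true false 0 0) (.lf 2 true 1 false false 0 0))) (.s 1 0 4 12 0 0 0 6
(.lf 1 true 2 false false 0 0) (.lf 2 true 2 true false 0 0))) (.s 0 13 0 0 0 0 0 2749
(.s 3 2750 0 0 2750 0 0 2736
(.lf 3 true 1 true false 0 0) (.s 4 1000 0 0 1000 0 0 2736
(.lf 3 true 1 true false 0 0) (.lf 3 true 1 false false 0 0))) (.s 4 1000 0 0 1000 0 0 2736
(.lf 3 true 1 true false 0 0) (.lf 3 true 1 false false 0 0)))) (.s 1 0 4 12 0 0 0 6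
(.lf 1 true 2 false false 0 0) (.lf 2 true 2 true false 0 0))) (.s 0 5 0 0 0 0 0 7
(.s 1 0 4 12 0 0 0 6
(.lf 1 false 2 false false 0 0) (.lf 2 false 2 true false 0 0)) (.lf 1 false 2 false false 0 0)))

def t1_44_1 : T3 :=
(.s 0 8 0 0 0 0 0 14
(.s 0 1 0 0 0 0 0 1
(.s 1 0 0 1 0 0 0 0
(.s 0 1 0 0 0 0 0 2
(.s 0 297714 0 0 0 0 0 1383868
(.s 2 291846 0 0 0 1973429 0 1179119
(.s 3 11 0 0 11 0 0 7
(.s 4 7 0 0 7 0 4 2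
(.lf 2 true 1 false false 1 0) (.lf 2 true 1 false false 2 0)) (.lf 2 true 2 false false 1 0)) (.s 3 11 0 0 11 0 0 7
(.s 4 7 0 0 7 0 4 2
(.lf 2 true 1 false false 1 0) (.lf 2 true 1 false true 1 0)) (.lf 2 true 1 false true 1 0))) (.s 1 297714 0 0 0 0 0 1383868
(.s 2 291846 0 0 0 1973429 0 1179119
(.lf 2 true 2 false false 1 0) (.lf 2 true 1 false true 1 0)) (.lf 2 true 2 false false 1 0))) (.s 1 0 4 12 0 0 0 6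
(.s 0 3809737 0 0 0 0 0 8303213
(.s 2 291846 0 0 0 1973429 0 1179119
(.lf 1 true 2 false false 1 0) (.lf 1 true 0 true true 1 0)) (.s 1 297714 0 0 0 0 0 1383868
(.s 2 291846 0 0 0 1973429 0 1179119
(.lf 1 true 2 false false 1 0) (.lf 1 true 0 true true 1 0)) (.lf 1 true 2 true false 1 0))) (.s 0 3809737 0 0 0 0 0 8303213
(.s 1 297714 0 0 0 0 0 1383868
(.s 2 291846 0 0 0 1973429 0 1179119
(.lf 2 true 2 false false 1 0) (.lf 2 true 0 false true 1 0)) (.lf 2 true 2 false false 1 0)) (.lf 2 true 2 false false 1 0)))) (.s 0 1 0 0 0 0 0 3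
(.s 1 1 0 2 0 0 0 3
(.s 0 297714 0 0 0 0 0 1383868
(.s 1 297714 0 0 0 0 0 1383868
(.s 2 291846 0 0 0 1973429 0 1179119
(.s 3 11 0 0 11 0 0 7
(.s 4 7 0 0 7 0 4 2
(.lf 3 true 1 false false 1 0) (.lf 3 true 1 false false 2 0)) (.lf 3 true 2 false false 1 0)) (.s 3 11 0 0 11 0 0 7
(.s 4 7 0 0 7 0 4 2
(.lf 3 true 1 false false 1 0) (.lf 3 true 1 false true 1 0)) (.lf 3 true 1 false true 1 0))) (.lf 3 true 2 false false 1 0)) (.lf 3 true 2 false false 1 0)) (.lf 3 true 1 false false 2 0)) (.lf 3 true 2 false false 1 0))) (.s 1 0 4 12 0 0 0 6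
(.s 1 297714 0 0 0 0 0 1383868
(.s 2 291846 0 0 0 1973429 0 1179119
(.lf 1 true 2 false false 1 0) (.lf 1 true 0 true true 1 0)) (.lf 1 true 2 true false 1 0)) (.lf 2 true 2 false false 1 0))) (.s 0 5 0 0 0 0 0 7
(.s 1 0 4 12 0 0 0 6
(.s 1 297714 0 0 0 0 0 1383868
(.s 2 291846 0 0 0 1973429 0 1179119
(.lf 1 false 2 false false 1 0) (.lf 1 false 0 true true 1 0)) (.lf 1 false 2 true false 1 0)) (.lf 2 false 2 false false 2 0)) (.s 1 297714 0 0 0 0 0 1383868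
(.s 2 291846 0 0 0 1973429 0 1179119
(.lf 1 false 2 false false 1 0) (.lf 1 false 0 true true 1 0)) (.lf 1 false 2 true false 1 0))))

def i1_44 : T2 :=
(.s 3 0 0 4 0 10
(.k 11000 0 264887 0 0 264887 t1_44_0) (.k 408154 0 1179120 0 0 1973429 t1_44_1))

theorem hi1_44 : chk2 (leaf1 a1_44 e1_44) 10000 i1_44 R44 = true := by
  decide +kernel

theorem ok44 : CellOk R44 a0_44 e0_44 a1_44 e1_44 :=
  ⟨lin44, ⟨_, ho00_44⟩, ⟨_, ho01_44⟩, ⟨_, ho10_44⟩, ⟨_, ho11_44⟩, ⟨_, hi0_44⟩, ⟨_, hi1_44⟩⟩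

end

end Vale.Agent.P334.Cert
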