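import Vale.Agent.P334.CertLeaf

/-!
From the checks of a cell to the certificate on the cell.
-/

namespace Vale.Agent.P334.Cert

noncomputable section

/-- The certificate at one value of the parameters. -/
def Concl (d A w xi : ℝ) : Prop :=
  ∃ a0 b0 k0 a1 b1 k1 : ℝ, 0 ≤ a1 ∧ 10 / 7 * a1 ≤ a0 ∧ 10 / 7 * b1 ≤ b0 ∧ 13 / 10 * b1 ≤ b0 ∧
    -10 ≤ b0 ∧ -10 ≤ b1 ∧ (xi = 1 → 0 ≤ b0 ∧ 0 ≤ b1) ∧
    (∀ x, 0 ≤ x → Tf 1 xi x * (2645 / 10000 * (d + A) * Tf 1 xi x - max (w - x) 0) ≤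
      a1 * Sf 1 x + b1 * T2f 1 xi x) ∧
    (∀ x, 0 ≤ x → Tf 1 xi x * (1 / 2 * (d + A) * Tf 1 xi x - 3 * max (w - x) 0) ≤
      a0 * Sf 1 x + b0 * T2f 1 xi x) ∧
    (∀ x e, 0 ≤ x → 0 ≤ e → x ≤ d + e → d ≤ x + e → e ≤ x + d →
      w - d - e - (w - 737 / 1000 * d - 529 / 1000 * A) * Tf 1 xi x -
        (1 - Tf 1 xi x) * max (e - 1737 / 1000 * d) 0 + a1 * (1 - Sf 1 x) +
        b1 * (t2 ℝ - T2f 1 xi x) ≤ Psi A e - Psi A d + k1 * (e - A)) ∧
    (∀ x e, 0 ≤ x → 0 ≤ e → x ≤ d + e → d ≤ x + e → e ≤ x + d →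
      w - d - e - (w - 4 / 100 * d - 245 / 1000 * A) * Tf 1 xi x -
        (1 - Tf 1 xi x) * max (e - 1737 / 1000 * d) 0 + a0 + b0 * t2 ℝ ≤ k0 * (e - A))

/-- The certificate holds on a region of parameters. -/
def Good (R : Reg) : Prop :=
  ∀ g l x d : ℝ, InP R g l x d → 0 ≤ g → 0 ≤ l → 0 ≤ d → d ≤ x → Concl d (x - d) (1 - l) (1 - g)

lemma good_s {R : Reg} (i ap an' cp cn m : Nat)
    (h1 : Good (hi R (Nat.succ i) ⟨ap, an', 0, 0, cp, cn, m⟩))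
    (h2 : Good (lo R (Nat.succ i) ⟨ap, an', 0, 0, cp, cn, m⟩)) : Good R :=
  fun g l x d h => (split_inP R i ap an' cp cn m h).elim (h1 g l x d) (h2 g l x d)

/-- The form does not involve the first and the last variable. -/
def NoVD (a : SF) : Prop := a.p.v = 0 ∧ a.n.v = 0 ∧ a.p.d = 0 ∧ a.n.d = 0

lemma NoVD.eq {a : SF} (h : NoVD a) (v g l x d : ℝ) :
    rv a ⟨1, v, g, l, x, d⟩ = 1000000 * (rv a ⟨1, 0, g, l, x, 0⟩ / 1000000) := by
  obtain ⟨h1, h2, h3, h4⟩ := h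
  simp only [rv, h1, h2, h3, h4]; push_cast; ring

lemma clA_spec {R : Reg} {a : SF} (h : clA R a = true) {v g l x d : ℝ} (hi : In R v g l x d) :
    rv a ⟨1, v, g, l, x, d⟩ ≤ 0 := lin_eight h hi (fun _ s => s) a fun _ s => cl4_sat s

lemma cst_spec {b : B} (h : cst b = true) (v : ℝ) : cb b v 0 = b.ap / (b.m + 1) := by
  simp only [cst, an_iff] at h
  obtain ⟨h1, h2, h3⟩ := h
  simp [cb, Nat.eq_of_beq_eq_true h1, Nat.eq_of_beq_eq_true h2, Nat.eq_of_beq_eq_true h3]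

lemma red_x {g l : ℝ} (g0 : 0 ≤ g) (l0 : 0 ≤ l) {y : ℝ} (y0 : 0 ≤ y) :
    ∃ v, 0 ≤ v ∧ v ≤ 1 ∧ 1 - v ≤ y ∧ Tf 1 (1 - g) y = Tf 1 (1 - g) (1 - v) ∧
      Sf 1 y = Sf 1 (1 - v) ∧ T2f 1 (1 - g) y = T2f 1 (1 - g) (1 - v) ∧
      max (1 - l - y) 0 = max (v - l) 0 := by
  rcases le_total y 1 with h | h
  · refine ⟨1 - y, by linarith, by linarith, by linarith, by simp, by simp, by simp, ?_⟩
    congr 1; ring
  · have a : Tf 1 (1 - g) y = Tf 1 (1 - g) (1 - 0) := by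
      simp only [Tf]
      rw [max_eq_right (a := 1 - y) (by linarith), max_eq_right (a := 1 - g - y) (by linarith),
        max_eq_right (a := 1 - (1 - 0)) (by linarith),
        max_eq_right (a := 1 - g - (1 - 0)) (by linarith)]
    have b : Sf 1 y = Sf 1 (1 - 0) := by
      simp only [Sf]
      rw [max_eq_right (a := 1 - y) (by linarith), max_eq_right (a := (1 : ℝ) - (1 - 0)) (by linarith)]
    refine ⟨0, le_rfl, zero_le_one, by linarith, a, b, by simp only [T2f, a, b], ?_⟩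
    rw [max_eq_right (by linarith), max_eq_right (by linarith)]

lemma out_spec {ca cs : Nat} {al be : SF} {R : Reg} (ha : NoVD al) (hb : NoVD be)
    (c0 : cst R.x0 = true) (c1 : cst R.x1 = true)
    (h0 : ∃ t, chk3 (leafO ca cs al be R.x0.ap R.x0.m) t (full R) = true)
    (h1 : ∃ t, chk3 (leafO ca cs al be R.x1.ap R.x1.m) t (full R) = true) {v g l x d : ℝ}
    (hin : InP R g l x d) (v0 : 0 ≤ v) (v1 : v ≤ 1) :
    Tf 1 (1 - g) (1 - v) * (ca / 21000000 * x * Tf 1 (1 - g) (1 - v) - cs * max (v - l) 0) -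
      (rv al ⟨1, 0, g, l, x, 0⟩ / 1000000 * Sf 1 (1 - v) +
        rv be ⟨1, 0, g, l, x, 0⟩ / 1000000 * T2f 1 (1 - g) (1 - v)) ≤ 0 := by
  obtain ⟨t0, h0⟩ := h0
  obtain ⟨t1, h1⟩ := h1
  obtain ⟨R0, f0, i0, h0⟩ := chk3_spec t0 _ h0 (in_full hin v0 v1)
  obtain ⟨R1, f1, i1, h1⟩ := chk3_spec t1 _ h1 (in_full hin v0 v1)
  obtain ⟨-, -, -, -, x0, x1, -, -⟩ := hin v
  refine seg (φ := fun x => Tf 1 (1 - g) (1 - v) *
    (ca / 21000000 * x * Tf 1 (1 - g) (1 - v) - cs * max (v - l) 0) -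
      (rv al ⟨1, 0, g, l, x, 0⟩ / 1000000 * Sf 1 (1 - v) +
        rv be ⟨1, 0, g, l, x, 0⟩ / 1000000 * T2f 1 (1 - g) (1 - v))) (fun s => ?_) x0 x1
    (leafO_spec h0 i0 v0 (cst_spec c0 v) (ha.eq _ _ _ _ _) (hb.eq _ _ _ _ _))
    (leafO_spec h1 i1 v0 (cst_spec c1 v) (ha.eq _ _ _ _ _) (hb.eq _ _ _ _ _))
  simp only [rv]; ring

lemma good_cell {R : Reg} {a0 e0 a1 e1 : SF} (h : CellOk R a0 e0 a1 e1) (n1 : NoVD a0)
    (n2 : NoVD e0) (n3 : NoVD a1) (n4 : NoVD e1) : Good R := by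
  intro g l x d hin g0 l0 d0 dx
  obtain ⟨hl, o00, o01, o10, o11, ⟨t0, i0⟩, ⟨t1, i1⟩⟩ := h
  simp only [chkLin, an_iff] at hl
  obtain ⟨l1, l2, l3, l4, l5, l6, l7, c1, c2, c3⟩ := hl
  have hf := in_full hin le_rfl zero_le_one
  have l1 := clA_spec l1 hf
  have l2 := clA_spec l2 hf
  have l3 := clA_spec l3 hf
  have l4 := clA_spec l4 hf
  have l5 := clA_spec l5 hf
  have l6 := clA_spec l6 hf
  simp only [rv_ng, rv_su, rv_sm, z6, rv_mk, n1.eq 0 g l x d, n2.eq 0 g l x d, n3.eq 0 g l x d,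
    n4.eq 0 g l x d] at l1 l2 l3 l4 l5 l6
  push_cast at l2 l3 l4 l5 l6
  obtain ⟨K0, κ0, m0, p0, q0⟩ := chk2_spec t0 R i0 hin
  obtain ⟨K1, κ1, m1, p1, q1⟩ := chk2_spec t1 R i1 hin
  refine ⟨rv a0 ⟨1, 0, g, l, x, 0⟩ / 1000000, rv e0 ⟨1, 0, g, l, x, 0⟩ / 1000000,
    κ0 / 1000000 - 1, rv a1 ⟨1, 0, g, l, x, 0⟩ / 1000000, rv e1 ⟨1, 0, g, l, x, 0⟩ / 1000000,
    κ1 / 1000000 - 1, by linarith, by linarith, by linarith, by linarith, by linarith,
    by linarith, fun hg => ?_, fun y y0 => ?_, fun y y0 => ?_, fun y e y0 e0' h1 _ _ => ?_,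
    fun y e y0 e0' h1 _ _ => ?_⟩
  · have hg : g = 0 := by linarith
    have a := (hin 0).1
    rw [cst_spec c1, hg] at a
    have hm : (0 : ℝ) < R.g0.m + 1 := by positivity
    have b : (R.g0.ap : ℝ) ≤ 0 := by simpa using (div_le_iff₀ hm).1 a
    have b : R.g0.ap = 0 := by exact_mod_cast le_antisymm b (by positivity)
    rw [b] at l7
    have l7 := (an_iff _ _).1 l7
    have hf' : In (hi (full R) 1 b0) 0 g l x d := by
      obtain ⟨v0, v1, g0, g1, l0, l1, x0, x1, d0, d1⟩ := R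
      obtain ⟨a1, a2, a3, -, a5⟩ := hf
      refine ⟨a1, a2, a3, ?_, a5⟩
      change g ≤ cb b0 0 0
      simp [cb, b0, hg]
    have u1 := clA_spec l7.1 hf'
    have u2 := clA_spec l7.2 hf'
    rw [rv_ng, n2.eq] at u1
    rw [rv_ng, n4.eq] at u2
    constructor <;> linarith
  · obtain ⟨v, v0, v1, -, r1, r2, r3, r4⟩ := red_x g0 l0 y0
    have := out_spec n3 n4 c2 c3 o10 o11 hin v0 v1
    rw [r1, r2, r3, r4]
    push_cast at this
    linarith
  · obtain ⟨v, v0, v1, -, r1, r2, r3, r4⟩ := red_x g0 l0 y0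
    have := out_spec n1 n2 c2 c3 o00 o01 hin v0 v1
    rw [r1, r2, r3, r4]
    push_cast at this
    linarith
  · obtain ⟨v, v0, v1, r0, r1, r2, r3, -⟩ := red_x g0 l0 y0
    obtain ⟨R', f, i', h'⟩ := q1 v v0 v1
    rw [r1, r2, r3]
    exact leaf1_spec h' i' v0 v1 d0 dx (p1 v).1 (p1 v).2 (by exact_mod_cast m1) (n3.eq _ _ _ _ _)
      (n4.eq _ _ _ _ _) e0' (by linarith)
  · obtain ⟨v, v0, v1, r0, r1, -, -, -⟩ := red_x g0 l0 y0
    obtain ⟨R', f, i', h'⟩ := q0 v v0 v1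
    rw [r1]
    exact leaf0_spec h' i' v0 (p0 v).1 (by exact_mod_cast m0) (n1.eq _ _ _ _ _)
      (n2.eq _ _ _ _ _) e0' (by linarith)

lemma concl_big {d A w xi : ℝ} (d0 : 0 ≤ d) (A0 : 0 ≤ A) (w1 : w ≤ 1) (h : 4 ≤ d + A) :
    Concl d A w xi := by
  refine ⟨1 / 3 * (d + A), 1 / 2 * (d + A), -1, 529 / 3000 * (d + A), 2645 / 10000 * (d + A),
    -1 + 1 / 100, by linarith, by linarith, by linarith, by linarith, by linarith, by linarith,
    fun _ => ⟨by linarith, by linarith⟩, fun y _ => ?_, fun y _ => ?_, fun y e _ e0 _ _ _ => ?_,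
    fun y e _ e0 _ _ _ => ?_⟩ <;>
  have T0 := Tf_nonneg zero_le_one xi y <;> have T1 := sub_nonneg.2 (Tf_le_one 1 xi y) <;>
  simp only [T2f, t_vals.1, t_vals.2, Psi] <;> generalize Tf 1 xi y = T at * <;>
  have i1 := mul_nonneg T0 (le_max_right (w - y) 0) <;>
  have i2 := mul_nonneg (mul_nonneg T0 T1) (add_nonneg d0 A0)
  · linarith
  · linarith
  · have := mul_nonneg T1 (le_max_right (e - 1737 / 1000 * d) 0)
    have := le_max_right (2 / 5 * A - 7 / 10 * e) 0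
    have := le_max_right (d - 11 / 10 * A) 0
    have : max (e - 11 / 10 * A) 0 ≤ e := max_le (by linarith) e0
    have : max (2 / 5 * A - 7 / 10 * d) 0 ≤ 2 / 5 * A := max_le (by linarith) (by linarith)
    have := mul_nonneg T1 (sub_nonneg.2 w1)
    have := mul_nonneg T1 (sub_nonneg.2 h)
    have := mul_nonneg T1 d0
    have := mul_nonneg T0 d0
    have := mul_nonneg T0 A0
    linarith
  · have := mul_nonneg T1 (le_max_right (e - 1737 / 1000 * d) 0)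
    have := mul_nonneg T1 (sub_nonneg.2 w1)
    have := mul_nonneg T1 d0
    have := mul_nonneg T1 A0
    linarith

/-- The whole range of parameters. -/
def Root : Reg := ⟨b0, b1, b0, b1, b0, b1, b0, ⟨4, 0, 0, 0, 0, 0, 0⟩, b0, ⟨0, 0, 0, 0, 1, 0, 0⟩⟩

lemma cert_of_root (h : Good Root) : CertS := by
  refine ⟨Psi, fun l a t hl => ?_, fun d A w xi d0 A0 w0 w1 x0 x1 => ?_⟩
  · simp only [Psi]
    rw [show 2 / 5 * (l * a) - 7 / 10 * (l * t) = l * (2 / 5 * a - 7 / 10 * t) by ring,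
      show l * t - 11 / 10 * (l * a) = l * (t - 11 / 10 * a) by ring, mul_sub l (max _ _),
      mul_left_comm l, mul_max_of_nonneg _ _ hl.le, mul_max_of_nonneg _ _ hl.le, mul_zero]
  · rcases le_total 4 (d + A) with u | u
    · exact concl_big d0 A0 w1 u
    · have := h (1 - xi) (1 - w) (d + A) d (fun v => ?_) (by linarith) (by linarith) d0 (by linarith)
      · simp only [add_sub_cancel_left, sub_sub_cancel] at this
        exact this
      · simp only [In4, Root, cb, b0, b1]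
        push_cast
        refine ⟨?_, ?_, ?_, ?_, ?_, ?_, ?_, ?_⟩ <;> linarith

end

end Vale.Agent.P334.Cert
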