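import Vale.Agent.P334.Cert0
import Vale.Agent.P334.Cert1
import Vale.Agent.P334.Cert2
import Vale.Agent.P334.Cert3
import Vale.Agent.P334.Cert4
import Vale.Agent.P334.Cert5
import Vale.Agent.P334.Cert6
import Vale.Agent.P334.Cert7
import Vale.Agent.P334.CertCell

/-!
The dual certificate.
-/

namespace Vale.Agent.P334

namespace Cert

theorem gd0 : Good R0 :=
  good_cell ok0 ⟨rfl, rfl, rfl, rfl⟩ ⟨rfl, rfl, rfl, rfl⟩ ⟨rfl, rfl, rfl, rfl⟩ ⟨rfl, rfl, rfl, rfl⟩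

theorem gd1 : Good R1 :=
  good_cell ok1 ⟨rfl, rfl, rfl, rfl⟩ ⟨rfl, rfl, rfl, rfl⟩ ⟨rfl, rfl, rfl, rfl⟩ ⟨rfl, rfl, rfl, rfl⟩

theorem gd2 : Good R2 :=
  good_cell ok2 ⟨rfl, rfl, rfl, rfl⟩ ⟨rfl, rfl, rfl, rfl⟩ ⟨rfl, rfl, rfl, rfl⟩ ⟨rfl, rfl, rfl, rfl⟩

theorem gd3 : Good R3 :=
  good_cell ok3 ⟨rfl, rfl, rfl, rfl⟩ ⟨rfl, rfl, rfl, rfl⟩ ⟨rfl, rfl, rfl, rfl⟩ ⟨rfl, rfl, rfl, rfl⟩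

theorem gd4 : Good R4 :=
  good_cell ok4 ⟨rfl, rfl, rfl, rfl⟩ ⟨rfl, rfl, rfl, rfl⟩ ⟨rfl, rfl, rfl, rfl⟩ ⟨rfl, rfl, rfl, rfl⟩

theorem gd5 : Good R5 :=
  good_cell ok5 ⟨rfl, rfl, rfl, rfl⟩ ⟨rfl, rfl, rfl, rfl⟩ ⟨rfl, rfl, rfl, rfl⟩ ⟨rfl, rfl, rfl, rfl⟩

theorem gd6 : Good R6 :=
  good_cell ok6 ⟨rfl, rfl, rfl, rfl⟩ ⟨rfl, rfl, rfl, rfl⟩ ⟨rfl, rfl, rfl, rfl⟩ ⟨rfl, rfl, rfl, rfl⟩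

theorem gd7 : Good R7 :=
  good_cell ok7 ⟨rfl, rfl, rfl, rfl⟩ ⟨rfl, rfl, rfl, rfl⟩ ⟨rfl, rfl, rfl, rfl⟩ ⟨rfl, rfl, rfl, rfl⟩

theorem gd8 : Good R8 :=
  good_cell ok8 ⟨rfl, rfl, rfl, rfl⟩ ⟨rfl, rfl, rfl, rfl⟩ ⟨rfl, rfl, rfl, rfl⟩ ⟨rfl, rfl, rfl, rfl⟩

theorem gd9 : Good R9 :=
  good_cell ok9 ⟨rfl, rfl, rfl, rfl⟩ ⟨rfl, rfl, rfl, rfl⟩ ⟨rfl, rfl, rfl, rfl⟩ ⟨rfl, rfl, rfl, rfl⟩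

theorem gd10 : Good R10 :=
  good_cell ok10 ⟨rfl, rfl, rfl, rfl⟩ ⟨rfl, rfl, rfl, rfl⟩ ⟨rfl, rfl, rfl, rfl⟩ ⟨rfl, rfl, rfl, rfl⟩

theorem gd11 : Good R11 :=
  good_cell ok11 ⟨rfl, rfl, rfl, rfl⟩ ⟨rfl, rfl, rfl, rfl⟩ ⟨rfl, rfl, rfl, rfl⟩ ⟨rfl, rfl, rfl, rfl⟩

theorem gd12 : Good R12 :=
  good_cell ok12 ⟨rfl, rfl, rfl, rfl⟩ ⟨rfl, rfl, rfl, rfl⟩ ⟨rfl, rfl, rfl, rfl⟩ ⟨rfl, rfl, rfl, rfl⟩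

theorem gd13 : Good R13 :=
  good_cell ok13 ⟨rfl, rfl, rfl, rfl⟩ ⟨rfl, rfl, rfl, rfl⟩ ⟨rfl, rfl, rfl, rfl⟩ ⟨rfl, rfl, rfl, rfl⟩

theorem gd14 : Good R14 :=
  good_cell ok14 ⟨rfl, rfl, rfl, rfl⟩ ⟨rfl, rfl, rfl, rfl⟩ ⟨rfl, rfl, rfl, rfl⟩ ⟨rfl, rfl, rfl, rfl⟩

theorem gd15 : Good R15 :=
  good_cell ok15 ⟨rfl, rfl, rfl, rfl⟩ ⟨rfl, rfl, rfl, rfl⟩ ⟨rfl, rfl, rfl, rfl⟩ ⟨rfl, rfl, rfl, rfl⟩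

theorem gd16 : Good R16 :=
  good_cell ok16 ⟨rfl, rfl, rfl, rfl⟩ ⟨rfl, rfl, rfl, rfl⟩ ⟨rfl, rfl, rfl, rfl⟩ ⟨rfl, rfl, rfl, rfl⟩

theorem gd17 : Good R17 :=
  good_cell ok17 ⟨rfl, rfl, rfl, rfl⟩ ⟨rfl, rfl, rfl, rfl⟩ ⟨rfl, rfl, rfl, rfl⟩ ⟨rfl, rfl, rfl, rfl⟩

theorem gd18 : Good R18 :=
  good_cell ok18 ⟨rfl, rfl, rfl, rfl⟩ ⟨rfl, rfl, rfl, rfl⟩ ⟨rfl, rfl, rfl, rfl⟩ ⟨rfl, rfl, rfl, rfl⟩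

theorem gd19 : Good R19 :=
  good_cell ok19 ⟨rfl, rfl, rfl, rfl⟩ ⟨rfl, rfl, rfl, rfl⟩ ⟨rfl, rfl, rfl, rfl⟩ ⟨rfl, rfl, rfl, rfl⟩

theorem gd20 : Good R20 :=
  good_cell ok20 ⟨rfl, rfl, rfl, rfl⟩ ⟨rfl, rfl, rfl, rfl⟩ ⟨rfl, rfl, rfl, rfl⟩ ⟨rfl, rfl, rfl, rfl⟩

theorem gd21 : Good R21 :=
  good_cell ok21 ⟨rfl, rfl, rfl, rfl⟩ ⟨rfl, rfl, rfl, rfl⟩ ⟨rfl, rfl, rfl, rfl⟩ ⟨rfl, rfl, rfl, rfl⟩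

theorem gd22 : Good R22 :=
  good_cell ok22 ⟨rfl, rfl, rfl, rfl⟩ ⟨rfl, rfl, rfl, rfl⟩ ⟨rfl, rfl, rfl, rfl⟩ ⟨rfl, rfl, rfl, rfl⟩

theorem gd23 : Good R23 :=
  good_cell ok23 ⟨rfl, rfl, rfl, rfl⟩ ⟨rfl, rfl, rfl, rfl⟩ ⟨rfl, rfl, rfl, rfl⟩ ⟨rfl, rfl, rfl, rfl⟩

theorem gd24 : Good R24 :=
  good_cell ok24 ⟨rfl, rfl, rfl, rfl⟩ ⟨rfl, rfl, rfl, rfl⟩ ⟨rfl, rfl, rfl, rfl⟩ ⟨rfl, rfl, rfl, rfl⟩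

theorem gd25 : Good R25 :=
  good_cell ok25 ⟨rfl, rfl, rfl, rfl⟩ ⟨rfl, rfl, rfl, rfl⟩ ⟨rfl, rfl, rfl, rfl⟩ ⟨rfl, rfl, rfl, rfl⟩

theorem gd26 : Good R26 :=
  good_cell ok26 ⟨rfl, rfl, rfl, rfl⟩ ⟨rfl, rfl, rfl, rfl⟩ ⟨rfl, rfl, rfl, rfl⟩ ⟨rfl, rfl, rfl, rfl⟩

theorem gd27 : Good R27 :=
  good_cell ok27 ⟨rfl, rfl, rfl, rfl⟩ ⟨rfl, rfl, rfl, rfl⟩ ⟨rfl, rfl, rfl, rfl⟩ ⟨rfl, rfl, rfl, rfl⟩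

theorem gd28 : Good R28 :=
  good_cell ok28 ⟨rfl, rfl, rfl, rfl⟩ ⟨rfl, rfl, rfl, rfl⟩ ⟨rfl, rfl, rfl, rfl⟩ ⟨rfl, rfl, rfl, rfl⟩

theorem gd29 : Good R29 :=
  good_cell ok29 ⟨rfl, rfl, rfl, rfl⟩ ⟨rfl, rfl, rfl, rfl⟩ ⟨rfl, rfl, rfl, rfl⟩ ⟨rfl, rfl, rfl, rfl⟩

theorem gd30 : Good R30 :=
  good_cell ok30 ⟨rfl, rfl, rfl, rfl⟩ ⟨rfl, rfl, rfl, rfl⟩ ⟨rfl, rfl, rfl, rfl⟩ ⟨rfl, rfl, rfl, rfl⟩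

theorem gd31 : Good R31 :=
  good_cell ok31 ⟨rfl, rfl, rfl, rfl⟩ ⟨rfl, rfl, rfl, rfl⟩ ⟨rfl, rfl, rfl, rfl⟩ ⟨rfl, rfl, rfl, rfl⟩

theorem gd32 : Good R32 :=
  good_cell ok32 ⟨rfl, rfl, rfl, rfl⟩ ⟨rfl, rfl, rfl, rfl⟩ ⟨rfl, rfl, rfl, rfl⟩ ⟨rfl, rfl, rfl, rfl⟩

theorem gd33 : Good R33 :=
  good_cell ok33 ⟨rfl, rfl, rfl, rfl⟩ ⟨rfl, rfl, rfl, rfl⟩ ⟨rfl, rfl, rfl, rfl⟩ ⟨rfl, rfl, rfl, rfl⟩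

theorem gd34 : Good R34 :=
  good_cell ok34 ⟨rfl, rfl, rfl, rfl⟩ ⟨rfl, rfl, rfl, rfl⟩ ⟨rfl, rfl, rfl, rfl⟩ ⟨rfl, rfl, rfl, rfl⟩

theorem gd35 : Good R35 :=
  good_cell ok35 ⟨rfl, rfl, rfl, rfl⟩ ⟨rfl, rfl, rfl, rfl⟩ ⟨rfl, rfl, rfl, rfl⟩ ⟨rfl, rfl, rfl, rfl⟩

theorem gd36 : Good R36 :=
  good_cell ok36 ⟨rfl, rfl, rfl, rfl⟩ ⟨rfl, rfl, rfl, rfl⟩ ⟨rfl, rfl, rfl, rfl⟩ ⟨rfl, rfl, rfl, rfl⟩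

theorem gd37 : Good R37 :=
  good_cell ok37 ⟨rfl, rfl, rfl, rfl⟩ ⟨rfl, rfl, rfl, rfl⟩ ⟨rfl, rfl, rfl, rfl⟩ ⟨rfl, rfl, rfl, rfl⟩

theorem gd38 : Good R38 :=
  good_cell ok38 ⟨rfl, rfl, rfl, rfl⟩ ⟨rfl, rfl, rfl, rfl⟩ ⟨rfl, rfl, rfl, rfl⟩ ⟨rfl, rfl, rfl, rfl⟩

theorem gd39 : Good R39 :=
  good_cell ok39 ⟨rfl, rfl, rfl, rfl⟩ ⟨rfl, rfl, rfl, rfl⟩ ⟨rfl, rfl, rfl, rfl⟩ ⟨rfl, rfl, rfl, rfl⟩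

theorem gd40 : Good R40 :=
  good_cell ok40 ⟨rfl, rfl, rfl, rfl⟩ ⟨rfl, rfl, rfl, rfl⟩ ⟨rfl, rfl, rfl, rfl⟩ ⟨rfl, rfl, rfl, rfl⟩

theorem gd41 : Good R41 :=
  good_cell ok41 ⟨rfl, rfl, rfl, rfl⟩ ⟨rfl, rfl, rfl, rfl⟩ ⟨rfl, rfl, rfl, rfl⟩ ⟨rfl, rfl, rfl, rfl⟩

theorem gd42 : Good R42 :=
  good_cell ok42 ⟨rfl, rfl, rfl, rfl⟩ ⟨rfl, rfl, rfl, rfl⟩ ⟨rfl, rfl, rfl, rfl⟩ ⟨rfl, rfl, rfl, rfl⟩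

theorem gd43 : Good R43 :=
  good_cell ok43 ⟨rfl, rfl, rfl, rfl⟩ ⟨rfl, rfl, rfl, rfl⟩ ⟨rfl, rfl, rfl, rfl⟩ ⟨rfl, rfl, rfl, rfl⟩

theorem gd44 : Good R44 :=
  good_cell ok44 ⟨rfl, rfl, rfl, rfl⟩ ⟨rfl, rfl, rfl, rfl⟩ ⟨rfl, rfl, rfl, rfl⟩ ⟨rfl, rfl, rfl, rfl⟩

theorem gd45 : Good R45 :=
  good_cell ok45 ⟨rfl, rfl, rfl, rfl⟩ ⟨rfl, rfl, rfl, rfl⟩ ⟨rfl, rfl, rfl, rfl⟩ ⟨rfl, rfl, rfl, rfl⟩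

theorem gd46 : Good R46 :=
  good_cell ok46 ⟨rfl, rfl, rfl, rfl⟩ ⟨rfl, rfl, rfl, rfl⟩ ⟨rfl, rfl, rfl, rfl⟩ ⟨rfl, rfl, rfl, rfl⟩

theorem gd47 : Good R47 :=
  good_cell ok47 ⟨rfl, rfl, rfl, rfl⟩ ⟨rfl, rfl, rfl, rfl⟩ ⟨rfl, rfl, rfl, rfl⟩ ⟨rfl, rfl, rfl, rfl⟩

theorem gd48 : Good R48 :=
  good_cell ok48 ⟨rfl, rfl, rfl, rfl⟩ ⟨rfl, rfl, rfl, rfl⟩ ⟨rfl, rfl, rfl, rfl⟩ ⟨rfl, rfl, rfl, rfl⟩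

theorem good_root : Good Root :=
  (good_s 2 1 0 0 0 1
   (good_s 0 1 0 0 0 1
    (good_s 1 0 0 1 0 0
     (good_s 2 1 0 0 0 3
      (good_s 0 1 0 0 0 3
       (good_s 2 1 0 0 0 9
        gd0
        gd1)
       gd2)
      gd3)
     (good_s 1 1 0 1 0 1
      (good_s 1 1 0 3 0 3
       (good_s 1 1 0 7 0 7
        (good_s 2 1 0 0 0 3
         gd4
         gd5)
        (good_s 2 1 0 0 0 3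
         gd6
         gd7))
       gd8)
      gd9))
    (good_s 1 1 0 0 0 1
     gd10
     (good_s 2 1 0 0 0 3
      gd11
      gd12)))
   (good_s 2 1 0 0 0 0
    (good_s 1 0 0 1 0 0
     (good_s 0 1 0 0 0 1
      (good_s 2 3 0 0 0 3
       gd13
       gd14)
      (good_s 1 0 0 1 0 1
       gd15
       gd16))
     (good_s 1 1 0 1 0 1
      (good_s 2 3 0 0 0 3
       (good_s 1 1 0 3 0 3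
        (good_s 2 3 0 0 0 4
         (good_s 0 1 0 0 0 1
          (good_s 0 1 0 0 0 3
           gd17
           gd18)
          gd19)
         (good_s 1 1 0 7 0 7
          (good_s 0 1 0 0 0 1
           gd20
           gd21)
          (good_s 0 1 0 0 0 1
           gd22
           gd23)))
        (good_s 0 1 0 0 0 1
         (good_s 2 3 0 0 0 4
          gd24
          (good_s 2 7 0 0 0 9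
           gd25
           gd26))
         gd27))
       (good_s 0 1 0 0 0 1
        (good_s 2 9 0 0 0 9
         (good_s 0 1 0 0 0 3
          (good_s 0 1 0 0 0 9
           (good_s 1 1 0 3 0 3
            gd28
            gd29)
           (good_s 2 4 0 0 0 4
            gd30
            (good_s 2 17 0 0 0 19
             (good_s 1 1 0 3 0 3
              gd31
              gd32)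
             (good_s 1 1 0 3 0 3
              gd33
              gd34))))
          (good_s 1 1 0 3 0 3
           gd35
           gd36))
         (good_s 2 19 0 0 0 19
          (good_s 2 37 0 0 0 39
           gd37
           gd38)
          (good_s 2 39 0 0 0 39
           gd39
           gd40)))
        gd41))
      gd42))
    (good_s 2 2 0 0 0 0
     (good_s 1 0 0 1 0 0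
      gd43
      (good_s 1 1 0 1 0 1
       (good_s 0 1 0 0 0 1
        gd44
        gd45)
       gd46))
     (good_s 1 0 0 1 0 0
      gd47
      gd48))))

end Cert

theorem certS : CertS := Cert.cert_of_root Cert.good_root

end Vale.Agent.P334
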