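import Vale.Agent.P334.RuleDefs

/-!
A checker for the dual certificate: quadratic inequalities on iterated trapezoids are checked
through their polar forms at the corners, in the arithmetic of natural numbers.
-/

namespace Vale.Agent.P334.Cert

/-- Homogeneous points and nonnegative linear forms. -/
structure P6 where
  h : Nat
  v : Nat
  g : Nat
  l : Nat
  x : Nat
  d : Nat

/-- Signed linear forms. -/
structure SF where
  p : P6
  n : P6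

/-- An affine bound `(a + b s + c t) / (m + 1)` with signed coefficients. -/
structure B where
  ap : Nat
  an : Nat
  bp : Nat
  bn : Nat
  cp : Nat
  cn : Nat
  m : Nat

/-- A region: lower and upper bounds for five variables. -/
structure Reg where
  v0 : B
  v1 : B
  g0 : B
  g1 : B
  l0 : B
  l1 : B
  x0 : B
  x1 : B
  d0 : B
  d1 : B

/-- Four corners. -/
structure Quad where
  p1 : P6
  p2 : P6
  p3 : P6
  p4 : P6

/-- The linear forms of a quadratic inequality. -/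
structure Fm where
  L : SF
  P : SF
  Q : SF
  Y : SF
  T : SF
  S : SF
  K : SF

/-- Values of the forms at a point. -/
structure E12 where
  lp : Nat
  ln : Nat
  pp : Nat
  pn : Nat
  qp : Nat
  qn : Nat
  yp : Nat
  yn : Nat
  h : Nat
  T : Nat
  S : Nat
  K : Nat

/-- Choices made at a leaf. -/
structure Lf where
  tT : Nat
  tS : Bool
  eo : Nat
  mu : Bool
  nu : Bool
  z : Nat
  sg : Nat

/-- Subdivision of a region in all variables. -/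
inductive T3
  | lf (tT : Nat) (tS : Bool) (eo : Nat) (mu nu : Bool) (z sg : Nat)
  | s (i ap an bp bn cp cn m : Nat) (l r : T3)

/-- Subdivision of the parameters, with a multiplier at each leaf. -/
inductive T2
  | k (k0 n0 k1 n1 k2 n2 : Nat) (t : T3)
  | s (i ap an cp cn m : Nat) (l r : T2)

noncomputable section

/-- Evaluate a number before passing it on. -/
def fN (n : Nat) (k : Nat → Bool) : Bool := Nat.rec (k 0) (fun m _ => k (Nat.succ m)) n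

/-- A checked difference. -/
def sb (p n : Nat) (k : Nat → Bool) : Bool :=
  fN p fun p => fN n fun n => Bool.rec false (fN (Nat.sub p n) k) (Nat.ble n p)

/-- Lazy conjunction. -/
def an (a b : Bool) : Bool := Bool.rec false b a

/-- Value of a form. -/
def dot (a p : P6) : Nat :=
  Nat.add (Nat.add (Nat.add (Nat.mul a.h p.h) (Nat.mul a.v p.v))
    (Nat.add (Nat.mul a.g p.g) (Nat.mul a.l p.l))) (Nat.add (Nat.mul a.x p.x) (Nat.mul a.d p.d))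

/-- Value of a form in the first four coordinates. -/
def dot4 (a p : P6) : Nat :=
  Nat.add (Nat.add (Nat.mul a.h p.h) (Nat.mul a.v p.v)) (Nat.add (Nat.mul a.g p.g) (Nat.mul a.l p.l))

/-- Value of a form in the first three coordinates. -/
def dot3 (a p : P6) : Nat := Nat.add (Nat.add (Nat.mul a.h p.h) (Nat.mul a.v p.v)) (Nat.mul a.g p.g)

/-- Sum. -/
def ad6 (a b : P6) : P6 :=
  ⟨Nat.add a.h b.h, Nat.add a.v b.v, Nat.add a.g b.g, Nat.add a.l b.l, Nat.add a.x b.x,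
    Nat.add a.d b.d⟩

/-- Multiple. -/
def sm6 (c : Nat) (a : P6) : P6 :=
  ⟨Nat.mul c a.h, Nat.mul c a.v, Nat.mul c a.g, Nat.mul c a.l, Nat.mul c a.x, Nat.mul c a.d⟩

/-- Sum of forms. -/
def ad (a b : SF) : SF := ⟨ad6 a.p b.p, ad6 a.n b.n⟩

/-- Difference of forms. -/
def su (a b : SF) : SF := ⟨ad6 a.p b.n, ad6 a.n b.p⟩

/-- Multiple of a form. -/
def sm (c : Nat) (a : SF) : SF := ⟨sm6 c a.p, sm6 c a.n⟩

/-- Negative of a form. -/
def ng (a : SF) : SF := ⟨a.n, a.p⟩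

/-- Evaluate a vector. -/
def f6 (a : P6) (k : P6 → Bool) : Bool :=
  fN a.h fun h => fN a.v fun v => fN a.g fun g => fN a.l fun l => fN a.x fun x => fN a.d fun d =>
    k ⟨h, v, g, l, x, d⟩

/-- Evaluate a form. -/
def fF (a : SF) (k : SF → Bool) : Bool := f6 a.p fun p => f6 a.n fun n => k ⟨p, n⟩

/-- First two coordinates of a corner. -/
def s1 (vb gb : B) (k : P6 → Bool) : Bool :=
  sb vb.ap vb.an fun v =>
    sb (Nat.add (Nat.mul gb.ap (Nat.succ vb.m)) (Nat.mul gb.bp v))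
      (Nat.add (Nat.mul gb.an (Nat.succ vb.m)) (Nat.mul gb.bn v)) fun g =>
      fN (Nat.mul (Nat.succ gb.m) (Nat.succ vb.m)) fun h => fN (Nat.mul (Nat.succ gb.m) v) fun v =>
        k ⟨h, v, g, 0, 0, 0⟩

/-- Third coordinate. -/
def s2 (b : B) (p : P6) (k : P6 → Bool) : Bool :=
  sb (Nat.add (Nat.add (Nat.mul b.ap p.h) (Nat.mul b.bp p.v)) (Nat.mul b.cp p.g))
    (Nat.add (Nat.add (Nat.mul b.an p.h) (Nat.mul b.bn p.v)) (Nat.mul b.cn p.g)) fun l =>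
    fN (Nat.mul (Nat.succ b.m) p.h) fun h => fN (Nat.mul (Nat.succ b.m) p.v) fun v =>
      fN (Nat.mul (Nat.succ b.m) p.g) fun g => k ⟨h, v, g, l, 0, 0⟩

/-- Fourth coordinate. -/
def s3 (b : B) (p : P6) (k : P6 → Bool) : Bool :=
  sb (Nat.add (Nat.mul b.ap p.h) (Nat.mul b.bp p.v))
    (Nat.add (Nat.mul b.an p.h) (Nat.mul b.bn p.v)) fun x =>
    fN (Nat.mul (Nat.succ b.m) p.h) fun h => fN (Nat.mul (Nat.succ b.m) p.v) fun v =>
      fN (Nat.mul (Nat.succ b.m) p.g) fun g => fN (Nat.mul (Nat.succ b.m) p.l) fun l =>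
        k ⟨h, v, g, l, x, 0⟩

/-- Fifth coordinate. -/
def s4 (b : B) (p : P6) (k : P6 → Bool) : Bool :=
  sb (Nat.add (Nat.add (Nat.mul b.ap p.h) (Nat.mul b.bp p.v)) (Nat.mul b.cp p.x))
    (Nat.add (Nat.add (Nat.mul b.an p.h) (Nat.mul b.bn p.v)) (Nat.mul b.cn p.x)) fun d =>
    fN (Nat.mul (Nat.succ b.m) p.h) fun h => fN (Nat.mul (Nat.succ b.m) p.v) fun v =>
      fN (Nat.mul (Nat.succ b.m) p.g) fun g => fN (Nat.mul (Nat.succ b.m) p.l) fun l =>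
        fN (Nat.mul (Nat.succ b.m) p.x) fun x => k ⟨h, v, g, l, x, d⟩

/-- A step applied to four corners. -/
def q4 (s : P6 → (P6 → Bool) → Bool) (q : Quad) (k : Quad → Bool) : Bool :=
  s q.p1 fun a => s q.p2 fun b => s q.p3 fun c => s q.p4 fun d => k ⟨a, b, c, d⟩

/-- The four base corners. -/
def q1 (R : Reg) (k : Quad → Bool) : Bool :=
  s1 R.v0 R.g0 fun a => s1 R.v1 R.g0 fun b => s1 R.v0 R.g1 fun c => s1 R.v1 R.g1 fun d =>
    k ⟨a, b, c, d⟩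

/-- Tests on the base corners and on the corners for both bounds of the third variable. -/
def run (R : Reg) (k1 k2 : Quad → Bool) : Bool :=
  q1 R fun q => an (k1 q) (an (q4 (s2 R.l0) q k2) (q4 (s2 R.l1) q k2))

/-- Tests for both bounds of the last variable. -/
def runD (R : Reg) (k : Quad → Bool) (q : Quad) : Bool :=
  an (q4 (s4 R.d0) q k) (q4 (s4 R.d1) q k)

/-- Tests for all bounds of the last two variables. -/
def runX (R : Reg) (k : Quad → Bool) (q : Quad) : Bool :=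
  an (q4 (s3 R.x0) q (runD R k)) (q4 (s3 R.x1) q (runD R k))

/-- Values at a corner. -/
def e12 (f : Fm) (p : P6) (k : E12 → Bool) : Bool :=
  sb (dot3 f.T.p p) (dot3 f.T.n p) fun T => sb (dot3 f.S.p p) (dot3 f.S.n p) fun S =>
    sb (dot4 f.K.p p) (dot4 f.K.n p) fun K =>
      fN (dot f.L.p p) fun lp => fN (dot f.L.n p) fun ln => fN (dot f.P.p p) fun pp =>
        fN (dot f.P.n p) fun pn => fN (dot f.Q.p p) fun qp => fN (dot f.Q.n p) fun qn =>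
          fN (dot f.Y.p p) fun yp => fN (dot f.Y.n p) fun yn =>
            k ⟨lp, ln, pp, pn, qp, qn, yp, yn, p.h, T, S, K⟩

/-- Positive part of the bilinear form. -/
def bp (a b : E12) : Nat :=
  Nat.add (Nat.add (Nat.mul a.lp b.h) (Nat.mul a.pp b.T)) (Nat.add (Nat.mul a.qp b.S) (Nat.mul a.yp b.K))

/-- Negative part of the bilinear form. -/
def bn (a b : E12) : Nat :=
  Nat.add (Nat.add (Nat.mul a.ln b.h) (Nat.mul a.pn b.T)) (Nat.add (Nat.mul a.qn b.S) (Nat.mul a.yn b.K))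

/-- The diagonal test. -/
def dg (a : E12) : Bool := Nat.ble (bp a a) (bn a a)

/-- The symmetric test. -/
def pr (a b : E12) : Bool := Nat.ble (Nat.add (bp a b) (bp b a)) (Nat.add (bn a b) (bn b a))

/-- Quadratic test on four corners. -/
def cq4 (f : Fm) (q : Quad) : Bool :=
  e12 f q.p1 fun a => e12 f q.p2 fun b => e12 f q.p3 fun c => e12 f q.p4 fun d =>
    an (dg a) (an (dg b) (an (dg c) (an (dg d) (an (pr a b) (an (pr a c) (an (pr a d)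
      (an (pr b c) (an (pr b d) (pr c d)))))))))

/-- Linear test at a corner. -/
def cl1 (a : SF) (p : P6) : Bool := Nat.ble (dot a.p p) (dot a.n p)

/-- Linear test on four corners. -/
def cl4 (a : SF) (q : Quad) : Bool := an (cl1 a q.p1) (an (cl1 a q.p2) (an (cl1 a q.p3) (cl1 a q.p4)))

/-- The zero vector. -/
def z6 : P6 := ⟨0, 0, 0, 0, 0, 0⟩

/-- The zero form. -/
def zF : SF := ⟨z6, z6⟩

/-- Four times the killing rule on a piece. -/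
def fT : Nat → SF
  | 2 => ⟨⟨0, 12, 0, 0, 0, 0⟩, ⟨0, 0, 7, 0, 0, 0⟩⟩
  | 3 => ⟨⟨0, 5, 0, 0, 0, 0⟩, z6⟩
  | _ => ⟨⟨4, 0, 0, 0, 0, 0⟩, z6⟩

/-- Eight times the radius rule on a piece. -/
def fS : Bool → SF
  | true => ⟨⟨0, 15, 0, 0, 0, 0⟩, z6⟩
  | false => ⟨⟨8, 0, 0, 0, 0, 0⟩, z6⟩

/-- Conditions for the piece of the killing rule. -/
def pieceT : Nat → Quad → Bool
  | 1, q => cl4 ⟨⟨4, 0, 7, 0, 0, 0⟩, ⟨0, 12, 0, 0, 0, 0⟩⟩ q
  | 2, q => an (cl4 ⟨⟨0, 0, 1, 0, 0, 0⟩, ⟨0, 1, 0, 0, 0, 0⟩⟩ q)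
      (cl4 ⟨⟨0, 12, 0, 0, 0, 0⟩, ⟨4, 0, 7, 0, 0, 0⟩⟩ q)
  | 3, q => an (cl4 ⟨⟨0, 1, 0, 0, 0, 0⟩, ⟨0, 0, 1, 0, 0, 0⟩⟩ q)
      (cl4 ⟨⟨0, 5, 0, 0, 0, 0⟩, ⟨4, 0, 0, 0, 0, 0⟩⟩ q)
  | _, q => cl4 ⟨⟨4, 0, 0, 0, 0, 0⟩, ⟨0, 5, 0, 0, 0, 0⟩⟩ q

/-- Conditions for the piece of the radius rule. -/
def pieceS : Bool → Quad → Bool
  | true, q => cl4 ⟨⟨0, 15, 0, 0, 0, 0⟩, ⟨8, 0, 0, 0, 0, 0⟩⟩ q
  | false, q => cl4 ⟨⟨8, 0, 0, 0, 0, 0⟩, ⟨0, 15, 0, 0, 0, 0⟩⟩ q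

/-- Conditions for the pieces. -/
def piece (f : Lf) (q : Quad) : Bool := an (pieceT f.tT q) (pieceS f.tS q)

/-- Optional form. -/
def opt : Bool → SF → SF
  | true, a => a
  | false, _ => zF

/-- The point of evaluation, times `7000`. -/
def fE : Nat → SF
  | 1 => ⟨⟨7000, 0, 0, 0, 0, 0⟩, ⟨0, 7000, 0, 0, 0, 7000⟩⟩
  | 2 => ⟨⟨0, 0, 0, 0, 4000, 0⟩, ⟨0, 0, 0, 0, 0, 4000⟩⟩
  | 3 => ⟨⟨0, 0, 0, 0, 0, 12159⟩, z6⟩
  | _ => zF

/-- The excess over `R d`, times `21000000`. -/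
def fZ (eo : Nat) (mu : Bool) : SF := opt mu (sm 3000 (su (fE eo) ⟨⟨0, 0, 0, 0, 0, 12159⟩, z6⟩))

/-- The factor of the last multiplier. -/
def fY (eo : Nat) : SF := sm 3 (su ⟨⟨0, 0, 0, 0, 7000, 0⟩, ⟨0, 0, 0, 0, 0, 7000⟩⟩ (fE eo))

/-- Common part of the affine term. -/
def fL (al be : SF) (eo : Nat) (mu : Bool) : SF :=
  su (ad (su ⟨⟨21000000, 0, 0, 0, 0, 0⟩, ⟨0, 0, 0, 21000000, 0, 21000000⟩⟩ (sm 3000 (fE eo)))
    (su (ad (sm 21 al) (sm 7 be)) (fZ eo mu))) (sm 1000 (fY eo))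

/-- Bound for the transfer paid by the victim. -/
def fPsi : Nat → SF
  | 0 => ⟨⟨0, 0, 0, 0, 8400000, 0⟩, ⟨0, 0, 0, 0, 0, 23100000⟩⟩
  | 2 => ⟨⟨0, 0, 0, 0, 231000, 0⟩, ⟨0, 0, 0, 0, 0, 441000⟩⟩
  | _ => zF

/-- Bound for the negative part of the transfer received. -/
def fSg : Nat → SF
  | 0 => zF
  | 1 => ⟨⟨210000, 0, 0, 0, 0, 21000⟩, ⟨0, 210000, 0, 0, 231000, 0⟩⟩
  | _ => ⟨⟨210000, 0, 0, 0, 0, 0⟩, ⟨0, 210000, 0, 0, 0, 0⟩⟩

/-- The constant true test. -/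
def tt (_ : Quad) : Bool := true

/-- Leaf test for the inequality at the empty end; `K` is the shifted multiplier. -/
def leaf0 (al be K : SF) (R : Reg) (f : Lf) : Bool :=
  an (Nat.ble f.eo 1) (fF (sm 1000 (fL al be f.eo f.mu)) fun L =>
    fF (sm 250 (ad ⟨⟨0, 0, 0, 21000000, 5145000, 0⟩, ⟨21000000, 0, 0, 0, 0, 4305000⟩⟩
      (fZ f.eo f.mu))) fun P => fF (fY f.eo) fun Y =>
      run R (piece f) (runX R (cq4 ⟨L, P, zF, Y, fT f.tT, fS f.tS, K⟩)))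

/-- Slope conditions. -/
def slope (a u : SF) (mu nu : Bool) : Nat → Quad → Bool
  | 2, q => cl4 (su (opt mu u) a) q
  | 3, q => an (Bool.not mu) (an nu (an (cl4 (ng a) q) (cl4 (su a u) q)))
  | _, q => Bool.rec true (cl4 (su a (opt mu u)) q) nu

/-- Condition for the bound on the transfer paid. -/
def sideZ : Nat → Quad → Bool
  | 0, q => cl4 ⟨⟨0, 0, 0, 0, 0, 11⟩, ⟨0, 0, 0, 0, 4, 0⟩⟩ q
  | _, q => cl4 ⟨⟨0, 0, 0, 0, 4, 0⟩, ⟨0, 0, 0, 0, 0, 11⟩⟩ q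

/-- Condition for the bound on the transfer received. -/
def sideS : Nat → Quad → Bool
  | 0, q => cl4 ⟨⟨10, 0, 0, 0, 0, 1⟩, ⟨0, 10, 0, 0, 11, 0⟩⟩ q
  | 1, q => cl4 ⟨⟨0, 10, 0, 0, 11, 0⟩, ⟨10, 0, 0, 0, 0, 1⟩⟩ q
  | _, _ => true

/-- Leaf test for the inequality at the full end; `K` is the shifted multiplier. -/
def leaf1 (al be K : SF) (R : Reg) (f : Lf) : Bool :=
  fF (sm 1000 (ad (ad (fL al be f.eo f.mu)
      (opt f.nu (ad ⟨⟨0, 0, 0, 0, 0, 8400000⟩, ⟨0, 0, 0, 0, 8400000, 0⟩⟩ (sm 2100 (fE f.eo)))))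
      (ad (fPsi f.z) (fSg f.sg)))) fun L =>
    fF (sm 250 (su (ad ⟨⟨0, 0, 0, 21000000, 11109000, 4368000⟩, ⟨21000000, 0, 0, 0, 0, 0⟩⟩
      (fZ f.eo f.mu)) (sm 21 be))) fun P =>
    fF (sm 125 (su (sm 14 be) (sm 21 al))) fun Q => fF (fY f.eo) fun Y =>
      run R (piece f) fun q =>
        an (slope (su ⟨⟨28000000, 0, 0, 0, 0, 0⟩, z6⟩ (sm 40 K))
            (su ⟨⟨40000000, 0, 0, 0, 0, 0⟩, z6⟩ (sm 10000000 (fT f.tT))) f.mu f.nu f.eo q)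
          (runX R (fun q => an (sideZ f.z q) (an (sideS f.sg q)
            (cq4 ⟨L, P, Q, Y, fT f.tT, fS f.tS, K⟩ q))) q)

/-- The zero bound. -/
def b0 : B := ⟨0, 0, 0, 0, 0, 0, 0⟩

/-- The bound one. -/
def b1 : B := ⟨1, 0, 0, 0, 0, 0, 0⟩

/-- Leaf test for the outside inequality at the value `xa / (xm + 1)` of the fourth variable. -/
def leafO (ca cs : Nat) (al be : SF) (xa xm : Nat) (R : Reg) (f : Lf) : Bool :=
  fF (sm 2 (su (ad (sm (Nat.mul ca xa) (fT f.tT))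
      (opt f.mu (sm (Nat.mul cs (Nat.succ xm))
        ⟨⟨0, 0, 0, 84000000, 0, 0⟩, ⟨0, 84000000, 0, 0, 0, 0⟩⟩)))
      (sm (Nat.mul 84 (Nat.succ xm)) be))) fun P =>
    fF (sm (Nat.succ xm) (su (sm 56 be) (sm 84 al))) fun Q =>
      run R (piece f) fun q =>
        q4 (s3 ⟨xa, 0, 0, 0, 0, 0, xm⟩) q (cq4 ⟨zF, P, Q, zF, fT f.tT, fS f.tS, zF⟩)

/-- Replace an upper bound. -/
def hi : Reg → Nat → B → Reg
  | ⟨v0, _, g0, g1, l0, l1, x0, x1, d0, d1⟩, 0, b => ⟨v0, b, g0, g1, l0, l1, x0, x1, d0, d1⟩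
  | ⟨v0, v1, g0, _, l0, l1, x0, x1, d0, d1⟩, 1, b => ⟨v0, v1, g0, b, l0, l1, x0, x1, d0, d1⟩
  | ⟨v0, v1, g0, g1, l0, _, x0, x1, d0, d1⟩, 2, b => ⟨v0, v1, g0, g1, l0, b, x0, x1, d0, d1⟩
  | ⟨v0, v1, g0, g1, l0, l1, x0, _, d0, d1⟩, 3, b => ⟨v0, v1, g0, g1, l0, l1, x0, b, d0, d1⟩
  | ⟨v0, v1, g0, g1, l0, l1, x0, x1, d0, _⟩, _, b => ⟨v0, v1, g0, g1, l0, l1, x0, x1, d0, b⟩

/-- Replace a lower bound. -/
def lo : Reg → Nat → B → Reg
  | ⟨_, v1, g0, g1, l0, l1, x0, x1, d0, d1⟩, 0, b => ⟨b, v1, g0, g1, l0, l1, x0, x1, d0, d1⟩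
  | ⟨v0, v1, _, g1, l0, l1, x0, x1, d0, d1⟩, 1, b => ⟨v0, v1, b, g1, l0, l1, x0, x1, d0, d1⟩
  | ⟨v0, v1, g0, g1, _, l1, x0, x1, d0, d1⟩, 2, b => ⟨v0, v1, g0, g1, b, l1, x0, x1, d0, d1⟩
  | ⟨v0, v1, g0, g1, l0, l1, _, x1, d0, d1⟩, 3, b => ⟨v0, v1, g0, g1, l0, l1, b, x1, d0, d1⟩
  | ⟨v0, v1, g0, g1, l0, l1, x0, x1, _, d1⟩, _, b => ⟨v0, v1, g0, g1, l0, l1, x0, x1, b, d1⟩

/-- Evaluate a region. -/
def fR (R : Reg) (k : Reg → Bool) : Bool :=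
  Reg.rec (fun v0 v1 g0 g1 l0 l1 x0 x1 d0 d1 => k ⟨v0, v1, g0, g1, l0, l1, x0, x1, d0, d1⟩) R

/-- Check of a subdivision. -/
def chk3 (leaf : Reg → Lf → Bool) (t : T3) : Reg → Bool :=
  T3.rec (fun tT tS eo mu nu z sg R => leaf R ⟨tT, tS, eo, mu, nu, z, sg⟩)
    (fun i ap an' bp bn cp cn m _ _ il ir R =>
      an (fR (hi R i ⟨ap, an', bp, bn, cp, cn, m⟩) il) (fR (lo R i ⟨ap, an', bp, bn, cp, cn, m⟩) ir)) t

/-- The full range of the first variable. -/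
def full (R : Reg) : Reg := lo (hi R 0 b1) 0 b0

/-- Check of a subdivision of the parameters. -/
def chk2 (leaf : SF → Reg → Lf → Bool) (kmin : Nat) (t : T2) : Reg → Bool :=
  T2.rec (fun k0 n0 k1 n1 k2 n2 t R => fR (full R) fun R =>
      an (run R tt (cl4 ⟨⟨Nat.add kmin n0, 0, n2, n1, 0, 0⟩, ⟨k0, 0, k2, k1, 0, 0⟩⟩))
        (chk3 (leaf ⟨⟨k0, 0, k2, k1, 0, 0⟩, ⟨n0, 0, n2, n1, 0, 0⟩⟩) t R))
    (fun i ap an' cp cn m _ _ il ir R =>
      an (fR (hi R (Nat.succ i) ⟨ap, an', 0, 0, cp, cn, m⟩) il)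
        (fR (lo R (Nat.succ i) ⟨ap, an', 0, 0, cp, cn, m⟩) ir)) t

/-- Linear test on all corners. -/
def clA (R : Reg) (a : SF) : Bool := run R tt (runX R (cl4 a))

/-- The bound is the constant `ap / (m + 1)`. -/
def cst (b : B) : Bool := an (Nat.beq b.an 0) (an (Nat.beq b.bp 0) (Nat.beq b.bn 0))

/-- Linear conditions on the multipliers. -/
def chkLin (R : Reg) (a0 e0 a1 e1 : SF) : Bool :=
  an (clA (full R) (ng a1)) (an (clA (full R) (su (sm 10 a1) (sm 7 a0)))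
    (an (clA (full R) (su (sm 10 e1) (sm 7 e0))) (an (clA (full R) (su (sm 13 e1) (sm 10 e0)))
    (an (clA (full R) (su ⟨z6, ⟨10000000, 0, 0, 0, 0, 0⟩⟩ e0))
    (an (clA (full R) (su ⟨z6, ⟨10000000, 0, 0, 0, 0, 0⟩⟩ e1))
    (an (Bool.rec true (an (clA (hi (full R) 1 b0) (ng e0)) (clA (hi (full R) 1 b0) (ng e1)))
      (Nat.beq R.g0.ap 0))
    (an (cst R.g0) (an (cst R.x0) (cst R.x1)))))))))

/-- A multiplier. -/
def mu (c c' x x' l l' g g' : Nat) : SF := ⟨⟨c, 0, g, l, x, 0⟩, ⟨c', 0, g', l', x', 0⟩⟩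

theorem chk2_s {leaf : SF → Reg → Lf → Bool} {kmin i ap an' cp cn m : Nat} {l r : T2} {R : Reg}
    (h1 : chk2 leaf kmin l (hi R (Nat.succ i) ⟨ap, an', 0, 0, cp, cn, m⟩) = true)
    (h2 : chk2 leaf kmin r (lo R (Nat.succ i) ⟨ap, an', 0, 0, cp, cn, m⟩) = true) :
    chk2 leaf kmin (T2.s i ap an' cp cn m l r) R = true := by
  change an (chk2 leaf kmin l (hi R (Nat.succ i) ⟨ap, an', 0, 0, cp, cn, m⟩))
    (chk2 leaf kmin r (lo R (Nat.succ i) ⟨ap, an', 0, 0, cp, cn, m⟩)) = true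
  rw [h1, h2]; rfl

/-- All checks for one cell. -/
structure CellOk (R : Reg) (a0 e0 a1 e1 : SF) : Prop where
  lin : chkLin R a0 e0 a1 e1 = true
  o00 : ∃ t, chk3 (leafO 10500000 3 a0 e0 R.x0.ap R.x0.m) t (full R) = true
  o01 : ∃ t, chk3 (leafO 10500000 3 a0 e0 R.x1.ap R.x1.m) t (full R) = true
  o10 : ∃ t, chk3 (leafO 5554500 1 a1 e1 R.x0.ap R.x0.m) t (full R) = true
  o11 : ∃ t, chk3 (leafO 5554500 1 a1 e1 R.x1.ap R.x1.m) t (full R) = true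
  i0 : ∃ t, chk2 (leaf0 a0 e0) 0 t R = true
  i1 : ∃ t, chk2 (leaf1 a1 e1) 10000 t R = true

end

end Vale.Agent.P334.Cert
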