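import Vale.Agent.P334.CertDefs

/-!
Soundness of the corner tests.
-/

namespace Vale.Agent.P334.Cert

/-- Real homogeneous points. -/
structure Pt6 where
  h : ℝ
  v : ℝ
  g : ℝ
  l : ℝ
  x : ℝ
  d : ℝ

noncomputable section

/-- A corner as a real point. -/
def cv (p : P6) : Pt6 := ⟨p.h, p.v, p.g, p.l, p.x, p.d⟩

/-- Value of a signed form. -/
def rv (a : SF) (z : Pt6) : ℝ :=
  ((a.p.h : ℝ) - a.n.h) * z.h + ((a.p.v : ℝ) - a.n.v) * z.v + ((a.p.g : ℝ) - a.n.g) * z.g +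
    ((a.p.l : ℝ) - a.n.l) * z.l + ((a.p.x : ℝ) - a.n.x) * z.x + ((a.p.d : ℝ) - a.n.d) * z.d

/-- Value in the first four coordinates. -/
def rv4 (a : SF) (z : Pt6) : ℝ :=
  ((a.p.h : ℝ) - a.n.h) * z.h + ((a.p.v : ℝ) - a.n.v) * z.v + ((a.p.g : ℝ) - a.n.g) * z.g +
    ((a.p.l : ℝ) - a.n.l) * z.l

/-- Value in the first three coordinates. -/
def rv3 (a : SF) (z : Pt6) : ℝ :=
  ((a.p.h : ℝ) - a.n.h) * z.h + ((a.p.v : ℝ) - a.n.v) * z.v + ((a.p.g : ℝ) - a.n.g) * z.g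

/-- The quadratic form. -/
def Bf (f : Fm) (z w : Pt6) : ℝ :=
  rv f.L z * w.h + rv f.P z * rv3 f.T w + rv f.Q z * rv3 f.S w + rv f.Y z * rv4 f.K w

/-- The point lies in the cone over four corners. -/
def Cone (q : Quad) (z : Pt6) : Prop :=
  ∃ a b c e : ℝ, 0 ≤ a ∧ 0 ≤ b ∧ 0 ≤ c ∧ 0 ≤ e ∧
    z.h = a * q.p1.h + b * q.p2.h + c * q.p3.h + e * q.p4.h ∧
    z.v = a * q.p1.v + b * q.p2.v + c * q.p3.v + e * q.p4.v ∧
    z.g = a * q.p1.g + b * q.p2.g + c * q.p3.g + e * q.p4.g ∧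
    z.l = a * q.p1.l + b * q.p2.l + c * q.p3.l + e * q.p4.l ∧
    z.x = a * q.p1.x + b * q.p2.x + c * q.p3.x + e * q.p4.x ∧
    z.d = a * q.p1.d + b * q.p2.d + c * q.p3.d + e * q.p4.d

/-- The test holds on corners whose cone contains the point. -/
def Sat (k : Quad → Bool) (z : Pt6) : Prop := ∃ q, k q = true ∧ Cone q z

/-- Value of a bound. -/
def cb (b : B) (s t : ℝ) : ℝ :=
  (((b.ap : ℝ) - b.an) + ((b.bp : ℝ) - b.bn) * s + ((b.cp : ℝ) - b.cn) * t) / ((b.m : ℝ) + 1)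

lemma fN_eq (n : Nat) (k : Nat → Bool) : fN n k = k n := by cases n <;> rfl

lemma an_iff (a b : Bool) : an a b = true ↔ a = true ∧ b = true := by cases a <;> simp [an]

lemma sb_spec {p n : Nat} {k : Nat → Bool} (h : sb p n k = true) :
    ∃ m : Nat, k m = true ∧ (m : ℝ) = (p : ℝ) - n := by
  simp only [sb, fN_eq] at h
  cases hb : Nat.ble n p
  · rw [hb] at h; exact absurd h (by simp)
  · rw [hb] at h
    have hle : n ≤ p := Nat.le_of_ble_eq_true hb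
    exact ⟨Nat.sub p n, h, Nat.cast_sub hle⟩

lemma f6_eq (a : P6) (k : P6 → Bool) : f6 a k = k a := by simp only [f6, fN_eq]

lemma fF_eq (a : SF) (k : SF → Bool) : fF a k = k a := by simp only [fF, f6_eq]

lemma fR_eq (R : Reg) (k : Reg → Bool) : fR R k = k R := rfl

lemma Sat.left {k1 k2 : Quad → Bool} {z : Pt6} (h : Sat (fun q => an (k1 q) (k2 q)) z) :
    Sat k1 z := by
  obtain ⟨q, h, c⟩ := h
  exact ⟨q, ((an_iff _ _).1 h).1, c⟩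

lemma Sat.right {k1 k2 : Quad → Bool} {z : Pt6} (h : Sat (fun q => an (k1 q) (k2 q)) z) :
    Sat k2 z := by
  obtain ⟨q, h, c⟩ := h
  exact ⟨q, ((an_iff _ _).1 h).2, c⟩

lemma s1_spec {vb gb : B} {k : P6 → Bool} (h : s1 vb gb k = true) :
    ∃ p : P6, k p = true ∧ ∃ c : ℝ, 0 < c ∧ (p.h : ℝ) = c ∧ (p.v : ℝ) = c * cb vb 0 0 ∧
      (p.g : ℝ) = c * cb gb (cb vb 0 0) 0 ∧ (p.l : ℝ) = 0 ∧ (p.x : ℝ) = 0 ∧ (p.d : ℝ) = 0 := by
  obtain ⟨v, h, hv⟩ := sb_spec h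
  obtain ⟨g, h, hg⟩ := sb_spec h
  simp only [fN_eq] at h
  refine ⟨_, h, ((gb.m : ℝ) + 1) * ((vb.m : ℝ) + 1), by positivity, ?_, ?_, ?_, ?_, ?_, ?_⟩
  · simp
  · simp only [Nat.mul_eq, Nat.succ_eq_add_one, cb]; push_cast; rw [hv]; field_simp; ring
  · simp only [Nat.mul_eq, Nat.add_eq, Nat.succ_eq_add_one] at hg
    push_cast at hg
    simp only [cb]; rw [hg, hv]; field_simp; ring
  all_goals simp

lemma s2_spec {b : B} {p : P6} {k : P6 → Bool} (h : s2 b p k = true) :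
    ∃ r : P6, k r = true ∧ (r.h : ℝ) = (b.m + 1) * p.h ∧ (r.v : ℝ) = (b.m + 1) * p.v ∧
      (r.g : ℝ) = (b.m + 1) * p.g ∧
      (r.l : ℝ) = (b.ap - b.an) * p.h + (b.bp - b.bn) * p.v + (b.cp - b.cn) * p.g ∧
      (r.x : ℝ) = 0 ∧ (r.d : ℝ) = 0 := by
  obtain ⟨l, h, hl⟩ := sb_spec h
  simp only [fN_eq] at h
  refine ⟨_, h, by simp, by simp, by simp, ?_, by simp, by simp⟩
  simp only [Nat.mul_eq, Nat.add_eq] at hl
  push_cast at hl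
  rw [hl]; ring

lemma s3_spec {b : B} {p : P6} {k : P6 → Bool} (h : s3 b p k = true) :
    ∃ r : P6, k r = true ∧ (r.h : ℝ) = (b.m + 1) * p.h ∧ (r.v : ℝ) = (b.m + 1) * p.v ∧
      (r.g : ℝ) = (b.m + 1) * p.g ∧ (r.l : ℝ) = (b.m + 1) * p.l ∧
      (r.x : ℝ) = (b.ap - b.an) * p.h + (b.bp - b.bn) * p.v ∧ (r.d : ℝ) = 0 := by
  obtain ⟨l, h, hl⟩ := sb_spec h
  simp only [fN_eq] at h
  refine ⟨_, h, by simp, by simp, by simp, by simp, ?_, by simp⟩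
  simp only [Nat.mul_eq, Nat.add_eq] at hl
  push_cast at hl
  rw [hl]; ring

lemma s4_spec {b : B} {p : P6} {k : P6 → Bool} (h : s4 b p k = true) :
    ∃ r : P6, k r = true ∧ (r.h : ℝ) = (b.m + 1) * p.h ∧ (r.v : ℝ) = (b.m + 1) * p.v ∧
      (r.g : ℝ) = (b.m + 1) * p.g ∧ (r.l : ℝ) = (b.m + 1) * p.l ∧ (r.x : ℝ) = (b.m + 1) * p.x ∧
      (r.d : ℝ) = (b.ap - b.an) * p.h + (b.bp - b.bn) * p.v + (b.cp - b.cn) * p.x := by
  obtain ⟨l, h, hl⟩ := sb_spec h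
  simp only [fN_eq] at h
  refine ⟨_, h, by simp, by simp, by simp, by simp, by simp, ?_⟩
  simp only [Nat.mul_eq, Nat.add_eq] at hl
  push_cast at hl
  rw [hl]; ring

lemma q2_sat {b : B} {k : Quad → Bool} {v g l x d : ℝ}
    (h : Sat (fun q => q4 (s2 b) q k) ⟨1, v, g, l, x, d⟩) : Sat k ⟨1, v, g, cb b v g, 0, 0⟩ := by
  obtain ⟨q, h, a, b', c, e, ha, hb, hc, he, zh, zv, zg, -, -, -⟩ := h
  obtain ⟨r1, h, a1, a2, a3, a4, a5, a6⟩ := s2_spec h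
  obtain ⟨r2, h, b1, b2, b3, b4, b5, b6⟩ := s2_spec h
  obtain ⟨r3, h, c1, c2, c3, c4, c5, c6⟩ := s2_spec h
  obtain ⟨r4, h, e1, e2, e3, e4, e5, e6⟩ := s2_spec h
  have hm : (0 : ℝ) < b.m + 1 := by positivity
  simp only at zh zv zg
  refine ⟨_, h, a / (b.m + 1), b' / (b.m + 1), c / (b.m + 1), e / (b.m + 1), by positivity,
    by positivity, by positivity, by positivity, ?_, ?_, ?_, ?_, ?_, ?_⟩
  · simp only [a1, b1, c1, e1]; rw [zh]; field_simp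
  · simp only [a2, b2, c2, e2]; rw [zv]; field_simp
  · simp only [a3, b3, c3, e3]; rw [zg]; field_simp
  · simp only [a4, b4, c4, e4, cb]; field_simp
    linear_combination ((b.ap : ℝ) - b.an) * zh + ((b.bp : ℝ) - b.bn) * zv + ((b.cp : ℝ) - b.cn) * zg
  · simp [a5, b5, c5, e5]
  · simp [a6, b6, c6, e6]

lemma q3_sat {b : B} {k : Quad → Bool} {v g l x d : ℝ}
    (h : Sat (fun q => q4 (s3 b) q k) ⟨1, v, g, l, x, d⟩) : Sat k ⟨1, v, g, l, cb b v 0, 0⟩ := by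
  obtain ⟨q, h, a, b', c, e, ha, hb, hc, he, zh, zv, zg, zl, -, -⟩ := h
  obtain ⟨r1, h, a1, a2, a3, a4, a5, a6⟩ := s3_spec h
  obtain ⟨r2, h, b1, b2, b3, b4, b5, b6⟩ := s3_spec h
  obtain ⟨r3, h, c1, c2, c3, c4, c5, c6⟩ := s3_spec h
  obtain ⟨r4, h, e1, e2, e3, e4, e5, e6⟩ := s3_spec h
  have hm : (0 : ℝ) < b.m + 1 := by positivity
  simp only at zh zv zg zl
  refine ⟨_, h, a / (b.m + 1), b' / (b.m + 1), c / (b.m + 1), e / (b.m + 1), by positivity,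
    by positivity, by positivity, by positivity, ?_, ?_, ?_, ?_, ?_, ?_⟩
  · simp only [a1, b1, c1, e1]; rw [zh]; field_simp
  · simp only [a2, b2, c2, e2]; rw [zv]; field_simp
  · simp only [a3, b3, c3, e3]; rw [zg]; field_simp
  · simp only [a4, b4, c4, e4]; rw [zl]; field_simp
  · simp only [a5, b5, c5, e5, cb]; field_simp
    linear_combination ((b.ap : ℝ) - b.an) * zh + ((b.bp : ℝ) - b.bn) * zv
  · simp [a6, b6, c6, e6]

lemma q4_sat {b : B} {k : Quad → Bool} {v g l x d : ℝ}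
    (h : Sat (fun q => q4 (s4 b) q k) ⟨1, v, g, l, x, d⟩) : Sat k ⟨1, v, g, l, x, cb b v x⟩ := by
  obtain ⟨q, h, a, b', c, e, ha, hb, hc, he, zh, zv, zg, zl, zx, -⟩ := h
  obtain ⟨r1, h, a1, a2, a3, a4, a5, a6⟩ := s4_spec h
  obtain ⟨r2, h, b1, b2, b3, b4, b5, b6⟩ := s4_spec h
  obtain ⟨r3, h, c1, c2, c3, c4, c5, c6⟩ := s4_spec h
  obtain ⟨r4, h, e1, e2, e3, e4, e5, e6⟩ := s4_spec h
  have hm : (0 : ℝ) < b.m + 1 := by positivity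
  simp only at zh zv zg zl zx
  refine ⟨_, h, a / (b.m + 1), b' / (b.m + 1), c / (b.m + 1), e / (b.m + 1), by positivity,
    by positivity, by positivity, by positivity, ?_, ?_, ?_, ?_, ?_, ?_⟩
  · simp only [a1, b1, c1, e1]; rw [zh]; field_simp
  · simp only [a2, b2, c2, e2]; rw [zv]; field_simp
  · simp only [a3, b3, c3, e3]; rw [zg]; field_simp
  · simp only [a4, b4, c4, e4]; rw [zl]; field_simp
  · simp only [a5, b5, c5, e5]; rw [zx]; field_simp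
  · simp only [a6, b6, c6, e6, cb]; field_simp
    linear_combination ((b.ap : ℝ) - b.an) * zh + ((b.bp : ℝ) - b.bn) * zv + ((b.cp : ℝ) - b.cn) * zx

lemma exists_wt {a b t : ℝ} (h1 : a ≤ t) (h2 : t ≤ b) :
    ∃ s, 0 ≤ s ∧ s ≤ 1 ∧ t = (1 - s) * a + s * b := by
  rcases eq_or_lt_of_le (h1.trans h2) with h | h
  · exact ⟨0, le_rfl, zero_le_one, by linarith⟩
  · have : 0 < b - a := by linarith
    refine ⟨(t - a) / (b - a), by apply div_nonneg <;> linarith,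
      (div_le_one this).2 (by linarith), ?_⟩
    field_simp; ring

lemma q1_sat {R : Reg} {k : Quad → Bool} (h : q1 R k = true) {v g : ℝ} (h1 : cb R.v0 0 0 ≤ v)
    (h2 : v ≤ cb R.v1 0 0) (h3 : cb R.g0 v 0 ≤ g) (h4 : g ≤ cb R.g1 v 0) :
    Sat k ⟨1, v, g, 0, 0, 0⟩ := by
  obtain ⟨r1, h, a, ha, a1, a2, a3, a4, a5, a6⟩ := s1_spec h
  obtain ⟨r2, h, b, hb, b1, b2, b3, b4, b5, b6⟩ := s1_spec h
  obtain ⟨r3, h, c, hc, c1, c2, c3, c4, c5, c6⟩ := s1_spec h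
  obtain ⟨r4, h, e, he, e1, e2, e3, e4, e5, e6⟩ := s1_spec h
  obtain ⟨s, s0, s1, hs⟩ := exists_wt h1 h2
  obtain ⟨t, t0, t1, ht⟩ := exists_wt h3 h4
  have s2 : 0 ≤ 1 - s := by linarith
  have t2 : 0 ≤ 1 - t := by linarith
  have k0 : ∀ b : B, cb b v 0 = (1 - s) * cb b (cb R.v0 0 0) 0 + s * cb b (cb R.v1 0 0) 0 := by
    intro b
    generalize cb R.v0 0 0 = x at hs
    generalize cb R.v1 0 0 = y at hs
    rw [hs]; simp only [cb]; ring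
  refine ⟨_, h, (1 - s) * (1 - t) / a, s * (1 - t) / b, (1 - s) * t / c, s * t / e, by positivity,
    by positivity, by positivity, by positivity, ?_, ?_, ?_, ?_, ?_, ?_⟩
  · simp only [a1, b1, c1, e1]; field_simp; ring
  · simp only [a2, b2, c2, e2]; rw [hs]; field_simp; ring
  · simp only [a3, b3, c3, e3]; rw [ht, k0 R.g0, k0 R.g1]; field_simp; ring
  · simp [a4, b4, c4, e4]
  · simp [a5, b5, c5, e5]
  · simp [a6, b6, c6, e6]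

lemma rv_cv (a : SF) (p : P6) : rv a (cv p) = (dot a.p p : ℝ) - (dot a.n p : ℝ) := by
  simp only [rv, cv, dot, Nat.add_eq, Nat.mul_eq]; push_cast; ring

lemma rv4_cv (a : SF) (p : P6) : rv4 a (cv p) = (dot4 a.p p : ℝ) - (dot4 a.n p : ℝ) := by
  simp only [rv4, cv, dot4, Nat.add_eq, Nat.mul_eq]; push_cast; ring

lemma rv3_cv (a : SF) (p : P6) : rv3 a (cv p) = (dot3 a.p p : ℝ) - (dot3 a.n p : ℝ) := by
  simp only [rv3, cv, dot3, Nat.add_eq, Nat.mul_eq]; push_cast; ring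

lemma cl1_spec {a : SF} {p : P6} (h : cl1 a p = true) : rv a (cv p) ≤ 0 := by
  rw [rv_cv]
  have : dot a.p p ≤ dot a.n p := Nat.le_of_ble_eq_true h
  have : (dot a.p p : ℝ) ≤ dot a.n p := by exact_mod_cast this
  linarith

lemma cone_vals {q : Quad} {z : Pt6} (h : Cone q z) :
    ∃ a b c e : ℝ, 0 ≤ a ∧ 0 ≤ b ∧ 0 ≤ c ∧ 0 ≤ e ∧
      z.h = a * (cv q.p1).h + b * (cv q.p2).h + c * (cv q.p3).h + e * (cv q.p4).h ∧
      (∀ f, rv f z = a * rv f (cv q.p1) + b * rv f (cv q.p2) + c * rv f (cv q.p3) +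
        e * rv f (cv q.p4)) ∧
      (∀ f, rv4 f z = a * rv4 f (cv q.p1) + b * rv4 f (cv q.p2) + c * rv4 f (cv q.p3) +
        e * rv4 f (cv q.p4)) ∧
      (∀ f, rv3 f z = a * rv3 f (cv q.p1) + b * rv3 f (cv q.p2) + c * rv3 f (cv q.p3) +
        e * rv3 f (cv q.p4)) := by
  obtain ⟨a, b, c, e, ha, hb, hc, he, zh, zv, zg, zl, zx, zd⟩ := h
  refine ⟨a, b, c, e, ha, hb, hc, he, zh, fun f => ?_, fun f => ?_, fun f => ?_⟩
  · simp only [rv, cv, zh, zv, zg, zl, zx, zd]; ring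
  · simp only [rv4, cv, zh, zv, zg, zl]; ring
  · simp only [rv3, cv, zh, zv, zg]; ring

lemma cl4_sat {a : SF} {z : Pt6} (h : Sat (cl4 a) z) : rv a z ≤ 0 := by
  obtain ⟨q, h, c⟩ := h
  obtain ⟨a', b, c, e, ha, hb, hc, he, -, h1, -, -⟩ := cone_vals c
  simp only [cl4, an_iff] at h
  obtain ⟨k1, k2, k3, k4⟩ := h
  rw [h1]
  have := mul_nonpos_of_nonneg_of_nonpos ha (cl1_spec k1)
  have := mul_nonpos_of_nonneg_of_nonpos hb (cl1_spec k2)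
  have := mul_nonpos_of_nonneg_of_nonpos hc (cl1_spec k3)
  have := mul_nonpos_of_nonneg_of_nonpos he (cl1_spec k4)
  linarith

/-- The numbers represent the values of the forms at the corner. -/
def Rp (f : Fm) (p : P6) (a : E12) : Prop :=
  (a.lp : ℝ) - a.ln = rv f.L (cv p) ∧ (a.pp : ℝ) - a.pn = rv f.P (cv p) ∧
    (a.qp : ℝ) - a.qn = rv f.Q (cv p) ∧ (a.yp : ℝ) - a.yn = rv f.Y (cv p) ∧ (a.h : ℝ) = (cv p).h ∧
    (a.T : ℝ) = rv3 f.T (cv p) ∧ (a.S : ℝ) = rv3 f.S (cv p) ∧ (a.K : ℝ) = rv4 f.K (cv p)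

lemma e12_spec {f : Fm} {p : P6} {k : E12 → Bool} (h : e12 f p k = true) :
    ∃ a, k a = true ∧ Rp f p a := by
  obtain ⟨T, h, hT⟩ := sb_spec h
  obtain ⟨S, h, hS⟩ := sb_spec h
  obtain ⟨K, h, hK⟩ := sb_spec h
  simp only [fN_eq] at h
  refine ⟨_, h, (rv_cv _ _).symm, (rv_cv _ _).symm, (rv_cv _ _).symm, (rv_cv _ _).symm, rfl, ?_, ?_,
    ?_⟩
  · rw [rv3_cv]; exact hT
  · rw [rv3_cv]; exact hS
  · rw [rv4_cv]; exact hK

lemma b_val {f : Fm} {p r : P6} {a b : E12} (ha : Rp f p a) (hb : Rp f r b) :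
    (bp a b : ℝ) - (bn a b : ℝ) = Bf f (cv p) (cv r) := by
  obtain ⟨a1, a2, a3, a4, -, -, -, -⟩ := ha
  obtain ⟨-, -, -, -, b1, b2, b3, b4⟩ := hb
  simp only [Bf, ← a1, ← a2, ← a3, ← a4, ← b1, ← b2, ← b3, ← b4, bp, bn, Nat.add_eq, Nat.mul_eq]
  push_cast; ring

lemma dg_spec {f : Fm} {p : P6} {a : E12} (ha : Rp f p a) (h : dg a = true) :
    Bf f (cv p) (cv p) ≤ 0 := by
  rw [← b_val ha ha]
  have : bp a a ≤ bn a a := Nat.le_of_ble_eq_true h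
  have : (bp a a : ℝ) ≤ bn a a := by exact_mod_cast this
  linarith

lemma pr_spec {f : Fm} {p r : P6} {a b : E12} (ha : Rp f p a) (hb : Rp f r b) (h : pr a b = true) :
    Bf f (cv p) (cv r) + Bf f (cv r) (cv p) ≤ 0 := by
  rw [← b_val ha hb, ← b_val hb ha]
  have : bp a b + bp b a ≤ bn a b + bn b a := Nat.le_of_ble_eq_true h
  have : (bp a b : ℝ) + bp b a ≤ bn a b + bn b a := by exact_mod_cast this
  linarith

lemma cq4_sat {f : Fm} {z : Pt6} (h : Sat (cq4 f) z) : Bf f z z ≤ 0 := by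
  obtain ⟨q, h, c⟩ := h
  obtain ⟨a, b, c, e, ha, hb, hc, he, h0, h1, h2, h3⟩ := cone_vals c
  obtain ⟨x1, h, r1⟩ := e12_spec h
  obtain ⟨x2, h, r2⟩ := e12_spec h
  obtain ⟨x3, h, r3⟩ := e12_spec h
  obtain ⟨x4, h, r4⟩ := e12_spec h
  simp only [an_iff] at h
  obtain ⟨k1, k2, k3, k4, k5, k6, k7, k8, k9, k10⟩ := h
  have eq : Bf f z z = a * a * Bf f (cv q.p1) (cv q.p1) + b * b * Bf f (cv q.p2) (cv q.p2) +
      c * c * Bf f (cv q.p3) (cv q.p3) + e * e * Bf f (cv q.p4) (cv q.p4) +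
      a * b * (Bf f (cv q.p1) (cv q.p2) + Bf f (cv q.p2) (cv q.p1)) +
      a * c * (Bf f (cv q.p1) (cv q.p3) + Bf f (cv q.p3) (cv q.p1)) +
      a * e * (Bf f (cv q.p1) (cv q.p4) + Bf f (cv q.p4) (cv q.p1)) +
      b * c * (Bf f (cv q.p2) (cv q.p3) + Bf f (cv q.p3) (cv q.p2)) +
      b * e * (Bf f (cv q.p2) (cv q.p4) + Bf f (cv q.p4) (cv q.p2)) +
      c * e * (Bf f (cv q.p3) (cv q.p4) + Bf f (cv q.p4) (cv q.p3)) := by
    simp only [Bf]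
    rw [h0, h1 f.L, h1 f.P, h1 f.Q, h1 f.Y, h2 f.K, h3 f.T, h3 f.S]; ring
  rw [eq]
  have := mul_nonpos_of_nonneg_of_nonpos (mul_nonneg ha ha) (dg_spec r1 k1)
  have := mul_nonpos_of_nonneg_of_nonpos (mul_nonneg hb hb) (dg_spec r2 k2)
  have := mul_nonpos_of_nonneg_of_nonpos (mul_nonneg hc hc) (dg_spec r3 k3)
  have := mul_nonpos_of_nonneg_of_nonpos (mul_nonneg he he) (dg_spec r4 k4)
  have := mul_nonpos_of_nonneg_of_nonpos (mul_nonneg ha hb) (pr_spec r1 r2 k5)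
  have := mul_nonpos_of_nonneg_of_nonpos (mul_nonneg ha hc) (pr_spec r1 r3 k6)
  have := mul_nonpos_of_nonneg_of_nonpos (mul_nonneg ha he) (pr_spec r1 r4 k7)
  have := mul_nonpos_of_nonneg_of_nonpos (mul_nonneg hb hc) (pr_spec r2 r3 k8)
  have := mul_nonpos_of_nonneg_of_nonpos (mul_nonneg hb he) (pr_spec r2 r4 k9)
  have := mul_nonpos_of_nonneg_of_nonpos (mul_nonneg hc he) (pr_spec r3 r4 k10)
  linarith

/-- Membership in a region, apart from the first variable. -/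
def In4 (R : Reg) (v g l x d : ℝ) : Prop :=
  cb R.g0 v 0 ≤ g ∧ g ≤ cb R.g1 v 0 ∧ cb R.l0 v g ≤ l ∧ l ≤ cb R.l1 v g ∧
    cb R.x0 v 0 ≤ x ∧ x ≤ cb R.x1 v 0 ∧ cb R.d0 v x ≤ d ∧ d ≤ cb R.d1 v x

/-- Membership in a region. -/
def In (R : Reg) (v g l x d : ℝ) : Prop := cb R.v0 0 0 ≤ v ∧ v ≤ cb R.v1 0 0 ∧ In4 R v g l x d

lemma seg {φ : ℝ → ℝ} {a b t : ℝ} (hφ : ∀ s, φ ((1 - s) * a + s * b) = (1 - s) * φ a + s * φ b)
    (h1 : a ≤ t) (h2 : t ≤ b) (ha : φ a ≤ 0) (hb : φ b ≤ 0) : φ t ≤ 0 := by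
  obtain ⟨s, s0, s1, rfl⟩ := exists_wt h1 h2
  rw [hφ]
  have := mul_nonpos_of_nonneg_of_nonpos s0 hb
  have := mul_nonpos_of_nonneg_of_nonpos (sub_nonneg.2 s1) ha
  linarith

lemma run_base {R : Reg} {k1 k2 : Quad → Bool} (h : run R k1 k2 = true) {v g l x d : ℝ}
    (hi : In R v g l x d) : Sat k1 ⟨1, v, g, 0, 0, 0⟩ :=
  (q1_sat h hi.1 hi.2.1 hi.2.2.1 hi.2.2.2.1).left

lemma run_seg {R : Reg} {k1 k2 : Quad → Bool} (h : run R k1 k2 = true) {v g l x d : ℝ}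
    (hi : In R v g l x d) (φ : ℝ → ℝ)
    (hφ : ∀ a b s, φ ((1 - s) * a + s * b) = (1 - s) * φ a + s * φ b)
    (hk : ∀ l, Sat k2 ⟨1, v, g, l, 0, 0⟩ → φ l ≤ 0) : φ l ≤ 0 := by
  have := (q1_sat h hi.1 hi.2.1 hi.2.2.1 hi.2.2.2.1).right
  exact seg (hφ _ _) hi.2.2.2.2.1 hi.2.2.2.2.2.1 (hk _ (q2_sat this.left)) (hk _ (q2_sat this.right))

lemma runX_seg {R : Reg} {k : Quad → Bool} {v g l l' x d : ℝ}
    (h : Sat (runX R k) ⟨1, v, g, l', 0, 0⟩) (hi : In R v g l x d) (φ : ℝ → ℝ → ℝ)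
    (hφ : ∀ a b a' b' s, φ ((1 - s) * a + s * b) ((1 - s) * a' + s * b') =
      (1 - s) * φ a a' + s * φ b b')
    (hk : ∀ x d, Sat k ⟨1, v, g, l', x, d⟩ → φ x d ≤ 0) : φ x d ≤ 0 := by
  obtain ⟨-, -, -, -, -, -, x0, x1, d0, d1⟩ := hi
  have a0 := q3_sat (Sat.left (k1 := fun q => q4 (s3 R.x0) q (runD R k)) h)
  have a1 := q3_sat (Sat.right (k2 := fun q => q4 (s3 R.x1) q (runD R k)) h)
  have key : ∀ b : B, φ (cb R.x0 v 0) (cb b v (cb R.x0 v 0)) ≤ 0 →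
      φ (cb R.x1 v 0) (cb b v (cb R.x1 v 0)) ≤ 0 → φ x (cb b v x) ≤ 0 := by
    intro b u0 u1
    refine seg (φ := fun x => φ x (cb b v x)) (fun s => ?_) x0 x1 u0 u1
    rw [← hφ]
    generalize cb R.x0 v 0 = y0
    generalize cb R.x1 v 0 = y1
    congr 1; simp only [cb]; ring
  refine seg (φ := fun d => φ x d) (fun s => ?_) d0 d1 (key _ ?_ ?_) (key _ ?_ ?_)
  · rw [← hφ]; congr 1; ring
  · exact hk _ _ (q4_sat (Sat.left (k1 := fun q => q4 (s4 R.d0) q k) a0))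
  · exact hk _ _ (q4_sat (Sat.left (k1 := fun q => q4 (s4 R.d0) q k) a1))
  · exact hk _ _ (q4_sat (Sat.right (k2 := fun q => q4 (s4 R.d1) q k) a0))
  · exact hk _ _ (q4_sat (Sat.right (k2 := fun q => q4 (s4 R.d1) q k) a1))

lemma lin_two {R : Reg} {k1 k2 : Quad → Bool} (h : run R k1 k2 = true) {v g l x d : ℝ}
    (hi : In R v g l x d) (a : SF) (hk : ∀ z, Sat k2 z → rv a z ≤ 0) :
    rv a ⟨1, v, g, l, 0, 0⟩ ≤ 0 :=
  run_seg h hi (fun l => rv a ⟨1, v, g, l, 0, 0⟩) (fun _ _ _ => by simp only [rv]; ring)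
    fun _ s => hk _ s

lemma lin_eight {R : Reg} {k1 k2 k3 : Quad → Bool} (h : run R k1 k2 = true) {v g l x d : ℝ}
    (hi : In R v g l x d) (h3 : ∀ z, Sat k2 z → Sat (runX R k3) z) (a : SF)
    (hk : ∀ z, Sat k3 z → rv a z ≤ 0) : rv a ⟨1, v, g, l, x, d⟩ ≤ 0 :=
  run_seg h hi (fun l => rv a ⟨1, v, g, l, x, d⟩) (fun _ _ _ => by simp only [rv]; ring)
    fun l' s => runX_seg (h3 _ s) hi (fun x d => rv a ⟨1, v, g, l', x, d⟩)
      (fun _ _ _ _ _ => by simp only [rv]; ring) fun _ _ s => hk _ s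

lemma quad8 {R : Reg} {k1 k2 k3 : Quad → Bool} (h : run R k1 k2 = true) {v g l x d : ℝ}
    (hi : In R v g l x d) (h3 : ∀ z, Sat k2 z → Sat (runX R k3) z) (f : Fm)
    (hY : (f.Y.p.l : ℝ) - f.Y.n.l = 0) (hk : ∀ z, Sat k3 z → Bf f z z ≤ 0) :
    Bf f ⟨1, v, g, l, x, d⟩ ⟨1, v, g, l, x, d⟩ ≤ 0 :=
  run_seg h hi (fun l => Bf f ⟨1, v, g, l, x, d⟩ ⟨1, v, g, l, x, d⟩)
    (fun _ _ _ => by simp only [Bf, rv, rv3, rv4, hY]; ring)
    fun l' s => runX_seg (h3 _ s) hi (fun x d => Bf f ⟨1, v, g, l', x, d⟩ ⟨1, v, g, l', x, d⟩)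
      (fun _ _ _ _ _ => by simp only [Bf, rv, rv3, rv4]; ring) fun _ _ s => hk _ s

lemma quadO {R : Reg} {k1 : Quad → Bool} {b : B} {f : Fm}
    (h : run R k1 (fun q => q4 (s3 b) q (cq4 f)) = true) {v g l x d : ℝ}
    (hi : In R v g l x d) (hY : (f.Y.p.l : ℝ) - f.Y.n.l = 0) :
    Bf f ⟨1, v, g, l, cb b v 0, 0⟩ ⟨1, v, g, l, cb b v 0, 0⟩ ≤ 0 :=
  run_seg h hi (fun l => Bf f ⟨1, v, g, l, cb b v 0, 0⟩ ⟨1, v, g, l, cb b v 0, 0⟩)
    (fun _ _ _ => by simp only [Bf, rv, rv3, rv4, hY]; ring)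
    fun _ s => cq4_sat (q3_sat s)

lemma split_in (R : Reg) (i : Nat) (b : B) {v g l x d : ℝ} (h : In R v g l x d) :
    In (hi R i b) v g l x d ∨ In (lo R i b) v g l x d := by
  obtain ⟨v0, v1, g0, g1, l0, l1, x0, x1, d0, d1⟩ := R
  obtain ⟨a1, a2, a3, a4, a5, a6, a7, a8, a9, a10⟩ := h
  match i with
  | 0 =>
    exact (le_total v (cb b 0 0)).imp (fun u => ⟨a1, u, a3, a4, a5, a6, a7, a8, a9, a10⟩)
      fun u => ⟨u, a2, a3, a4, a5, a6, a7, a8, a9, a10⟩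
  | 1 =>
    exact (le_total g (cb b v 0)).imp (fun u => ⟨a1, a2, a3, u, a5, a6, a7, a8, a9, a10⟩)
      fun u => ⟨a1, a2, u, a4, a5, a6, a7, a8, a9, a10⟩
  | 2 =>
    exact (le_total l (cb b v g)).imp (fun u => ⟨a1, a2, a3, a4, a5, u, a7, a8, a9, a10⟩)
      fun u => ⟨a1, a2, a3, a4, u, a6, a7, a8, a9, a10⟩
  | 3 =>
    exact (le_total x (cb b v 0)).imp (fun u => ⟨a1, a2, a3, a4, a5, a6, a7, u, a9, a10⟩)
      fun u => ⟨a1, a2, a3, a4, a5, a6, u, a8, a9, a10⟩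
  | _ + 4 =>
    exact (le_total d (cb b v x)).imp (fun u => ⟨a1, a2, a3, a4, a5, a6, a7, a8, a9, u⟩)
      fun u => ⟨a1, a2, a3, a4, a5, a6, a7, a8, u, a10⟩

/-- Membership of the parameters. -/
def InP (R : Reg) (g l x d : ℝ) : Prop := ∀ v, In4 R v g l x d

lemma cb_flat (ap an' cp cn m : Nat) (v t : ℝ) :
    cb ⟨ap, an', 0, 0, cp, cn, m⟩ v t = cb ⟨ap, an', 0, 0, cp, cn, m⟩ 0 t := by simp [cb]

lemma split_inP (R : Reg) (i ap an' cp cn m : Nat) {g l x d : ℝ} (h : InP R g l x d) :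
    InP (hi R (Nat.succ i) ⟨ap, an', 0, 0, cp, cn, m⟩) g l x d ∨
      InP (lo R (Nat.succ i) ⟨ap, an', 0, 0, cp, cn, m⟩) g l x d := by
  obtain ⟨v0, v1, g0, g1, l0, l1, x0, x1, d0, d1⟩ := R
  match i with
  | 0 =>
    refine (le_total g (cb ⟨ap, an', 0, 0, cp, cn, m⟩ 0 0)).imp (fun u v => ?_) fun u v => ?_ <;>
      obtain ⟨a3, a4, a5, a6, a7, a8, a9, a10⟩ := h v <;> rw [← cb_flat _ _ _ _ _ v] at u
    exacts [⟨a3, u, a5, a6, a7, a8, a9, a10⟩, ⟨u, a4, a5, a6, a7, a8, a9, a10⟩]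
  | 1 =>
    refine (le_total l (cb ⟨ap, an', 0, 0, cp, cn, m⟩ 0 g)).imp (fun u v => ?_) fun u v => ?_ <;>
      obtain ⟨a3, a4, a5, a6, a7, a8, a9, a10⟩ := h v <;> rw [← cb_flat _ _ _ _ _ v] at u
    exacts [⟨a3, a4, a5, u, a7, a8, a9, a10⟩, ⟨a3, a4, u, a6, a7, a8, a9, a10⟩]
  | 2 =>
    refine (le_total x (cb ⟨ap, an', 0, 0, cp, cn, m⟩ 0 0)).imp (fun u v => ?_) fun u v => ?_ <;>
      obtain ⟨a3, a4, a5, a6, a7, a8, a9, a10⟩ := h v <;> rw [← cb_flat _ _ _ _ _ v] at u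
    exacts [⟨a3, a4, a5, a6, a7, u, a9, a10⟩, ⟨a3, a4, a5, a6, u, a8, a9, a10⟩]
  | _ + 3 =>
    refine (le_total d (cb ⟨ap, an', 0, 0, cp, cn, m⟩ 0 x)).imp (fun u v => ?_) fun u v => ?_ <;>
      obtain ⟨a3, a4, a5, a6, a7, a8, a9, a10⟩ := h v <;> rw [← cb_flat _ _ _ _ _ v] at u
    exacts [⟨a3, a4, a5, a6, a7, a8, a9, u⟩, ⟨a3, a4, a5, a6, a7, a8, u, a10⟩]

lemma in_full {R : Reg} {v g l x d : ℝ} (h : InP R g l x d) (h0 : 0 ≤ v) (h1 : v ≤ 1) :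
    In (full R) v g l x d := by
  obtain ⟨v0, v1, g0, g1, l0, l1, x0, x1, d0, d1⟩ := R
  refine ⟨?_, ?_, h v⟩
  · change cb b0 0 0 ≤ v
    simpa [cb, b0] using h0
  · change v ≤ cb b1 0 0
    simpa [cb, b1] using h1

lemma chk3_spec {leaf : Reg → Lf → Bool} {v g l x d : ℝ} (t : T3) :
    ∀ R, chk3 leaf t R = true → In R v g l x d →
      ∃ R' f, In R' v g l x d ∧ leaf R' f = true := by
  induction t with
  | lf tT tS eo mu nu z sg => exact fun R h hi => ⟨R, _, hi, h⟩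
  | s i ap an' bp bn cp cn m t1 t2 i1 i2 =>
    intro R h hin
    have h' := (an_iff _ _).1 h
    rcases split_in R i ⟨ap, an', bp, bn, cp, cn, m⟩ hin with u | u
    · exact i1 _ h'.1 u
    · exact i2 _ h'.2 u

lemma chk2_spec {leaf : SF → Reg → Lf → Bool} {kmin : Nat} {g l x d : ℝ} (t : T2) :
    ∀ R, chk2 leaf kmin t R = true → InP R g l x d →
      ∃ (K : SF) (κ : ℝ), (kmin : ℝ) ≤ κ ∧
        (∀ v, rv4 K ⟨1, v, g, l, x, d⟩ = κ ∧ rv K ⟨1, v, g, l, 0, 0⟩ = κ) ∧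
        ∀ v, 0 ≤ v → v ≤ 1 → ∃ R' f, In R' v g l x d ∧ leaf K R' f = true := by
  induction t with
  | k k0 n0 k1 n1 k2 n2 t =>
    intro R h hin
    have h' := (an_iff _ _).1 h
    refine ⟨⟨⟨k0, 0, k2, k1, 0, 0⟩, ⟨n0, 0, n2, n1, 0, 0⟩⟩,
      ((k0 : ℝ) - n0) + ((k2 : ℝ) - n2) * g + ((k1 : ℝ) - n1) * l, ?_, fun v => ?_,
      fun v v0 v1 => chk3_spec t _ h'.2 (in_full hin v0 v1)⟩
    · have := lin_two h'.1 (in_full hin le_rfl zero_le_one) _ fun z s => cl4_sat s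
      simp only [rv, Nat.add_eq] at this
      push_cast at this
      linarith
    · simp [rv, rv4]
  | s i ap an' cp cn m t1 t2 i1 i2 =>
    intro R h hin
    have h' := (an_iff _ _).1 h
    rcases split_inP R i ap an' cp cn m hin with u | u
    · exact i1 _ h'.1 u
    · exact i2 _ h'.2 u

end

end Vale.Agent.P334.Cert
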