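import Vale.Agent.P334.CertGeo

/-!
Soundness of the leaf tests.
-/

namespace Vale.Agent.P334.Cert

noncomputable section

/-- The transfer function. -/
def Psi (A t : ℝ) : ℝ := max (2 / 5 * A - 7 / 10 * t) 0 - 1 / 100 * max (t - 11 / 10 * A) 0

/-- Indicator. -/
def bv : Bool → ℝ
  | true => 1
  | false => 0

/-- The point of evaluation. -/
def ev : Nat → ℝ → ℝ → ℝ → ℝ
  | 1, v, _, d => 1 - v - d
  | 2, _, x, d => 4 / 7 * (x - d)
  | 3, _, _, d => 1737 / 1000 * d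
  | _, _, _, _ => 0

lemma bv_cases (m : Bool) : bv m = 0 ∨ bv m = 1 := by cases m <;> simp [bv]

lemma rv_ad (a b : SF) (z : Pt6) : rv (ad a b) z = rv a z + rv b z := by
  simp only [rv, ad, ad6, Nat.add_eq]; push_cast; ring

lemma rv_su (a b : SF) (z : Pt6) : rv (su a b) z = rv a z - rv b z := by
  simp only [rv, su, ad6, Nat.add_eq]; push_cast; ring

lemma rv_sm (c : Nat) (a : SF) (z : Pt6) : rv (sm c a) z = c * rv a z := by
  simp only [rv, sm, sm6, Nat.mul_eq]; push_cast; ring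

lemma rv_ng (a : SF) (z : Pt6) : rv (ng a) z = -rv a z := by
  simp only [rv, ng]; ring

lemma rv_zF (z : Pt6) : rv zF z = 0 := by simp [rv, zF, z6]

lemma rv_opt (m : Bool) (a : SF) (z : Pt6) : rv (opt m a) z = bv m * rv a z := by
  cases m <;> simp [opt, bv, rv_zF]

lemma rv_mk (a1 a2 a3 a4 a5 a6 b1 b2 b3 b4 b5 b6 : Nat) (v g l x d : ℝ) :
    rv ⟨⟨a1, a2, a3, a4, a5, a6⟩, ⟨b1, b2, b3, b4, b5, b6⟩⟩ ⟨1, v, g, l, x, d⟩ =
      ((a1 : ℝ) - b1) + ((a2 : ℝ) - b2) * v + ((a3 : ℝ) - b3) * g + ((a4 : ℝ) - b4) * l +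
        ((a5 : ℝ) - b5) * x + ((a6 : ℝ) - b6) * d := by
  simp only [rv, mul_one]

lemma rv_fE (eo : Nat) (v g l x d : ℝ) : rv (fE eo) ⟨1, v, g, l, x, d⟩ = 7000 * ev eo v x d := by
  match eo with
  | 0 => simp [fE, ev, rv_zF]
  | 1 => simp only [fE, ev, rv_mk]; push_cast; ring
  | 2 => simp only [fE, ev, rv_mk]; push_cast; ring
  | 3 => simp only [fE, ev, z6, rv_mk]; push_cast; ring
  | _ + 4 => simp [fE, ev, rv_zF]

lemma rv_fZ (eo : Nat) (m : Bool) (v g l x d : ℝ) :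
    rv (fZ eo m) ⟨1, v, g, l, x, d⟩ = 21000000 * (bv m * (ev eo v x d - 1737 / 1000 * d)) := by
  simp only [fZ, rv_opt, rv_sm, rv_su, rv_fE, z6, rv_mk]; push_cast; ring

lemma rv_fY (eo : Nat) (v g l x d : ℝ) :
    rv (fY eo) ⟨1, v, g, l, x, d⟩ = 21000 * (x - d - ev eo v x d) := by
  simp only [fY, rv_sm, rv_su, rv_fE, rv_mk]; push_cast; ring

lemma fY_l (eo : Nat) : ((fY eo).p.l : ℝ) - (fY eo).n.l = 0 := by
  match eo with
  | 0 => simp [fY, fE, sm, su, sm6, ad6, zF, z6]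
  | 1 => simp [fY, fE, sm, su, sm6, ad6]
  | 2 => simp [fY, fE, sm, su, sm6, ad6]
  | 3 => simp [fY, fE, sm, su, sm6, ad6, z6]
  | _ + 4 => simp [fY, fE, sm, su, sm6, ad6, zF, z6]

lemma rv_fL (al be : SF) (eo : Nat) (m : Bool) (v g l x d : ℝ) :
    rv (fL al be eo m) ⟨1, v, g, l, x, d⟩ = 21000000 * (1 - l - d - (x - d) -
      bv m * (ev eo v x d - 1737 / 1000 * d)) + 21 * rv al ⟨1, v, g, l, x, d⟩ +
      7 * rv be ⟨1, v, g, l, x, d⟩ := by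
  simp only [fL, rv_sm, rv_su, rv_ad, rv_fE, rv_fZ, rv_fY, rv_mk]; push_cast; ring

lemma Sat.mono {k k' : Quad → Bool} {z : Pt6} (h : ∀ q, k q = true → k' q = true) (s : Sat k z) :
    Sat k' z := by
  obtain ⟨q, a, c⟩ := s
  exact ⟨q, h q a, c⟩

lemma Tf_val (v g : ℝ) (v0 : 0 ≤ v) :
    Tf 1 (1 - g) (1 - v) = min 1 (5 / 4 * v + 7 / 4 * max (v - g) 0) := by
  simp only [Tf, g0, g1]
  rw [show (1 : ℝ) - (1 - v) = v by ring, show (1 : ℝ) - g - (1 - v) = v - g by ring,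
    max_eq_left v0]
  norm_num

lemma Sf_val (v : ℝ) (v0 : 0 ≤ v) : Sf 1 (1 - v) = min 1 (15 / 8 * v) := by
  simp only [Sf, G0]
  rw [show (1 : ℝ) - (1 - v) = v by ring, max_eq_left v0]
  norm_num

lemma fT_eq (t : Nat) (v g l x d : ℝ) :
    rv3 (fT t) ⟨1, v, g, l, x, d⟩ = rv (fT t) ⟨1, v, g, 0, 0, 0⟩ ∧
      rv (fT t) ⟨1, v, g, l, x, d⟩ = rv (fT t) ⟨1, v, g, 0, 0, 0⟩ := by
  match t with
  | 0 => simp [fT, rv, rv3, z6]
  | 1 => simp [fT, rv, rv3, z6]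
  | 2 => simp [fT, rv, rv3]
  | 3 => simp [fT, rv, rv3, z6]
  | _ + 4 => simp [fT, rv, rv3, z6]

lemma pieceT_spec (t : Nat) {v g : ℝ} (v0 : 0 ≤ v) (h : Sat (pieceT t) ⟨1, v, g, 0, 0, 0⟩) :
    rv (fT t) ⟨1, v, g, 0, 0, 0⟩ = 4 * Tf 1 (1 - g) (1 - v) := by
  rw [Tf_val v g v0]
  have m0 := le_max_left (v - g) 0
  have m1 := le_max_right (v - g) 0
  have dflt : Sat (cl4 ⟨⟨4, 0, 0, 0, 0, 0⟩, ⟨0, 5, 0, 0, 0, 0⟩⟩) ⟨1, v, g, 0, 0, 0⟩ →
      rv ⟨⟨4, 0, 0, 0, 0, 0⟩, z6⟩ ⟨1, v, g, 0, 0, 0⟩ =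
        4 * min 1 (5 / 4 * v + 7 / 4 * max (v - g) 0) := by
    intro h
    have := cl4_sat h
    simp only [rv_mk, z6] at this ⊢
    push_cast at this ⊢
    rw [min_eq_left (by linarith)]; ring
  match t, h with
  | 0, h => exact dflt h
  | 1, h =>
    have := cl4_sat (a := ⟨⟨4, 0, 7, 0, 0, 0⟩, ⟨0, 12, 0, 0, 0, 0⟩⟩) h
    simp only [rv_mk, z6, fT] at this ⊢
    push_cast at this ⊢
    rw [min_eq_left (by linarith)]; ring
  | 2, h =>
    have a := cl4_sat (a := ⟨⟨0, 0, 1, 0, 0, 0⟩, ⟨0, 1, 0, 0, 0, 0⟩⟩)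
      (h.mono fun q u => ((an_iff _ _).1 u).1)
    have b := cl4_sat (a := ⟨⟨0, 12, 0, 0, 0, 0⟩, ⟨4, 0, 7, 0, 0, 0⟩⟩)
      (h.mono fun q u => ((an_iff _ _).1 u).2)
    simp only [rv_mk, fT] at a b ⊢
    push_cast at a b ⊢
    rw [max_eq_left (by linarith), min_eq_right (by linarith)]; ring
  | 3, h =>
    have a := cl4_sat (a := ⟨⟨0, 1, 0, 0, 0, 0⟩, ⟨0, 0, 1, 0, 0, 0⟩⟩)
      (h.mono fun q u => ((an_iff _ _).1 u).1)
    have b := cl4_sat (a := ⟨⟨0, 5, 0, 0, 0, 0⟩, ⟨4, 0, 0, 0, 0, 0⟩⟩)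
      (h.mono fun q u => ((an_iff _ _).1 u).2)
    simp only [rv_mk, fT, z6] at a b ⊢
    push_cast at a b ⊢
    rw [max_eq_right (by linarith), min_eq_right (by linarith)]; ring
  | _ + 4, h => exact dflt h

lemma pieceS_spec (t : Bool) {v g : ℝ} (l x d : ℝ) (v0 : 0 ≤ v)
    (h : Sat (pieceS t) ⟨1, v, g, 0, 0, 0⟩) : rv3 (fS t) ⟨1, v, g, l, x, d⟩ = 8 * Sf 1 (1 - v) := by
  rw [Sf_val v v0]
  match t, h with
  | true, h =>
    have := cl4_sat (a := ⟨⟨0, 15, 0, 0, 0, 0⟩, ⟨8, 0, 0, 0, 0, 0⟩⟩) h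
    simp only [rv_mk, z6, fS, rv3] at this ⊢
    push_cast at this ⊢
    rw [min_eq_right (by linarith)]; ring
  | false, h =>
    have := cl4_sat (a := ⟨⟨8, 0, 0, 0, 0, 0⟩, ⟨0, 15, 0, 0, 0, 0⟩⟩) h
    simp only [rv_mk, z6, fS, rv3] at this ⊢
    push_cast at this ⊢
    rw [min_eq_left (by linarith)]; ring

lemma piece_spec {R : Reg} {f : Lf} {k : Quad → Bool} (h : run R (piece f) k = true)
    {v g l x d : ℝ} (hi : In R v g l x d) (v0 : 0 ≤ v) (l' x' d' : ℝ) :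
    rv3 (fT f.tT) ⟨1, v, g, l', x', d'⟩ = 4 * Tf 1 (1 - g) (1 - v) ∧
      rv (fT f.tT) ⟨1, v, g, l', x', d'⟩ = 4 * Tf 1 (1 - g) (1 - v) ∧
      rv3 (fS f.tS) ⟨1, v, g, l', x', d'⟩ = 8 * Sf 1 (1 - v) := by
  have s := run_base h hi
  have a := pieceT_spec f.tT v0 (s.mono fun q u => ((an_iff _ _).1 u).1)
  exact ⟨(fT_eq _ _ _ _ _ _).1.trans a, (fT_eq _ _ _ _ _ _).2.trans a,
    pieceS_spec f.tS l' x' d' v0 (s.mono fun q u => ((an_iff _ _).1 u).2)⟩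

lemma t_vals : t1 ℝ = 2 / 3 ∧ t2 ℝ = 1 / 3 := by
  simp only [t1, t2, g0, G0]; norm_num

lemma ind_max {μ : ℝ} (hμ : μ = 0 ∨ μ = 1) (y : ℝ) : μ * y ≤ max y 0 := by
  rcases hμ with rfl | rfl <;> simp

lemma leaf0_spec {al be K : SF} {R : Reg} {f : Lf} (h : leaf0 al be K R f = true)
    {v g l x d κ a b e : ℝ} (hi : In R v g l x d) (v0 : 0 ≤ v)
    (hK : rv4 K ⟨1, v, g, l, x, d⟩ = κ) (hκ : 0 ≤ κ)
    (ha : rv al ⟨1, v, g, l, x, d⟩ = 1000000 * a) (hb : rv be ⟨1, v, g, l, x, d⟩ = 1000000 * b)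
    (e0 : 0 ≤ e) (he : 1 - v ≤ d + e) :
    (1 - l) - d - e - ((1 - l) - 4 / 100 * d - 245 / 1000 * (x - d)) * Tf 1 (1 - g) (1 - v) -
      (1 - Tf 1 (1 - g) (1 - v)) * max (e - 1737 / 1000 * d) 0 + a + b * t2 ℝ ≤
      (κ / 1000000 - 1) * (e - (x - d)) := by
  simp only [leaf0, an_iff, fF_eq] at h
  obtain ⟨ho, h⟩ := h
  obtain ⟨hT, -, hS⟩ := piece_spec h hi v0 l x d
  have q := quad8 h hi (fun _ s => s) _ (by exact fY_l f.eo) fun _ s => cq4_sat s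
  simp only [Bf, rv_sm, rv_ad, rv_fL, rv_fZ, rv_fY, rv_zF, rv_mk, hT, hK, ha, hb] at q
  push_cast at q
  have ho : f.eo ≤ 1 := Nat.le_of_ble_eq_true ho
  have hev : ev f.eo v x d ≤ e := by
    rcases Nat.le_one_iff_eq_zero_or_eq_one.1 ho with u | u <;> simp only [u, ev] <;>
      linarith
  have T1 := sub_nonneg.2 (Tf_le_one 1 (1 - g) (1 - v))
  have m0 : 0 ≤ bv f.mu := by rcases bv_cases f.mu with u | u <;> rw [u] <;> norm_num
  have i1 := mul_le_mul_of_nonneg_left (ind_max (bv_cases f.mu) (e - 1737 / 1000 * d)) T1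
  have i2 := mul_nonneg (mul_nonneg T1 m0) (sub_nonneg.2 hev)
  have i3 := mul_nonneg hκ (sub_nonneg.2 hev)
  rw [t_vals.2]
  generalize Tf 1 (1 - g) (1 - v) = T at *
  generalize ev f.eo v x d = e1 at *
  generalize bv f.mu = μ at *
  linarith

lemma elimH {u κ A y e e0 es μ ν : ℝ} (hu : 0 ≤ u) (hκ : 0 ≤ κ) (he : 0 ≤ e) (hes : es ≤ e)
    (hμ : μ = 0 ∨ μ = 1) (hν : ν = 0 ∨ ν = 1)
    (hc : ((e0 = 0 ∨ e0 = es) ∧ (ν = 1 → 7 / 10 - κ ≤ μ * u)) ∨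
      (e0 = 4 / 7 * A ∧ μ * u ≤ 7 / 10 - κ) ∨
      (e0 = y ∧ μ = 0 ∧ ν = 1 ∧ 0 ≤ 7 / 10 - κ ∧ 7 / 10 - κ ≤ u)) :
    -κ * e - u * max (e - y) 0 - max (2 / 5 * A - 7 / 10 * e) 0 ≤
      -κ * e0 - μ * u * (e0 - y) - ν * (2 / 5 * A - 7 / 10 * e0) := by
  have m0 : 0 ≤ μ := by rcases hμ with u | u <;> rw [u] <;> norm_num
  have i1 := mul_le_mul_of_nonneg_left (ind_max hμ (e - y)) hu
  have i2 := ind_max hν (2 / 5 * A - 7 / 10 * e)
  have i3 := le_max_left (2 / 5 * A - 7 / 10 * e) 0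
  have i4 := le_max_right (2 / 5 * A - 7 / 10 * e) 0
  have i5 := mul_le_mul_of_nonneg_left (le_max_left (e - y) 0) hu
  have i6 := mul_nonneg m0 hu
  rcases hc with ⟨h0, h1⟩ | ⟨h0, h1⟩ | ⟨h0, h1, h2, h3, h4⟩
  · have a : e0 ≤ e := by rcases h0 with u | u <;> linarith
    have b : 0 ≤ κ + μ * u - ν * (7 / 10) := by
      rcases hν with u | u
      · rw [u]; linarith
      · have := h1 u
        rw [u]; linarith
    have := mul_nonneg (sub_nonneg.2 a) b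
    linarith
  · have z : ν * (2 / 5 * A - 7 / 10 * e0) = 0 := by rw [h0]; ring
    rw [z]
    rcases le_total e e0 with a | a
    · have := mul_nonneg (sub_nonneg.2 a) (sub_nonneg.2 h1)
      linarith
    · have := mul_nonneg (sub_nonneg.2 a) (add_nonneg hκ i6)
      linarith
  · subst h0 h1 h2
    rcases le_total e e0 with a | a
    · have := mul_nonneg (sub_nonneg.2 a) h3
      linarith
    · have := mul_nonneg (sub_nonneg.2 a) (sub_nonneg.2 h4)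
      linarith

lemma elim1 {u κ A y e e0 es μ ν : ℝ} (hu : 0 ≤ u) (hκ : 1 / 100 ≤ κ) (hA : 0 ≤ A) (he : 0 ≤ e)
    (hes : es ≤ e) (hμ : μ = 0 ∨ μ = 1) (hν : ν = 0 ∨ ν = 1)
    (hc : ((e0 = 0 ∨ e0 = es) ∧ (ν = 1 → 7 / 10 - κ ≤ μ * u)) ∨
      (e0 = 4 / 7 * A ∧ μ * u ≤ 7 / 10 - κ) ∨
      (e0 = y ∧ μ = 0 ∧ ν = 1 ∧ 0 ≤ 7 / 10 - κ ∧ 7 / 10 - κ ≤ u)) :
    -κ * e - u * max (e - y) 0 - max (2 / 5 * A - 7 / 10 * e) 0 +
        1 / 100 * max (e - 11 / 10 * A) 0 ≤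
      -κ * e0 - μ * u * (e0 - y) - ν * (2 / 5 * A - 7 / 10 * e0) +
        1 / 100 * max (es - 11 / 10 * A) 0 := by
  have s0 := le_max_left (es - 11 / 10 * A) 0
  have s1 := le_max_right (es - 11 / 10 * A) 0
  have m0 := le_max_left es (4 / 7 * A)
  have m1 := le_max_right es (4 / 7 * A)
  have m2 : max es (4 / 7 * A) - 11 / 10 * A ≤ max (es - 11 / 10 * A) 0 := by
    rcases le_total es (4 / 7 * A) with a | a
    · rw [max_eq_right a]; linarith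
    · rw [max_eq_left a]; linarith
  generalize max es (4 / 7 * A) = m at *
  rcases le_total e m with a | a
  · have := elimH hu (by linarith) he hes hμ hν hc
    have : max (e - 11 / 10 * A) 0 ≤ max (es - 11 / 10 * A) 0 := max_le (by linarith) s1
    linarith
  · have k := elimH hu (by linarith) (e := m) (by linarith) m0 hμ hν hc
    rw [max_eq_right (a := 2 / 5 * A - 7 / 10 * m) (by linarith)] at k
    rw [max_eq_right (a := 2 / 5 * A - 7 / 10 * e) (by linarith)]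
    have : max (e - 11 / 10 * A) 0 ≤ max (es - 11 / 10 * A) 0 + (e - m) :=
      max_le (by linarith) (by linarith)
    have := mul_le_mul_of_nonneg_left (max_le_max (sub_le_sub_right a y) (le_refl (0 : ℝ))) hu
    have := mul_nonneg (sub_nonneg.2 a) (sub_nonneg.2 hκ)
    linarith

lemma run_ex {R : Reg} {k1 k2 : Quad → Bool} (h : run R k1 k2 = true) {v g l x d : ℝ}
    (hi : In R v g l x d) : ∃ z, Sat k2 z :=
  ⟨_, q2_sat (q1_sat h hi.1 hi.2.1 hi.2.2.1 hi.2.2.2.1).right.left⟩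

lemma slope_spec {R : Reg} {k1 k2 : Quad → Bool} (h : run R k1 k2 = true) {v g l x d : ℝ}
    (hi : In R v g l x d) (a u : SF) (m n : Bool) (eo : Nat)
    (hk : ∀ q, k2 q = true → slope a u m n eo q = true) :
    ((ev eo v x d = 0 ∨ ev eo v x d = 1 - v - d) ∧
        (bv n = 1 → rv a ⟨1, v, g, l, 0, 0⟩ ≤ bv m * rv u ⟨1, v, g, l, 0, 0⟩)) ∨
      (ev eo v x d = 4 / 7 * (x - d) ∧ bv m * rv u ⟨1, v, g, l, 0, 0⟩ ≤ rv a ⟨1, v, g, l, 0, 0⟩) ∨
      (ev eo v x d = 1737 / 1000 * d ∧ bv m = 0 ∧ bv n = 1 ∧ 0 ≤ rv a ⟨1, v, g, l, 0, 0⟩ ∧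
        rv a ⟨1, v, g, l, 0, 0⟩ ≤ rv u ⟨1, v, g, l, 0, 0⟩) := by
  have dflt : (∀ q, k2 q = true → Bool.rec true (cl4 (su a (opt m u)) q) n = true) →
      bv n = 1 → rv a ⟨1, v, g, l, 0, 0⟩ ≤ bv m * rv u ⟨1, v, g, l, 0, 0⟩ := by
    intro hk hn
    cases n
    · simp [bv] at hn
    · have := lin_two h hi (su a (opt m u)) fun z s => cl4_sat (s.mono hk)
      rw [rv_su, rv_opt] at this
      linarith
  match eo, hk with
  | 0, hk => exact Or.inl ⟨Or.inl rfl, dflt hk⟩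
  | 1, hk => exact Or.inl ⟨Or.inr rfl, dflt hk⟩
  | 2, hk =>
    have := lin_two h hi (su (opt m u) a) fun z s => cl4_sat (s.mono hk)
    rw [rv_su, rv_opt] at this
    exact Or.inr (Or.inl ⟨rfl, by linarith⟩)
  | 3, hk =>
    simp only [slope, an_iff] at hk
    obtain ⟨z, q, s, -⟩ := run_ex h hi
    obtain ⟨c1, c2, -⟩ := hk q s
    have a1 := lin_two h hi (ng a) fun z s => cl4_sat (s.mono fun q u => (hk q u).2.2.1)
    have a2 := lin_two h hi (su a u) fun z s => cl4_sat (s.mono fun q u => (hk q u).2.2.2)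
    rw [rv_ng] at a1
    rw [rv_su] at a2
    refine Or.inr (Or.inr ⟨rfl, ?_, ?_, by linarith, by linarith⟩)
    · cases m
      · rfl
      · simp at c1
    · rw [c2]; rfl
  | _ + 4, hk => exact Or.inl ⟨Or.inl rfl, dflt hk⟩

lemma sideZ_spec {R : Reg} {k1 k2 k3 : Quad → Bool} (h : run R k1 k2 = true) {v g l x d : ℝ}
    (hi : In R v g l x d) (h3 : ∀ z, Sat k2 z → Sat (runX R k3) z) (n : Nat)
    (hk : ∀ q, k3 q = true → sideZ n q = true) :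
    21000000 * Psi (x - d) d ≤ rv (fPsi n) ⟨1, v, g, l, x, d⟩ := by
  have s0 := le_max_left (d - 11 / 10 * (x - d)) 0
  have s1 := le_max_right (d - 11 / 10 * (x - d)) 0
  have dflt : (∀ q, k3 q = true → cl4 ⟨⟨0, 0, 0, 0, 4, 0⟩, ⟨0, 0, 0, 0, 0, 11⟩⟩ q = true) →
      max (2 / 5 * (x - d) - 7 / 10 * d) 0 = 0 := by
    intro hk
    have := lin_eight h hi h3 _ fun z s => cl4_sat (s.mono hk)
    rw [rv_mk] at this
    push_cast at this
    exact max_eq_right (by linarith)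
  match n, hk with
  | 0, hk =>
    have := lin_eight h hi h3 ⟨⟨0, 0, 0, 0, 0, 11⟩, ⟨0, 0, 0, 0, 4, 0⟩⟩ fun z s => cl4_sat (s.mono hk)
    simp only [rv_mk, fPsi, Psi] at this ⊢
    push_cast at this ⊢
    rw [max_eq_left (a := 2 / 5 * (x - d) - 7 / 10 * d) (by linarith)]
    linarith
  | 1, hk => simp only [fPsi, Psi, rv_zF, dflt hk]; linarith
  | 2, hk => simp only [fPsi, Psi, rv_mk, dflt hk]; push_cast; linarith
  | _ + 3, hk => simp only [fPsi, Psi, rv_zF, dflt hk]; linarith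

lemma sideS_spec {R : Reg} {k1 k2 k3 : Quad → Bool} (h : run R k1 k2 = true) {v g l x d : ℝ}
    (hi : In R v g l x d) (h3 : ∀ z, Sat k2 z → Sat (runX R k3) z) (n : Nat)
    (hk : ∀ q, k3 q = true → sideS n q = true) (v1 : v ≤ 1) (d0 : 0 ≤ d) (dx : d ≤ x) :
    210000 * max (1 - v - d - 11 / 10 * (x - d)) 0 ≤ rv (fSg n) ⟨1, v, g, l, x, d⟩ := by
  match n, hk with
  | 0, hk =>
    have := lin_eight h hi h3 ⟨⟨10, 0, 0, 0, 0, 1⟩, ⟨0, 10, 0, 0, 11, 0⟩⟩ fun z s => cl4_sat (s.mono hk)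
    simp only [rv_mk, fSg, rv_zF] at this ⊢
    push_cast at this
    rw [max_eq_right (by linarith)]
    linarith
  | 1, hk =>
    have := lin_eight h hi h3 ⟨⟨0, 10, 0, 0, 11, 0⟩, ⟨10, 0, 0, 0, 0, 1⟩⟩ fun z s => cl4_sat (s.mono hk)
    simp only [rv_mk, fSg] at this ⊢
    push_cast at this ⊢
    rw [max_eq_left (by linarith)]
    linarith
  | _ + 2, _ =>
    simp only [rv_mk, fSg]
    push_cast
    have : max (1 - v - d - 11 / 10 * (x - d)) 0 ≤ 1 - v := max_le (by linarith) (by linarith)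
    linarith

lemma leaf1_spec {al be K : SF} {R : Reg} {f : Lf} (h : leaf1 al be K R f = true)
    {v g l x d κ a b e : ℝ} (hi : In R v g l x d) (v0 : 0 ≤ v) (v1 : v ≤ 1) (d0 : 0 ≤ d)
    (dx : d ≤ x) (hK : rv4 K ⟨1, v, g, l, x, d⟩ = κ) (hK' : rv K ⟨1, v, g, l, 0, 0⟩ = κ)
    (hκ : 10000 ≤ κ)
    (ha : rv al ⟨1, v, g, l, x, d⟩ = 1000000 * a) (hb : rv be ⟨1, v, g, l, x, d⟩ = 1000000 * b)
    (e0 : 0 ≤ e) (he : 1 - v ≤ d + e) :
    (1 - l) - d - e - ((1 - l) - 737 / 1000 * d - 529 / 1000 * (x - d)) * Tf 1 (1 - g) (1 - v) -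
      (1 - Tf 1 (1 - g) (1 - v)) * max (e - 1737 / 1000 * d) 0 + a * (1 - Sf 1 (1 - v)) +
      b * (t2 ℝ - T2f 1 (1 - g) (1 - v)) ≤
      Psi (x - d) e - Psi (x - d) d + (κ / 1000000 - 1) * (e - (x - d)) := by
  simp only [leaf1, fF_eq] at h
  obtain ⟨hT, -, hS⟩ := piece_spec h hi v0 l x d
  obtain ⟨-, hT', -⟩ := piece_spec h hi v0 l 0 0
  have q := quad8 h hi (fun _ s => s.right) _ (by exact fY_l f.eo) fun _ s => cq4_sat s.right.right
  have c1 := slope_spec h hi _ _ _ _ _ fun q u => ((an_iff _ _).1 u).1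
  have c2 := sideZ_spec h hi (fun _ s => s.right) _ fun q u => ((an_iff _ _).1 u).1
  have c3 := sideS_spec h hi (fun _ s => s.right) _
    (fun q u => ((an_iff _ _).1 ((an_iff _ _).1 u).2).1) v1 d0 dx
  simp only [Bf, rv_sm, rv_ad, rv_su, rv_opt, rv_fL, rv_fZ, rv_fY, rv_fE, rv_mk, hT, hS, hK, ha,
    hb] at q
  simp only [rv_su, rv_sm, z6, rv_mk, hT', hK'] at c1
  push_cast at q c1
  have T1 := sub_nonneg.2 (Tf_le_one 1 (1 - g) (1 - v))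
  have k := elim1 (κ := κ / 1000000) (A := x - d) (y := 1737 / 1000 * d) (e := e)
    (e0 := ev f.eo v x d) (es := 1 - v - d) T1 (by linarith) (by linarith) e0 (by linarith)
    (bv_cases f.mu) (bv_cases f.nu) (by
      rcases c1 with ⟨u0, u1⟩ | ⟨u0, u1⟩ | ⟨u0, u1, u2, u3, u4⟩
      · exact Or.inl ⟨u0, fun w => by have := u1 w; linarith⟩
      · exact Or.inr (Or.inl ⟨u0, by linarith⟩)
      · exact Or.inr (Or.inr ⟨u0, u1, u2, by linarith, by linarith⟩))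
  rw [T2f, t_vals.1, t_vals.2]
  generalize Psi (x - d) d = ψ at *
  simp only [Psi]
  generalize Tf 1 (1 - g) (1 - v) = T at *
  generalize Sf 1 (1 - v) = S at *
  generalize ev f.eo v x d = e1 at *
  generalize bv f.mu = μ at *
  generalize bv f.nu = ν at *
  linarith

lemma leafO_spec {ca cs xa xm : Nat} {al be : SF} {R : Reg} {f : Lf}
    (h : leafO ca cs al be xa xm R f = true) {v g l x d a b X : ℝ} (hi : In R v g l x d)
    (v0 : 0 ≤ v) (hX : X = xa / (xm + 1))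
    (ha : rv al ⟨1, v, g, l, X, 0⟩ = 1000000 * a) (hb : rv be ⟨1, v, g, l, X, 0⟩ = 1000000 * b) :
    Tf 1 (1 - g) (1 - v) * (ca / 21000000 * X * Tf 1 (1 - g) (1 - v) - cs * max (v - l) 0) -
      (a * Sf 1 (1 - v) + b * T2f 1 (1 - g) (1 - v)) ≤ 0 := by
  simp only [leafO, fF_eq] at h
  obtain ⟨hT, hT', hS⟩ := piece_spec h hi v0 l X 0
  have q := quadO h hi (by simp [zF, z6])
  have hm : (0 : ℝ) < xm + 1 := by positivity
  have e1 : cb ⟨xa, 0, 0, 0, 0, 0, xm⟩ v 0 = X := by simp [cb, hX]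
  have e2 : (xa : ℝ) = X * (xm + 1) := by rw [hX]; field_simp
  simp only [e1, Bf, rv_sm, rv_ad, rv_su, rv_opt, rv_zF, rv_mk, hT, hT', hS, ha, hb, Nat.mul_eq,
    Nat.succ_eq_add_one] at q
  push_cast at q
  rw [e2] at q
  have T0 := Tf_nonneg zero_le_one (1 - g) (1 - v)
  have c0 : (0 : ℝ) ≤ cs := by positivity
  have i1 := mul_le_mul_of_nonneg_left (ind_max (bv_cases f.mu) (v - l)) (mul_nonneg T0 c0)
  rw [T2f, t_vals.1]
  generalize Tf 1 (1 - g) (1 - v) = T at *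
  generalize Sf 1 (1 - v) = S at *
  generalize bv f.mu = μ at *
  have : (xm + 1) * (T * (ca / 21000000 * X * T - cs * (μ * (v - l))) -
      (a * S + b * (T - 2 / 3 * S))) ≤ 0 := by linarith
  have := nonpos_of_mul_nonpos_right this hm
  linarith

end

end Vale.Agent.P334.Cert
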