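import Vale.Agent.P334.RuleDefs

/-!
The drift of the potential of one client is not positive.
-/

namespace Vale.Agent.P334

open Finset

namespace Client

theorem Fc_zero {ι : Type} (ρ : ℝ → ℝ) (c : ℝ) (s : Finset ι) (d u : ι → ℝ) (D : ℝ)
    (h : ∀ i ∈ s, u i = 0) : Fc ρ c s d u D = D := by
  unfold Fc gm
  rw [sum_eq_zero h, sum_eq_zero fun i hi => by rw [h i hi, zero_mul]]
  ring

end Client

theorem clientS (h1 : CertS) (h2 : VictimS) (h3 : PertS) (h4 : SplitS) : ClientS := by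
  intro ι s ρ R1 η ε η1 δ Δ D G' y u d lam xi β κ G x hρ hη hη' hε hε' he1 he1' hδ hu hm1 hD hΔ
    hx hl hv hk hG hG'
  obtain ⟨Ψ, hΨ⟩ := h1
  have hε4 : ε ≤ 1 / 4 := by nlinarith
  have hm0 : 0 ≤ ∑ i ∈ s, u i := sum_nonneg fun i hi => (hu i hi).1
  rcases hm0.eq_or_lt with hm | hm
  · have hz : ∀ i ∈ s, u i = 0 := (sum_eq_zero_iff_of_nonneg fun i hi => (hu i hi).1).1 hm.symm
    rw [Client.Fc_zero ρ _ s d u D hz]
    rw [Client.Fc_zero ρ _ s d _ D fun i hi => by rw [hz i hi, zero_mul]] at hG'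
    refine add_nonpos (sum_nonpos fun e he => ?_)
      (div_nonpos_of_nonpos_of_nonneg (by linarith) he1.le)
    have a1 := (hG e he).1
    rw [Client.Fc_zero ρ _ s d _ _ fun i hi => by rw [hz i hi, zero_mul]] at a1
    have a2 := (hk e he).2.2.2.2
    rw [sum_eq_zero fun i hi => by rw [hz i hi, zero_mul]] at a2
    have a3 := min_le_left D (d e)
    exact mul_nonpos_of_nonneg_of_nonpos
      (mul_nonneg ((hu e he).1.trans (hu e he).2.1) (by linarith)) (by linarith)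
  obtain ⟨m, hmd⟩ : ∃ m, m = ∑ i ∈ s, u i := ⟨_, rfl⟩
  rw [← hmd] at hm hm1 hG
  obtain ⟨A, hA⟩ : ∃ A, m * A = ∑ e ∈ s, u e * d e :=
    ⟨(∑ e ∈ s, u e * d e) / m, mul_div_cancel₀ _ hm.ne'⟩
  have hA0 : 0 ≤ m * A := by
    rw [hA]
    exact sum_nonneg fun i hi => mul_nonneg (hu i hi).1 (hu i hi).2.2
  have hT : ∀ i ∈ s, ∑ e ∈ s, y e * Tf (lam i) (xi i) (x i e) ≤ 1 := by
    intro i hi
    obtain ⟨a1, -, -, a4, -⟩ := t1_facts
    have e : ∑ e ∈ s, y e * Tf (lam i) (xi i) (x i e) =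
        t1 ℝ * ∑ e ∈ s, y e * Sf (lam i) (x i e) + ∑ e ∈ s, y e * T2f (lam i) (xi i) (x i e) := by
      rw [mul_sum, ← sum_add_distrib]
      exact sum_congr rfl fun e _ => by rw [Tf_eq]; ring
    have a5 := mul_le_mul_of_nonneg_left (hl i hi).2.2.2.1 a1.le
    have a6 := (hl i hi).2.2.2.2
    linarith
  refine (h4 s ρ R1 η ε η1 D G' m A y u d β κ G x (fun i e => Tf (lam i) (xi i) (x i e)) hρ hη.le
    hε hε4 he1 (by linarith) (fun i hi => ⟨(hu i hi).1, (hu i hi).2.1, (hu i hi).2.2,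
      fun h => (hv i hi h).1⟩) hD hmd hm hm1 hA
    (fun i hi e he => ⟨Tf_nonneg ((hl i hi).1.trans (hl i hi).2.1) _ _, Tf_le_one _ _ _,
      (hx i hi e he).2.2.2⟩) hT hk hG hG').trans ?_
  have hth0 : 0 ≤ th m := mul_nonneg (by linarith) (by linarith)
  have hth1 : th m ≤ 1 := by
    unfold th
    nlinarith
  have hR0 := hρ.low m hm.le hm1
  have hR2 := hρ.up1 m hm.le hm1
  have hr0 := mul_nonneg hm.le (hρ.R1_nonneg m hm.le hm1)
  have hr1 := hρ.up2 m hm.le hm1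
  have hode := hρ.ode m hm.le hm1
  have key : ∀ i ∈ s, u i * Vp s y u d (x i) (fun e => Tf (lam i) (xi i) (x i e)) ε η1 m (ρ m)
      (m * R1 m) A (d i) D ≤
      u i * ((1 - th m) * ∑ e ∈ s, u e * Ψ A (d e) + A * (1 - m * R1 m + m) + η / 2 * A) -
        (1 - th m) * m * (u i * Ψ A (d i)) + (2 * m - (1 + m) * ρ m + η / 2) * (u i * d i) := by
    intro i hi
    rcases (hu i hi).1.eq_or_lt with h0 | h0
    · rw [← h0]
      simp
    obtain ⟨b1, b2, b3, b4, b5, b6⟩ := hv i hi h0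
    obtain ⟨c1, c2, c3, c4, c5⟩ := hl i hi
    have p1 := h3 s η ε η1 δ Δ m (ρ m) (m * R1 m) A (d i) D (lam i) (xi i) y u d (x i) hη hη' hε hε'
      he1 he1' hδ (fun e he => ⟨(hu e he).1, (hu e he).2.1, (hu e he).2.2, (hx i hi e he).1,
        (hx i hi e he).2.1⟩) hmd hm hm1 hA (hu i hi).2.2 b1 hΔ (by linarith) (by linarith) hr0
      (by linarith) b3 c3 c1 c2 b2 b4 (hT i hi) b6
    have p2 := h2 Ψ hΨ s ρ R1 η δ m A (d i) (min (D - d i) (lam i)) (lam i) (xi i) y u d (x i) hρ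
      hδ (fun e he => ⟨(hu e he).1, (hu e he).2.1, (hu e he).2.2, hx i hi e he⟩) hmd hm hm1 hA
      (hu i hi).2.2 (le_min (by linarith) b3.le) (min_le_right _ _) b3 c1 c2 c4 c5 b5
    have e : ∑ e ∈ s, u e * (Ψ A (d e) - Ψ A (d i)) =
        ∑ e ∈ s, u e * Ψ A (d e) - m * Ψ A (d i) := by
      rw [hmd, sum_mul, ← sum_sub_distrib]
      exact sum_congr rfl fun e _ => by ring
    rw [e] at p2
    have p3 := mul_le_mul_of_nonneg_left (p1.trans (sub_le_sub_right (add_le_add_left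
      (add_le_add_left p2 _) _) _)) h0.le
    refine p3.trans (le_of_eq ?_)
    ring
  refine (sum_le_sum key).trans ?_
  rw [sum_add_distrib, sum_sub_distrib, ← sum_mul, ← mul_sum, ← mul_sum, ← hmd, ← hA]
  have p4 : 0 ≤ m * A * ((1 + m) * ρ m + m * R1 m - (1 + 3 * m + η)) :=
    mul_nonneg hA0 (by nlinarith)
  nlinarith

end Vale.Agent.P334
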