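import Vale.Agent.P334.LPCode

/-!
Running time of the core algorithm.
-/

namespace Vale.Agent.P334

open Vale.Agent.Lib.TM Vale.Agent.P049

attribute [local irreducible] CT

namespace CoreCode

variable {α : Type} [Enc α] {C : α → Core} {σ : α → PS} {S : α → List ℕ} {n c : α → ℕ}
  {x : α → ℚ} (q : ℕ)

@[fun_prop]
theorem ct_shrink (hn : CT 0 n) (hx : CT 0 x) : CT 0 fun a => shrink (n a) (x a) := by
  unfold shrink; fun_prop

@[fun_prop]
theorem ct_opens (hn : CT 0 n) (hS : CT 0 S) (hc : CT 0 c) :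
    CT 0 fun a => opens (n a) (S a) (c a) := by
  unfold opens; fun_prop

theorem ct_next (h2 : KillCodeS) (h : CT 0 C) (hσ : CT 0 σ) (hc : CT 0 c) :
    CT 0 fun a => next q (C a) (σ a) (c a) := by
  have h3 : CT 0 fun p : α × ℕ => kill q (C p.1) (σ p.1) (c p.1) p.2 :=
    (h2 q).comp (g := fun p : α × ℕ => (C p.1, σ p.1, c p.1, p.2)) (by fun_prop)
  have h4 : CT 0 fun p : (α × ℕ) × ℕ => kill q (C p.1.1) (σ p.1.1) (c p.1.1) p.2 :=
    h3.comp (g := fun p : (α × ℕ) × ℕ => (p.1.1, p.2)) (by fun_prop)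
  refine CT.mk (by fun_prop) (CT.mk (ct_tabn h (ct_shrink (by fun_prop) h3)) (ct_tabm h ?_))
  exact ct_tabn (C := fun p : α × ℕ => C p.1) (f := fun p i => shrink (g2n (σ p.1).2.2 p.2 i)
    (kill q (C p.1) (σ p.1) (c p.1) i)) (by fun_prop) (ct_shrink (by fun_prop) h4)

theorem ct_sumY (h : CT 0 C) (hσ : CT 0 σ) : CT 0 fun a => sumY (C a) (σ a) := by
  unfold sumY; fun_prop

theorem ct_step (h2 : KillCodeS) (h3 : PotCodeS) (h : CT 0 C) (hσ : CT 0 σ) :
    CT 0 fun a => step q (C a) (σ a) := by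
  have h4 : CT 0 fun p : α × ℕ => next q (C p.1) (σ p.1) p.2 :=
    ct_next q h2 (by fun_prop) (by fun_prop) (by fun_prop)
  have h5 : CT 0 fun p : α × ℕ => WW q (C p.1) (next q (C p.1) (σ p.1) p.2) :=
    (h3 q).comp (g := fun p : α × ℕ => (C p.1, next q (C p.1) (σ p.1) p.2))
      (CT.mk (by fun_prop) h4)
  exact (((CT.const q).mul (ct_sumY h hσ)).decLe (ct_NN q h)).cond hσ (ct_next q h2 h hσ
    (ct_argmin (f := fun a c => WW q (C a) (next q (C a) (σ a) c)) h5
      (((ct_n h).add (CT.const 1)).range ((bd_n h).add (Bd.const 1))) (CT.const 0)))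

lemma sz_opens (n : ℕ) (S : List ℕ) (c : ℕ) : sz (opens n S c) ≤ sz S + (6 * n + 2) := by
  unfold opens
  by_cases h : c < n
  · have h1 := sz_le_self c
    cases memB c S <;> simp [h]
    omega
  · simp [h]

lemma sz_step (C : Core) (σ : PS) : sz (step q C σ) ≤
    sz σ + (6 * C.n + 2 + C.n * (0 + 2) + C.m * (C.n * (0 + 2) + 2)) := by
  unfold step
  cases decide (q * sumY C σ ≤ NN q C)
  · rw [cond_false]
    generalize argmin _ _ _ = c
    have h0 := sz_opens C.n σ.1 c
    have h1 := LPCode.sz_tab1 (K := 0) (n := C.n) (l := σ.2.1)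
      (f := fun i => shrink (g1n σ.2.1 i) (kill q C σ c i)) fun i => sz_mono (min_le_left _ _)
    have h2 := LPCode.sz_tab2 (K := 0) (m := C.m) (n := C.n) (l := σ.2.2)
      (f := fun j i => shrink (g2n σ.2.2 j i) (kill q C σ c i)) fun j i => sz_mono (min_le_left _ _)
    rw [next, sz_pair, sz_pair, sz_prod σ, sz_prod σ.2]
    omega
  · simp

end CoreCode

open CoreCode in
theorem coreCodeS (h1 : LPCodeS) (h2 : KillCodeS) (h3 : PotCodeS) : CoreCodeS := by
  intro q
  have hn : Bd 0 fun p : Core × ℕ => p.1.n := bd_n (e := 0) (by fun_prop)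
  have hm : Bd 0 fun p : Core × ℕ => p.1.m := bd_m (e := 0) (by fun_prop)
  have h4 : CT 0 fun p : Core × ℕ => lpRun q p.1 := (h1 q).comp (by fun_prop)
  have hY : CT 0 (lpY q) :=
    ct_tabn (f := fun C i => min (g1n (lpRun q C).1 i) (NN q C)) CT.id
      ((ct_g1n h4.fst (by fun_prop)).min (by fun_prop))
  have hU : CT 0 (lpU q) := (h1 q).snd
  exact (CT.foldl (g := fun C σ _ => step q C σ) (l := fun C : Core => List.range (TT q C))
    (init := fun C : Core => ([0], lpY q C, lpU q C))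
    (G := fun p => 6 * p.1.n + 2 + p.1.n * (0 + 2) + p.1.m * (p.1.n * (0 + 2) + 2))
    (ct_step q h2 h3 (by fun_prop) (by fun_prop)) ((CT.const _).mk (hY.mk hU))
    (CT.range (by fun_prop) (bd_TT (e := 0) q CT.id))
    (((((Bd.const 6).mul hn).add (Bd.const 2)).add (hn.mul (Bd.const _))).add
      (hm.mul ((hn.mul (Bd.const _)).add (Bd.const _)))) fun C s _ => sz_step q C s).fst

end Vale.Agent.P334
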