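import Mathlib

/-!
The killing rule, the client potential and the analytic statements.
-/

namespace Vale.Agent.P334

open Finset

/-- Slope of the linear part of the rule. -/
def g0 : ℚ := 5 / 4

/-- Slope of the extra part of the rule. -/
def g1 : ℚ := 7 / 4

/-- Slope of the radius rule. -/
def G0 : ℚ := 15 / 8

lemma g_facts : 1 ≤ g0 ∧ g0 ≤ 3 / 2 ∧ g0 ≤ G0 ∧ G0 ≤ 2 ∧ G0 ≤ g0 + g1 ∧ 0 ≤ g1 ∧ g1 ≤ 2 := by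
  unfold g0 g1 G0; norm_num

lemma g_factsR : (1 : ℝ) ≤ (g0 : ℝ) ∧ (g0 : ℝ) ≤ 3 / 2 ∧ (g0 : ℝ) ≤ (G0 : ℝ) ∧ (G0 : ℝ) ≤ 2 ∧
    (G0 : ℝ) ≤ (g0 : ℝ) + (g1 : ℝ) ∧ (0 : ℝ) ≤ (g1 : ℝ) ∧ (g1 : ℝ) ≤ 2 := by
  unfold g0 g1 G0; norm_num

section generic

variable {K : Type} [Field K] [LinearOrder K]

/-- Share of the radius rule. -/
def t1 (K : Type) [Field K] : K := (g0 : K) / (G0 : K)

/-- The remaining share. -/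
def t2 (K : Type) [Field K] : K := 1 - t1 K

/-- The radius rule. -/
def Sf (lam x : K) : K := min 1 ((G0 : K) * max (lam - x) 0 / lam)

/-- The killing rule. -/
def Tf (lam xi x : K) : K := min 1 (((g0 : K) * max (lam - x) 0 + (g1 : K) * max (xi - x) 0) / lam)

/-- The extra part of the killing rule. -/
def T2f (lam xi x : K) : K := Tf lam xi x - t1 K * Sf lam x

/-- The coefficient of the distance to the open set. -/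
def gm (c m : K) : K := (1 - m) * (1 + c * m)

/-- Damping of the killing for events with large total kill. -/
def kap (p z : K) : K := if z ≤ 3 * p then 1 else (2 * p + 2) / z

/-- Rate factor of an event. -/
def bet (p z : K) : K := if z ≤ 3 * p then 1 - (1 - z) / (3 * p ^ 2) else z / (2 * p)

end generic

/-- Interpolation weight. -/
noncomputable def th (m : ℝ) : ℝ := (1 - m) * (1 - 3 / 10 * m)

/-- The facts on the coefficient of the alive cost that the analysis uses. -/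
structure RhoOK (η : ℝ) (ρ R1 : ℝ → ℝ) : Prop where
  tan : ∀ m z, 0 ≤ z → z ≤ m → m ≤ 1 → ρ (m - z) ≤ ρ m - R1 m * z
  ode : ∀ m, 0 ≤ m → m ≤ 1 → 1 + 3 * m + η * (1 + m) ≤ (1 + m) * ρ m + m * R1 m
  low : ∀ m, 0 ≤ m → m ≤ 1 → 1 + η ≤ ρ m
  R1_nonneg : ∀ m, 0 ≤ m → m ≤ 1 → 0 ≤ R1 m
  up1 : ∀ m, 0 ≤ m → m ≤ 1 → ρ m - 1 ≤ 4 / 100 * th m + 737 / 1000 * (1 - th m)
  up2 : ∀ m, 0 ≤ m → m ≤ 1 → m * R1 m ≤ 245 / 1000 * th m + 529 / 1000 * (1 - th m)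
  up3 : ∀ m, 0 ≤ m → m ≤ 1 → R1 m / 2 ≤ 1 / 2 * th m + 2645 / 10000 * (1 - th m)

/-- The coefficient of the alive cost. -/
noncomputable def rho (a η m : ℝ) : ℝ := 3 + η - 2 * a * ∫ t in (0 : ℝ)..1, Real.exp (-(a * m * t))

/-- Its derivative. -/
noncomputable def rho1 (a m : ℝ) : ℝ := 2 * a ^ 2 * ∫ t in (0 : ℝ)..1, t * Real.exp (-(a * m * t))

/-- The exponent that makes the coefficient rational on the grid. -/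
noncomputable def thN (N : ℕ) : ℝ := N * Real.log (1 + 1 / N)

/-- Facts on `rho`. -/
def RhoS : Prop :=
  ∀ (N : ℕ) (η : ℝ), 100000 ≤ N → 0 < η → η ≤ 1 / 2000 →
    RhoOK η (rho (thN N) η) (rho1 (thN N)) ∧
    rho (thN N) η 1 ≤ 1 + 2 / Real.exp 1 + η + 2 / N ∧
    ∀ M : ℕ, 1 ≤ M → rho (thN N) η (M / N) = 3 + η - 2 * N * (1 - (N : ℝ) ^ M / (N + 1) ^ M) / M

/-- The dual certificate for one victim with radius `1`. -/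
def CertP (Ψ : ℝ → ℝ → ℝ) : Prop :=
  (∀ l a t, 0 < l → Ψ (l * a) (l * t) = l * Ψ a t) ∧
  ∀ d A w xi : ℝ, 0 ≤ d → 0 ≤ A → 0 ≤ w → w ≤ 1 → 0 ≤ xi → xi ≤ 1 →
    ∃ a0 b0 k0 a1 b1 k1 : ℝ, 0 ≤ a1 ∧ 10 / 7 * a1 ≤ a0 ∧ 10 / 7 * b1 ≤ b0 ∧ 13 / 10 * b1 ≤ b0 ∧
      -10 ≤ b0 ∧ -10 ≤ b1 ∧ (xi = 1 → 0 ≤ b0 ∧ 0 ≤ b1) ∧
      (∀ x, 0 ≤ x → Tf 1 xi x * (2645 / 10000 * (d + A) * Tf 1 xi x - max (w - x) 0) ≤
        a1 * Sf 1 x + b1 * T2f 1 xi x) ∧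
      (∀ x, 0 ≤ x → Tf 1 xi x * (1 / 2 * (d + A) * Tf 1 xi x - 3 * max (w - x) 0) ≤
        a0 * Sf 1 x + b0 * T2f 1 xi x) ∧
      (∀ x e, 0 ≤ x → 0 ≤ e → x ≤ d + e → d ≤ x + e → e ≤ x + d →
        w - d - e - (w - 737 / 1000 * d - 529 / 1000 * A) * Tf 1 xi x -
          (1 - Tf 1 xi x) * max (e - 1737 / 1000 * d) 0 + a1 * (1 - Sf 1 x) +
          b1 * (t2 ℝ - T2f 1 xi x) ≤ Ψ A e - Ψ A d + k1 * (e - A)) ∧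
      (∀ x e, 0 ≤ x → 0 ≤ e → x ≤ d + e → d ≤ x + e → e ≤ x + d →
        w - d - e - (w - 4 / 100 * d - 245 / 1000 * A) * Tf 1 xi x -
          (1 - Tf 1 xi x) * max (e - 1737 / 1000 * d) 0 + a0 + b0 * t2 ℝ ≤ k0 * (e - A))

/-- Existence of the certificate. -/
def CertS : Prop := ∃ Ψ, CertP Ψ

section client

variable {ι : Type}

/-- The potential of a client with alive masses `u` at distances `d` and distance `D` to the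
open set. -/
noncomputable def Fc (ρ : ℝ → ℝ) (c : ℝ) (s : Finset ι) (d u : ι → ℝ) (D : ℝ) : ℝ :=
  gm c (∑ i ∈ s, u i) * D + ρ (∑ i ∈ s, u i) * ∑ i ∈ s, u i * d i

/-- The ideal drift charged to a victim at distance `di`; `T` is its killing rule and `x` its
distance to the other facilities. -/
noncomputable def V0 (s : Finset ι) (y u d x T : ι → ℝ) (R r σ A di w : ℝ) : ℝ :=
  ∑ e ∈ s, u e * (w - di - d e - (w - (R - 1) * di - r * A) * T e -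
      (1 - T e) * max (d e - R * di) 0) +
    ∑ e ∈ s, (y e - u e) * (T e * (r * (di + A) / 2 * T e - σ * max (w - x e) 0))

/-- The perturbed drift charged to a victim. -/
noncomputable def Vp (s : Finset ι) (y u d x T : ι → ℝ) (ε η1 m R r A di D : ℝ) : ℝ :=
  -(gm (2 * ε) m * D) + ε * gm (2 * ε) m * D * (1 - ∑ e ∈ s, u e * T e) + gm (2 * ε) m * A +
    ∑ e ∈ s, u e * (-((1 - ε) * max (R * di - (1 + 2 * ε) * d e) 0) +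
      (1 + ε) * T e * max ((1 + 2 * ε) * d e - R * di) 0) +
    ∑ e ∈ s, (y e - u e) * (T e * (-((1 - ε) * gm (2 * ε) m * max (D - di - x e) 0 / m) +
      (1 + 4 * ε) * (di + min (D - di) (x e)) - (1 - ε) * (R * di + r * A) +
      (1 + ε) * (r * (di + A) / 2 * T e))) +
    (1 - ∑ e ∈ s, y e * T e) * ((1 + 2 * ε * (2 * m - 1)) * D - R * di - r * A) + η1 * A

end client

/-- Change of the potential in one event: keep everything, or drop the far mass. -/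
def EventS : Prop :=
  ∀ {ι : Type} (s : Finset ι) (ρ R1 : ℝ → ℝ) (η c D D' m A : ℝ) (d u k : ι → ℝ), RhoOK η ρ R1 →
    0 ≤ c → c ≤ 1 → 0 ≤ D' → (∀ i ∈ s, 0 ≤ d i ∧ 0 ≤ u i ∧ 0 ≤ k i ∧ k i ≤ 1) →
    m = ∑ i ∈ s, u i → m ≤ 1 → A = ∑ i ∈ s, u i * d i →
    Fc ρ c s d (fun i => u i * (1 - k i)) D' - Fc ρ c s d u D ≤
      -(gm c m * (D - D')) +
        ∑ i ∈ s, u i * k i * ((1 + c * (2 * m - 1)) * D' - ρ m * d i - R1 m * A) +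
        R1 m * ∑ i ∈ s, u i * k i ^ 2 * ((m * d i + A) / 2) ∧
    Fc ρ c s d (fun i => if ρ m * d i < (1 + c) * D' then u i * (1 - k i) else 0) D' -
        Fc ρ c s d u D ≤
      -(gm c m * (D - D')) - ∑ i ∈ s, u i * max (ρ m * d i - (1 + c) * D') 0 +
        ∑ i ∈ s, u i * k i * max ((1 + c) * D' - ρ m * d i) 0

/-- The ideal inequality for one victim. -/
def VictimS : Prop :=
  ∀ Ψ, CertP Ψ → ∀ {ι : Type} (s : Finset ι) (ρ R1 : ℝ → ℝ) (η δ m A di w lam xi : ℝ)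
    (y u d x : ι → ℝ), RhoOK η ρ R1 → 0 ≤ δ →
    (∀ e ∈ s, 0 ≤ u e ∧ u e ≤ y e ∧ 0 ≤ d e ∧ 0 ≤ x e ∧ x e ≤ di + d e ∧ di ≤ x e + d e ∧
      d e ≤ x e + di) →
    m = ∑ e ∈ s, u e → 0 < m → m ≤ 1 → m * A = ∑ e ∈ s, u e * d e → 0 ≤ di → 0 ≤ w → w ≤ lam →
    0 < lam → 0 ≤ xi → xi ≤ lam → ∑ e ∈ s, y e * Sf lam (x e) ≤ 1 →
    ∑ e ∈ s, y e * T2f lam xi (x e) ≤ t2 ℝ →
    (xi < lam → t2 ℝ - δ ≤ ∑ e ∈ s, y e * T2f lam xi (x e)) →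
    V0 s y u d x (fun e => Tf lam xi (x e)) (ρ m) (m * R1 m) (m * (1 + 2 * th m)) A di w ≤
      (1 - th m) * ∑ e ∈ s, u e * (Ψ A (d e) - Ψ A di) + 10 * δ * lam

/-- Comparison of the perturbed and the ideal drift of one victim. -/
def PertS : Prop :=
  ∀ {ι : Type} (s : Finset ι) (η ε η1 δ Δ m R r A di D lam xi : ℝ) (y u d x : ι → ℝ),
    0 < η → η ≤ 1 / 2000 → 0 < ε → ε ≤ η ^ 2 / 100000 → 0 < η1 → η1 ≤ η / 8 → 0 ≤ δ →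
    (∀ e ∈ s, 0 ≤ u e ∧ u e ≤ y e ∧ 0 ≤ d e ∧ 0 ≤ x e ∧ x e ≤ di + d e) →
    m = ∑ e ∈ s, u e → 0 < m → m ≤ 1 → m * A = ∑ e ∈ s, u e * d e → 0 ≤ di → di < D → D ≤ Δ →
    0 ≤ R → R ≤ 2 → 0 ≤ r → r ≤ 1 → 0 < lam → lam ≤ Δ → 0 ≤ xi → xi ≤ lam →
    δ * Δ ≤ η * di / 200 → lam ≤ (1 - η / 100) * (D + di) →
    ∑ e ∈ s, y e * Tf lam xi (x e) ≤ 1 →
    (1 - ∑ e ∈ s, y e * Tf lam xi (x e) ≤ 2 * δ ∨ D - di ≤ (1 + η / 50) * lam) →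
    Vp s y u d x (fun e => Tf lam xi (x e)) ε η1 m R r A di D ≤
      V0 s y u d x (fun e => Tf lam xi (x e)) R r (m * (1 + 2 * th m)) A di (min (D - di) lam) +
        (A * (1 - r + m) + di * (2 * m - (1 + m) * R)) + η / 2 * (di + A) - 10 * δ * lam

/-- The drift of the potential of one client is at most the sum of the charges. -/
def SplitS : Prop :=
  ∀ {ι : Type} (s : Finset ι) (ρ R1 : ℝ → ℝ) (η ε η1 D G' m A : ℝ) (y u d β κ G : ι → ℝ)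
    (x T : ι → ι → ℝ), RhoOK η ρ R1 → 0 ≤ η → 0 < ε → ε ≤ 1 / 4 → 0 < η1 → η1 ≤ 1 →
    (∀ i ∈ s, 0 ≤ u i ∧ u i ≤ y i ∧ 0 ≤ d i ∧ (0 < u i → d i < D)) → 0 ≤ D →
    m = ∑ e ∈ s, u e → 0 < m → m ≤ 1 → m * A = ∑ e ∈ s, u e * d e →
    (∀ i ∈ s, ∀ e ∈ s, 0 ≤ T i e ∧ T i e ≤ 1 ∧ d e ≤ x i e + d i) →
    (∀ i ∈ s, ∑ e ∈ s, y e * T i e ≤ 1) →
    (∀ e ∈ s, 0 ≤ κ e ∧ κ e ≤ 1 ∧ 1 - ε ≤ β e * κ e ∧ β e * κ e ≤ 1 + ε ∧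
      1 - ε * (1 - ∑ i ∈ s, u i * T i e) ≤ β e) →
    (∀ e ∈ s, G e ≤ Fc ρ (2 * ε) s d (fun i => u i * (1 - κ e * T i e)) (min D (d e)) ∧
      G e ≤ Fc ρ (2 * ε) s d (fun i => if ρ m * d i < (1 + 2 * ε) * min D (d e) then
        u i * (1 - κ e * T i e) else 0) (min D (d e))) →
    G' ≤ Fc ρ (2 * ε) s d (fun i => u i * (1 - η1 * (1 - ∑ e ∈ s, y e * T i e))) D →
    ∑ e ∈ s, y e * β e * (G e - Fc ρ (2 * ε) s d u D) + (G' - Fc ρ (2 * ε) s d u D) / η1 ≤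
      ∑ i ∈ s, u i * Vp s y u d (x i) (T i) ε η1 m (ρ m) (m * R1 m) A (d i) D

/-- The drift of the potential of one client is not positive. -/
def ClientS : Prop :=
  ∀ {ι : Type} (s : Finset ι) (ρ R1 : ℝ → ℝ) (η ε η1 δ Δ D G' : ℝ)
    (y u d lam xi β κ G : ι → ℝ) (x : ι → ι → ℝ), RhoOK η ρ R1 →
    0 < η → η ≤ 1 / 2000 → 0 < ε → ε ≤ η ^ 2 / 100000 → 0 < η1 → η1 ≤ η / 8 → 0 ≤ δ →
    (∀ i ∈ s, 0 ≤ u i ∧ u i ≤ y i ∧ 0 ≤ d i) → ∑ i ∈ s, u i ≤ 1 → 0 ≤ D → D ≤ Δ →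
    (∀ i ∈ s, ∀ e ∈ s, 0 ≤ x i e ∧ x i e ≤ d i + d e ∧ d i ≤ x i e + d e ∧ d e ≤ x i e + d i) →
    (∀ i ∈ s, 0 ≤ xi i ∧ xi i ≤ lam i ∧ lam i ≤ Δ ∧ ∑ e ∈ s, y e * Sf (lam i) (x i e) ≤ 1 ∧
      ∑ e ∈ s, y e * T2f (lam i) (xi i) (x i e) ≤ t2 ℝ) →
    (∀ i ∈ s, 0 < u i → d i < D ∧ δ * Δ ≤ η * d i / 200 ∧ 0 < lam i ∧
      lam i ≤ (1 - η / 100) * (D + d i) ∧
      (xi i < lam i → t2 ℝ - δ ≤ ∑ e ∈ s, y e * T2f (lam i) (xi i) (x i e)) ∧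
      (1 - ∑ e ∈ s, y e * Tf (lam i) (xi i) (x i e) ≤ 2 * δ ∨ D - d i ≤ (1 + η / 50) * lam i)) →
    (∀ e ∈ s, 0 ≤ κ e ∧ κ e ≤ 1 ∧ 1 - ε ≤ β e * κ e ∧ β e * κ e ≤ 1 + ε ∧
      1 - ε * (1 - ∑ i ∈ s, u i * Tf (lam i) (xi i) (x i e)) ≤ β e) →
    (∀ e ∈ s, G e ≤ Fc ρ (2 * ε) s d (fun i => u i * (1 - κ e * Tf (lam i) (xi i) (x i e)))
        (min D (d e)) ∧
      G e ≤ Fc ρ (2 * ε) s d (fun i => if ρ (∑ i ∈ s, u i) * d i < (1 + 2 * ε) * min D (d e) then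
        u i * (1 - κ e * Tf (lam i) (xi i) (x i e)) else 0) (min D (d e))) →
    G' ≤ Fc ρ (2 * ε) s d
      (fun i => u i * (1 - η1 * (1 - ∑ e ∈ s, y e * Tf (lam i) (xi i) (x i e)))) D →
    ∑ e ∈ s, y e * β e * (G e - Fc ρ (2 * ε) s d u D) + (G' - Fc ρ (2 * ε) s d u D) / η1 ≤ 0

/-- Facts on the rates, and the drift of the mass and of the exponential of the count. -/
def CountS : Prop :=
  (∀ p K z : ℝ, 2 ≤ p → 0 ≤ z → z ≤ K → z ≤ 1 → 0 ≤ kap p K ∧ kap p K ≤ 1 ∧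
    1 - 1 / p ≤ bet p K * kap p K ∧ bet p K * kap p K ≤ 1 + 1 / p ∧
    1 - 1 / p * (1 - z) ≤ bet p K) ∧
  ∀ {ι : Type} (s : Finset ι) (p θ η1 : ℝ) (y sl K : ι → ℝ) (T : ι → ι → ℝ), 2 ≤ p → 0 < θ →
    θ ≤ 1 / (16 * p ^ 2) → 0 < η1 → η1 * ∑ i ∈ s, y i ≤ 1 → (∀ i ∈ s, 0 ≤ y i) →
    (∀ i ∈ s, ∀ e ∈ s, 0 ≤ T i e ∧ T i e ≤ 1) →
    (∀ i ∈ s, sl i = 1 - ∑ e ∈ s, y e * T i e ∧ 0 ≤ sl i) →
    (∀ e ∈ s, K e = ∑ i ∈ s, y i * T i e) →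
    ∑ e ∈ s, y e * bet p (K e) * (Real.exp (θ * (1 - kap p (K e) * K e)) - 1) +
        (Real.exp (-(θ * (η1 * ∑ i ∈ s, y i * sl i))) - 1) / η1 ≤ 0 ∧
      (∑ i ∈ s, y i) / 2 ≤
        ∑ e ∈ s, y e * bet p (K e) * (kap p (K e) * K e) + ∑ i ∈ s, y i * sl i ∧
      ∑ e ∈ s, y e * bet p (K e) ≤ (∑ i ∈ s, y i) * (∑ i ∈ s, y i + 2)

section api

lemma t1_facts : 0 < t1 ℝ ∧ t1 ℝ ≤ 1 ∧ t1 ℝ * (G0 : ℝ) = (g0 : ℝ) ∧ t1 ℝ + t2 ℝ = 1 ∧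
    0 ≤ t2 ℝ := by
  obtain ⟨h1, h2, h3, h4, h5, h6, h7⟩ := g_factsR
  have h : (0 : ℝ) < (G0 : ℝ) := by linarith
  have a1 : t1 ℝ ≤ 1 := (div_le_one h).2 h3
  exact ⟨div_pos (by linarith) h, a1, div_mul_cancel₀ _ h.ne', by simp [t2],
    sub_nonneg.2 a1⟩

lemma Sf_le_one (lam x : ℝ) : Sf lam x ≤ 1 := min_le_left _ _

lemma Tf_le_one (lam xi x : ℝ) : Tf lam xi x ≤ 1 := min_le_left _ _

lemma Sf_nonneg {lam : ℝ} (h : 0 ≤ lam) (x : ℝ) : 0 ≤ Sf lam x := by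
  obtain ⟨h1, h2, h3, h4, h5, h6, h7⟩ := g_factsR
  have : (0 : ℝ) ≤ (G0 : ℝ) := by linarith
  exact le_min zero_le_one (by positivity)

lemma Tf_nonneg {lam : ℝ} (h : 0 ≤ lam) (xi x : ℝ) : 0 ≤ Tf lam xi x := by
  obtain ⟨h1, h2, h3, h4, h5, h6, h7⟩ := g_factsR
  have : (0 : ℝ) ≤ (g0 : ℝ) := by linarith
  exact le_min zero_le_one (by positivity)

lemma Tf_eq (lam xi x : ℝ) : Tf lam xi x = t1 ℝ * Sf lam x + T2f lam xi x := by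
  simp [T2f]

lemma cast_t1 : ((t1 ℚ : ℚ) : ℝ) = t1 ℝ := by simp [t1]

lemma cast_t2 : ((t2 ℚ : ℚ) : ℝ) = t2 ℝ := by simp [t2, t1]

lemma cast_Sf (lam x : ℚ) : ((Sf lam x : ℚ) : ℝ) = Sf (lam : ℝ) (x : ℝ) := by simp [Sf]

lemma cast_Tf (lam xi x : ℚ) : ((Tf lam xi x : ℚ) : ℝ) = Tf (lam : ℝ) (xi : ℝ) (x : ℝ) := by
  simp [Tf]

lemma cast_T2f (lam xi x : ℚ) : ((T2f lam xi x : ℚ) : ℝ) = T2f (lam : ℝ) (xi : ℝ) (x : ℝ) := by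
  simp [T2f, cast_Sf, cast_Tf, cast_t1]

lemma cast_gm (c m : ℚ) : ((gm c m : ℚ) : ℝ) = gm (c : ℝ) (m : ℝ) := by simp [gm]

lemma cast_kap (p z : ℚ) : ((kap p z : ℚ) : ℝ) = kap (p : ℝ) (z : ℝ) := by
  unfold kap
  have : z ≤ 3 * p ↔ (z : ℝ) ≤ 3 * (p : ℝ) := by exact_mod_cast Iff.rfl
  by_cases h : z ≤ 3 * p
  · rw [if_pos h, if_pos (this.1 h)]; simp
  · rw [if_neg h, if_neg (mt this.2 h)]; simp

end api

end Vale.Agent.P334
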