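import Vale.Agent.P334.Basic
import Vale.Agent.P334.RuleDefs

/-!
The core algorithm on instances with small integer distances: approximate linear program,
killing process, rounding of distances; programs and statements.
-/

namespace Vale.Agent.P334

open Vale.Agent.Lib.TM Vale.Agent.P049 Finset

/-- Facility to facility distances, client to facility distances, and `k`. -/
abbrev Core := List (List ℕ) × List (List ℕ) × ℕ

/-- Entry of a list. -/
def g1n (l : List ℕ) (i : ℕ) : ℕ := l.getD i 0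

/-- Entry of a matrix. -/
def g2n (M : List (List ℕ)) (i j : ℕ) : ℕ := (M.getD i []).getD j 0

/-- Number of facilities. -/
def Core.n (C : Core) : ℕ := C.1.length

/-- Number of clients. -/
def Core.m (C : Core) : ℕ := C.2.1.length

/-- The number of facilities to open, at most `n`. -/
def Core.k (C : Core) : ℕ := min C.2.2 C.n

/-- Size parameter. -/
def Core.s (C : Core) : ℕ := C.n + C.m + 1

/-- Distance between facilities. -/
def Core.df (C : Core) (i e : ℕ) : ℕ := g2n C.1 i e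

/-- Distance from a client to a facility. -/
def Core.dc (C : Core) (j i : ℕ) : ℕ := g2n C.2.1 j i

/-- Bound for the optimum. -/
@[irreducible] def L0 (q : ℕ) (C : Core) : ℕ := (q + 1) * C.s

/-- Bound for the distances. -/
@[irreducible] def D0 (q : ℕ) (C : Core) : ℕ := 3 * L0 q C

/-- Scale of the distances in the process. -/
@[irreducible] def QQ (q : ℕ) (C : Core) : ℕ := 400 * q * C.s * D0 q C

/-- Unit of mass. -/
@[irreducible] def NN (q : ℕ) (C : Core) : ℕ := 300 * q ^ 4 * C.s ^ 5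

/-- Weight of the cost in the approximate linear program. -/
@[irreducible] def PP (q : ℕ) (C : Core) : ℕ := q * C.s ^ 3

/-- Inverse of the bias parameter. -/
@[irreducible] def pp (q : ℕ) : ℕ := 100000 * q ^ 2

/-- Rate of the null event. -/
@[irreducible] def HH (q : ℕ) (C : Core) : ℕ := 8 * q + C.s

/-- Number of steps of the process. -/
@[irreducible] def TT (q : ℕ) (C : Core) : ℕ := 150 * q ^ 3 * C.s ^ 3

/-- Scaled bound for the optimum. -/
@[irreducible] def LL (q : ℕ) (C : Core) : ℕ := QQ q C * L0 q C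

/-- Scaled bound for the distances. -/
@[irreducible] def DD (q : ℕ) (C : Core) : ℕ := QQ q C * D0 q C

/-- Base of the count potential. -/
@[irreducible] def BB (q : ℕ) (C : Core) : ℕ := 16 * pp q ^ 2 * NN q C

/-- Number of extra facilities. -/
@[irreducible] def cq (q : ℕ) : ℕ := 1 + 96 * q * pp q ^ 2

/-- Well-formed core instances. -/
structure CoreWF (q : ℕ) (C : Core) : Prop where
  n_pos : 1 ≤ C.n
  k_pos : 1 ≤ C.2.2
  df_self : ∀ i < C.n, C.df i i = 0
  df_pos : ∀ i < C.n, ∀ e < C.n, i ≠ e → 1 ≤ C.df i e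
  df_symm : ∀ i < C.n, ∀ e < C.n, C.df i e = C.df e i
  df_le : ∀ i < C.n, ∀ e < C.n, C.df i e ≤ D0 q C
  dc_pos : ∀ j < C.m, ∀ i < C.n, 1 ≤ C.dc j i
  dc_le : ∀ j < C.m, ∀ i < C.n, C.dc j i ≤ D0 q C
  tri1 : ∀ j < C.m, ∀ i < C.n, ∀ e < C.n, C.df i e ≤ C.dc j i + C.dc j e
  tri2 : ∀ j < C.m, ∀ i < C.n, ∀ e < C.n, C.dc j i ≤ C.df i e + C.dc j e

/-- Cost of a list of facilities of a core instance. -/
def coreCost (C : Core) (S : List ℕ) : ℚ := ∑ j ∈ range C.m, minL (fun i => (C.dc j i : ℚ)) S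

/-- There is a solution of cost at most `L0`. -/
def HasOpt (q : ℕ) (C : Core) : Prop :=
  ∃ O : List ℕ, O ≠ [] ∧ (∀ o ∈ O, o < C.n) ∧ O.length ≤ C.2.2 ∧ coreCost C O ≤ L0 q C

section lp

/-- The square. -/
def sqn (x : ℕ) : ℕ := x * x

/-- How often a client is covered. -/
def cov (U : List (List ℕ)) (j : ℕ) : ℕ := (U.getD j []).sum

/-- Whether facility `i` covers client `j` in round `t`. -/
def inC (q : ℕ) (C : Core) (t : ℕ) (U : List (List ℕ)) (i j : ℕ) : Bool :=
  decide (cov U j < NN q C) &&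
    decide (PP q C * C.dc j i + sqn (t + 1 - C.k * (cov U j + 1)) < sqn (t + 1 - C.k * cov U j))

/-- Value of choosing facility `i` in round `t`. -/
def lpVal (q : ℕ) (C : Core) (t : ℕ) (U : List (List ℕ)) (i : ℕ) : ℕ :=
  (tab C.m fun j => bif inC q C t U i j then
    PP q C * C.dc j i + sqn (t + 1 - C.k * (cov U j + 1)) else sqn (t + 1 - C.k * cov U j)).sum

/-- The facility chosen in round `t`. -/
def lpPick (q : ℕ) (C : Core) (t : ℕ) (U : List (List ℕ)) : ℕ :=
  argmin (fun i => (lpVal q C t U i : ℚ)) (List.range C.n) 0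

/-- One round. -/
def lpStep (q : ℕ) (C : Core) (σ : List ℕ × List (List ℕ)) (t : ℕ) : List ℕ × List (List ℕ) :=
  (tab C.n fun i => g1n σ.1 i + bif i == lpPick q C t σ.2 then 1 else 0,
    tab C.m fun j => tab C.n fun i => g2n σ.2 j i +
      bif i == lpPick q C t σ.2 && inC q C t σ.2 i j then 1 else 0)

/-- All rounds. -/
def lpRun (q : ℕ) (C : Core) : List ℕ × List (List ℕ) :=
  (List.range (C.k * NN q C)).foldl (lpStep q C)
    (tab C.n fun _ => 0, tab C.m fun _ => tab C.n fun _ => 0)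

/-- Opening masses. -/
def lpY (q : ℕ) (C : Core) : List ℕ := tab C.n fun i => min (g1n (lpRun q C).1 i) (NN q C)

/-- Assignment masses. -/
def lpU (q : ℕ) (C : Core) : List (List ℕ) := (lpRun q C).2

end lp

section process

/-- Open facilities, opening masses, assignment masses. -/
abbrev PS := List ℕ × List ℕ × List (List ℕ)

/-- Scaled distance between facilities. -/
def xf (q : ℕ) (C : Core) (i e : ℕ) : ℕ := QQ q C * C.df i e

/-- Scaled distance from a client to a facility. -/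
def xc (q : ℕ) (C : Core) (j i : ℕ) : ℕ := QQ q C * C.dc j i

/-- Opening mass. -/
def yq (q : ℕ) (C : Core) (σ : PS) (i : ℕ) : ℚ := (g1n σ.2.1 i : ℚ) / NN q C

/-- Distance from a facility to the open set. -/
def bOpen (q : ℕ) (C : Core) (σ : PS) (i : ℕ) : ℕ :=
  xf q C i (argmin (fun e => (xf q C i e : ℚ)) σ.1 (σ.1.headD 0))

/-- The largest allowed radius. -/
def lamMax (q : ℕ) (C : Core) (σ : PS) (i : ℕ) : ℕ :=
  bOpen q C σ i - bOpen q C σ i / (100 * q) - 1

/-- The largest number at most `B` that passes a test. -/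
def lastOk (ok : ℕ → Bool) (B : ℕ) : ℕ :=
  (List.range (B + 1)).foldl (fun a l => bif ok l then l else a) 0

/-- Mass seen by the radius rule. -/
def sumS (q : ℕ) (C : Core) (σ : PS) (i l : ℕ) : ℚ :=
  (tab C.n fun e => yq q C σ e * Sf (l : ℚ) (xf q C i e)).sum

/-- The radius of a facility. -/
def lam (q : ℕ) (C : Core) (σ : PS) (i : ℕ) : ℕ :=
  lastOk (fun l => decide (l ≤ lamMax q C σ i) && decide (sumS q C σ i l ≤ 1)) (DD q C)

/-- Mass seen by the extra rule. -/
def sumT2 (q : ℕ) (C : Core) (σ : PS) (i l z : ℕ) : ℚ :=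
  (tab C.n fun e => yq q C σ e * T2f (l : ℚ) (z : ℚ) (xf q C i e)).sum

/-- The inner radius of a facility. -/
def xi (q : ℕ) (C : Core) (σ : PS) (i : ℕ) : ℕ :=
  lastOk (fun z => decide (z ≤ lam q C σ i) && decide (sumT2 q C σ i (lam q C σ i) z ≤ t2 ℚ))
    (DD q C)

/-- The fraction of `i` killed by the event `e`. -/
def Tm (q : ℕ) (C : Core) (σ : PS) (i e : ℕ) : ℚ :=
  Tf (lam q C σ i : ℚ) (xi q C σ i) (xf q C i e)

/-- The hazard of spontaneous death. -/
def slot (q : ℕ) (C : Core) (σ : PS) (i : ℕ) : ℚ :=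
  1 - (tab C.n fun e => yq q C σ e * Tm q C σ i e).sum

/-- The total kill of an event. -/
def KK (q : ℕ) (C : Core) (σ : PS) (e : ℕ) : ℚ :=
  (tab C.n fun i => yq q C σ i * Tm q C σ i e).sum

/-- The fraction of `i` killed by the candidate `c`; `c = n` is the null event. -/
def kill (q : ℕ) (C : Core) (σ : PS) (c i : ℕ) : ℚ :=
  bif decide (c < C.n) then kap (pp q : ℚ) (KK q C σ c) * Tm q C σ i c else slot q C σ i / HH q C

/-- Kill a fraction and round down. -/
def shrink (a : ℕ) (f : ℚ) : ℕ := min a ⌊(a : ℚ) * (1 - f)⌋₊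

/-- The open set after the candidate `c`. -/
def opens (n : ℕ) (S : List ℕ) (c : ℕ) : List ℕ :=
  bif decide (c < n) && !memB c S then c :: S else S

/-- The state after the candidate `c`. -/
def next (q : ℕ) (C : Core) (σ : PS) (c : ℕ) : PS :=
  (opens C.n σ.1 c, tab C.n fun i => shrink (g1n σ.2.1 i) (kill q C σ c i),
    tab C.m fun j => tab C.n fun i => shrink (g2n σ.2.2 j i) (kill q C σ c i))

/-- Scaled distance from a client to the open set. -/
def Dj (q : ℕ) (C : Core) (S : List ℕ) (j : ℕ) : ℚ := minL (fun i => (xc q C j i : ℚ)) S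

/-- Mass below a threshold. -/
def Mt (q : ℕ) (C : Core) (σ : PS) (j τ : ℕ) : ℕ :=
  (tab C.n fun i => bif decide (xc q C j i < τ) then g2n σ.2.2 j i else 0).sum

/-- Cost below a threshold. -/
def At (q : ℕ) (C : Core) (σ : PS) (j τ : ℕ) : ℕ :=
  (tab C.n fun i => bif decide (xc q C j i < τ) then g2n σ.2.2 j i * xc q C j i else 0).sum

/-- The power `(1 + 1 / B) ^ a`. -/
def powB (B a : ℕ) : ℚ := (((B + 1) ^ a : ℕ) : ℚ) / ((B ^ a : ℕ) : ℚ)

/-- The coefficient of the alive cost on the grid. -/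
def rhoQ (q N M : ℕ) : ℚ :=
  3 + 1 / q - 2 * N * (1 - 1 / powB N (min M N)) / M

/-- Potential of a client for one threshold. -/
def Ft (q : ℕ) (C : Core) (σ : PS) (j τ : ℕ) : ℚ :=
  gm (2 / (pp q : ℚ)) ((Mt q C σ j τ : ℚ) / NN q C) * Dj q C σ.1 j +
    rhoQ q (NN q C) (Mt q C σ j τ) * ((At q C σ j τ : ℚ) / NN q C)

/-- Potential of a client. -/
def Fj (q : ℕ) (C : Core) (σ : PS) (j : ℕ) : ℚ := minL (Ft q C σ j) (List.range (DD q C + 2))

/-- Total opening mass. -/
def sumY (C : Core) (σ : PS) : ℕ := (tab C.n (g1n σ.2.1)).sum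

/-- The count potential. -/
def lamP (q : ℕ) (C : Core) (σ : PS) : ℚ :=
  powB (BB q C) (min (NN q C * σ.1.length + sumY C σ) (2 * NN q C * C.s)) /
    powB (BB q C) (NN q C * (C.k + 1))

/-- The potential. -/
def WW (q : ℕ) (C : Core) (σ : PS) : ℚ :=
  (tab C.m (Fj q C σ)).sum +
    (LL q C : ℚ) / q * ((sumY C σ : ℚ) / NN q C / (C.k + 1) + lamP q C σ)

/-- One step. -/
def step (q : ℕ) (C : Core) (σ : PS) : PS :=
  bif decide (q * sumY C σ ≤ NN q C) then σ
  else next q C σ (argmin (fun c => WW q C (next q C σ c)) (List.range (C.n + 1)) 0)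

/-- The core algorithm. -/
def coreAlg (q : ℕ) (C : Core) : List ℕ :=
  ((List.range (TT q C)).foldl (fun σ _ => step q C σ) ([0], lpY q C, lpU q C)).1

/-- Invariant of the process. -/
structure Good (q : ℕ) (C : Core) (σ : PS) : Prop where
  S_ne : σ.1 ≠ []
  S_nodup : σ.1.Nodup
  S_lt : ∀ i ∈ σ.1, i < C.n
  Y_le : ∀ i < C.n, g1n σ.2.1 i ≤ NN q C
  U_le : ∀ j < C.m, ∀ i < C.n, g2n σ.2.2 j i ≤ g1n σ.2.1 i
  row_le : ∀ j < C.m, ∑ i ∈ range C.n, g2n σ.2.2 j i ≤ NN q C
  sum_le : sumY C σ ≤ C.k * NN q C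

/-- The coefficient of the alive cost used by the process. -/
noncomputable def rhoR (q : ℕ) (C : Core) : ℝ → ℝ := rho (thN (NN q C)) (1 / q)

/-- Real potential of a client for one threshold. -/
noncomputable def FtR (q : ℕ) (C : Core) (S : List ℕ) (j : ℕ) (u : ℕ → ℝ) (τ : ℕ) : ℝ :=
  Fc (rhoR q C) (2 * (1 / pp q)) (range C.n) (fun i => xc q C j i)
    (fun i => if xc q C j i < τ then u i else 0) (Dj q C S j)

/-- Real potential of a client. -/
noncomputable def FR (q : ℕ) (C : Core) (S : List ℕ) (j : ℕ) (u : ℕ → ℝ) : ℝ :=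
  (range (DD q C + 2)).inf' ⟨0, by simp⟩ (FtR q C S j u)

/-- Exponent of the count potential. -/
noncomputable def thC (q : ℕ) (C : Core) : ℝ :=
  NN q C * Real.log (1 + 1 / (BB q C : ℝ))

/-- Real potential. -/
noncomputable def WR (q : ℕ) (C : Core) (S : List ℕ) (y : ℕ → ℝ) (u : ℕ → ℕ → ℝ) : ℝ :=
  ∑ j ∈ range C.m, FR q C S j (u j) + (LL q C : ℝ) / q * ((∑ i ∈ range C.n, y i) / (C.k + 1) +
    Real.exp (thC q C * (S.length + ∑ i ∈ range C.n, y i - (C.k + 1))))

/-- Real opening mass. -/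
noncomputable def yR (q : ℕ) (C : Core) (σ : PS) (i : ℕ) : ℝ := (g1n σ.2.1 i : ℝ) / NN q C

/-- Real assignment mass. -/
noncomputable def uR (q : ℕ) (C : Core) (σ : PS) (j i : ℕ) : ℝ := (g2n σ.2.2 j i : ℝ) / NN q C

end process

section round

/-- Rounding of a distance. -/
def rd (B : ℕ) (μ x : ℚ) : ℕ := bif decide (B * μ < x) then B else min (⌊x / μ⌋₊ + 1) B

/-- The core instance for the guess `L` of the optimum. -/
def mkCore (q : ℕ) (I : Inst) (L : ℚ) : Core :=
  (tab I.F.length fun a => tab I.F.length fun b => bif a == b then 0 else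
      rd (3 * ((q + 1) * (I.F.length + I.J.length + 1)))
        (L / (q * (I.F.length + I.J.length + 1) : ℕ)) (I.d (g1n I.F a) (g1n I.F b)),
    tab I.J.length fun j => tab I.F.length fun b =>
      rd (3 * ((q + 1) * (I.F.length + I.J.length + 1)))
        (L / (q * (I.F.length + I.J.length + 1) : ℕ)) (I.d (g1n I.J j) (g1n I.F b)),
    I.k)

/-- Guesses of the optimum. -/
def guesses (q : ℕ) (I : Inst) : List ℚ :=
  I.J.flatMap fun j => I.F.flatMap fun i =>
    (List.range (q * I.J.length + 1)).map fun t : ℕ => I.d j i * t / q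

/-- The pseudo-approximation algorithm. -/
def pseudo (q : ℕ) (I : Inst) : List ℕ :=
  best (cq q) I ((guesses q I).map fun L => (coreAlg q (mkCore q I L)).map (g1n I.F))

end round

/-- The approximate linear program. -/
def LPS : Prop :=
  ∀ (q : ℕ) (C : Core), 1 ≤ q → CoreWF q C → HasOpt q C →
    Good q C ([0], lpY q C, lpU q C) ∧
    q * ∑ j ∈ range C.m, (∑ i ∈ range C.n, g2n (lpU q C) j i * C.dc j i +
      2 * D0 q C * (NN q C - ∑ i ∈ range C.n, g2n (lpU q C) j i)) ≤ (q + 2) * L0 q C * NN q C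

/-- Properties of the radii. -/
def RuleS : Prop :=
  ∀ (q : ℕ) (C : Core) (σ : PS), 1 ≤ q → CoreWF q C → Good q C σ → ∀ i < C.n,
    xi q C σ i ≤ lam q C σ i ∧ lam q C σ i ≤ DD q C ∧
    ∑ e ∈ range C.n, yR q C σ e * Sf (lam q C σ i : ℝ) (xf q C i e) ≤ 1 ∧
    ∑ e ∈ range C.n, yR q C σ e * T2f (lam q C σ i : ℝ) (xi q C σ i) (xf q C i e) ≤ t2 ℝ ∧
    (∃ o ∈ σ.1, bOpen q C σ i = xf q C i o) ∧ (∀ o ∈ σ.1, bOpen q C σ i ≤ xf q C i o) ∧
    (i ∉ σ.1 → 0 < lam q C σ i ∧ (lam q C σ i : ℝ) ≤ (1 - 1 / q / 100) * bOpen q C σ i ∧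
      (xi q C σ i < lam q C σ i → t2 ℝ - 2 * C.s / QQ q C ≤
        ∑ e ∈ range C.n, yR q C σ e * T2f (lam q C σ i : ℝ) (xi q C σ i) (xf q C i e)) ∧
      (1 - ∑ e ∈ range C.n, yR q C σ e * Tf (lam q C σ i : ℝ) (xi q C σ i) (xf q C i e) ≤
          2 * (2 * C.s / QQ q C) ∨ (bOpen q C σ i : ℝ) ≤ (1 + 1 / q / 50) * lam q C σ i))

/-- The drift of the real potential of a client in the process. -/
def ThreshS : Prop :=
  ∀ (q : ℕ) (C : Core) (σ : PS), 2000 ≤ q → CoreWF q C → Good q C σ → ∀ j < C.m,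
    ∑ e ∈ range C.n, yR q C σ e * bet (pp q : ℝ) (KK q C σ e) *
        (FR q C (opens C.n σ.1 e) j (fun i => uR q C σ j i * (1 - kill q C σ e i)) -
          FR q C σ.1 j (uR q C σ j)) +
      HH q C * (FR q C σ.1 j (fun i => uR q C σ j i * (1 - kill q C σ C.n i)) -
        FR q C σ.1 j (uR q C σ j)) ≤ 0

/-- The program computes the real potential; rounding down costs little. -/
def BridgeS : Prop :=
  ∀ (q : ℕ) (C : Core), 2000 ≤ q → CoreWF q C →
    (∀ σ, Good q C σ → (WW q C σ : ℝ) = WR q C σ.1 (yR q C σ) (uR q C σ)) ∧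
    (∀ (S : List ℕ) (y y' : ℕ → ℝ) (u u' : ℕ → ℕ → ℝ), S ≠ [] → (∀ i ∈ S, i < C.n) →
      (∀ i < C.n, y' i ≤ y i) →
      (∀ j < C.m, ∀ i < C.n, 0 ≤ u' j i ∧ u' j i ≤ u j i ∧ u j i - 1 / NN q C ≤ u' j i) →
      (∀ j < C.m, ∑ i ∈ range C.n, u j i ≤ 1) →
      WR q C S y' u' ≤ WR q C S y u + 2 * C.n * C.m * DD q C / NN q C) ∧
    1 / (32 * (pp q : ℝ) ^ 2) ≤ thC q C ∧ thC q C ≤ 1 / (16 * (pp q : ℝ) ^ 2)

/-- One step keeps the invariant and decreases the potential. -/
def StepS : Prop :=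
  ∀ (q : ℕ) (C : Core) (σ : PS), 2000 ≤ q → CoreWF q C → Good q C σ →
    Good q C (step q C σ) ∧ (q * sumY C σ ≤ NN q C → step q C σ = σ) ∧
    (NN q C < q * sumY C σ →
      (WW q C (step q C σ) : ℝ) ≤ WW q C σ - (LL q C : ℝ) / (48 * q ^ 3 * C.s ^ 3))

/-- Correctness of the core algorithm. -/
def CoreS : Prop :=
  ∀ (q : ℕ) (C : Core), 2000 ≤ q → CoreWF q C → HasOpt q C →
    coreAlg q C ≠ [] ∧ (∀ i ∈ coreAlg q C, i < C.n) ∧ (coreAlg q C).length ≤ C.2.2 + cq q ∧
    (coreCost C (coreAlg q C) : ℝ) ≤ (1 + 2 / Real.exp 1 + 20 / q) * L0 q C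

/-- Correctness of the pseudo-approximation algorithm. -/
def RoundS : Prop :=
  ∀ q : ℕ, 2000 ≤ q → PApprox (1 + 2 / Real.exp 1 + 30 / q) (cq q) (pseudo q)

/-- Running time of the approximate linear program. -/
def LPCodeS : Prop := ∀ q : ℕ, CT 0 (lpRun q)

/-- Running time of the killing rule. -/
def KillCodeS : Prop :=
  ∀ q : ℕ, CT 0 fun p : Core × PS × ℕ × ℕ => kill q p.1 p.2.1 p.2.2.1 p.2.2.2

/-- Running time of the potential. -/
def PotCodeS : Prop := ∀ q : ℕ, CT 0 fun p : Core × PS => WW q p.1 p.2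

/-- Running time of the core algorithm. -/
def CoreCodeS : Prop := ∀ q : ℕ, CT 0 (coreAlg q)

/-- Running time of the pseudo-approximation algorithm. -/
def RoundCodeS : Prop := ∀ q : ℕ, CT 0 (pseudo q)

end Vale.Agent.P334
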