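import Vale.Agent.P334.Stmt

/-!
Termination and the final bounds of the killing process.
-/

namespace Vale.Agent.P334

open Finset

namespace CoreMain

variable {q : ℕ} {C : Core}

lemma s_pos (C : Core) : 1 ≤ C.s := by unfold Core.s; omega

lemma NN_ge (hq : 2000 ≤ q) (C : Core) : 100000 ≤ NN q C ∧ 2 * q ≤ NN q C := by
  have h1 : 1 ≤ C.s ^ 5 := Nat.one_le_pow _ _ (s_pos C)
  have h2 : q * q ≤ q ^ 4 := by
    have : q ^ 2 ≤ q ^ 4 := Nat.pow_le_pow_right (by omega) (by norm_num)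
    simpa [pow_two] using this
  have h3 : q ≤ q * q := Nat.le_mul_self q
  have h4 : 300 * q ^ 4 ≤ NN q C := by
    unfold NN
    exact Nat.le_mul_of_pos_right _ h1
  omega

lemma pp_ge (hq : 2000 ≤ q) : 2 ≤ pp q := by
  unfold pp
  have : 1 ≤ q ^ 2 := Nat.one_le_pow _ _ (by omega)
  omega

lemma L0_pos (q : ℕ) (C : Core) : 0 < L0 q C := by
  unfold L0
  exact Nat.mul_pos (by omega) (s_pos C)

lemma QQ_pos (hq : 2000 ≤ q) (C : Core) : 0 < QQ q C := by
  unfold QQ D0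
  have := L0_pos q C
  have := s_pos C
  positivity

lemma c_facts (hq : 2000 ≤ q) : (0 : ℝ) ≤ 2 * (1 / (pp q : ℝ)) ∧ 2 * (1 / (pp q : ℝ)) ≤ 1 := by
  have h : (2 : ℝ) ≤ pp q := by exact_mod_cast pp_ge hq
  refine ⟨by positivity, ?_⟩
  rw [mul_one_div, div_le_one (by linarith)]
  exact h

lemma Dj_nonneg (q : ℕ) (C : Core) (S : List ℕ) (j : ℕ) : (0 : ℝ) ≤ Dj q C S j := by
  have : (0 : ℚ) ≤ Dj q C S j := by
    unfold Dj minL
    positivity
  exact_mod_cast this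

lemma xc_le (hC : CoreWF q C) {j i : ℕ} (hj : j < C.m) (hi : i < C.n) : xc q C j i ≤ DD q C := by
  unfold xc DD
  exact Nat.mul_le_mul_left _ (hC.dc_le j hj i hi)

lemma Dj_le (hC : CoreWF q C) {S : List ℕ} (hS : S ≠ []) (hlt : ∀ i ∈ S, i < C.n) {j : ℕ}
    (hj : j < C.m) : (Dj q C S j : ℝ) ≤ DD q C := by
  obtain ⟨x, hx, e⟩ := minL_mem (fun i => (xc q C j i : ℚ)) hS
  have : Dj q C S j ≤ DD q C := by
    unfold Dj
    rw [e]
    exact_mod_cast xc_le hC hj (hlt x hx)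
  exact_mod_cast this

lemma Dj_ge (q : ℕ) (C : Core) {S : List ℕ} (hS : S ≠ []) (j : ℕ) :
    (QQ q C : ℝ) * (minL (fun i => (C.dc j i : ℚ)) S : ℚ) ≤ Dj q C S j := by
  have : (QQ q C : ℚ) * minL (fun i => (C.dc j i : ℚ)) S ≤ Dj q C S j := by
    refine le_minL _ hS fun x hx => ?_
    unfold xc
    push_cast
    exact mul_le_mul_of_nonneg_left (minL_le (fun i => (C.dc j i : ℚ)) hx) (by positivity)
  exact_mod_cast this

/-- Lower bound for the potential of a client. -/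
lemma FR_ge {R1 : ℝ → ℝ} (hq : 2000 ≤ q) (hρ : RhoOK (1 / q) (rhoR q C) R1) (S : List ℕ)
    (j : ℕ) {u : ℕ → ℝ} {μ : ℝ} (hu : ∀ i, 0 ≤ u i) (hs : ∑ i ∈ range C.n, u i ≤ μ)
    (hμ : μ ≤ 1) : (1 - μ) * Dj q C S j ≤ FR q C S j u := by
  refine Finset.le_inf' _ _ fun τ _ => ?_
  unfold FtR Fc
  obtain ⟨c0, -⟩ := c_facts hq
  set v : ℕ → ℝ := fun i => if xc q C j i < τ then u i else 0 with hv
  have hv0 : ∀ i, 0 ≤ v i := fun i => by
    simp only [hv]
    split_ifs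
    · exact hu i
    · exact le_rfl
  have hv1 : ∀ i, v i ≤ u i := fun i => by
    simp only [hv]
    split_ifs
    · exact le_rfl
    · exact hu i
  have hm0 : 0 ≤ ∑ i ∈ range C.n, v i := sum_nonneg fun i _ => hv0 i
  have hm1 : ∑ i ∈ range C.n, v i ≤ μ := (sum_le_sum fun i _ => hv1 i).trans hs
  have hA : 0 ≤ ∑ i ∈ range C.n, v i * (xc q C j i : ℝ) :=
    sum_nonneg fun i _ => mul_nonneg (hv0 i) (by positivity)
  have hr : 0 ≤ rhoR q C (∑ i ∈ range C.n, v i) := by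
    have h1 := hρ.low _ hm0 (hm1.trans hμ)
    have h2 : (0 : ℝ) ≤ 1 / q := by positivity
    linarith
  have hg : 1 - μ ≤ gm (2 * (1 / (pp q : ℝ))) (∑ i ∈ range C.n, v i) := by
    unfold gm
    have h1 : 0 ≤ 1 - ∑ i ∈ range C.n, v i := by linarith
    nlinarith [mul_nonneg h1 (mul_nonneg c0 hm0)]
  have := mul_le_mul_of_nonneg_right hg (Dj_nonneg q C S j)
  have := mul_nonneg hr hA
  linarith

/-- Upper bound for the potential of a client. -/
lemma FR_le {R1 : ℝ → ℝ} (hq : 2000 ≤ q) (hC : CoreWF q C) (hρ : RhoOK (1 / q) (rhoR q C) R1)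
    {S : List ℕ} (hS : S ≠ []) (hlt : ∀ i ∈ S, i < C.n) {j : ℕ} (hj : j < C.m) {u : ℕ → ℝ}
    (hu : ∀ i, 0 ≤ u i) (hs : ∑ i ∈ range C.n, u i ≤ 1) :
    FR q C S j u ≤ rhoR q C 1 * (∑ i ∈ range C.n, u i * xc q C j i +
      2 * DD q C * (1 - ∑ i ∈ range C.n, u i)) := by
  refine (Finset.inf'_le _ (b := DD q C + 1) (by simp)).trans ?_
  unfold FtR Fc
  obtain ⟨c0, c1⟩ := c_facts hq
  have e1 : ∑ i ∈ range C.n, (if xc q C j i < DD q C + 1 then u i else 0) =
      ∑ i ∈ range C.n, u i :=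
    sum_congr rfl fun i hi => if_pos (Nat.lt_succ_of_le (xc_le hC hj (mem_range.1 hi)))
  have e2 : ∑ i ∈ range C.n, (if xc q C j i < DD q C + 1 then u i else 0) * (xc q C j i : ℝ) =
      ∑ i ∈ range C.n, u i * xc q C j i :=
    sum_congr rfl fun i hi => by
      rw [if_pos (Nat.lt_succ_of_le (xc_le hC hj (mem_range.1 hi)))]
  simp only [e1, e2]
  have hm0 : 0 ≤ ∑ i ∈ range C.n, u i := sum_nonneg fun i _ => hu i
  have hA : 0 ≤ ∑ i ∈ range C.n, u i * (xc q C j i : ℝ) :=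
    sum_nonneg fun i _ => mul_nonneg (hu i) (by positivity)
  set m := ∑ i ∈ range C.n, u i
  set A := ∑ i ∈ range C.n, u i * (xc q C j i : ℝ)
  have h1 : 0 ≤ 1 - m := by linarith
  have hr : rhoR q C m ≤ rhoR q C 1 := by
    have h2 := hρ.tan 1 (1 - m) h1 (by linarith) le_rfl
    rw [sub_sub_cancel] at h2
    have h3 := mul_nonneg (hρ.R1_nonneg 1 zero_le_one le_rfl) h1
    linarith
  have hr1 : 1 ≤ rhoR q C 1 := by
    have h2 := hρ.low 1 zero_le_one le_rfl
    have h3 : (0 : ℝ) ≤ 1 / q := by positivity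
    linarith
  have hg : gm (2 * (1 / (pp q : ℝ))) m ≤ 2 * (1 - m) := by
    unfold gm
    have : 2 * (1 / (pp q : ℝ)) * m ≤ 1 := mul_le_one₀ c1 hm0 hs
    nlinarith
  have hD := Dj_le hC hS hlt hj
  have hD0 := Dj_nonneg q C S j
  have h4 : gm (2 * (1 / (pp q : ℝ))) m * Dj q C S j ≤ 2 * (1 - m) * DD q C :=
    (mul_le_mul_of_nonneg_right hg hD0).trans (mul_le_mul_of_nonneg_left hD (by linarith))
  have h5 : 0 ≤ 2 * (1 - m) * (DD q C : ℝ) := by positivity
  have h6 := mul_le_mul_of_nonneg_right hr hA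
  have h7 := mul_le_mul_of_nonneg_right hr1 h5
  nlinarith

lemma uR_nonneg (q : ℕ) (C : Core) (σ : PS) (j i : ℕ) : 0 ≤ uR q C σ j i := by
  unfold uR; positivity

lemma sum_yR (q : ℕ) (C : Core) (σ : PS) :
    ∑ i ∈ range C.n, yR q C σ i = (sumY C σ : ℝ) / NN q C := by
  unfold yR sumY
  rw [sum_tab, ← sum_div]
  push_cast
  rfl

lemma sum_uR (q : ℕ) (C : Core) (σ : PS) (j : ℕ) :
    ∑ i ∈ range C.n, uR q C σ j i = ((∑ i ∈ range C.n, g2n σ.2.2 j i : ℕ) : ℝ) / NN q C := by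
  unfold uR
  rw [← sum_div]
  push_cast
  rfl

lemma row_le_one (hq : 2000 ≤ q) {σ : PS} (h : Good q C σ) {j : ℕ} (hj : j < C.m) :
    ∑ i ∈ range C.n, uR q C σ j i ≤ 1 := by
  have hN : (0 : ℝ) < NN q C := by exact_mod_cast (by have := (NN_ge hq C).1; omega)
  rw [sum_uR, div_le_one hN]
  exact_mod_cast h.row_le j hj

/-- The parts of the potential of a good state. -/
lemma W_ge {R1 : ℝ → ℝ} (hq : 2000 ≤ q) (hρ : RhoOK (1 / q) (rhoR q C) R1) {σ : PS}
    (h : Good q C σ) {μ : ℝ} (hs : ∀ j < C.m, ∑ i ∈ range C.n, uR q C σ j i ≤ μ) (hμ : μ ≤ 1) :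
    (1 - μ) * (QQ q C * coreCost C σ.1) + (LL q C : ℝ) / q *
      Real.exp (thC q C * (σ.1.length + ∑ i ∈ range C.n, yR q C σ i - (C.k + 1))) ≤
      WR q C σ.1 (yR q C σ) (uR q C σ) := by
  unfold WR coreCost
  have h1 : (1 - μ) * (QQ q C * ((∑ j ∈ range C.m, minL (fun i => (C.dc j i : ℚ)) σ.1 : ℚ) : ℝ)) ≤
      ∑ j ∈ range C.m, FR q C σ.1 j (uR q C σ j) := by
    push_cast
    rw [mul_sum, mul_sum]
    refine sum_le_sum fun j hj => ?_
    exact (mul_le_mul_of_nonneg_left (Dj_ge q C h.S_ne j) (by linarith)).trans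
      (FR_ge hq hρ σ.1 j (uR_nonneg q C σ j) (hs j (mem_range.1 hj)) hμ)
  have h2 : 0 ≤ (LL q C : ℝ) / q * ((∑ i ∈ range C.n, yR q C σ i) / (C.k + 1)) := by
    rw [sum_yR]
    positivity
  rw [mul_add]
  linarith

lemma coreCost_nonneg (C : Core) (S : List ℕ) : (0 : ℝ) ≤ coreCost C S := by
  have : (0 : ℚ) ≤ coreCost C S := sum_nonneg fun j _ => by
    unfold minL
    positivity
  exact_mod_cast this

/-- The potential at the start. -/
lemma W_start {R1 : ℝ → ℝ} (hq : 2000 ≤ q) (hC : CoreWF q C) (hρ : RhoOK (1 / q) (rhoR q C) R1)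
    (hθ : 0 ≤ thC q C) {σ : PS} (h : Good q C σ) (h1 : σ.1.length = 1)
    (hc : q * ∑ j ∈ range C.m, (∑ i ∈ range C.n, g2n σ.2.2 j i * C.dc j i +
      2 * D0 q C * (NN q C - ∑ i ∈ range C.n, g2n σ.2.2 j i)) ≤ (q + 2) * L0 q C * NN q C) :
    WR q C σ.1 (yR q C σ) (uR q C σ) ≤ LL q C * (rhoR q C 1 * (1 + 2 / q) + 2 / q) := by
  have hN : (0 : ℝ) < NN q C := by exact_mod_cast (by have := (NN_ge hq C).1; omega)
  have hq0 : (0 : ℝ) < q := by exact_mod_cast (by omega)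
  have hr1 : 0 ≤ rhoR q C 1 := by
    have h2 := hρ.low 1 zero_le_one le_rfl
    have h3 : (0 : ℝ) ≤ 1 / q := by positivity
    linarith
  have e1 : ∀ j ∈ range C.m, ∑ i ∈ range C.n, uR q C σ j i * xc q C j i +
      2 * DD q C * (1 - ∑ i ∈ range C.n, uR q C σ j i) = QQ q C / NN q C *
      ((∑ i ∈ range C.n, g2n σ.2.2 j i * C.dc j i +
        2 * D0 q C * (NN q C - ∑ i ∈ range C.n, g2n σ.2.2 j i) : ℕ) : ℝ) := by
    intro j hj
    rw [sum_uR, Nat.cast_add, Nat.cast_mul, Nat.cast_sub (h.row_le j (mem_range.1 hj)), mul_add,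
      Nat.cast_sum (range C.n) fun i => g2n σ.2.2 j i * C.dc j i, mul_sum]
    congr 1
    · refine sum_congr rfl fun i _ => ?_
      unfold uR xc
      push_cast
      ring
    · unfold DD
      push_cast
      field_simp
  have h2 : ∑ j ∈ range C.m, FR q C σ.1 j (uR q C σ j) ≤
      rhoR q C 1 * (LL q C * (1 + 2 / q)) := by
    refine (sum_le_sum fun j hj => (FR_le hq hC hρ h.S_ne h.S_lt (mem_range.1 hj)
      (uR_nonneg q C σ j) (row_le_one hq h (mem_range.1 hj))).trans_eq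
      (congrArg _ (e1 j hj))).trans ?_
    rw [← mul_sum, ← mul_sum, ← Nat.cast_sum]
    refine mul_le_mul_of_nonneg_left ?_ hr1
    generalize (∑ j ∈ range C.m, (∑ i ∈ range C.n, g2n σ.2.2 j i * C.dc j i +
      2 * D0 q C * (NN q C - ∑ i ∈ range C.n, g2n σ.2.2 j i))) = X at hc ⊢
    have hc' : (q : ℝ) * X ≤ (q + 2) * L0 q C * NN q C := by exact_mod_cast hc
    have h3 : (X : ℝ) ≤ (1 + 2 / q) * L0 q C * NN q C := by
      have : (1 + 2 / (q : ℝ)) * L0 q C * NN q C = (q + 2) * L0 q C * NN q C / q := by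
        field_simp
      rw [this, le_div_iff₀ hq0]
      linarith
    refine (mul_le_mul_of_nonneg_left h3 (by positivity)).trans_eq ?_
    unfold LL
    push_cast
    field_simp
  have h3 : ∑ i ∈ range C.n, yR q C σ i ≤ C.k := by
    rw [sum_yR, div_le_iff₀ hN]
    exact_mod_cast h.sum_le
  have h4 : (∑ i ∈ range C.n, yR q C σ i) / (C.k + 1) ≤ 1 := by
    rw [div_le_one (by positivity)]
    linarith
  have h5 : Real.exp (thC q C * (σ.1.length + ∑ i ∈ range C.n, yR q C σ i - (C.k + 1))) ≤ 1 := by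
    rw [Real.exp_le_one_iff, h1]
    refine mul_nonpos_of_nonneg_of_nonpos hθ ?_
    push_cast
    linarith
  unfold WR
  have h6 : (0 : ℝ) ≤ LL q C / q := by positivity
  have h7 := mul_le_mul_of_nonneg_left (add_le_add h4 h5) h6
  have e2 : (LL q C : ℝ) * (rhoR q C 1 * (1 + 2 / q) + 2 / q) =
      rhoR q C 1 * (LL q C * (1 + 2 / q)) + LL q C / q * (1 + 1) := by ring
  rw [e2]
  linarith

/-- The invariant of the loop. -/
lemma loop (h4 : StepS) (hq : 2000 ≤ q) (hC : CoreWF q C) {σ : PS} (h : Good q C σ) (t : ℕ) :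
    Good q C ((List.range t).foldl (fun σ _ => step q C σ) σ) ∧
    (WW q C ((List.range t).foldl (fun σ _ => step q C σ) σ) : ℝ) ≤ WW q C σ ∧
    (q * sumY C ((List.range t).foldl (fun σ _ => step q C σ) σ) ≤ NN q C ∨
      (WW q C ((List.range t).foldl (fun σ _ => step q C σ) σ) : ℝ) ≤
        WW q C σ - t * ((LL q C : ℝ) / (48 * q ^ 3 * C.s ^ 3))) := by
  induction t with
  | zero => exact ⟨h, le_rfl, Or.inr (by simp)⟩
  | succ t ih =>
    rw [List.range_succ, List.foldl_append]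
    simp only [List.foldl_cons, List.foldl_nil]
    generalize (List.range t).foldl (fun σ _ => step q C σ) σ = τ at ih ⊢
    obtain ⟨a1, a2, a3⟩ := ih
    obtain ⟨b1, b2, b3⟩ := h4 q C τ hq hC a1
    have hδ : 0 ≤ (LL q C : ℝ) / (48 * q ^ 3 * C.s ^ 3) := by positivity
    rcases le_or_gt (q * sumY C τ) (NN q C) with hτ | hτ
    · rw [b2 hτ]
      exact ⟨a1, a2, Or.inl hτ⟩
    · have b4 := b3 hτ
      refine ⟨b1, by linarith, Or.inr ?_⟩
      rcases a3 with a3 | a3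
      · omega
      · push_cast
        linarith

end CoreMain

open CoreMain in
theorem coreS (h1 : RhoS) (h2 : LPS) (h3 : BridgeS) (h4 : StepS) : CoreS := by
  intro q C hq hC hO
  have hq0 : (2000 : ℝ) ≤ q := by exact_mod_cast hq
  have hq1 : (0 : ℝ) < q := by linarith
  obtain ⟨hN1, hN2⟩ := NN_ge hq C
  have hN : (2 : ℝ) * q ≤ NN q C := by exact_mod_cast hN2
  have hη : 1 / (q : ℝ) ≤ 1 / 2000 := one_div_le_one_div_of_le (by norm_num) hq0
  have hη0 : 0 < 1 / (q : ℝ) := by positivity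
  obtain ⟨hρ, hρ1, -⟩ := h1 (NN q C) (1 / q) hN1 hη0 hη
  obtain ⟨g0, hc⟩ := h2 q C (by omega) hC hO
  obtain ⟨hW, -, hθ, -⟩ := h3 q C hq hC
  have hp : (2 : ℝ) ≤ pp q := by exact_mod_cast pp_ge hq
  have hθ0 : 0 ≤ thC q C := le_trans (by positivity) hθ
  have hs := W_start hq hC hρ hθ0 g0 rfl hc
  rw [← hW _ g0] at hs
  obtain ⟨a1, a2, a3⟩ := loop h4 hq hC g0 (TT q C)
  unfold coreAlg
  generalize (List.range (TT q C)).foldl (fun σ _ => step q C σ) ([0], lpY q C, lpU q C) = σ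
    at a1 a2 a3 ⊢
  generalize ((WW q C ([0], lpY q C, lpU q C) : ℚ) : ℝ) = W0 at hs a2 a3
  have he : 2 / Real.exp 1 ≤ 3 / 4 := by
    rw [div_le_iff₀ (Real.exp_pos 1)]
    linarith [Real.exp_one_gt_d9]
  have he0 : 0 ≤ 2 / Real.exp 1 := by positivity
  have hN3 : 2 / (NN q C : ℝ) ≤ 1 / q := by
    rw [div_le_div_iff₀ (by linarith) hq1]
    linarith
  have hL0 : (0 : ℝ) < L0 q C := by exact_mod_cast L0_pos q C
  have hQ : (0 : ℝ) < QQ q C := by exact_mod_cast QQ_pos hq C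
  have eL : (LL q C : ℝ) = QQ q C * L0 q C := by
    unfold LL
    push_cast
    rfl
  have hL : (0 : ℝ) < LL q C := eL ▸ mul_pos hQ hL0
  have e2 : 2 / (q : ℝ) = 2 * (1 / q) := by ring
  have e20 : 20 / (q : ℝ) = 20 * (1 / q) := by ring
  have hr : rhoR q C 1 ≤ 1 + 2 / Real.exp 1 + 2 * (1 / q) := by
    unfold rhoR
    linarith
  have hs1 : W0 ≤ LL q C * (1 + 2 / Real.exp 1 + 8 * (1 / q)) := by
    refine hs.trans (mul_le_mul_of_nonneg_left ?_ hL.le)
    rw [e2]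
    nlinarith
  have hs2 : W0 ≤ LL q C * 3 := hs1.trans (mul_le_mul_of_nonneg_left (by linarith) hL.le)
  have hend : q * sumY C σ ≤ NN q C := by
    refine a3.resolve_right fun a3 => ?_
    have b1 := W_ge hq hρ a1 (fun j hj => row_le_one hq a1 hj) le_rfl
    rw [← hW _ a1, sub_self, zero_mul, zero_add] at b1
    have b2 : (0 : ℝ) ≤ WW q C σ := le_trans (by positivity) b1
    have hs0 : (0 : ℝ) < C.s := by exact_mod_cast s_pos C
    have e3 : (TT q C : ℝ) * ((LL q C : ℝ) / (48 * q ^ 3 * C.s ^ 3)) = LL q C * (150 / 48) := by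
      unfold TT
      push_cast
      field_simp
    rw [e3] at a3
    linarith
  have hy : ∑ i ∈ range C.n, yR q C σ i ≤ 1 / q := by
    rw [sum_yR, div_le_div_iff₀ (by linarith) hq1, one_mul, mul_comm]
    exact_mod_cast hend
  have hy0 : 0 ≤ ∑ i ∈ range C.n, yR q C σ i := by
    rw [sum_yR]
    positivity
  have b1 := W_ge hq hρ a1 (μ := 1 / q) (fun j hj => le_trans (sum_le_sum fun i hi => by
    unfold uR yR
    gcongr
    exact a1.U_le j hj i (mem_range.1 hi)) hy) (by linarith)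
  rw [← hW _ a1] at b1
  have hc0 := coreCost_nonneg C σ.1
  refine ⟨a1.S_ne, a1.S_lt, ?_, ?_⟩
  · have b2 : 0 ≤ (1 - 1 / (q : ℝ)) * (QQ q C * coreCost C σ.1) :=
      mul_nonneg (by linarith) (mul_nonneg hQ.le hc0)
    set z := (σ.1.length : ℝ) + ∑ i ∈ range C.n, yR q C σ i - (C.k + 1) with hz
    have b3 : (LL q C : ℝ) / q * Real.exp (thC q C * z) ≤ LL q C / q * (3 * q) := by
      have : (LL q C : ℝ) / q * (3 * q) = LL q C * 3 := by field_simp
      linarith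
    have b4 := le_of_mul_le_mul_left b3 (by positivity)
    have b5 : thC q C * z ≤ 3 * q := by linarith [Real.add_one_le_exp (thC q C * z)]
    have b6 : z ≤ 96 * q * (pp q : ℝ) ^ 2 := by
      rcases le_or_gt z 0 with hz0 | hz0
      · exact hz0.trans (by positivity)
      · have b7 := (mul_le_mul_of_nonneg_right hθ hz0.le).trans b5
        rw [one_div_mul_eq_div, div_le_iff₀ (by positivity)] at b7
        linarith
    have b8 : (σ.1.length : ℝ) ≤ C.k + (1 + 96 * q * (pp q : ℝ) ^ 2) := by linarith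
    have b9 : σ.1.length ≤ C.k + cq q := by
      unfold cq
      exact_mod_cast b8
    have : C.k ≤ C.2.2 := min_le_left _ _
    omega
  · have b2 : 0 ≤ (LL q C : ℝ) / q *
        Real.exp (thC q C * (σ.1.length + ∑ i ∈ range C.n, yR q C σ i - (C.k + 1))) := by
      positivity
    have b3 : QQ q C * ((1 - 1 / (q : ℝ)) * coreCost C σ.1) ≤
        QQ q C * (L0 q C * (1 + 2 / Real.exp 1 + 8 * (1 / q))) := by
      rw [← mul_assoc (QQ q C : ℝ) (L0 q C : ℝ), ← eL]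
      linarith
    have b4 := le_of_mul_le_mul_left b3 hQ
    have b5 : 1 + 2 / Real.exp 1 + 8 * (1 / (q : ℝ)) ≤
        (1 - 1 / (q : ℝ)) * (1 + 2 / Real.exp 1 + 20 / q) := by
      rw [e20]
      nlinarith
    refine le_of_mul_le_mul_left (a := 1 - 1 / (q : ℝ)) ?_ (by linarith)
    refine b4.trans ((mul_le_mul_of_nonneg_left b5 hL0.le).trans_eq ?_)
    ring

end Vale.Agent.P334
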