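import Vale.Agent.P334.RuleDefs

/-!
Rates, the drift of the mass and the drift of the exponential of the count.
-/

namespace Vale.Agent.P334

open Finset

namespace Count

lemma rates {p K z : ℝ} (hp : 2 ≤ p) (hz : 0 ≤ z) (hK : z ≤ K) (h1 : z ≤ 1) :
    0 ≤ kap p K ∧ kap p K ≤ 1 ∧ 1 - 1 / p ≤ bet p K * kap p K ∧ bet p K * kap p K ≤ 1 + 1 / p ∧
      1 - 1 / p * (1 - z) ≤ bet p K := by
  have hp0 : 0 < p := by linarith
  have hi : 0 < 1 / p := by positivity
  unfold kap bet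
  split_ifs with h
  · have e1 : (1 - K) / (3 * p ^ 2) ≤ 1 / p * (1 - z) := by
      rw [div_le_iff₀ (by positivity)]
      have : 1 / p * (1 - z) * (3 * p ^ 2) = (1 - z) * (3 * p) := by field_simp
      rw [this]; nlinarith
    have e2 : -(1 / p) ≤ (1 - K) / (3 * p ^ 2) := by
      rw [le_div_iff₀ (by positivity)]
      have : -(1 / p) * (3 * p ^ 2) = -(3 * p) := by field_simp
      rw [this]; linarith
    refine ⟨zero_le_one, le_rfl, ?_, ?_, ?_⟩
    · nlinarith
    · linarith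
    · linarith
  · have hK0 : 0 < K := by linarith [not_le.1 h]
    have e1 : K / (2 * p) * ((2 * p + 2) / K) = 1 + 1 / p := by field_simp
    refine ⟨by positivity, (div_le_one hK0).2 (by linarith [not_le.1 h]), by linarith, e1.le, ?_⟩
    have e2 : 1 ≤ K / (2 * p) := (one_le_div (by positivity)).2 (by linarith [not_le.1 h])
    nlinarith

lemma exp_neg_le {x : ℝ} (hx : 0 ≤ x) : Real.exp (-x) ≤ 1 - x + x ^ 2 := by
  have h1 := Real.add_one_le_exp x
  have h2 : Real.exp (-x) * Real.exp x = 1 := by rw [← Real.exp_add]; simp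
  have h3 := Real.exp_pos (-x)
  have h4 : Real.exp (-x) * (x + 1) ≤ 1 := by nlinarith
  have h5 : 0 ≤ x ^ 3 := by positivity
  by_contra hc
  have h6 := mul_lt_mul_of_pos_right (not_le.1 hc) (show 0 < x + 1 by linarith)
  nlinarith

lemma term {p θ K : ℝ} (hp : 2 ≤ p) (h0 : 0 < θ) (hθ : θ ≤ 1 / (16 * p ^ 2)) (hK : 0 ≤ K) :
    bet p K * (Real.exp (θ * (1 - kap p K * K)) - 1) ≤
      θ * (1 - K) - θ ^ 2 * max (1 - K) 0 ^ 2 := by
  have hp0 : 0 < p := by linarith
  have hθ' : θ * (16 * p ^ 2) ≤ 1 := (le_div_iff₀ (by positivity)).1 hθ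
  obtain ⟨-, -, r1, r2, -⟩ := rates hp le_rfl hK zero_le_one
  have hi : 1 / p ≤ 1 / 2 := one_div_le_one_div_of_le two_pos hp
  unfold kap bet at *
  split_ifs at * with h
  · rw [mul_one] at r1 r2
    rw [one_mul]
    have a1 : |θ * (1 - K)| ≤ 1 := by
      have b1 : θ * (3 * p) ≤ θ * (16 * p ^ 2) :=
        mul_le_mul_of_nonneg_left (by nlinarith) h0.le
      have b2 : θ * K ≤ θ * (3 * p) := mul_le_mul_of_nonneg_left h h0.le
      have b3 : 0 ≤ θ * K := by positivity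
      have b4 : θ * 1 ≤ θ * (3 * p) := mul_le_mul_of_nonneg_left (by linarith) h0.le
      rw [abs_le, mul_sub]; constructor <;> linarith
    have a2 := (abs_le.1 (Real.abs_exp_sub_one_sub_id_le a1)).2
    have a3 : max (1 - K) 0 ^ 2 ≤ (1 - K) ^ 2 := by
      rcases le_total (1 - K) 0 with h1 | h1
      · rw [max_eq_right h1]; nlinarith [sq_nonneg (1 - K)]
      · rw [max_eq_left h1]
    have a4 : 3 * θ ≤ 1 / (3 * p ^ 2) := by
      rw [le_div_iff₀ (by positivity)]; nlinarith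
    set b := 1 - (1 - K) / (3 * p ^ 2) with hb
    have a5 : b * (θ * (1 - K)) = θ * (1 - K) - θ * (1 - K) ^ 2 * (1 / (3 * p ^ 2)) := by
      rw [hb]; ring
    have a6 : b * (Real.exp (θ * (1 - K)) - 1) ≤ b * (θ * (1 - K) + (θ * (1 - K)) ^ 2) :=
      mul_le_mul_of_nonneg_left (by linarith) (by linarith)
    have a7 : b * (θ * (1 - K)) ^ 2 ≤ 2 * (θ * (1 - K)) ^ 2 :=
      mul_le_mul_of_nonneg_right (by linarith) (sq_nonneg _)
    have a8 : θ * (1 - K) ^ 2 * (3 * θ) ≤ θ * (1 - K) ^ 2 * (1 / (3 * p ^ 2)) :=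
      mul_le_mul_of_nonneg_left a4 (by positivity)
    have a9 : θ ^ 2 * max (1 - K) 0 ^ 2 ≤ θ ^ 2 * (1 - K) ^ 2 :=
      mul_le_mul_of_nonneg_left a3 (sq_nonneg _)
    nlinarith
  · have h3 := not_le.1 h
    have hK0 : 0 < K := by linarith
    rw [div_mul_cancel₀ _ hK0.ne', max_eq_right (by linarith),
      show θ * (1 - (2 * p + 2)) = -(θ * (2 * p + 1)) by ring]
    have a1 := exp_neg_le (show 0 ≤ θ * (2 * p + 1) by positivity)
    have a2 : θ * (2 * p + 1) ^ 2 ≤ 1 := by nlinarith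
    have a3 : Real.exp (-(θ * (2 * p + 1))) - 1 ≤ -(θ * (2 * p)) := by nlinarith
    have a4 : K / (2 * p) * (Real.exp (-(θ * (2 * p + 1))) - 1) ≤ K / (2 * p) * -(θ * (2 * p)) :=
      mul_le_mul_of_nonneg_left a3 (by positivity)
    have a5 : K / (2 * p) * -(θ * (2 * p)) = -(θ * K) := by field_simp
    nlinarith

lemma bet_le {p K M : ℝ} (hp : 2 ≤ p) (hK : 0 ≤ K) (hM : K ≤ M) : bet p K ≤ M + 2 := by
  have hp0 : 0 < p := by linarith
  obtain ⟨-, -, -, r2, -⟩ := rates hp le_rfl hK zero_le_one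
  have hi : 1 / p ≤ 1 / 2 := one_div_le_one_div_of_le two_pos hp
  unfold kap bet at *
  split_ifs at * with h
  · linarith
  · have : K / (2 * p) ≤ K := div_le_self hK (by linarith)
    linarith

end Count

theorem countS : CountS := by
  refine ⟨fun p K z hp hz hK h1 => Count.rates hp hz hK h1, ?_⟩
  intro ι s p θ η1 y sl K T hp h0 hθ hη hM hy hT hsl hK
  have hK0 : ∀ e ∈ s, 0 ≤ K e := fun e he => by
    rw [hK e he]; exact sum_nonneg fun i hi => mul_nonneg (hy i hi) (hT i hi e he).1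
  have hKM : ∀ e ∈ s, K e ≤ ∑ i ∈ s, y i := fun e he => by
    rw [hK e he]
    exact sum_le_sum fun i hi => mul_le_of_le_one_right (hy i hi) (hT i hi e he).2
  have hs : ∑ i ∈ s, y i * sl i = ∑ e ∈ s, y e * (1 - K e) := by
    have h1 : ∑ i ∈ s, y i * sl i = ∑ i ∈ s, y i - ∑ i ∈ s, ∑ e ∈ s, y i * (y e * T i e) := by
      rw [← sum_sub_distrib]
      exact sum_congr rfl fun i hi => by rw [(hsl i hi).1, mul_sub, mul_one, mul_sum]
    have h2 : ∑ e ∈ s, y e * (1 - K e) =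
        ∑ e ∈ s, y e - ∑ e ∈ s, ∑ i ∈ s, y i * (y e * T i e) := by
      rw [← sum_sub_distrib]
      refine sum_congr rfl fun e he => ?_
      rw [hK e he, mul_sub, mul_one, mul_sum]
      exact congrArg _ (sum_congr rfl fun i _ => by ring)
    rw [h1, h2, sum_comm]
  have hs0 : 0 ≤ ∑ i ∈ s, y i * sl i := sum_nonneg fun i hi => mul_nonneg (hy i hi) (hsl i hi).2
  refine ⟨?_, ?_, ?_⟩
  · set S := ∑ i ∈ s, y i * sl i with hS
    set V := ∑ e ∈ s, y e * max (1 - K e) 0 ^ 2 with hV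
    have hV0 : 0 ≤ V := sum_nonneg fun e he => mul_nonneg (hy e he) (sq_nonneg _)
    have h1 : ∑ e ∈ s, y e * bet p (K e) * (Real.exp (θ * (1 - kap p (K e) * K e)) - 1) ≤
        θ * S - θ ^ 2 * V := by
      rw [hs, hV, mul_sum, mul_sum, ← sum_sub_distrib]
      refine sum_le_sum fun e he => ?_
      have := mul_le_mul_of_nonneg_left (Count.term hp h0 hθ (hK0 e he)) (hy e he)
      nlinarith
    have h2 : S ≤ ∑ e ∈ s, y e * max (1 - K e) 0 := by
      rw [hs]
      exact sum_le_sum fun e he => mul_le_mul_of_nonneg_left (le_max_left _ _) (hy e he)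
    have h3 : (∑ e ∈ s, y e * max (1 - K e) 0) ^ 2 ≤ (∑ e ∈ s, y e) * V :=
      sum_sq_le_sum_mul_sum_of_sq_le_mul s hy
        (fun e he => mul_nonneg (hy e he) (sq_nonneg _)) fun e _ => le_of_eq (by ring)
    have h4 : S ^ 2 ≤ (∑ e ∈ s, y e) * V := (pow_le_pow_left₀ hs0 h2 2).trans h3
    have h5 : η1 * S ^ 2 ≤ V := by
      have a1 := mul_le_mul_of_nonneg_left h4 hη.le
      have a2 := mul_le_mul_of_nonneg_right hM hV0
      nlinarith
    have h6 := Count.exp_neg_le (show 0 ≤ θ * (η1 * S) by positivity)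
    have h7 : (Real.exp (-(θ * (η1 * S))) - 1) / η1 ≤ -(θ * S) + θ ^ 2 * (η1 * S ^ 2) := by
      rw [div_le_iff₀ hη]; nlinarith
    have h8 := mul_le_mul_of_nonneg_left h5 (sq_nonneg θ)
    linarith
  · have h1 : ∑ e ∈ s, y e * K e / 2 ≤ ∑ e ∈ s, y e * bet p (K e) * (kap p (K e) * K e) := by
      refine sum_le_sum fun e he => ?_
      obtain ⟨-, -, r1, -, -⟩ := Count.rates hp le_rfl (hK0 e he) zero_le_one
      have hi : 1 / p ≤ 1 / 2 := one_div_le_one_div_of_le two_pos hp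
      have a1 := mul_le_mul_of_nonneg_left (show 1 / 2 ≤ bet p (K e) * kap p (K e) by linarith)
        (mul_nonneg (hy e he) (hK0 e he))
      nlinarith
    have h2 : ∑ e ∈ s, y e * (1 - K e) = ∑ e ∈ s, y e - 2 * ∑ e ∈ s, y e * K e / 2 := by
      rw [mul_sum, ← sum_sub_distrib]
      exact sum_congr rfl fun e _ => by ring
    linarith
  · rw [sum_mul]
    exact sum_le_sum fun e he =>
      mul_le_mul_of_nonneg_left (Count.bet_le hp (hK0 e he) (hKM e he)) (hy e he)

end Vale.Agent.P334
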