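import Vale.Agent.P049.QCT

/-!
Metric `k`-median: instances, feasible solutions and cost.
-/

namespace Vale.Agent.P334

/-- An instance: the distance matrix on the points `0, …, n - 1` (a list of `n` rows of rational
numbers), the list of clients, the list of candidate facilities, and the number `k`. -/
abbrev Inst := List (List ℚ) × List ℕ × List ℕ × ℕ

/-- The number of points. -/
def Inst.n (I : Inst) : ℕ := I.1.length

/-- The distance between the points `x` and `y`. -/
def Inst.d (I : Inst) (x y : ℕ) : ℚ := (I.1.getD x []).getD y 0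

/-- The list of clients. -/
def Inst.J (I : Inst) : List ℕ := I.2.1

/-- The list of candidate facilities. -/
def Inst.F (I : Inst) : List ℕ := I.2.2.1

/-- The number of facilities that may be opened. -/
def Inst.k (I : Inst) : ℕ := I.2.2.2

/-- The matrix is a metric on the points, clients and facilities are points listed without
repetition, and `1 ≤ k ≤ |F|`. -/
structure Inst.Valid (I : Inst) : Prop where
  rows : ∀ r ∈ I.1, r.length = I.n
  d_self : ∀ x < I.n, I.d x x = 0
  d_pos : ∀ x < I.n, ∀ y < I.n, x ≠ y → 0 < I.d x y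
  d_symm : ∀ x < I.n, ∀ y < I.n, I.d x y = I.d y x
  d_tri : ∀ x < I.n, ∀ y < I.n, ∀ z < I.n, I.d x z ≤ I.d x y + I.d y z
  J_lt : ∀ j ∈ I.J, j < I.n
  J_nodup : I.J.Nodup
  F_lt : ∀ i ∈ I.F, i < I.n
  F_nodup : I.F.Nodup
  one_le_k : 1 ≤ I.k
  k_le : I.k ≤ I.F.length

/-- A feasible solution: a set of candidate facilities with between `1` and `k` elements. -/
def Inst.Feasible (I : Inst) (S : Finset ℕ) : Prop :=
  S ⊆ I.F.toFinset ∧ 1 ≤ S.card ∧ S.card ≤ I.k

/-- The cost of a nonempty set of facilities: the sum over all clients of the distance to the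
nearest facility of the set. -/
def Inst.cost (I : Inst) (S : Finset ℕ) (h : S.Nonempty) : ℚ :=
  ∑ j ∈ I.J.toFinset, S.inf' h (I.d j)

end Vale.Agent.P334
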