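import Vale.Agent.P334.RuleDefs

/-!
The change of the potential of a client in one event.
-/

namespace Vale.Agent.P334

open Finset

namespace Event

variable {ι : Type}

theorem base (s : Finset ι) (ρ R1 : ℝ → ℝ) (η c D D' m A : ℝ) (d u k : ι → ℝ)
    (hρ : RhoOK η ρ R1) (hc : 0 ≤ c) (hD : 0 ≤ D')
    (h : ∀ i ∈ s, 0 ≤ d i ∧ 0 ≤ u i ∧ 0 ≤ k i ∧ k i ≤ 1) (hm : m = ∑ i ∈ s, u i) (hm1 : m ≤ 1)
    (hA : A = ∑ i ∈ s, u i * d i) :
    0 ≤ ∑ i ∈ s, u i * k i ∧ ∑ i ∈ s, u i * k i ≤ m ∧ ∑ i ∈ s, u i * k i * d i ≤ A ∧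
    Fc ρ c s d (fun i => u i * (1 - k i)) D' - Fc ρ c s d u D ≤
      -(gm c m * (D - D')) + (∑ i ∈ s, u i * k i) * ((1 + c * (2 * m - 1)) * D') -
        ρ m * ∑ i ∈ s, u i * k i * d i -
        R1 m * (∑ i ∈ s, u i * k i) * (A - ∑ i ∈ s, u i * k i * d i) := by
  have hz0 : 0 ≤ ∑ i ∈ s, u i * k i :=
    sum_nonneg fun i hi => mul_nonneg (h i hi).2.1 (h i hi).2.2.1
  have hz1 : ∑ i ∈ s, u i * k i ≤ m := by
    rw [hm]
    exact sum_le_sum fun i hi => mul_le_of_le_one_right (h i hi).2.1 (h i hi).2.2.2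
  have hZ1 : ∑ i ∈ s, u i * k i * d i ≤ A := by
    rw [hA]
    exact sum_le_sum fun i hi => mul_le_mul_of_nonneg_right
      (mul_le_of_le_one_right (h i hi).2.1 (h i hi).2.2.2) (h i hi).1
  refine ⟨hz0, hz1, hZ1, ?_⟩
  have e1 : ∑ i ∈ s, u i * (1 - k i) = m - ∑ i ∈ s, u i * k i := by
    rw [hm, ← sum_sub_distrib]
    exact sum_congr rfl fun i _ => by ring
  have e2 : ∑ i ∈ s, u i * (1 - k i) * d i = A - ∑ i ∈ s, u i * k i * d i := by
    rw [hA, ← sum_sub_distrib]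
    exact sum_congr rfl fun i _ => by ring
  unfold Fc
  rw [e1, e2, ← hm, ← hA]
  have ht := hρ.tan m _ hz0 hz1 hm1
  generalize ∑ i ∈ s, u i * k i = z at *
  generalize ∑ i ∈ s, u i * k i * d i = Z at *
  have h1 : ρ (m - z) * (A - Z) ≤ (ρ m - R1 m * z) * (A - Z) :=
    mul_le_mul_of_nonneg_right ht (sub_nonneg.2 hZ1)
  have h2 : 0 ≤ c * z ^ 2 * D' := by positivity
  have e3 : gm c (m - z) * D' = gm c m * D' + z * ((1 + c * (2 * m - 1)) * D') -
      c * z ^ 2 * D' := by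
    unfold gm
    ring
  rw [e3]
  nlinarith

theorem cross (s : Finset ι) (m A : ℝ) (d u k : ι → ℝ) (h : ∀ i ∈ s, 0 ≤ d i ∧ 0 ≤ u i)
    (hm : m = ∑ i ∈ s, u i) (hA : A = ∑ i ∈ s, u i * d i) :
    (∑ i ∈ s, u i * k i) * ∑ i ∈ s, u i * k i * d i ≤
      ∑ i ∈ s, u i * k i ^ 2 * ((m * d i + A) / 2) := by
  have h1 : (∑ i ∈ s, u i * k i) * ∑ i ∈ s, u i * k i * d i ≤
      ∑ i ∈ s, ∑ j ∈ s, (u i * k i ^ 2 * (u j * d j) / 2 + u i * (u j * k j ^ 2 * d j) / 2) := by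
    rw [sum_mul_sum]
    refine sum_le_sum fun i hi => sum_le_sum fun j hj => ?_
    have h2 : 0 ≤ u i * u j * d j * (k i - k j) ^ 2 :=
      mul_nonneg (mul_nonneg (mul_nonneg (h i hi).2 (h j hj).2) (h j hj).1) (sq_nonneg _)
    nlinarith
  refine h1.trans (le_of_eq ?_)
  have e1 : ∑ i ∈ s, ∑ j ∈ s, u i * k i ^ 2 * (u j * d j) / 2 =
      ∑ i ∈ s, u i * k i ^ 2 * (A / 2) := by
    refine sum_congr rfl fun i _ => ?_
    rw [← sum_div, ← mul_sum, ← hA, mul_div_assoc]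
  have e2 : ∑ i ∈ s, ∑ j ∈ s, u i * (u j * k j ^ 2 * d j) / 2 =
      ∑ j ∈ s, u j * k j ^ 2 * (m * d j / 2) := by
    rw [sum_comm]
    refine sum_congr rfl fun j _ => ?_
    rw [← sum_div, ← sum_mul, ← hm]
    ring
  simp only [sum_add_distrib]
  rw [e1, e2, ← sum_add_distrib]
  exact sum_congr rfl fun i _ => by ring

end Event

theorem eventS : EventS := by
  intro ι s ρ R1 η c D D' m A d u k hρ hc hc1 hD h hm hm1 hA
  have hm0 : 0 ≤ m := by
    rw [hm]
    exact sum_nonneg fun i hi => (h i hi).2.1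
  have hR := hρ.R1_nonneg m hm0 hm1
  constructor
  · obtain ⟨-, -, -, h1⟩ := Event.base s ρ R1 η c D D' m A d u k hρ hc hD h hm hm1 hA
    have h2 := mul_le_mul_of_nonneg_left
      (Event.cross s m A d u k (fun i hi => ⟨(h i hi).1, (h i hi).2.1⟩) hm hA) hR
    have e : ∑ i ∈ s, u i * k i * ((1 + c * (2 * m - 1)) * D' - ρ m * d i - R1 m * A) =
        (∑ i ∈ s, u i * k i) * ((1 + c * (2 * m - 1)) * D') - ρ m * ∑ i ∈ s, u i * k i * d i -
          R1 m * (∑ i ∈ s, u i * k i) * A := by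
      rw [mul_assoc (R1 m), sum_mul, sum_mul, mul_sum, mul_sum, ← sum_sub_distrib,
        ← sum_sub_distrib]
      exact sum_congr rfl fun i _ => by ring
    rw [e]
    linarith
  · obtain ⟨h0, -, h3, h1⟩ := Event.base s ρ R1 η c D D' m A d u
      (fun i => if ρ m * d i < (1 + c) * D' then k i else 1) hρ hc hD (fun i hi => by
        refine ⟨(h i hi).1, (h i hi).2.1, ?_, ?_⟩ <;> split_ifs
        exacts [(h i hi).2.2.1, zero_le_one, (h i hi).2.2.2, le_rfl]) hm hm1 hA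
    have e0 : (fun i => if ρ m * d i < (1 + c) * D' then u i * (1 - k i) else 0) =
        fun i => u i * (1 - if ρ m * d i < (1 + c) * D' then k i else 1) := by
      funext i
      split_ifs <;> simp
    rw [e0]
    have e : ∑ i ∈ s, u i * k i * max ((1 + c) * D' - ρ m * d i) 0 -
        ∑ i ∈ s, u i * max (ρ m * d i - (1 + c) * D') 0 =
        (∑ i ∈ s, u i * if ρ m * d i < (1 + c) * D' then k i else 1) * ((1 + c) * D') -
          ρ m * ∑ i ∈ s, (u i * if ρ m * d i < (1 + c) * D' then k i else 1) * d i := by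
      rw [sum_mul, mul_sum, ← sum_sub_distrib, ← sum_sub_distrib]
      refine sum_congr rfl fun i _ => ?_
      split_ifs with hi
      · rw [max_eq_left (by linarith), max_eq_right (by linarith)]
        ring
      · rw [max_eq_right (by linarith), max_eq_left (by linarith)]
        ring
    have h4 := mul_nonneg (mul_nonneg hR h0) (sub_nonneg.2 h3)
    have h5 := mul_nonneg h0 (mul_nonneg (mul_nonneg hc (sub_nonneg.2 hm1)) hD)
    generalize (∑ i ∈ s, u i * if ρ m * d i < (1 + c) * D' then k i else 1) = z at *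
    generalize (∑ i ∈ s, (u i * if ρ m * d i < (1 + c) * D' then k i else 1) * d i) = Z at *
    nlinarith

end Vale.Agent.P334
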