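import Vale.Agent.P334.Stmt

/-!
Running time of the killing rule.
-/

namespace Vale.Agent.P334

open Vale.Agent.Lib.TM Vale.Agent.P049

attribute [local irreducible] CT

namespace KillCode

variable {α : Type} [Enc α] {e : ℕ} {C : α → Core} {σ : α → PS} {i j l z : α → ℕ}
  {x y w : α → ℚ} (q : ℕ)

@[fun_prop]
theorem ct_Sf (hx : CT e x) (hy : CT e y) : CT e fun a => Sf (x a) (y a) := by
  unfold Sf; fun_prop

@[fun_prop]
theorem ct_Tf (hx : CT e x) (hy : CT e y) (hw : CT e w) : CT e fun a => Tf (x a) (y a) (w a) := by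
  unfold Tf; fun_prop

@[fun_prop]
theorem ct_T2f (hx : CT e x) (hy : CT e y) (hw : CT e w) :
    CT e fun a => T2f (x a) (y a) (w a) := by
  unfold T2f; fun_prop

@[fun_prop]
theorem ct_kap (hx : CT e x) (hy : CT e y) : CT e fun a => kap (x a) (y a) := by
  have h : CT e fun a => bif decide (y a ≤ 3 * x a) then (1 : ℚ) else (2 * x a + 2) / y a := by
    fun_prop
  refine h.of_eq fun a => ?_
  by_cases h1 : y a ≤ 3 * x a <;> simp [kap, h1]

@[fun_prop]
theorem ct_yq (h : CT e C) (hσ : CT e σ) (hi : CT e i) : CT e fun a => yq q (C a) (σ a) (i a) := by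
  unfold yq; fun_prop

@[fun_prop]
theorem ct_bOpen (h : CT e C) (hσ : CT e σ) (hi : CT e i) :
    CT e fun a => bOpen q (C a) (σ a) (i a) := by
  unfold bOpen; fun_prop

@[fun_prop]
theorem ct_lamMax (h : CT e C) (hσ : CT e σ) (hi : CT e i) :
    CT e fun a => lamMax q (C a) (σ a) (i a) := by
  unfold lamMax; fun_prop

theorem ct_lastOk {ok : α → ℕ → Bool} {B : α → ℕ} (hok : CT e fun p : α × ℕ => ok p.1 p.2)
    (hB : CT e B) (hb : Bd 0 B) : CT e fun a => lastOk (ok a) (B a) := by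
  have h1 : CT e fun p : α × ℕ × ℕ => ok p.1 p.2.2 :=
    hok.comp (g := fun p : α × ℕ × ℕ => (p.1, p.2.2)) (by fun_prop)
  refine CT.foldl (g := fun a s y => bif ok a y then y else s) (G := fun p => sz p.2)
    (h1.cond (by fun_prop) (by fun_prop)) (CT.const 0)
    ((hB.add (CT.const 1)).range (hb.add (Bd.const 1))) (CT.snd (e := 0) CT.id).size
    fun a s y => ?_
  cases ok a y <;> simp

@[fun_prop]
theorem ct_sumS (h : CT e C) (hσ : CT e σ) (hi : CT e i) (hl : CT e l) :
    CT e fun a => sumS q (C a) (σ a) (i a) (l a) := by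
  unfold sumS; fun_prop

@[fun_prop]
theorem ct_lam (h : CT e C) (hσ : CT e σ) (hi : CT e i) :
    CT e fun a => lam q (C a) (σ a) (i a) :=
  ct_lastOk (ok := fun a l => decide (l ≤ lamMax q (C a) (σ a) (i a)) &&
    decide (sumS q (C a) (σ a) (i a) l ≤ 1)) (by fun_prop) (ct_DD q h) (bd_DD q h)

@[fun_prop]
theorem ct_sumT2 (h : CT e C) (hσ : CT e σ) (hi : CT e i) (hl : CT e l) (hz : CT e z) :
    CT e fun a => sumT2 q (C a) (σ a) (i a) (l a) (z a) := by
  unfold sumT2; fun_prop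

@[fun_prop]
theorem ct_xi (h : CT e C) (hσ : CT e σ) (hi : CT e i) :
    CT e fun a => xi q (C a) (σ a) (i a) :=
  ct_lastOk (ok := fun a z => decide (z ≤ lam q (C a) (σ a) (i a)) &&
    decide (sumT2 q (C a) (σ a) (i a) (lam q (C a) (σ a) (i a)) z ≤ t2 ℚ)) (by fun_prop)
    (ct_DD q h) (bd_DD q h)

@[fun_prop]
theorem ct_Tm (h : CT e C) (hσ : CT e σ) (hi : CT e i) (hj : CT e j) :
    CT e fun a => Tm q (C a) (σ a) (i a) (j a) := by
  unfold Tm; fun_prop

@[fun_prop]
theorem ct_slot (h : CT e C) (hσ : CT e σ) (hi : CT e i) :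
    CT e fun a => slot q (C a) (σ a) (i a) := by
  unfold slot; fun_prop

@[fun_prop]
theorem ct_KK (h : CT e C) (hσ : CT e σ) (hi : CT e i) :
    CT e fun a => KK q (C a) (σ a) (i a) := by
  unfold KK; fun_prop

end KillCode

open KillCode in
theorem killCodeS : KillCodeS := by
  intro q
  unfold kill; fun_prop

end Vale.Agent.P334
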