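import Vale.Agent.P334.Stmt

/-!
The approximate linear program.
-/

namespace Vale.Agent.P334

open Finset

namespace LP

theorem sq_ineq (t c k : ℕ) : sqn (t + 1 - (c + (k + 1))) + k * sqn (t + 1 - c) ≤
    (k + 1) * sqn (t - c) + (k + 1) ^ 2 := by
  unfold sqn
  rcases le_or_gt c t with h | h
  · obtain ⟨x, rfl⟩ := Nat.exists_eq_add_of_le h
    rw [show c + x + 1 - c = x + 1 by omega, show c + x - c = x by omega]
    rcases le_or_gt k x with h2 | h2
    · obtain ⟨y, rfl⟩ := Nat.exists_eq_add_of_le h2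
      rw [show c + (k + y) + 1 - (c + (k + 1)) = y by omega]
      nlinarith
    · rw [show c + x + 1 - (c + (k + 1)) = 0 by omega]
      obtain ⟨y, rfl⟩ := Nat.exists_eq_add_of_le h2.le
      nlinarith
  · rw [show t + 1 - c = 0 by omega, show t + 1 - (c + (k + 1)) = 0 by omega]
    simp

variable (q : ℕ) (C : Core)

/-- The contribution of one client to the value of a facility. -/
def term (t : ℕ) (U : List (List ℕ)) (i j : ℕ) : ℕ :=
  bif inC q C t U i j then PP q C * C.dc j i + sqn (t + 1 - C.k * (cov U j + 1))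
  else sqn (t + 1 - C.k * cov U j)

theorem val_eq (t : ℕ) (U : List (List ℕ)) (i : ℕ) :
    lpVal q C t U i = ∑ j ∈ range C.m, term q C t U i j := sum_tab _ _

theorem term_le (t : ℕ) (U : List (List ℕ)) (i j : ℕ) :
    term q C t U i j ≤ sqn (t + 1 - C.k * cov U j) := by
  unfold term
  cases h : inC q C t U i j
  · exact le_rfl
  · simp only [inC, Bool.and_eq_true, decide_eq_true_eq] at h
    exact h.2.le

theorem term_le' (t : ℕ) (U : List (List ℕ)) (i j : ℕ) (hc : cov U j < NN q C) :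
    term q C t U i j ≤ PP q C * C.dc j i + sqn (t + 1 - C.k * (cov U j + 1)) := by
  unfold term
  cases h : inC q C t U i j
  · simp only [inC, hc, decide_true, Bool.true_and, decide_eq_false_iff_not, not_lt] at h
    exact h
  · exact le_rfl

theorem term_avg {t : ℕ} (U : List (List ℕ)) (i j : ℕ) (hk : 1 ≤ C.k) (ht : t < C.k * NN q C) :
    term q C t U i j + (C.k - 1) * sqn (t + 1 - C.k * cov U j) ≤
      PP q C * C.dc j i + C.k * sqn (t - C.k * cov U j) + C.k ^ 2 := by
  rcases lt_or_ge (cov U j) (NN q C) with hc | hc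
  · have h1 := term_le' q C t U i j hc
    have h2 := sq_ineq t (C.k * cov U j) (C.k - 1)
    rw [Nat.sub_add_cancel hk, ← Nat.mul_succ] at h2
    exact (Nat.add_le_add_right h1 _).trans (by rw [add_assoc, add_assoc]; gcongr)
  · have h1 := term_le q C t U i j
    have h2 := Nat.mul_le_mul_left C.k hc
    rw [show t + 1 - C.k * cov U j = 0 by omega] at h1 ⊢
    simp only [sqn] at h1 ⊢
    omega

theorem pick_lt (hn : 1 ≤ C.n) (t : ℕ) (U : List (List ℕ)) : lpPick q C t U < C.n :=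
  List.mem_range.1 (argmin_mem _ (List.mem_range.2 hn))

theorem pick_le (t : ℕ) (U : List (List ℕ)) {i : ℕ} (hi : i < C.n) :
    lpVal q C t U (lpPick q C t U) ≤ lpVal q C t U i := by
  exact_mod_cast argmin_le (fun i => (lpVal q C t U i : ℚ)) 0 (List.mem_range.2 hi)

theorem pick_avg (hO : HasOpt q C) (hk : 1 ≤ C.k) {t : ℕ} (ht : t < C.k * NN q C)
    (U : List (List ℕ)) : C.k * lpVal q C t U (lpPick q C t U) ≤
      PP q C * L0 q C + C.k * ∑ j ∈ range C.m, sqn (t - C.k * cov U j) + C.m * C.k ^ 2 := by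
  obtain ⟨O, hne, hlt, hlen, hc⟩ := hO
  choose o ho he using fun j => minL_mem (fun i => (C.dc j i : ℚ)) hne
  have h1 : ∑ j ∈ range C.m, C.dc j (o j) ≤ L0 q C := by
    simp only [coreCost, he] at hc
    exact_mod_cast hc
  have h2 : O.toFinset.card ≤ C.k := le_min (O.toFinset_card_le.trans hlen)
    ((card_le_card fun i hi => mem_range.2 (hlt i (List.mem_toFinset.1 hi))).trans_eq (card_range _))
  have h3 := card_nsmul_le_sum O.toFinset (lpVal q C t U) _
    fun i hi => pick_le q C t U (hlt i (List.mem_toFinset.1 hi))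
  have h4 : ∑ i ∈ O.toFinset, lpVal q C t U i +
      (C.k - O.toFinset.card) * lpVal q C t U (lpPick q C t U) ≤
      ∑ j ∈ range C.m, (PP q C * C.dc j (o j) + C.k * sqn (t - C.k * cov U j) + C.k ^ 2) := by
    simp only [val_eq]
    rw [sum_comm, mul_sum, ← sum_add_distrib]
    refine sum_le_sum fun j _ => le_trans ?_ (term_avg q C U (o j) j hk ht)
    have hm := List.mem_toFinset.2 (ho j)
    have h5 := sum_le_card_nsmul (O.toFinset.erase (o j)) (fun i => term q C t U i j) _
      fun i _ => term_le q C t U i j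
    have h6 := Nat.mul_le_mul_left (C.k - O.toFinset.card) (term_le q C t U (lpPick q C t U) j)
    have h7 := card_pos.2 ⟨_, hm⟩
    rw [card_erase_of_mem hm, smul_eq_mul] at h5
    rw [← add_sum_erase _ _ hm, show C.k - 1 = O.toFinset.card - 1 + (C.k - O.toFinset.card) by omega,
      add_mul]
    omega
  rw [sum_add_distrib, sum_add_distrib, ← mul_sum, ← mul_sum, sum_const, card_range,
    smul_eq_mul] at h4
  rw [smul_eq_mul] at h3
  have h5 := Nat.mul_le_mul_left (PP q C) h1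
  have h6 : C.k * lpVal q C t U (lpPick q C t U) =
      O.toFinset.card * lpVal q C t U (lpPick q C t U) +
      (C.k - O.toFinset.card) * lpVal q C t U (lpPick q C t U) := by
    rw [← add_mul, Nat.add_sub_cancel' h2]
  linarith

/-- The invariant of the rounds. -/
structure Inv (t : ℕ) (σ : List ℕ × List (List ℕ)) : Prop where
  le : ∀ j < C.m, ∀ i < C.n, g2n σ.2 j i ≤ g1n σ.1 i
  cnt : ∑ i ∈ range C.n, g1n σ.1 i = t
  row : ∀ j < C.m, cov σ.2 j = ∑ i ∈ range C.n, g2n σ.2 j i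
  cov_le : ∀ j < C.m, cov σ.2 j ≤ NN q C
  pot : C.k * (PP q C * ∑ j ∈ range C.m, ∑ i ∈ range C.n, g2n σ.2 j i * C.dc j i +
    ∑ j ∈ range C.m, sqn (t - C.k * cov σ.2 j)) ≤ t * (PP q C * L0 q C + C.m * C.k ^ 2)

theorem cov_tab {m n j : ℕ} (f : ℕ → ℕ → ℕ) (hj : j < m) :
    cov (tab m fun j => tab n (f j)) j = ∑ i ∈ range n, f j i := by
  rw [cov, getD_tab _ _ hj, sum_tab]

theorem inv_zero : Inv q C 0 (tab C.n fun _ => 0, tab C.m fun _ => tab C.n fun _ => 0) := by
  have h1 : ∀ j < C.m, ∀ i < C.n, g2n (tab C.m fun _ => tab C.n fun _ => 0) j i = 0 :=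
    fun j hj i hi => g2n_tab (fun _ _ => 0) hj hi
  have h2 : ∀ j < C.m, cov (tab C.m fun _ => tab C.n fun _ => 0) j = 0 :=
    fun j hj => (cov_tab (fun _ _ => 0) hj).trans (by simp)
  refine ⟨fun j hj i hi => (h1 j hj i hi).trans_le (Nat.zero_le _),
    sum_eq_zero fun i hi => g1n_tab _ (mem_range.1 hi), fun j hj => (h2 j hj).trans
      (sum_eq_zero fun i hi => h1 j hj i (mem_range.1 hi)).symm,
    fun j hj => (h2 j hj).trans_le (Nat.zero_le _), ?_⟩
  rw [sum_eq_zero fun j hj => sum_eq_zero fun i hi => by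
    rw [h1 j (mem_range.1 hj) i (mem_range.1 hi), zero_mul]]
  simp [sqn]

theorem sum_pick {n p : ℕ} (hp : p < n) (b : ℕ → Bool) (w : ℕ → ℕ) :
    ∑ i ∈ range n, (bif i == p && b i then 1 else 0) * w i = bif b p then w p else 0 := by
  rw [sum_eq_single_of_mem p (mem_range.2 hp) fun i _ hi => by simp [beq_eq_false_iff_ne.2 hi]]
  cases b p <;> simp

theorem inv_step (hO : HasOpt q C) (hn : 1 ≤ C.n) (hk : 1 ≤ C.k) {t : ℕ} (ht : t < C.k * NN q C)
    {σ : List ℕ × List (List ℕ)} (h : Inv q C t σ) : Inv q C (t + 1) (lpStep q C σ t) := by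
  have hp := pick_lt q C hn t σ.2
  have h1 : ∀ i < C.n, g1n (lpStep q C σ t).1 i =
      g1n σ.1 i + bif i == lpPick q C t σ.2 then 1 else 0 := fun i hi => g1n_tab _ hi
  have h2 : ∀ j < C.m, ∀ i < C.n, g2n (lpStep q C σ t).2 j i = g2n σ.2 j i +
      bif i == lpPick q C t σ.2 && inC q C t σ.2 i j then 1 else 0 :=
    fun j hj i hi => g2n_tab _ hj hi
  have h3 : ∀ j < C.m, cov (lpStep q C σ t).2 j =
      ∑ i ∈ range C.n, g2n (lpStep q C σ t).2 j i := fun j hj =>
    (cov_tab _ hj).trans (sum_congr rfl fun i hi => (h2 j hj i (mem_range.1 hi)).symm)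
  have h4 : ∀ j < C.m, ∀ w : ℕ → ℕ, ∑ i ∈ range C.n, g2n (lpStep q C σ t).2 j i * w i =
      ∑ i ∈ range C.n, g2n σ.2 j i * w i +
        bif inC q C t σ.2 (lpPick q C t σ.2) j then w (lpPick q C t σ.2) else 0 := fun j hj w => by
    rw [← sum_pick hp (fun i => inC q C t σ.2 i j) w, ← sum_add_distrib]
    exact sum_congr rfl fun i hi => by rw [h2 j hj i (mem_range.1 hi), add_mul]
  have h5 : ∀ j < C.m, cov (lpStep q C σ t).2 j =
      cov σ.2 j + bif inC q C t σ.2 (lpPick q C t σ.2) j then 1 else 0 := fun j hj => by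
    have h6 := h4 j hj fun _ => 1
    simp only [mul_one] at h6
    rw [h3 j hj, h.row j hj, h6]
  refine ⟨fun j hj i hi => ?_, ?_, h3, fun j hj => ?_, ?_⟩
  · rw [h1 i hi, h2 j hj i hi]
    refine Nat.add_le_add (h.le j hj i hi) ?_
    cases i == lpPick q C t σ.2 <;> cases inC q C t σ.2 i j <;> simp
  · have h6 := sum_pick hp (fun _ => true) fun _ => 1
    simp only [Bool.and_true, mul_one, cond_true] at h6
    rw [sum_congr rfl fun i hi => h1 i (mem_range.1 hi), sum_add_distrib, h.cnt, h6]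
  · rw [h5 j hj]
    cases hc : inC q C t σ.2 (lpPick q C t σ.2) j
    · exact h.cov_le j hj
    · simp only [inC, Bool.and_eq_true, decide_eq_true_eq] at hc
      exact hc.1
  · have h6 : PP q C * ∑ j ∈ range C.m, ∑ i ∈ range C.n, g2n (lpStep q C σ t).2 j i * C.dc j i +
        ∑ j ∈ range C.m, sqn (t + 1 - C.k * cov (lpStep q C σ t).2 j) =
        PP q C * ∑ j ∈ range C.m, ∑ i ∈ range C.n, g2n σ.2 j i * C.dc j i +
          lpVal q C t σ.2 (lpPick q C t σ.2) := by
      rw [val_eq, mul_sum, mul_sum, ← sum_add_distrib, ← sum_add_distrib]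
      refine sum_congr rfl fun j hj => ?_
      rw [h4 j (mem_range.1 hj), h5 j (mem_range.1 hj), term]
      cases inC q C t σ.2 (lpPick q C t σ.2) j
      · simp
      · simp only [cond_true]
        ring
    have h7 := pick_avg q C hO hk ht σ.2
    have h8 := h.pot
    rw [h6]
    linarith

theorem inv_run (hO : HasOpt q C) (hn : 1 ≤ C.n) (hk : 1 ≤ C.k) : ∀ t ≤ C.k * NN q C,
    Inv q C t ((List.range t).foldl (lpStep q C)
      (tab C.n fun _ => 0, tab C.m fun _ => tab C.n fun _ => 0))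
  | 0, _ => inv_zero q C
  | t + 1, ht => by
    rw [List.range_succ, List.foldl_append]
    exact inv_step q C hO hn hk ht (inv_run hO hn hk t (by omega))

theorem final {q s m k P L N c r r2 : ℕ} (hq : 1 ≤ q) (hs : 1 ≤ s) (hm : m ≤ s) (hk : k ≤ s)
    (hk1 : 1 ≤ k) (hP : P = q * s ^ 3) (hL : L = (q + 1) * s) (hN : N = 300 * q ^ 4 * s ^ 5)
    (h : P * c + k ^ 2 * r2 ≤ N * (P * L + m * k ^ 2)) (hr : r ^ 2 ≤ m * r2) :
    q * (c + 2 * (3 * L) * r) ≤ (q + 2) * L * N := by
  have hP0 : 0 < P := by rw [hP]; positivity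
  have hL0 : 1 ≤ L := by rw [hL]; exact Nat.mul_pos (by omega) hs
  have h1 : m * k ^ 2 ≤ s ^ 3 := (Nat.mul_le_mul hm (Nat.pow_le_pow_left hk 2)).trans_eq (by ring)
  have h2 : q * (m * k ^ 2) ≤ P := hP ▸ Nat.mul_le_mul_left q h1
  have h3 : q * c ≤ q * L * N + L * N := by
    refine Nat.le_of_mul_le_mul_left ?_ hP0
    have a1 := Nat.mul_le_mul_left q ((Nat.le_add_right _ _).trans h)
    have a2 := Nat.mul_le_mul_left N h2
    have a3 := Nat.mul_le_mul_left (P * N) hL0
    linarith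
  have h4 : m * k ^ 2 ≤ P * L :=
    ((Nat.le_mul_of_pos_left _ hq).trans h2).trans (Nat.le_mul_of_pos_right _ hL0)
  have h5 : r2 ≤ N * (2 * (P * L)) := by
    have a1 : r2 ≤ k ^ 2 * r2 := Nat.le_mul_of_pos_left _ (by positivity)
    have a2 := Nat.mul_le_mul_left N h4
    have a3 := (Nat.le_add_left _ _).trans h
    linarith
  have h6 : 72 * q ^ 2 * m * (P * L) ≤ N := by
    have a1 : L ≤ 2 * q * s := hL ▸ Nat.mul_le_mul_right s (by omega)
    calc 72 * q ^ 2 * m * (P * L) ≤ 72 * q ^ 2 * s * (P * (2 * q * s)) := by gcongr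
      _ = 144 * (q ^ 4 * s ^ 5) := by rw [hP]; ring
      _ ≤ 300 * (q ^ 4 * s ^ 5) := Nat.mul_le_mul_right _ (by norm_num)
      _ = N := by rw [hN]; ring
  have h7 : 6 * q * r ≤ N := by
    refine (Nat.pow_le_pow_iff_left two_ne_zero).1 ?_
    have a1 := Nat.mul_le_mul_left (36 * q ^ 2) (hr.trans (Nat.mul_le_mul_left m h5))
    have a2 := Nat.mul_le_mul_left N h6
    linarith
  have h8 := Nat.mul_le_mul_left L h7
  linarith

end LP

theorem lpS : LPS := by
  intro q C hq hW hO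
  have hk : 1 ≤ C.k := le_min hW.k_pos hW.n_pos
  have h : LP.Inv q C _ (lpRun q C) := LP.inv_run q C hO hW.n_pos hk _ le_rfl
  have hY : ∀ i < C.n, g1n (lpY q C) i = min (g1n (lpRun q C).1 i) (NN q C) :=
    fun i hi => g1n_tab _ hi
  have hrow : ∀ j < C.m, ∑ i ∈ range C.n, g2n (lpU q C) j i ≤ NN q C :=
    fun j hj => (h.row j hj).symm.trans_le (h.cov_le j hj)
  refine ⟨⟨by simp, by simp, fun i hi => ?_, fun i hi => (hY i hi).trans_le (min_le_right _ _),
    fun j hj i hi => ?_, hrow, ?_⟩, ?_⟩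
  · rw [List.mem_singleton.1 hi]
    exact hW.n_pos
  · refine le_of_le_of_eq (le_min (h.le j hj i hi) (le_trans ?_ (hrow j hj))) (hY i hi).symm
    exact single_le_sum (f := fun i => g2n (lpU q C) j i) (fun _ _ => Nat.zero_le _)
      (mem_range.2 hi)
  · rw [sumY, sum_tab, ← h.cnt]
    exact sum_le_sum fun i hi => (hY i (mem_range.1 hi)).trans_le (min_le_left _ _)
  · have h1 := h.pot
    have e : ∑ j ∈ range C.m, sqn (C.k * NN q C - C.k * cov (lpRun q C).2 j) =
        C.k ^ 2 * ∑ j ∈ range C.m, (NN q C - ∑ i ∈ range C.n, g2n (lpU q C) j i) ^ 2 := by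
      rw [mul_sum]
      refine sum_congr rfl fun j hj => ?_
      rw [← Nat.mul_sub, h.row j (mem_range.1 hj), sqn, lpU]
      ring
    rw [e, mul_assoc C.k] at h1
    have h2 := sq_sum_le_card_mul_sum_sq (s := range C.m)
      (f := fun j => NN q C - ∑ i ∈ range C.n, g2n (lpU q C) j i)
    rw [card_range] at h2
    have hD : D0 q C = 3 * L0 q C := by unfold D0; rfl
    rw [sum_add_distrib, ← mul_sum, hD]
    exact LP.final (s := C.s) hq (Nat.le_add_left _ _) (by unfold Core.s; omega)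
      ((min_le_right _ _).trans (by unfold Core.s; omega)) hk (by unfold PP; rfl)
      (by unfold L0; rfl) (by unfold NN; rfl) (Nat.le_of_mul_le_mul_left h1 hk) h2

end Vale.Agent.P334
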