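import Vale.Agent.P334.Stmt

/-!
Running time of the approximate linear program.
-/

namespace Vale.Agent.P334

open Vale.Agent.Lib.TM Vale.Agent.P049

attribute [local irreducible] CT

namespace LPCode

lemma sz_tab_getD {β : Type} [Enc β] (d : β) (K n : ℕ) : ∀ (l : List β) (f : ℕ → β),
    (∀ i, sz (f i) ≤ sz (l.getD i d) + K) → sz (tab n f) ≤ sz l + n * (sz d + K + 1) := by
  induction n with
  | zero =>
    intro l f _
    simpa [tab] using Nat.succ_le_of_lt (sz_pos l)
  | succ n ih =>
    intro l f h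
    have e : tab (n + 1) f = f 0 :: tab n fun i => f (i + 1) := by
      simp [tab, List.range_succ_eq_map, Function.comp_def]
    have h0 := h 0
    rw [e, sz_cons, Nat.succ_mul]
    cases l with
    | nil =>
      have h1 := ih [] (fun i => f (i + 1)) fun i => by simpa using h (i + 1)
      rw [List.getD_nil] at h0
      omega
    | cons x l =>
      have h1 := ih l (fun i => f (i + 1)) fun i => by simpa using h (i + 1)
      rw [List.getD_cons_zero] at h0
      rw [sz_cons]
      omega

lemma sz_tab1 {K n : ℕ} {l : List ℕ} {f : ℕ → ℕ} (h : ∀ i, sz (f i) ≤ sz (g1n l i) + K) :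
    sz (tab n f) ≤ sz l + n * (K + 2) := by
  have h1 := sz_tab_getD 0 K n l f h
  rwa [sz_zero, add_comm 1 K] at h1

lemma sz_tab2 {K m n : ℕ} {l : List (List ℕ)} {f : ℕ → ℕ → ℕ}
    (h : ∀ j i, sz (f j i) ≤ sz (g2n l j i) + K) :
    sz (tab m fun j => tab n (f j)) ≤ sz l + m * (n * (K + 2) + 2) := by
  have h1 := sz_tab_getD [] (n * (K + 2)) m l (fun j => tab n (f j)) fun j => sz_tab1 (h j)
  rwa [sz_nil, add_comm 1] at h1

lemma sz_inc (x : ℕ) (b : Bool) : sz (x + bif b then 1 else 0) ≤ sz x + 12 := by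
  have h := sz_add_le x (bif b then 1 else 0)
  cases b <;> simp at h ⊢
  omega

variable {α : Type} [Enc α] {e : ℕ} {C : α → Core} {U : α → List (List ℕ)} {t i j : α → ℕ} (q : ℕ)

@[fun_prop]
theorem ct_cov (hU : CT e U) (hj : CT e j) : CT e fun a => cov (U a) (j a) := by
  unfold cov; fun_prop

@[fun_prop]
theorem ct_inC (h : CT e C) (ht : CT e t) (hU : CT e U) (hi : CT e i) (hj : CT e j) :
    CT e fun a => inC q (C a) (t a) (U a) (i a) (j a) := by
  unfold inC; fun_prop

@[fun_prop]
theorem ct_lpVal (h : CT e C) (ht : CT e t) (hU : CT e U) (hi : CT e i) :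
    CT e fun a => lpVal q (C a) (t a) (U a) (i a) := by
  unfold lpVal; fun_prop

@[fun_prop]
theorem ct_lpPick (h : CT e C) (ht : CT e t) (hU : CT e U) :
    CT e fun a => lpPick q (C a) (t a) (U a) :=
  ct_argmin (f := fun a i => (lpVal q (C a) (t a) (U a) i : ℚ)) (by fun_prop)
    ((ct_n h).range (bd_n h)) (CT.const 0)

theorem ct_lpStep {σ : α → List ℕ × List (List ℕ)} (h : CT e C) (hσ : CT e σ) (ht : CT e t) :
    CT e fun a => lpStep q (C a) (σ a) (t a) := by
  unfold lpStep; fun_prop

end LPCode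

open LPCode in
theorem lpCodeS : LPCodeS := by
  intro q
  have hn : Bd 0 fun p : Core × ℕ => p.1.n := bd_n (e := 0) (by fun_prop)
  have hm : Bd 0 fun p : Core × ℕ => p.1.m := bd_m (e := 0) (by fun_prop)
  refine CT.foldl (g := fun C => lpStep q C) (l := fun C : Core => List.range (C.k * NN q C))
    (init := fun C : Core => (tab C.n fun _ => 0, tab C.m fun _ => tab C.n fun _ => 0))
    (G := fun p => p.1.n * (12 + 2) + p.1.m * (p.1.n * (12 + 2) + 2))
    (ct_lpStep q (by fun_prop) (by fun_prop) (by fun_prop)) (by fun_prop)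
    (CT.range (by fun_prop) ((bd_ck (e := 0) CT.id).mul (bd_NN (e := 0) q CT.id)))
    ((hn.mul (Bd.const _)).add (hm.mul ((hn.mul (Bd.const _)).add (Bd.const _)))) fun C s t => ?_
  have h1 := sz_tab1 (n := C.n) (l := s.1) fun i => sz_inc (g1n s.1 i) (i == lpPick q C t s.2)
  have h2 := sz_tab2 (m := C.m) (n := C.n) (l := s.2) fun j i =>
    sz_inc (g2n s.2 j i) (i == lpPick q C t s.2 && inC q C t s.2 i j)
  rw [lpStep, sz_pair, sz_prod s]
  simp only
  omega

end Vale.Agent.P334
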