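import Vale.Agent.P334.Stmt

/-! Sparsification step of the reduction of Li and Svensson. -/

namespace Vale.Agent.P334

namespace LS1

/-- cost of the clients in the union of the balls -/
def W (I : Inst) (O : List ℕ) (P : List (ℕ × ℕ)) : ℚ :=
  (I.J.map fun j => if ∃ r ∈ P, I.d j r.1 ≤ dS I O r.1 / 4 then dS I O j else 0).sum

/-- the invariant -/
def Inv (I : Inst) (O : List ℕ) (a : ℚ) (P : List (ℕ × ℕ)) : Prop :=
  (∀ r ∈ P, r.1 ∈ I.F ∧ r.2 ∈ O ∧ I.d r.1 r.2 = dS I O r.1 ∧ 0 < dS I O r.1) ∧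
    P.length * a ≤ W I O P ∧ (P ≠ [] → P.length * a < W I O P)

lemma sum_add (l : List ℕ) (f g : ℕ → ℚ) (p : ℕ → Bool) (c : ℚ)
    (h : ∀ j ∈ l, f j + (if p j then c else 0) ≤ g j) :
    (l.map f).sum + c * l.countP p ≤ (l.map g).sum := by
  induction l with
  | nil => simp
  | cons x l ih =>
    have h1 := ih fun j hj => h j (List.mem_cons_of_mem _ hj)
    have h2 := h x List.mem_cons_self
    simp only [List.map_cons, List.sum_cons, List.countP_cons]
    push_cast
    split_ifs at h2 ⊢ <;> linarith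

lemma mem_keepF {I : Inst} {P : List (ℕ × ℕ)} {i : ℕ} :
    i ∈ keepF I P ↔ i ∈ I.F ∧ ∀ r ∈ P, I.d r.1 r.2 ≤ I.d r.1 i := by
  simp [keepF]

lemma step {I : Inst} {O : List ℕ} (h : WF I) (hO : Feas 0 I O) {a : ℚ} (ha : 0 ≤ a)
    {P : List (ℕ × ℕ)} (hP : Inv I O a P) (hS : ¬Sparse I O (keepF I P) a) :
    ∃ r, Inv I O a (r :: P) := by
  unfold Sparse at hS
  push Not at hS
  obtain ⟨i, hi, hd⟩ := hS
  obtain ⟨hiF, hk⟩ := mem_keepF.1 hi
  obtain ⟨o, ho, e⟩ := dS_mem I hO.1 i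
  have hl : 0 < dS I O i := by
    refine (dS_nonneg h hO.1 hO.2.1 (Or.inr hiF)).lt_of_ne fun h0 => ?_
    rw [← h0] at hd
    simp only [mul_zero, zero_mul] at hd
    linarith
  have key := sum_add I.J (fun j => if ∃ r ∈ P, I.d j r.1 ≤ dS I O r.1 / 4 then dS I O j else 0)
    (fun j => if ∃ r ∈ (i, o) :: P, I.d j r.1 ≤ dS I O r.1 / 4 then dS I O j else 0)
    (fun j => decide (I.d j i ≤ dS I O i / 4)) (3 / 4 * dS I O i) fun j hj => by
      by_cases h1 : I.d j i ≤ dS I O i / 4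
      · have h2 : ¬∃ r ∈ P, I.d j r.1 ≤ dS I O r.1 / 4 := by
          rintro ⟨r, hr, h2⟩
          obtain ⟨r1, r2, r3, r4⟩ := hP.1 r hr
          have a1 := hk r hr
          have a2 := h.tri r.1 j i (Or.inr r1) (Or.inl hj) (Or.inr hiF)
          have a3 := h.symm r.1 j (Or.inr r1) (Or.inl hj)
          have a4 := dS_le I i r2
          have a5 := h.tri i r.1 r.2 (Or.inr hiF) (Or.inr r1) (Or.inr (hO.2.1 _ r2))
          have a6 := h.symm r.1 i (Or.inr r1) (Or.inr hiF)
          linarith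
        obtain ⟨o', ho', e'⟩ := dS_mem I hO.1 j
        have a1 := dS_le I i ho'
        have a2 := h.tri i j o' (Or.inr hiF) (Or.inl hj) (Or.inr (hO.2.1 _ ho'))
        have a3 := h.symm i j (Or.inr hiF) (Or.inl hj)
        rw [if_neg h2, if_pos (decide_eq_true h1), if_pos ⟨(i, o), List.mem_cons_self, h1⟩]
        linarith
      · rw [if_neg (show ¬decide _ = true by simpa using h1), add_zero]
        simp only [List.mem_cons, exists_eq_or_imp, h1, false_or, le_refl]
  have h3 : ((i, o) :: P).length * a < W I O ((i, o) :: P) := by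
    have := hP.2.1
    simp only [List.length_cons]
    push_cast
    unfold W at this ⊢
    linarith
  refine ⟨(i, o), fun r hr => ?_, h3.le, fun _ => h3⟩
  rcases List.mem_cons.1 hr with rfl | hr
  exacts [⟨hiF, ho, e.symm, hl⟩, hP.1 r hr]

end LS1

theorem ls1S : LS1S := by
  intro I O t h hO ht
  have ht' : (0 : ℚ) < t := by exact_mod_cast ht
  have ha : 0 ≤ costL I O / t := div_nonneg (costL_nonneg h hO.1 hO.2.1) ht'.le
  have key : ∀ n, ∃ P, LS1.Inv I O (costL I O / t) P ∧ P.length ≤ n ∧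
      (P.length = n ∨ Sparse I O (keepF I P) (costL I O / t)) := fun n => by
    induction n with
    | zero => exact ⟨[], ⟨by simp, by simp [LS1.W], by simp⟩, le_rfl, Or.inl rfl⟩
    | succ n ih =>
      obtain ⟨P, h1, h2, h3⟩ := ih
      by_cases hS : Sparse I O (keepF I P) (costL I O / t)
      · exact ⟨P, h1, h2.trans n.le_succ, Or.inr hS⟩
      · obtain ⟨r, hr⟩ := LS1.step h hO ha h1 hS
        have e : (r :: P).length = n + 1 := by rw [List.length_cons, h3.resolve_right hS]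
        exact ⟨_, hr, e.le, Or.inl e⟩
  obtain ⟨P, h1, h2, h3⟩ := key t
  refine ⟨P, mem_subs.2 ⟨h2, fun r hr => ?_⟩, fun o ho => LS1.mem_keepF.2
    ⟨hO.2.1 o ho, fun r hr => (h1.1 r hr).2.2.1 ▸ dS_le I _ ho⟩, h3.resolve_left fun e => ?_⟩
  · obtain ⟨r1, r2, -⟩ := h1.1 r hr
    simp only [pairsF, List.mem_flatMap, List.mem_map]
    exact ⟨r.1, r1, r.2, hO.2.1 _ r2, rfl⟩
  · have h4 := h1.2.2 fun h0 => by rw [h0] at e; simp at e; omega
    have h5 : LS1.W I O P ≤ costL I O := List.sum_le_sum fun j hj => by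
      split_ifs
      exacts [le_rfl, dS_nonneg h hO.1 hO.2.1 (Or.inl hj)]
    rw [e, mul_div_cancel₀ _ ht'.ne'] at h4
    linarith

end Vale.Agent.P334
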