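import Vale.Agent.P334.Stmt

/-!
Few facilities are undetermined when no removal is cheap.
-/

namespace Vale.Agent.P334

open Vale.Agent.P049

namespace LS2

lemma mem_rem {T : List ℕ} {i x : ℕ} : x ∈ rem T i ↔ x ∈ T ∧ x ≠ i := by simp [rem]

lemma rem_ne {T : List ℕ} (hn : T.Nodup) (h2 : 2 ≤ T.length) (i : ℕ) : rem T i ≠ [] := by
  match T, hn, h2 with
  | a :: b :: T, hn, _ =>
    have hab : a ≠ b := by
      rintro rfl
      simp at hn
    by_cases h : a = i
    · exact List.ne_nil_of_mem (mem_rem.2 ⟨by simp, fun e => hab (h.trans e.symm)⟩ : b ∈ _)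
    · exact List.ne_nil_of_mem (mem_rem.2 ⟨by simp, h⟩ : a ∈ _)

lemma sum_ite (J : List ℕ) (p : ℕ → Prop) [DecidablePred p] (c : ℚ) :
    (J.map fun j => if p j then c else 0).sum = c * (J.countP fun j => decide (p j)) := by
  induction J with
  | nil => simp
  | cons a J ih => by_cases h : p a <;> simp [h, ih, mul_add, add_comm]

lemma sum_swap (U : Finset ℕ) (J : List ℕ) (f : ℕ → ℕ → ℚ) :
    ∑ i ∈ U, (J.map (f i)).sum = (J.map fun j => ∑ i ∈ U, f i j).sum := by
  induction J with
  | nil => simp
  | cons a J ih => simp [Finset.sum_add_distrib, ih]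

end LS2

open LS2

theorem ls2S : LS2S := by
  intro I O T a B t hW _ _ hT hn h2 hs ht hB hc
  by_contra hlt
  have hne : T ≠ [] := by
    rintro rfl
    simp at h2
  set σ : ℕ → ℕ := fun j => argmin (I.d j) T (T.headD 0)
  have hσ : ∀ j, σ j ∈ T := fun j => argmin_mem _ (headD_mem hne 0)
  have hd : ∀ j, dS I T j = I.d j (σ j) := fun j => rfl
  have h0 : ∀ j ∈ I.J, 0 ≤ dS I T j := fun j hj => dS_nonneg hW hne hT (Or.inl hj)
  set U := T.toFinset.filter fun i => sepL I T i / 12 < dS I O i
  have hU : t ≤ U.card := by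
    have : U.card = T.countP fun i => decide (sepL I T i / 12 < dS I O i) := by
      rw [List.countP_eq_length_filter, ← List.toFinset_card_of_nodup (hn.filter _),
        List.toFinset_filter]
      simp [U]
    omega
  have ht' : (0 : ℚ) < t := by exact_mod_cast ht
  obtain ⟨i, hi, hle⟩ := Finset.exists_le_of_sum_le (s := U) (Finset.card_pos.1 (by omega))
    (f := fun i => (I.J.map fun j => if σ j = i then dS I T j else 0).sum)
    (g := fun _ => costL I T / t) (by
      rw [sum_swap, Finset.sum_const, nsmul_eq_mul]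
      refine (List.sum_le_sum (g := dS I T) fun j hj => ?_).trans ?_
      · rw [Finset.sum_ite_eq]
        split_ifs
        exacts [le_rfl, h0 j hj]
      · rw [← mul_div_assoc, le_div_iff₀ ht', mul_comm]
        exact mul_le_mul_of_nonneg_right (by exact_mod_cast hU) (costL_nonneg hW hne hT))
  obtain ⟨hi, hu⟩ := Finset.mem_filter.1 hi
  rw [List.mem_toFinset] at hi
  obtain ⟨i', hi', e⟩ := dS_mem I (rem_ne hn h2 i) i
  have pi : Pt I i := Or.inr (hT i hi)
  have pi' : Pt I i' := Or.inr (hT i' (mem_rem.1 hi').1)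
  have hs0 := hW.nonneg _ _ pi pi'
  have e' : sepL I T i = I.d i i' := e
  have key : costL I (rem T i) ≤ (I.J.map fun j => dS I T j +
      ((if I.d j i ≤ dS I O i / 4 then 12 * dS I O i else 0) +
        48 * if σ j = i then dS I T j else 0)).sum := by
    refine List.sum_le_sum fun j hj => ?_
    have h1 := h0 j hj
    by_cases h : σ j = i
    · have h3 := dS_le I j hi'
      have h4 := hW.tri j i i' (Or.inl hj) pi pi'
      rw [if_pos h]
      rw [hd, h] at h1 ⊢
      split_ifs <;> linarith
    · have h3 := dS_le I j (mem_rem.2 ⟨hσ j, h⟩)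
      rw [if_neg h, hd]
      split_ifs <;> linarith
  rw [List.sum_map_add, List.sum_map_add, List.sum_map_mul_left, sum_ite] at key
  have h5 := hs i hi
  have h6 := hc i hi
  rw [mul_div_assoc] at hB
  unfold costL at *
  linarith

end Vale.Agent.P334
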