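import Vale.Agent.P334.LS2

/-!
The candidate for the right guess.
-/

namespace Vale.Agent.P334

open Vale.Agent.P049

namespace LS3

lemma sum_filter (J : List ℕ) (p : ℕ → Prop) [DecidablePred p] (g : ℕ → ℚ) :
    ((J.filter fun j => decide (p j)).map g).sum = (J.map fun j => if p j then g j else 0).sum := by
  induction J with
  | nil => simp
  | cons a J ih => by_cases h : p a <;> simp [h, ih]

end LS3

open LS2 LS3

theorem ls3S : LS3S := by
  intro I O T t hW ⟨hO, hOF, hOk⟩ hT hn hk hc ht
  have h2 : 2 ≤ T.length := by have := hW.k_pos; omega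
  have hne : T ≠ [] := by
    rintro rfl
    simp at h2
  have pT : ∀ i ∈ T, Pt I i := fun i hi => Or.inr (hT i hi)
  have pO : ∀ i ∈ O, Pt I i := fun i hi => Or.inr (hOF i hi)
  have hle : ∀ i, ∀ i' ∈ T, i' ≠ i → sepL I T i ≤ I.d i i' := fun i i' hi' h =>
    dS_le I i (mem_rem.2 ⟨hi', h⟩)
  have hpos : ∀ i ∈ T, 0 < sepL I T i := by
    intro i hi
    by_contra h
    obtain ⟨i', hi', e⟩ := dS_mem I (rem_ne hn h2 i) i
    have e' : sepL I T i = I.d i i' := e
    refine (hc i hi).not_ge (List.sum_le_sum fun j hj => ?_)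
    obtain ⟨x, hx, ex⟩ := dS_mem I hne j
    by_cases hxi : x = i
    · have h3 := dS_le I j hi'
      have h4 := hW.tri j i i' (Or.inl hj) (pT i hi) (pT i' (mem_rem.1 hi').1)
      rw [ex, hxi]
      linarith
    · exact ex ▸ dS_le I j (mem_rem.2 ⟨hx, hxi⟩)
  set R := T.filter fun i => decide (sepL I T i / 12 < dS I O i) with hR
  set D := T.filter fun i => !memB i R with hD
  have mD : ∀ i, i ∈ D ↔ i ∈ T ∧ dS I O i ≤ sepL I T i / 12 := fun i => by
    rw [hD, List.mem_filter, Bool.not_eq_true', ← Bool.not_eq_true, memB_iff, hR, List.mem_filter]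
    simp only [decide_eq_true_eq, not_and, not_lt]
    tauto
  set f : ℕ → ℕ := fun i => argmin (I.d i) O (O.headD 0)
  have hf : ∀ i, f i ∈ O := fun i => argmin_mem _ (headD_mem hO 0)
  have hfd : ∀ i ∈ D, I.d i (f i) ≤ sepL I T i / 12 := fun i hi => ((mD i).1 hi).2
  have hsep : ∀ i ∈ D, ∀ i' ∈ D, i ≠ i' →
      0 < sepL I T i ∧ sepL I T i ≤ I.d i i' ∧ sepL I T i' ≤ I.d i i' := fun i hi i' hi' h =>
    have a := ((mD i).1 hi).1
    have b := ((mD i').1 hi').1
    ⟨hpos i a, hle i i' b h.symm, (hle i' i a h).trans_eq (hW.symm _ _ (pT _ b) (pT _ a))⟩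
  have pD : ∀ i ∈ D, Pt I i := fun i hi => pT i ((mD i).1 hi).1
  have hinj : Set.InjOn f D.toFinset := by
    intro i hi i' hi' e
    rw [Finset.mem_coe, List.mem_toFinset] at hi hi'
    by_contra h
    obtain ⟨a, b, c⟩ := hsep i hi i' hi' h
    have h1 := hW.tri i (f i) i' (pD i hi) (pO _ (hf i)) (pD i' hi')
    have h3 := hfd i hi
    have h4 := hfd i' hi'
    rw [hW.symm _ _ (pD i' hi') (pO _ (hf i')), ← e] at h4
    linarith
  set V := (O.toFinset \ D.toFinset.image f).toList
  have mV : ∀ o, o ∈ V ↔ o ∈ O ∧ ∀ i ∈ D, f i ≠ o := fun o => by simp [V]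
  have hVO : ∀ o ∈ O, o ∈ V ∨ ∃ i ∈ D, f i = o := fun o ho => by
    by_contra h
    push Not at h
    exact h.1 ((mV o).2 ⟨ho, h.2⟩)
  have hlen : V.length + D.length ≤ I.k := by
    have a : D.toFinset.image f ⊆ O.toFinset := fun o ho => by
      obtain ⟨i, -, rfl⟩ := Finset.mem_image.1 ho
      exact List.mem_toFinset.2 (hf i)
    have b := Finset.card_sdiff_add_card_eq_card a
    rw [Finset.card_image_of_injOn hinj,
      List.toFinset_card_of_nodup (show D.Nodup from hn.filter _)] at b
    have c := List.toFinset_card_le O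
    rw [Finset.length_toList]
    omega
  have hRD : T.length = R.length + D.length := by
    rw [List.length_eq_length_filter_add fun i => decide (sepL I T i / 12 < dS I O i)]
    refine congrArg (R.length + List.length ·) (List.filter_congr fun i hi => congrArg _ ?_)
    rw [Bool.eq_iff_iff, memB_iff, hR, List.mem_filter]
    tauto
  rw [List.countP_eq_length_filter, ← hR] at ht
  have hr : ∀ i ∈ D, repl I T V i ∈ I.F ∧ I.d i (repl I T V i) ≤ sepL I T i / 12 := by
    intro i hi
    have a := ((mD i).1 hi).1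
    have : i ∈ I.F.filter fun f => decide (I.d i f ≤ sepL I T i / 12) :=
      List.mem_filter.2 ⟨hT i a, by
        rw [decide_eq_true_eq, hW.self i (pT i a)]
        linarith [hpos i a]⟩
    have b : repl I T V i ∈ _ := argmin_mem _ this
    exact ⟨(List.mem_filter.1 b).1, of_decide_eq_true (List.mem_filter.1 b).2⟩
  have mS : ∀ x, x ∈ candRV I T R V ↔ x ∈ V ∨ ∃ i ∈ D, repl I T V i = x := fun x => by
    rw [candRV, List.mem_append, List.mem_map]
  refine ⟨R, mem_subs.2 ⟨ht.le, fun x hx => (List.mem_filter.1 hx).1⟩, V,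
    mem_subs.2 ⟨by omega, fun x hx => hOF x ((mV x).1 hx).1⟩, ⟨?_, fun x hx => ?_, ?_⟩, ?_⟩
  · rcases hVO _ (hf 0) with h | ⟨i, hi, -⟩
    · exact List.ne_nil_of_mem ((mS _).2 (Or.inl h))
    · exact List.ne_nil_of_mem ((mS _).2 (Or.inr ⟨i, hi, rfl⟩))
  · rcases (mS x).1 hx with h | ⟨i, hi, rfl⟩
    · exact hOF x ((mV x).1 h).1
    · exact (hr i hi).1
  · rw [candRV, List.length_append, List.length_map]
    exact hlen
  have hone : ∀ j ∈ I.J, ∀ i ∈ D, I.d j i ≤ sepL I T i / 3 → ∀ g : ℕ → ℚ,
      ∑ i ∈ D.toFinset, (if I.d j i ≤ sepL I T i / 3 then g i else 0) = g i := by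
    intro j hj i hi h g
    rw [Finset.sum_eq_single i (fun i' hi' e => if_neg fun h' => ?_)
      (fun h' => absurd (List.mem_toFinset.2 hi) h'), if_pos h]
    rw [List.mem_toFinset] at hi'
    obtain ⟨a, b, c⟩ := hsep i hi i' hi' e.symm
    have h1 := hW.tri i j i' (pD i hi) (Or.inl hj) (pD i' hi')
    rw [hW.symm i j (pD i hi) (Or.inl hj)] at h1
    linarith
  have h0 : ∀ j ∈ I.J, 0 ≤ dS I O j := fun j hj => dS_nonneg hW hO hOF (Or.inl hj)
  classical
  calc costL I (candRV I T R V) ≤ (I.J.map fun j => (∑ i ∈ D.toFinset,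
        if I.d j i ≤ sepL I T i / 3 then dS I (repl I T V i :: V) j else 0) +
        if ∃ i ∈ D, I.d j i ≤ sepL I T i / 3 then 0 else 5 / 3 * dS I O j).sum := by
        refine List.sum_le_sum fun j hj => ?_
        split_ifs with h
        · obtain ⟨i, hi, h⟩ := h
          rw [hone j hj i hi h, add_zero]
          refine dS_mono I (by simp) (fun x hx => (mS x).2 ?_) j
          exact (List.mem_cons.1 hx).elim (fun e => Or.inr ⟨i, hi, e.symm⟩) Or.inl
        · push Not at h
          rw [Finset.sum_eq_zero fun i hi => if_neg (h i (List.mem_toFinset.1 hi)).not_ge, zero_add]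
          obtain ⟨o, ho, e⟩ := dS_mem I hO j
          have a := h0 j hj
          rcases hVO o ho with h1 | ⟨i, hi, rfl⟩
          · linarith [dS_le I j ((mS _).2 (Or.inl h1))]
          · have b := dS_le I j ((mS _).2 (Or.inr ⟨i, hi, rfl⟩))
            have c := hW.tri j i _ (Or.inl hj) (pD i hi) (Or.inr (hr i hi).1)
            have d := hW.tri j (f i) i (Or.inl hj) (pO _ ho) (pD i hi)
            rw [hW.symm _ _ (pO _ ho) (pD i hi)] at d
            linarith [h i hi, hfd i hi, (hr i hi).2]
    _ ≤ (I.J.map fun j => (∑ i ∈ D.toFinset, if I.d j i ≤ sepL I T i / 3 then dS I O j else 0) +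
        if ∃ i ∈ D, I.d j i ≤ sepL I T i / 3 then 0 else 5 / 3 * dS I O j).sum := by
        rw [List.sum_map_add, List.sum_map_add, ← sum_swap, ← sum_swap]
        refine add_le_add (Finset.sum_le_sum fun i hi => ?_) le_rfl
        rw [List.mem_toFinset] at hi
        refine le_trans ?_ (List.sum_le_sum
          (f := fun j => if I.d j i ≤ sepL I T i / 3 then dS I (f i :: V) j else 0) fun j hj => ?_)
        · rw [← sum_filter, ← sum_filter]
          exact argmin_le (fun f => ((I.J.filter fun j => decide (I.d j i ≤ sepL I T i / 3)).map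
            (dS I (f :: V))).sum) i (List.mem_filter.2 ⟨hOF _ (hf i), decide_eq_true (hfd i hi)⟩)
        split_ifs with h
        swap
        · rfl
        obtain ⟨o, ho, e⟩ := dS_mem I hO j
        rw [e]
        rcases hVO o ho with h1 | ⟨i', hi', rfl⟩
        · exact dS_le I j (List.mem_cons_of_mem _ h1)
        refine (dS_le I j List.mem_cons_self).trans ?_
        rcases eq_or_ne i i' with rfl | hii
        · rfl
        obtain ⟨a, b, c⟩ := hsep i hi i' hi' hii
        have d1 := hW.tri j i _ (Or.inl hj) (pD i hi) (pO _ (hf i))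
        have d2 := hW.tri i j i' (pD i hi) (Or.inl hj) (pD i' hi')
        have d3 := hW.tri j _ i' (Or.inl hj) (pO _ ho) (pD i' hi')
        rw [hW.symm i j (pD i hi) (Or.inl hj)] at d2
        rw [hW.symm _ _ (pO _ ho) (pD i' hi')] at d3
        linarith [hfd i hi, hfd i' hi']
    _ ≤ 5 / 3 * costL I O := by
        rw [costL, ← List.sum_map_mul_left]
        refine List.sum_le_sum fun j hj => ?_
        split_ifs with h
        · obtain ⟨i, hi, h⟩ := h
          rw [hone j hj i hi h fun _ => dS I O j]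
          linarith [h0 j hj]
        · push Not at h
          rw [Finset.sum_eq_zero fun i hi => if_neg (h i (List.mem_toFinset.1 hi)).not_ge, zero_add]

end Vale.Agent.P334
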