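import Vale.Agent.P334.Stmt

/-!
Running time of the reduction of Li and Svensson.
-/

namespace Vale.Agent.P334

open Vale.Agent.Lib.TM Vale.Agent.P049

attribute [local irreducible] CT

namespace LSCode

variable {α : Type} [Enc α] {e : ℕ} {I : α → Inst}

@[fun_prop]
theorem ct_withF {G : α → List ℕ} (hI : CT e I) (hG : CT e G) :
    CT e fun a => withF (I a) (G a) := by
  unfold withF; fun_prop

@[fun_prop]
theorem ct_keepF {P : α → List (ℕ × ℕ)} (hI : CT e I) (hP : CT e P) :
    CT e fun a => keepF (I a) (P a) := by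
  unfold keepF; fun_prop

@[fun_prop]
theorem ct_pairsF (hI : CT e I) : CT e fun a => pairsF (I a) := by
  unfold pairsF; fun_prop

@[fun_prop]
theorem ct_rem {T : α → List ℕ} {i : α → ℕ} (hT : CT e T) (hi : CT e i) :
    CT e fun a => rem (T a) (i a) := by
  unfold rem; fun_prop

@[fun_prop]
theorem ct_ded {T : α → List ℕ} (hT : CT e T) : CT e fun a => ded (T a) := by
  refine CT.foldl (g := fun _ s x => bif memB x s then s else x :: s)
    (G := fun p => sz p.2 + 1) (by fun_prop) (CT.const []) hT
    ((CT.snd (e := 0) CT.id).size.add (Bd.const 1)) fun a s y => ?_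
  cases memB y s <;> simp
  omega

@[fun_prop]
theorem ct_drop1 {T : α → List ℕ} (hI : CT e I) (hT : CT e T) :
    CT e fun a => drop1 (I a) (T a) := by
  unfold drop1; fun_prop

@[fun_prop]
theorem ct_drops (s : ℕ) {T : α → List ℕ} (hI : CT e I) (hT : CT e T) :
    CT e fun a => drops (I a) (T a) s := by
  induction s with
  | zero => exact hT
  | succ s ih => exact ct_drop1 hI ih

@[fun_prop]
theorem ct_sepL {T : α → List ℕ} {i : α → ℕ} (hI : CT e I) (hT : CT e T) (hi : CT e i) :
    CT e fun a => sepL (I a) (T a) (i a) := by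
  unfold sepL; fun_prop

@[fun_prop]
theorem ct_repl {T V : α → List ℕ} {i : α → ℕ} (hI : CT e I) (hT : CT e T) (hV : CT e V)
    (hi : CT e i) : CT e fun a => repl (I a) (T a) (V a) (i a) := by
  unfold repl; fun_prop

@[fun_prop]
theorem ct_candRV {T R V : α → List ℕ} (hI : CT e I) (hT : CT e T) (hR : CT e R) (hV : CT e V) :
    CT e fun a => candRV (I a) (T a) (R a) (V a) := by
  unfold candRV; fun_prop

@[fun_prop]
theorem ct_candsT (t : ℕ) {T : α → List ℕ} (hI : CT e I) (hT : CT e T) :
    CT e fun a => candsT t (I a) (T a) := by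
  unfold candsT; fun_prop

theorem ct_flatMap_const {β γ : Type} [Enc γ] {f : α → β → List γ}
    (hf : ∀ s, CT e fun a => f a s) (l : List β) : CT e fun a => l.flatMap (f a) := by
  induction l with
  | nil => exact CT.const []
  | cons s l ih => exact ((hf s).append ih).of_eq fun a => List.flatMap_cons.symm

@[fun_prop]
theorem ct_candsA (c t : ℕ) {T : α → List ℕ} (hI : CT e I) (hT : CT e T) :
    CT e fun a => candsA c t (I a) (T a) :=
  ct_flatMap_const (f := fun a s => candsT t (I a) (drops (I a) (ded (T a)) s))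
    (fun s => ct_candsT t hI (ct_drops s hI (ct_ded hT))) _

end LSCode

open LSCode in
theorem lsCodeS : LSCodeS := by
  intro c t A hA
  have h1 : CT 0 fun p : Inst × List (ℕ × ℕ) => A (withF p.1 (keepF p.1 p.2)) :=
    hA.comp (g := fun p : Inst × List (ℕ × ℕ) => withF p.1 (keepF p.1 p.2)) (by fun_prop)
  exact ct_best 0 CT.id (CT.flatMap
    (f := fun I P => candsA c t I (A (withF I (keepF I P))))
    (ct_candsA c t (CT.fst CT.id) h1) (ct_subs t (ct_pairsF CT.id)))

end Vale.Agent.P334
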