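import Vale.Agent.P334.Stmt

/-!
The final assembly.
-/

namespace Vale.Agent.P334

open Vale.Agent.Lib.TM Vale.Agent.Lib.PCP Vale.Agent.P049

namespace Main

lemma wf {I : Inst} (h : I.Valid) : WF I := by
  have hp : ∀ x, Pt I x → x < I.n := fun x hx => hx.elim (h.J_lt x) (h.F_lt x)
  refine ⟨fun x hx => h.d_self x (hp x hx), fun x y hx hy => ?_,
    fun x y hx hy => h.d_symm x (hp x hx) y (hp y hy),
    fun x y z hx hy hz => h.d_tri x (hp x hx) y (hp y hy) z (hp z hz), fun e => ?_, h.one_le_k⟩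
  · by_cases e : x = y
    · rw [e, h.d_self y (hp y hy)]
    · exact (h.d_pos x (hp x hx) y (hp y hy) e).le
  · have h1 := h.k_le
    have h2 := h.one_le_k
    rw [e, List.length_nil] at h1
    omega

lemma inf_eq (I : Inst) {S : List ℕ} {T : Finset ℕ} (h : T.Nonempty) (e : ∀ x, x ∈ T ↔ x ∈ S)
    (j : ℕ) : T.inf' h (I.d j) = dS I S j := by
  have hS : S ≠ [] := by
    obtain ⟨x, hx⟩ := h
    exact List.ne_nil_of_mem ((e x).1 hx)
  refine le_antisymm ?_ (Finset.le_inf' _ _ fun x hx => dS_le I j ((e x).1 hx))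
  obtain ⟨i, hi, e'⟩ := dS_mem I hS j
  rw [e']
  exact Finset.inf'_le _ ((e i).2 hi)

lemma cost_eq {I : Inst} (hI : I.Valid) {S : List ℕ} {T : Finset ℕ} (h : T.Nonempty)
    (e : ∀ x, x ∈ T ↔ x ∈ S) : I.cost T h = costL I S := by
  unfold Inst.cost costL
  rw [← List.sum_toFinset _ hI.J_nodup]
  exact Finset.sum_congr rfl fun j _ => inf_eq I h e j

lemma final {α : ℝ} {A : Inst → List ℕ} (hA : PApprox α 0 A) {I : Inst} (hI : I.Valid) :
    ∃ h : (A I).toFinset.Nonempty, I.Feasible (A I).toFinset ∧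
      ∀ (O : Finset ℕ) (hO : O.Nonempty), I.Feasible O →
        (I.cost (A I).toFinset h : ℝ) ≤ α * I.cost O hO := by
  obtain ⟨⟨h1, h2, h3⟩, h4⟩ := hA I (wf hI)
  have hne : (A I).toFinset.Nonempty := by
    obtain ⟨x, hx⟩ := List.exists_mem_of_ne_nil _ h1
    exact ⟨x, List.mem_toFinset.2 hx⟩
  refine ⟨hne, ⟨fun x hx => List.mem_toFinset.2 (h2 x (List.mem_toFinset.1 hx)),
    hne.card_pos, (List.toFinset_card_le _).trans h3⟩, fun O hO hF => ?_⟩
  rw [cost_eq hI hne fun _ => List.mem_toFinset, cost_eq hI hO fun _ => Finset.mem_toList.symm]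
  refine h4 _ ⟨?_, fun i hi => List.mem_toFinset.1 (hF.1 (Finset.mem_toList.1 hi)), ?_⟩
  · obtain ⟨x, hx⟩ := hO
    exact List.ne_nil_of_mem (Finset.mem_toList.2 hx)
  · rw [Finset.length_toList]
    exact hF.2.2

lemma mono {α β : ℝ} {c : ℕ} {A : Inst → List ℕ} (h : α ≤ β) (hA : PApprox α c A) :
    PApprox β c A := fun I hI => ⟨(hA I hI).1, fun O hO => ((hA I hI).2 O hO).trans
  (mul_le_mul_of_nonneg_right h (by exact_mod_cast costL_nonneg hI hO.1 hO.2.1))⟩

end Main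

theorem mainS (h1 : LSSpecS) (h2 : LSCodeS) (h3 : RoundS) (h4 : RoundCodeS) : MainS := by
  intro ε hε
  set δ := min ε 1 with hδ
  have d0 : 0 < δ := lt_min hε one_pos
  have d1 : δ ≤ 1 := min_le_right _ _
  have d2 : δ ≤ ε := min_le_left _ _
  obtain ⟨q, hq⟩ := exists_nat_ge (max 2000 (60 / δ))
  have q1 : (2000 : ℝ) ≤ q := (le_max_left _ _).trans hq
  have q2 : 60 / δ ≤ q := (le_max_right _ _).trans hq
  have q0 : (0 : ℝ) < q := by linarith
  have q3 : 30 / (q : ℝ) ≤ δ / 2 := by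
    rw [div_le_iff₀ d0] at q2
    rw [div_le_iff₀ q0]
    linarith
  have q4 : 30 / (q : ℝ) ≤ 3 / 200 := by
    rw [div_le_iff₀ q0]
    linarith
  have q5 : 0 ≤ 30 / (q : ℝ) := by positivity
  have e1 : 2 / 3 ≤ 2 / Real.exp 1 :=
    div_le_div_of_nonneg_left (by norm_num) (Real.exp_pos 1)
      (Real.exp_one_lt_d9.le.trans (by norm_num))
  have e2 : 2 / Real.exp 1 ≤ 2 / (5 / 2) :=
    div_le_div_of_nonneg_left (by norm_num) (by norm_num)
      (le_trans (by norm_num) Real.exp_one_gt_d9.le)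
  obtain ⟨t, ht⟩ := exists_nat_ge (160 * ((cq q : ℝ) + 1) / (δ / 2))
  rw [div_le_iff₀ (half_pos d0), mul_comm (t : ℝ)] at ht
  have hA := h1 _ (δ / 2) (cq q) t (pseudo q) (by linarith) (by norm_num at e2 ⊢; linarith)
    (half_pos d0) (by linarith) ht (h3 q (by exact_mod_cast q1))
  exact ⟨lsAlg (cq q) t (pseudo q), (h2 _ _ _ (h4 q)).polyTime,
    fun I hI => Main.final (Main.mono (by linarith) hA) hI⟩

end Vale.Agent.P334
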