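import Vale.Agent.P334.RuleDefs

/-!
Comparison of the perturbed and the ideal drift of one victim.
-/

namespace Vale.Agent.P334

open Finset

namespace Pert

lemma ins {ε R di e T : ℝ} (h0 : 0 < ε) (h1 : ε ≤ 1 / 2) (T0 : 0 ≤ T) (T1 : T ≤ 1) (e0 : 0 ≤ e)
    (d0 : 0 ≤ di) (R0 : 0 ≤ R) (R2 : R ≤ 2) :
    -((1 - ε) * max (R * di - (1 + 2 * ε) * e) 0) + (1 + ε) * T * max ((1 + 2 * ε) * e - R * di) 0
      ≤ -((1 - T) * max (e - R * di) 0) + (1 + 6 * ε) * e + (2 * ε - R) * di := by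
  have a0 : 0 ≤ R * di := mul_nonneg R0 d0
  have a1 : 0 ≤ ε * e := mul_nonneg h0.le e0
  have a2 : R * di ≤ 2 * di := mul_le_mul_of_nonneg_right R2 d0
  have a3 : ε * (R * di) ≤ ε * (2 * di) := mul_le_mul_of_nonneg_left a2 h0.le
  have a4 : ε * (ε * e) ≤ 1 / 2 * (ε * e) := mul_le_mul_of_nonneg_right h1 a1
  have b1 : max (e - R * di) 0 - (e - R * di) ≤ max (R * di - (1 + 2 * ε) * e) 0 + 2 * (ε * e) := by
    have := le_max_left (R * di - (1 + 2 * ε) * e) 0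
    have := le_max_right (R * di - (1 + 2 * ε) * e) 0
    rcases le_total (e - R * di) 0 with h | h
    · rw [max_eq_right h]
      linarith
    · rw [max_eq_left h]
      linarith
  have b2 : max (R * di - (1 + 2 * ε) * e) 0 ≤ R * di := max_le (by linarith) a0
  have b3 : max ((1 + 2 * ε) * e - R * di) 0 ≤ max (e - R * di) 0 + 2 * (ε * e) :=
    max_le (by linarith [le_max_left (e - R * di) 0]) (by linarith [le_max_right (e - R * di) 0])
  have b4 : max ((1 + 2 * ε) * e - R * di) 0 ≤ (1 + 2 * ε) * e := max_le (by linarith) (by linarith)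
  have c2 := mul_le_mul_of_nonneg_left b2 h0.le
  have c4 := mul_le_mul_of_nonneg_left b4 h0.le
  have c5 : (1 + ε) * max ((1 + 2 * ε) * e - R * di) 0 ≤ max (e - R * di) 0 + 4 * (ε * e) := by
    linarith
  have c6 := mul_le_mul_of_nonneg_left c5 T0
  have c7 : T * (ε * e) ≤ 1 * (ε * e) := mul_le_mul_of_nonneg_right T1 a1
  linarith

lemma sig {m : ℝ} (h0 : 0 < m) (h1 : m ≤ 1) :
    m * (1 + 2 * th m) ≤ 2 ∧ m * (m * (1 + 2 * th m)) ≤ 1 := by
  obtain ⟨v, rfl⟩ : ∃ v, m = 1 - v := ⟨1 - m, by ring⟩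
  have v0 : 0 ≤ v := by linarith
  have v1 : v ≤ 1 := by linarith
  have v2 : 0 ≤ v ^ 2 := sq_nonneg v
  have v3 : v ^ 3 ≤ v ^ 2 := by nlinarith
  have v4 : v ^ 4 ≤ v ^ 2 := by nlinarith
  have v5 : v ^ 2 ≤ v := by nlinarith
  have v6 : 0 ≤ v ^ 3 := by positivity
  unfold th
  constructor <;> nlinarith

lemma out {ε m R r A di w lam x T : ℝ} (h0 : 0 < ε) (h1 : ε ≤ 1 / 2) (T0 : 0 ≤ T) (T1 : T ≤ 1)
    (m0 : 0 < m) (m1 : m ≤ 1) (d0 : 0 ≤ di) (A0 : 0 ≤ A) (R2 : R ≤ 2) (r1 : r ≤ 1)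
    (hx : 0 < T → x < lam) :
    T * (-((1 - ε) * gm (2 * ε) m * max (w - x) 0 / m) + (1 + 4 * ε) * (di + min w x) -
      (1 - ε) * (R * di + r * A) + (1 + ε) * (r * (di + A) / 2 * T)) ≤
    T * (r * (di + A) / 2 * T - m * (1 + 2 * th m) * max (min w lam - x) 0) +
      T * (min w lam - (R - 1) * di - r * A + ε * (4 * min w lam + 7 * (di + A))) := by
  rcases T0.eq_or_lt with rfl | hT
  · simp
  rw [← mul_add]
  refine mul_le_mul_of_nonneg_left ?_ T0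
  have e1 : min w x = min w lam - max (min w lam - x) 0 := by
    have := hx hT
    rcases le_total w x with h | h
    · rw [min_eq_left h, min_eq_left (by linarith), max_eq_right (by linarith), sub_zero]
    · rw [min_eq_right h, max_eq_left (sub_nonneg.2 (le_min h this.le))]
      ring
  obtain ⟨p, hp⟩ : ∃ p, p = max (min w lam - x) 0 := ⟨_, rfl⟩
  have p0 : 0 ≤ p := hp ▸ le_max_right _ _
  have p1 : p ≤ max (w - x) 0 := hp ▸ max_le_max (by linarith [min_le_left w lam]) le_rfl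
  obtain ⟨s1, s2⟩ := sig m0 m1
  obtain ⟨σ, hσ⟩ : ∃ σ, σ = m * (1 + 2 * th m) := ⟨_, rfl⟩
  rw [e1, ← hp, ← hσ]
  rw [← hσ] at s1 s2
  have g1 : 1 - m ≤ gm (2 * ε) m :=
    le_mul_of_one_le_right (by linarith) (le_add_of_nonneg_right (by positivity))
  have g2 : (1 - ε) * (σ - 1) * p ≤ (1 - ε) * gm (2 * ε) m * max (w - x) 0 / m := by
    rw [le_div_iff₀ m0]
    have a1 : (σ - 1) * m ≤ gm (2 * ε) m := by linarith
    have a2 : (σ - 1) * m * p ≤ gm (2 * ε) m * max (w - x) 0 :=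
      (mul_le_mul_of_nonneg_right a1 p0).trans (mul_le_mul_of_nonneg_left p1 (by linarith))
    have a3 := mul_le_mul_of_nonneg_left a2 (by linarith : 0 ≤ 1 - ε)
    linarith
  have k1 : ε * p * σ ≤ ε * p * 2 := mul_le_mul_of_nonneg_left s1 (by positivity)
  have k2 : ε * di * R ≤ ε * di * 2 := mul_le_mul_of_nonneg_left R2 (by positivity)
  have k3 : ε * A * r ≤ ε * A * 1 := mul_le_mul_of_nonneg_left r1 (by positivity)
  have k4 : ε * (di + A) * (r * T) ≤ ε * (di + A) * 1 :=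
    mul_le_mul_of_nonneg_left (mul_le_one₀ r1 T0 T1) (by positivity)
  have k5 : 0 ≤ ε * p := by positivity
  have k6 : 0 ≤ ε * di := by positivity
  have k7 : 0 ≤ ε * A := by positivity
  linarith

lemma Tf_pos {lam xi x : ℝ} (h : xi ≤ lam) (hT : 0 < Tf lam xi x) : x < lam := by
  by_contra hx
  rw [not_lt] at hx
  rw [Tf, max_eq_right (sub_nonpos.2 hx), max_eq_right (sub_nonpos.2 (h.trans hx))] at hT
  simp at hT

lemma one_sub_Tf {lam xi x : ℝ} (h : 0 < lam) (hx : 0 ≤ x) :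
    (1 - Tf lam xi x) * lam ≤ 3 / 2 * x := by
  obtain ⟨h1, h2, -, -, -, h6, -⟩ := g_factsR
  rw [Tf]
  rcases min_choice (1 : ℝ)
    (((g0 : ℝ) * max (lam - x) 0 + (g1 : ℝ) * max (xi - x) 0) / lam) with e | e <;> rw [e]
  · linarith
  · rw [sub_mul, div_mul_cancel₀ _ h.ne']
    have a1 := mul_le_mul_of_nonneg_left (le_max_left (lam - x) 0) (by linarith : (0 : ℝ) ≤ g0)
    have a2 := mul_nonneg h6 (le_max_right (xi - x) 0)
    have a3 := mul_le_mul_of_nonneg_right h1 h.le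
    have a4 := mul_le_mul_of_nonneg_right h2 hx
    linarith

/-- the remaining term -/
lemma rest {η ε di X w lam Z : ℝ} (η0 : 0 < η) (η1 : η ≤ 1 / 2000)
    (ε1 : ε ≤ η ^ 2 / 100000) (d0 : 0 ≤ di) (dX : di ≤ X) (w0 : 0 < w)
    (hl : lam ≤ (1 - η / 100) * (w + 2 * di)) (Z0 : 0 ≤ Z) (Z1 : Z ≤ 1) :
    Z * (-(w - min w lam) + 6 * ε * w) ≤ 24 / 1000 * (η * X) := by
  have X0 : 0 ≤ η * X := mul_nonneg η0.le (d0.trans dX)
  have a0 : ε * w ≤ η ^ 2 / 100000 * w := mul_le_mul_of_nonneg_right ε1 w0.le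
  have a1 : 0 < η * w := mul_pos η0 w0
  rcases le_total (η * w) (400 * X) with h | h
  · have a2 : η * (η * w) ≤ η * (400 * X) := mul_le_mul_of_nonneg_left h η0.le
    have a3 : -(w - min w lam) + 6 * ε * w ≤ 24 / 1000 * (η * X) := by
      linarith [min_le_left w lam]
    exact (mul_le_mul_of_nonneg_left a3 Z0).trans (mul_le_of_le_one_left (by linarith) Z1)
  · have a2 : η * (η * w) ≤ 1 / 2000 * (η * w) := mul_le_mul_of_nonneg_right η1 a1.le
    have a3 : 0 ≤ η * di := mul_nonneg η0.le d0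
    have a4 : -(w - min w lam) + 6 * ε * w ≤ 0 := by linarith [min_le_right w lam]
    exact (mul_nonpos_of_nonneg_of_nonpos Z0 a4).trans (by linarith)

/-- the distance part -/
lemma dist {η ε δ Δ m di X w lam τ Ho : ℝ} (η0 : 0 < η) (η1 : η ≤ 1 / 2000) (ε0 : 0 < ε)
    (ε1 : ε ≤ η ^ 2 / 100000) (m0 : 0 < m) (m1 : m ≤ 1) (d0 : 0 ≤ di) (dX : di ≤ X)
    (w0 : 0 < w) (wΔ : w + di ≤ Δ) (l0 : 0 < lam) (δ0 : 0 ≤ δ) (hδ : δ * Δ ≤ η * di / 200)
    (hl : lam ≤ (1 - η / 100) * (w + 2 * di)) (τ0 : 0 ≤ τ) (τ1 : τ ≤ m)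
    (τ2 : τ * lam ≤ 3 / 2 * X) (H0 : 0 ≤ Ho) (H1 : Ho ≤ 1 - m + τ)
    (hc : 1 - m + τ - Ho ≤ 2 * δ ∨ w ≤ (1 + η / 50) * lam) :
    (1 - m + τ - Ho - (1 - m)) * (w - min w lam) + (w + di) * (-((1 - m) * (2 * ε) * m) +
      ε * gm (2 * ε) m * (1 - m + τ) + (1 - m + τ - Ho) * (2 * ε * (2 * m - 1))) +
      4 * ε * Ho * min w lam ≤ 54 / 1000 * (η * X) + 11 * (ε * X) := by
  have X0 : 0 ≤ X := d0.trans dX
  have ε2 : ε ≤ 1 / 2 := by nlinarith
  obtain ⟨v, hv⟩ : ∃ v, v = min w lam := ⟨_, rfl⟩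
  have v0 : 0 ≤ v := hv ▸ le_min w0.le l0.le
  have v1 : v ≤ w := hv ▸ min_le_left _ _
  have v2 : v ≤ lam := hv ▸ min_le_right _ _
  have D0 : 0 ≤ w + di := by linarith
  have n0 : 0 ≤ 1 - m := by linarith
  have εX : 0 ≤ ε * X := by positivity
  have ηX : 0 ≤ η * X := by positivity
  have εd : ε * di ≤ ε * X := mul_le_mul_of_nonneg_left dX ε0.le
  have ηd : η * di ≤ η * X := mul_le_mul_of_nonneg_left dX η0.le
  have εm : 2 * ε * m ≤ 1 := mul_le_one₀ (by linarith) m0.le m1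
  have εm0 : 0 ≤ 2 * ε * m := by positivity
  have c1 : 2 * ε * (2 * m - 1) ≤ 2 * ε := mul_le_of_le_one_right (by linarith) (by linarith)
  have c2 : -(2 * ε) ≤ 2 * ε * (2 * m - 1) := by linarith
  rcases hc with hc | hc
  · have R := rest η0 η1 ε1 d0 dX w0 hl n0 (by linarith)
    rw [← hv] at R ⊢
    obtain ⟨sl, hs⟩ : ∃ sl, sl = 1 - m + τ - Ho := ⟨_, rfl⟩
    rw [← hs] at hc ⊢
    have s0 : 0 ≤ sl := by linarith
    have a1 : sl * (w - v) ≤ sl * (w + di) := mul_le_mul_of_nonneg_left (by linarith) s0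
    have a2 : sl * (w + di) * (2 * ε * (2 * m - 1)) ≤ sl * (w + di) * 1 :=
      mul_le_mul_of_nonneg_left (by linarith) (mul_nonneg s0 D0)
    have a3 : sl * (w + di) ≤ 2 * δ * Δ := mul_le_mul hc wΔ D0 (by linarith)
    have a4 : ε * (1 + 2 * ε * m) * (1 - m + τ) ≤ ε * (1 + 2 * ε * m) * 1 :=
      mul_le_mul_of_nonneg_left (by linarith) (by positivity)
    have a5 : ε * (2 * ε * m) ≤ 1 * (2 * ε * m) := mul_le_mul_of_nonneg_right (by linarith) εm0
    have a6 : (1 - m) * (w + di) * (ε * (1 + 2 * ε * m) * (1 - m + τ) - 2 * ε * m) ≤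
        (1 - m) * (w + di) * ε := mul_le_mul_of_nonneg_left (by linarith) (mul_nonneg n0 D0)
    have a7 : Ho * v ≤ (1 - m + τ) * v := mul_le_mul_of_nonneg_right H1 v0
    have a8 : τ * v ≤ τ * lam := mul_le_mul_of_nonneg_left v2 τ0
    have a9 : (1 - m) * v ≤ (1 - m) * w := mul_le_mul_of_nonneg_left v1 n0
    have a10 : ε * (Ho * v) ≤ ε * ((1 - m) * w + 3 / 2 * X) :=
      mul_le_mul_of_nonneg_left (by linarith) ε0.le
    have a11 : (1 - m) * (ε * di) ≤ 1 * (ε * di) :=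
      mul_le_mul_of_nonneg_right (by linarith) (by positivity)
    have a12 : 0 ≤ (1 - m) * (ε * w) := by positivity
    unfold gm
    linarith
  · have R := rest η0 η1 ε1 d0 dX w0 hl H0 (by linarith)
    have v3 : w - min w lam ≤ η / 50 * lam := by
      have : 0 ≤ η / 50 * lam := by positivity
      rcases min_choice w lam with e | e <;> rw [e] <;> linarith
    rw [← hv] at R v3 ⊢
    have a1 : τ * (w - v) ≤ τ * (η / 50 * lam) := mul_le_mul_of_nonneg_left v3 τ0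
    have a2 : η * (τ * lam) ≤ η * (3 / 2 * X) := mul_le_mul_of_nonneg_left τ2 η0.le
    have a3 : τ * w ≤ τ * ((1 + η / 50) * lam) := mul_le_mul_of_nonneg_left hc τ0
    have a4 : τ * di ≤ 1 * di := mul_le_mul_of_nonneg_right (by linarith) d0
    have a5 : η * X ≤ 1 / 2000 * X := mul_le_mul_of_nonneg_right η1 X0
    have a6 : ε * (τ * (w + di)) ≤ ε * (3 * X) := mul_le_mul_of_nonneg_left (by linarith) ε0.le
    have g1 : gm (2 * ε) m ≤ 1 := by
      unfold gm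
      nlinarith [mul_le_mul_of_nonneg_right (by linarith : 2 * ε ≤ 1) m0.le]
    have a7 : ε * gm (2 * ε) m ≤ ε * 1 := mul_le_mul_of_nonneg_left g1 ε0.le
    have a8 : τ * (w + di) * (ε * gm (2 * ε) m + 2 * ε * (2 * m - 1)) ≤ τ * (w + di) * (3 * ε) :=
      mul_le_mul_of_nonneg_left (by linarith) (mul_nonneg τ0 D0)
    have a9 : Ho * (w + di) * (-(2 * ε)) ≤ Ho * (w + di) * (2 * ε * (2 * m - 1)) :=
      mul_le_mul_of_nonneg_left c2 (mul_nonneg H0 D0)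
    have a10 : (1 - m) ^ 2 * (w + di) * ε * (2 * ε * m) ≤ (1 - m) ^ 2 * (w + di) * ε * 1 :=
      mul_le_mul_of_nonneg_left εm (by positivity)
    have a11 : Ho * (ε * di) ≤ 1 * (ε * di) :=
      mul_le_mul_of_nonneg_right (by linarith) (by positivity)
    have a12 : ε * Ho * v ≤ ε * Ho * w := mul_le_mul_of_nonneg_left v1 (by positivity)
    have a13 : (w + di) * (1 - m) * (ε * gm (2 * ε) m) =
        (1 - m) ^ 2 * (w + di) * ε * (1 + 2 * ε * m) := by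
      unfold gm
      ring
    linarith

/-- the final count -/
lemma fin {η ε η1 δ Δ m R r A di w v lam τ Ho Si So Vi Vo : ℝ} (η0 : 0 < η) (η2 : η ≤ 1 / 2000)
    (ε0 : 0 < ε) (ε1 : ε ≤ η ^ 2 / 100000) (h2 : η1 ≤ η / 8) (δ0 : 0 ≤ δ) (m0 : 0 < m)
    (m1 : m ≤ 1) (d0 : 0 ≤ di) (A0 : 0 ≤ A) (lΔ : lam ≤ Δ) (hδ : δ * Δ ≤ η * di / 200)
    (H1 : Ho ≤ 1)
    (K : (1 - m + τ - Ho - (1 - m)) * (w - v) + (w + di) * (-((1 - m) * (2 * ε) * m) +
      ε * gm (2 * ε) m * (1 - m + τ) + (1 - m + τ - Ho) * (2 * ε * (2 * m - 1))) +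
      4 * ε * Ho * v ≤ 54 / 1000 * (η * (di + A)) + 11 * (ε * (di + A)))
    (k1 : Si ≤ Vi + ((v - (R - 1) * di - r * A) * (m - τ) + (2 + 6 * ε) * (m * A) +
      ((2 * ε - R) * di - v + di) * m))
    (k2 : So ≤ Vo + (v - (R - 1) * di - r * A + ε * (4 * v + 7 * (di + A))) * Ho) :
    -(gm (2 * ε) m * (w + di)) + ε * gm (2 * ε) m * (w + di) * (1 - (m - τ)) + gm (2 * ε) m * A +
      Si + So + (1 - (m - τ + Ho)) * ((1 + 2 * ε * (2 * m - 1)) * (w + di) - R * di - r * A) +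
      η1 * A ≤ Vi + Vo + (A * (1 - r + m) + di * (2 * m - (1 + m) * R)) + η / 2 * (di + A) -
      10 * δ * lam := by
  have X0 : 0 ≤ di + A := by linarith
  have εA : 0 ≤ ε * A := by positivity
  have εd : 0 ≤ ε * di := by positivity
  have ηd : 0 ≤ η * di := by positivity
  have ηA : 0 ≤ η * A := by positivity
  have b1 : gm (2 * ε) m * A = (1 - m) * A + 2 * ((1 - m) * m) * (ε * A) := by
    unfold gm
    ring
  have b2 : (1 - m) * m * (ε * A) ≤ 1 * (ε * A) :=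
    mul_le_mul_of_nonneg_right (mul_le_one₀ (by linarith) m0.le m1) εA
  have b3 : m * (ε * A) ≤ 1 * (ε * A) := mul_le_mul_of_nonneg_right m1 εA
  have b4 : m * (ε * di) ≤ 1 * (ε * di) := mul_le_mul_of_nonneg_right m1 εd
  have b5 : Ho * (ε * (di + A)) ≤ 1 * (ε * (di + A)) :=
    mul_le_mul_of_nonneg_right (by linarith) (by positivity)
  have b6 : η1 * A ≤ η / 8 * A := mul_le_mul_of_nonneg_right h2 A0
  have b7 : δ * lam ≤ δ * Δ := mul_le_mul_of_nonneg_left lΔ δ0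
  have b8 : ε * (di + A) ≤ η / 1000 * (di + A) :=
    mul_le_mul_of_nonneg_right (by nlinarith) X0
  have b9 : gm (2 * ε) m * (w + di) = (1 - m) * (w + di) + (w + di) * ((1 - m) * (2 * ε) * m) := by
    unfold gm
    ring
  linarith

end Pert

theorem pertS : PertS := by
  intro ι s η ε η1 δ Δ m R r A di D lam xi y u d x η0 η2 ε0 ε1 h1 h2 δ0 hs hm m0 m1 hA d0 dD DΔ
    R0 R2 r0 r1 l0 lΔ x0 xl hδ hl hy hc
  have ε2 : ε ≤ 1 / 2 := by nlinarith
  have A0 : 0 ≤ A := by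
    refine nonneg_of_mul_nonneg_right ?_ m0
    rw [hA]
    exact sum_nonneg fun e he => mul_nonneg (hs e he).1 (hs e he).2.2.1
  obtain ⟨T, hT⟩ : ∃ T : ι → ℝ, T = fun e => Tf lam xi (x e) := ⟨_, rfl⟩
  have T0 : ∀ e, 0 ≤ T e := fun e => hT ▸ Tf_nonneg l0.le _ _
  have T1 : ∀ e, T e ≤ 1 := fun e => hT ▸ Tf_le_one _ _ _
  have hTe : ∀ e, Tf lam xi (x e) = T e := fun e => by rw [hT]
  simp only [hTe] at hy hc
  rw [← hT]
  obtain ⟨w, rfl⟩ : ∃ w, D = w + di := ⟨D - di, by ring⟩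
  have ew : w + di - di = w := by ring
  have w0 : 0 < w := by linarith
  obtain ⟨τ, hτ⟩ : ∃ τ, τ = ∑ e ∈ s, u e * (1 - T e) := ⟨_, rfl⟩
  obtain ⟨Ho, hH⟩ : ∃ Ho, Ho = ∑ e ∈ s, (y e - u e) * T e := ⟨_, rfl⟩
  have e1 : ∑ e ∈ s, u e * T e = m - τ := by
    rw [hm, hτ, ← sum_sub_distrib]
    exact sum_congr rfl fun e _ => by ring
  have e2 : ∑ e ∈ s, y e * T e = m - τ + Ho := by
    rw [← e1, hH, ← sum_add_distrib]
    exact sum_congr rfl fun e _ => by ring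
  have τ0 : 0 ≤ τ := hτ ▸ sum_nonneg fun e he => mul_nonneg (hs e he).1 (sub_nonneg.2 (T1 e))
  have τ1 : τ ≤ m := by
    have := sum_nonneg fun e (he : e ∈ s) => mul_nonneg (hs e he).1 (T0 e)
    linarith
  have τ2 : τ * lam ≤ 3 / 2 * (di + A) := by
    have a1 : τ * lam ≤ ∑ e ∈ s, (3 / 2 * di * u e + 3 / 2 * (u e * d e)) := by
      rw [hτ, sum_mul]
      refine sum_le_sum fun e he => ?_
      obtain ⟨b1, -, -, b4, b5⟩ := hs e he
      have b6 := Pert.one_sub_Tf (xi := xi) l0 b4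
      rw [hTe] at b6
      have b7 : u e * ((1 - T e) * lam) ≤ u e * (3 / 2 * (di + d e)) :=
        mul_le_mul_of_nonneg_left (by linarith) b1
      linarith
    rw [sum_add_distrib, ← mul_sum, ← mul_sum, ← hm, ← hA] at a1
    have a2 : m * (di + A) ≤ 1 * (di + A) := mul_le_mul_of_nonneg_right m1 (by linarith)
    linarith
  have H0 : 0 ≤ Ho := hH ▸ sum_nonneg fun e he => mul_nonneg (sub_nonneg.2 (hs e he).2.1) (T0 e)
  rw [e2] at hy hc
  rw [ew] at hc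
  have K := Pert.dist η0 η2 ε0 ε1 m0 m1 d0 (le_add_of_nonneg_right A0) w0 DΔ l0 δ0 hδ
    (by linarith) τ0 τ1 τ2 H0 (by linarith) (hc.imp_left fun h => by linarith)
  unfold Vp V0
  rw [e1, e2, ew]
  obtain ⟨v, hv⟩ : ∃ v, v = min w lam := ⟨_, rfl⟩
  have k1 : ∑ e ∈ s, u e * (-((1 - ε) * max (R * di - (1 + 2 * ε) * d e) 0) +
      (1 + ε) * T e * max ((1 + 2 * ε) * d e - R * di) 0) ≤
      ∑ e ∈ s, (u e * (v - di - d e - (v - (R - 1) * di - r * A) * T e -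
        (1 - T e) * max (d e - R * di) 0) + ((v - (R - 1) * di - r * A) * (u e * T e) +
        (2 + 6 * ε) * (u e * d e) + ((2 * ε - R) * di - v + di) * u e)) := by
    refine sum_le_sum fun e he => ?_
    have := mul_le_mul_of_nonneg_left
      (Pert.ins ε0 ε2 (T0 e) (T1 e) (hs e he).2.2.1 d0 R0 R2) (hs e he).1
    linarith
  rw [sum_add_distrib, sum_add_distrib, sum_add_distrib, ← mul_sum, ← mul_sum, ← mul_sum, e1,
    ← hA, ← hm] at k1
  have k2 : ∑ e ∈ s, (y e - u e) * (T e * (-((1 - ε) * gm (2 * ε) m * max (w - x e) 0 / m) +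
      (1 + 4 * ε) * (di + min w (x e)) - (1 - ε) * (R * di + r * A) +
      (1 + ε) * (r * (di + A) / 2 * T e))) ≤
      ∑ e ∈ s, ((y e - u e) * (T e * (r * (di + A) / 2 * T e -
        m * (1 + 2 * th m) * max (v - x e) 0)) +
        (v - (R - 1) * di - r * A + ε * (4 * v + 7 * (di + A))) * ((y e - u e) * T e)) := by
    refine sum_le_sum fun e he => ?_
    have := mul_le_mul_of_nonneg_left
      (Pert.out (w := w) ε0 ε2 (T0 e) (T1 e) m0 m1 d0 A0 R2 r1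
        fun h => Pert.Tf_pos xl (hTe e ▸ h)) (sub_nonneg.2 (hs e he).2.1)
    rw [← hv] at this
    linarith
  rw [sum_add_distrib, ← mul_sum, ← hH] at k2
  rw [← hv] at K ⊢
  exact Pert.fin η0 η2 ε0 ε1 h2 δ0 m0 m1 d0 A0 lΔ hδ (by linarith) K k1 k2

end Vale.Agent.P334
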