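import Vale.Agent.P334.Stmt

/-!
Running time of the potential.
-/

namespace Vale.Agent.P334

open Vale.Agent.Lib.TM Vale.Agent.P049

attribute [local irreducible] CT

namespace PotCode

variable {α : Type} [Enc α] {e : ℕ} {C : α → Core} {σ : α → PS} {S : α → List ℕ} {j τ M : α → ℕ}
  {x y : α → ℚ} (q : ℕ)

@[fun_prop]
theorem ct_gm (hx : CT e x) (hy : CT e y) : CT e fun a => gm (x a) (y a) := by
  unfold gm; fun_prop

@[fun_prop]
theorem ct_Dj (h : CT e C) (hS : CT e S) (hj : CT e j) : CT e fun a => Dj q (C a) (S a) (j a) := by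
  unfold Dj; fun_prop

@[fun_prop]
theorem ct_Mt (h : CT e C) (hσ : CT e σ) (hj : CT e j) (hτ : CT e τ) :
    CT e fun a => Mt q (C a) (σ a) (j a) (τ a) := by
  unfold Mt; fun_prop

@[fun_prop]
theorem ct_At (h : CT e C) (hσ : CT e σ) (hj : CT e j) (hτ : CT e τ) :
    CT e fun a => At q (C a) (σ a) (j a) (τ a) := by
  unfold At; fun_prop

@[fun_prop]
theorem ct_rhoQ (h : CT e C) (hM : CT e M) : CT e fun a => rhoQ q (NN q (C a)) (M a) := by
  have h1 : CT e fun a => powB (NN q (C a)) (min (M a) (NN q (C a))) :=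
    ct_powB (ct_NN q h) (hM.min (ct_NN q h)) ((bd_NN q h).of_le fun _ => min_le_right _ _)
  unfold rhoQ; fun_prop

@[fun_prop]
theorem ct_Ft (h : CT e C) (hσ : CT e σ) (hj : CT e j) (hτ : CT e τ) :
    CT e fun a => Ft q (C a) (σ a) (j a) (τ a) := by
  unfold Ft; fun_prop

@[fun_prop]
theorem ct_Fj (h : CT e C) (hσ : CT e σ) (hj : CT e j) : CT e fun a => Fj q (C a) (σ a) (j a) :=
  ct_minL (f := fun a τ => Ft q (C a) (σ a) (j a) τ) (by fun_prop)
    (((ct_DD q h).add (CT.const 2)).range ((bd_DD q h).add (Bd.const 2)))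

@[fun_prop]
theorem ct_sumY (h : CT e C) (hσ : CT e σ) : CT e fun a => sumY (C a) (σ a) := by
  unfold sumY; fun_prop

@[fun_prop]
theorem ct_lamP (h : CT e C) (hσ : CT e σ) : CT e fun a => lamP q (C a) (σ a) :=
  ct_qdiv (ct_powB (ct_BB q h) (by fun_prop)
      ((((Bd.const 2).mul (bd_NN q h)).mul (bd_s h)).of_le fun _ => min_le_right _ _))
    (ct_powB (ct_BB q h) (by fun_prop) ((bd_NN q h).mul ((bd_ck h).add (Bd.const 1))))

end PotCode

open PotCode in
theorem potCodeS : PotCodeS := by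
  intro q
  unfold WW; fun_prop

end Vale.Agent.P334
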