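import Vale.Agent.P334.RuleDefs

/-!
Facts on the coefficient of the alive cost.
-/

namespace Vale.Agent.P334

open Finset intervalIntegral

namespace Rho

theorem int0 (b : ℝ) : IntervalIntegrable (fun t => Real.exp (-(b * t))) MeasureTheory.volume 0 1 :=
  (by fun_prop : Continuous fun t => Real.exp (-(b * t))).intervalIntegrable _ _

theorem int1 (b : ℝ) :
    IntervalIntegrable (fun t => t * Real.exp (-(b * t))) MeasureTheory.volume 0 1 :=
  (by fun_prop : Continuous fun t => t * Real.exp (-(b * t))).intervalIntegrable _ _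

theorem hd (b t : ℝ) :
    HasDerivAt (fun t => Real.exp (-(b * t))) (Real.exp (-(b * t)) * -(b * 1)) t :=
  ((hasDerivAt_id' t).const_mul b).fun_neg.exp

theorem I0 (b : ℝ) : b * ∫ t in (0 : ℝ)..1, Real.exp (-(b * t)) = 1 - Real.exp (-b) := by
  rw [← integral_const_mul, integral_eq_sub_of_hasDerivAt (f := fun t => -Real.exp (-(b * t)))
    (fun t _ => (hd b t).fun_neg.congr_deriv (by ring)) ((int0 b).const_mul b)]
  simp [neg_add_eq_sub]

theorem I1 (b : ℝ) : (∫ t in (0 : ℝ)..1, Real.exp (-(b * t))) -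
    b * ∫ t in (0 : ℝ)..1, t * Real.exp (-(b * t)) = Real.exp (-b) := by
  rw [← integral_const_mul, ← integral_sub (int0 b) ((int1 b).const_mul b),
    integral_eq_sub_of_hasDerivAt (f := fun t => t * Real.exp (-(b * t)))
      (fun t _ => ((hasDerivAt_id' t).fun_mul (hd b t)).congr_deriv (by ring))
      ((int0 b).sub ((int1 b).const_mul b))]
  simp

theorem I0_le {b : ℝ} (hb : 0 ≤ b) : ∫ t in (0 : ℝ)..1, Real.exp (-(b * t)) ≤ 1 := by
  have h := integral_mono_on zero_le_one (int0 b) (intervalIntegrable_const (c := (1 : ℝ)))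
    fun t ht => Real.exp_le_one_iff.2 (neg_nonpos.2 (mul_nonneg hb ht.1))
  simpa using h

theorem I0_nonneg (b : ℝ) : 0 ≤ ∫ t in (0 : ℝ)..1, Real.exp (-(b * t)) :=
  integral_nonneg zero_le_one fun _ _ => (Real.exp_pos _).le

theorem I1_nonneg (b : ℝ) : 0 ≤ ∫ t in (0 : ℝ)..1, t * Real.exp (-(b * t)) :=
  integral_nonneg zero_le_one fun _ ht => mul_nonneg ht.1 (Real.exp_pos _).le

theorem I0_cmp {a m : ℝ} (h0 : 0 ≤ a) (h1 : a ≤ 1) (hm : 0 ≤ m) :
    (∫ t in (0 : ℝ)..1, Real.exp (-(m * t))) - (1 - a) ≤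
      a * ∫ t in (0 : ℝ)..1, Real.exp (-(a * m * t)) := by
  have h2 := integral_mono_on zero_le_one (int0 m) (int0 (a * m)) fun t ht =>
    Real.exp_le_exp.2 (neg_le_neg (mul_le_mul_of_nonneg_right (mul_le_of_le_one_left hm h1) ht.1))
  have h3 := mul_le_mul_of_nonneg_left h2 h0
  have h4 := mul_le_mul_of_nonneg_left (I0_le hm) (sub_nonneg.2 h1)
  linarith

theorem I1_cmp {a m : ℝ} (h0 : 0 ≤ a) (h1 : a ≤ 1) (hm : 0 ≤ m) (hm1 : m ≤ 1) :
    a ^ 2 * ∫ t in (0 : ℝ)..1, t * Real.exp (-(a * m * t)) ≤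
      ∫ t in (0 : ℝ)..1, t * Real.exp (-(m * t)) := by
  rw [← integral_const_mul]
  refine integral_mono_on zero_le_one ((int1 (a * m)).const_mul _) (int1 m) fun t ht => ?_
  have h2 : m * t ≤ 1 := mul_le_one₀ hm1 ht.1 ht.2
  have h3 : a ^ 2 ≤ Real.exp (a - 1) := by
    have := Real.add_one_le_exp (a - 1)
    nlinarith
  have h4 : Real.exp (a - 1) * Real.exp (-(a * m * t)) ≤ Real.exp (-(m * t)) := by
    rw [← Real.exp_add]
    refine Real.exp_le_exp.2 ?_
    nlinarith [mul_le_mul_of_nonneg_left h2 (sub_nonneg.2 h1)]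
  have h5 := (mul_le_mul_of_nonneg_right h3 (Real.exp_pos _).le).trans h4
  have h6 := mul_le_mul_of_nonneg_left h5 ht.1
  linarith

theorem taylor {m : ℝ} (h0 : 0 ≤ m) (h1 : m ≤ 1) :
    |Real.exp (-m) - (1 - m + m ^ 2 / 2 - m ^ 3 / 6 + m ^ 4 / 24 - m ^ 5 / 120 + m ^ 6 / 720 -
      m ^ 7 / 5040)| ≤ m ^ 8 / 35840 := by
  have h := Real.exp_bound (x := -m) (by rwa [abs_neg, abs_of_nonneg h0]) (n := 8) (by norm_num)
  rw [abs_neg, abs_of_nonneg h0] at h
  refine le_of_eq_of_le (congrArg _ ?_) (h.trans_eq ?_)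
  · simp only [sum_range_succ, sum_range_zero, Nat.factorial]
    push_cast
    ring
  · simp only [Nat.factorial]
    push_cast
    ring

theorem J0 {m : ℝ} (h0 : 0 ≤ m) (h1 : m ≤ 1) :
    1 - m / 2 + m ^ 2 / 6 - m ^ 3 / 24 + m ^ 4 / 120 - m ^ 5 / 720 + m ^ 6 / 5040 - m ^ 7 / 35840 ≤
      ∫ t in (0 : ℝ)..1, Real.exp (-(m * t)) := by
  rcases h0.eq_or_lt with rfl | h
  · simp
  refine le_of_mul_le_mul_left ?_ h
  rw [I0]
  linarith [(abs_le.1 (taylor h0 h1)).2]

theorem J1 {m : ℝ} (h0 : 0 ≤ m) (h1 : m ≤ 1) :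
    ∫ t in (0 : ℝ)..1, t * Real.exp (-(m * t)) ≤ 1 / 2 - m / 3 + m ^ 2 / 8 - m ^ 3 / 30 +
      m ^ 4 / 144 - m ^ 5 / 840 + 73 / 322560 * m ^ 6 + m ^ 7 / 35840 := by
  rcases h0.eq_or_lt with rfl | h
  · simp
  refine le_of_mul_le_mul_left ?_ (pow_pos h 2)
  have h2 := congrArg (m * ·) (I1 m)
  have h3 := I0 m
  have h4 := mul_le_mul_of_nonneg_left (abs_le.1 (taylor h0 h1)).1 (show 0 ≤ 1 + m by linarith)
  linarith

theorem bern {m : ℝ} (h0 : 0 ≤ m) (h1 : m ≤ 1) (i j : ℕ) : 0 ≤ m ^ i * (1 - m) ^ j :=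
  mul_nonneg (pow_nonneg h0 i) (pow_nonneg (sub_nonneg.2 h1) j)

theorem thN_bd {N : ℕ} (hN : 1 ≤ N) : 1 - 1 / N ≤ thN N ∧ thN N ≤ 1 := by
  have h0 : (1 : ℝ) ≤ N := by exact_mod_cast hN
  have h1 : (0 : ℝ) < 1 + 1 / N := by positivity
  have h2 := mul_le_mul_of_nonneg_left (Real.one_sub_inv_le_log_of_pos h1) (Nat.cast_nonneg (α := ℝ) N)
  have h3 := mul_le_mul_of_nonneg_left (Real.log_le_sub_one_of_pos h1) (Nat.cast_nonneg (α := ℝ) N)
  refine ⟨le_trans ?_ h2, h3.trans_eq (by field_simp; ring)⟩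
  have e : (N : ℝ) * (1 - (1 + 1 / (N : ℝ))⁻¹) = 1 - 1 / (N + 1) := by
    field_simp
    ring
  rw [e]
  exact sub_le_sub_left (one_div_le_one_div_of_le (by linarith) (by linarith)) 1

theorem ok {a η : ℝ} (h0 : 1 - 1 / 100000 ≤ a) (h1 : a ≤ 1) (hη : η ≤ 1 / 2000) :
    RhoOK η (rho a η) (rho1 a) := by
  have ha : 0 ≤ a := by linarith
  refine ⟨fun m z hz hzm _ => ?_, fun m _ _ => ?_, fun m hm _ => ?_, fun m _ _ => ?_,
    fun m hm hm1 => ?_, fun m hm hm1 => ?_, fun m hm hm1 => ?_⟩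
  · have h2 := integral_mono_on zero_le_one ((int0 (a * m)).add ((int1 (a * m)).const_mul (a * z)))
      (int0 (a * (m - z))) fun t ht => by
        have e : Real.exp (-(a * (m - z) * t)) = Real.exp (-(a * m * t)) * Real.exp (a * z * t) := by
          rw [← Real.exp_add]
          congr 1
          ring
        have h3 := mul_le_mul_of_nonneg_left (Real.add_one_le_exp (a * z * t))
          (Real.exp_pos (-(a * m * t))).le
        rw [e]
        linarith
    rw [integral_add (int0 _) ((int1 _).const_mul _), integral_const_mul] at h2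
    have h3 := mul_le_mul_of_nonneg_left h2 ha
    unfold rho rho1
    linarith
  · have h2 := congrArg (a * ·) (I1 (a * m))
    have h3 := I0 (a * m)
    have h4 := mul_nonneg (sub_nonneg.2 h1) (Real.exp_pos (-(a * m))).le
    unfold rho rho1
    linarith
  · have h2 := mul_le_one₀ h1 (I0_nonneg _) (I0_le (mul_nonneg ha hm))
    unfold rho
    linarith
  · exact mul_nonneg (by positivity) (I1_nonneg _)
  · have h2 := I0_cmp ha h1 hm
    have h3 := J0 hm hm1
    unfold rho th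
    linarith [bern hm hm1 0 7, bern hm hm1 1 6, bern hm hm1 2 5, bern hm hm1 3 4, bern hm hm1 4 3,
      bern hm hm1 5 2, bern hm hm1 6 1, bern hm hm1 7 0]
  · have h2 := mul_le_mul_of_nonneg_left ((I1_cmp ha h1 hm hm1).trans (J1 hm hm1)) hm
    unfold rho1 th
    linarith [bern hm hm1 0 8, bern hm hm1 1 7, bern hm hm1 2 6, bern hm hm1 3 5, bern hm hm1 4 4,
      bern hm hm1 5 3, bern hm hm1 6 2, bern hm hm1 7 1, bern hm hm1 8 0]
  · have h2 := (I1_cmp ha h1 hm hm1).trans (J1 hm hm1)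
    unfold rho1 th
    linarith [bern hm hm1 0 7, bern hm hm1 1 6, bern hm hm1 2 5, bern hm hm1 3 4, bern hm hm1 4 3,
      bern hm hm1 5 2, bern hm hm1 6 1, bern hm hm1 7 0]

end Rho

theorem rhoS : RhoS := by
  intro N η hN _ hη
  have hN0 : (100000 : ℝ) ≤ N := by exact_mod_cast hN
  obtain ⟨h1, h2⟩ := Rho.thN_bd (N := N) (by omega)
  have h3 : (1 : ℝ) / N ≤ 1 / 100000 := one_div_le_one_div_of_le (by norm_num) hN0
  refine ⟨Rho.ok (by linarith) h2 hη, ?_, fun M hM => ?_⟩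
  · have h4 := Rho.I0_cmp (m := 1) (by linarith) h2 zero_le_one
    have h5 := Rho.I0 1
    have e1 : 2 / Real.exp 1 = 2 * Real.exp (-1) := by rw [Real.exp_neg, div_eq_mul_inv]
    have e2 : (2 : ℝ) / N = 2 * (1 / N) := by ring
    unfold rho
    linarith
  · have hM0 : (0 : ℝ) < M := by exact_mod_cast hM
    have hN1 : (0 : ℝ) < N := by linarith
    have h4 := Rho.I0 (thN N * (M / N))
    have e : Real.exp (-(thN N * (M / N))) = (N : ℝ) ^ M / (N + 1) ^ M := by
      have e1 : thN N * (M / N) = M * Real.log (1 + 1 / N) := by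
        unfold thN
        field_simp
      rw [e1, Real.exp_neg, Real.exp_nat_mul, Real.exp_log (by positivity), ← inv_pow, ← div_pow]
      congr 1
      field_simp
    rw [e] at h4
    unfold rho
    rw [← h4]
    field_simp

end Vale.Agent.P334
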