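import Vale.Agent.P334.Stmt

/-!
Rounding of distances and guesses of the optimum.
-/

namespace Vale.Agent.P334

open Finset

namespace Round

lemma rd_pos {B : ℕ} {μ : ℚ} (hμ : 0 < μ) (x : ℚ) : rd B μ x = min (⌊x / μ⌋₊ + 1) B := by
  unfold rd
  by_cases h : B * μ < x
  · have h1 : (B : ℚ) ≤ x / μ := by
      rw [le_div_iff₀ hμ]
      exact h.le
    have h2 := Nat.le_floor h1
    simp only [h, decide_true, cond_true]
    omega
  · simp [h]

lemma rd_zero {B : ℕ} (hB : 1 ≤ B) (x : ℚ) : rd B 0 x = if 0 < x then B else 1 := by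
  unfold rd
  by_cases h : 0 < x <;> simp [h, hB]

lemma rd_bounds {B : ℕ} (hB : 1 ≤ B) (μ x : ℚ) : 1 ≤ rd B μ x ∧ rd B μ x ≤ B := by
  unfold rd
  cases decide (B * μ < x)
  · simp only [cond_false]
    omega
  · simp only [cond_true]
    omega

lemma rd_tri {B : ℕ} (hB : 1 ≤ B) {μ x y z : ℚ} (hμ : 0 ≤ μ) (hx : 0 ≤ x) (h : x ≤ y + z) :
    rd B μ x ≤ rd B μ y + rd B μ z := by
  rcases hμ.eq_or_lt with rfl | hμ
  · rw [rd_zero hB, rd_zero hB, rd_zero hB]
    split_ifs with h1 h2 h3 <;> first | omega | (exfalso; linarith)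
  · rw [rd_pos hμ, rd_pos hμ, rd_pos hμ]
    have h1 : x / μ ≤ y / μ + z / μ := by
      rw [← add_div]
      exact div_le_div_of_nonneg_right h hμ.le
    have h2 := Nat.lt_floor_add_one (y / μ)
    have h3 := Nat.lt_floor_add_one (z / μ)
    have h4 : ⌊x / μ⌋₊ < ⌊y / μ⌋₊ + 1 + (⌊z / μ⌋₊ + 1) := by
      rw [Nat.floor_lt (by positivity)]
      push_cast
      linarith
    omega

lemma le_mul_rd {B : ℕ} (hB : 1 ≤ B) {μ x : ℚ} (hμ : 0 ≤ μ) (h : rd B μ x < B) :
    x ≤ μ * rd B μ x := by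
  rcases hμ.eq_or_lt with rfl | hμ
  · rw [rd_zero hB] at h
    split_ifs at h with h1
    · omega
    · linarith
  · have e : rd B μ x = ⌊x / μ⌋₊ + 1 := by
      rw [rd_pos hμ] at h ⊢
      omega
    have h2 := Nat.lt_floor_add_one (x / μ)
    rw [div_lt_iff₀ hμ] at h2
    rw [e]
    push_cast
    linarith

lemma rd_le {B : ℕ} (hB : 1 ≤ B) {μ x : ℚ} (hμ : 0 ≤ μ) (hx : 0 ≤ x) (h : μ = 0 → x ≤ 0) :
    (rd B μ x : ℚ) ≤ x / μ + 1 := by
  rcases hμ.eq_or_lt with rfl | hμ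
  · rw [rd_zero hB, if_neg (not_lt.2 (h rfl))]
    simp
  · have e : rd B μ x ≤ ⌊x / μ⌋₊ + 1 := by
      rw [rd_pos hμ]
      omega
    have h2 := Nat.floor_le (a := x / μ) (by positivity)
    have h3 : (rd B μ x : ℚ) ≤ (⌊x / μ⌋₊ + 1 : ℕ) := by exact_mod_cast e
    push_cast at h3
    linarith

lemma g1n_mem {l : List ℕ} {i : ℕ} (h : i < l.length) : g1n l i ∈ l := by
  unfold g1n
  rw [List.getD_eq_getElem _ _ h]
  exact List.getElem_mem h

lemma g1n_idxOf {l : List ℕ} {x : ℕ} (h : x ∈ l) : g1n l (l.idxOf x) = x := by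
  unfold g1n
  rw [List.getD_eq_getElem _ _ (List.idxOf_lt_length_of_mem h)]
  exact List.getElem_idxOf _

lemma sum_g1n (l : List ℕ) (f : ℕ → ℚ) :
    (l.map f).sum = ∑ j ∈ range l.length, f (g1n l j) := by
  rw [← sum_tab]
  congr 1
  refine List.ext_getElem (by simp) fun i h1 h2 => ?_
  have h : i < l.length := by simpa using h1
  simp [tab, g1n, h]

/-- Size parameter. -/
def sz0 (I : Inst) : ℕ := I.F.length + I.J.length + 1

/-- The rounded distance. -/
def rr (q : ℕ) (I : Inst) (L : ℚ) (x : ℚ) : ℕ :=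
  rd (3 * ((q + 1) * sz0 I)) (L / (q * sz0 I : ℕ)) x

variable {q : ℕ} {I : Inst} {L : ℚ}

lemma n_eq : (mkCore q I L).n = I.F.length := length_tab _ _

lemma m_eq : (mkCore q I L).m = I.J.length := length_tab _ _

lemma L0_eq : L0 q (mkCore q I L) = (q + 1) * sz0 I := by
  unfold L0 Core.s
  rw [n_eq, m_eq]
  rfl

lemma D0_eq : D0 q (mkCore q I L) = 3 * ((q + 1) * sz0 I) := by
  unfold D0
  rw [L0_eq]

lemma df_eq {a b : ℕ} (ha : a < I.F.length) (hb : b < I.F.length) : (mkCore q I L).df a b =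
    if a = b then 0 else rr q I L (I.d (g1n I.F a) (g1n I.F b)) := by
  refine (g2n_tab _ ha hb).trans ?_
  by_cases h : a = b
  · simp [h]
  · have e : (a == b) = false := by simpa using h
    rw [e, cond_false, if_neg h]
    rfl

lemma dc_eq {j b : ℕ} (hj : j < I.J.length) (hb : b < I.F.length) :
    (mkCore q I L).dc j b = rr q I L (I.d (g1n I.J j) (g1n I.F b)) := g2n_tab _ hj hb

lemma B_pos (q : ℕ) (I : Inst) : 1 ≤ (q + 1) * sz0 I := by
  unfold sz0
  exact Nat.mul_pos (by omega) (by omega)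

lemma coreWF (hI : WF I) (hL : 0 ≤ L) : CoreWF q (mkCore q I L) := by
  have hB : 1 ≤ 3 * ((q + 1) * sz0 I) := by have := B_pos q I; omega
  have hμ : 0 ≤ L / (q * sz0 I : ℕ) := by positivity
  have pF : ∀ {a}, a < I.F.length → Pt I (g1n I.F a) := fun h => Or.inr (g1n_mem h)
  have pJ : ∀ {a}, a < I.J.length → Pt I (g1n I.J a) := fun h => Or.inl (g1n_mem h)
  refine ⟨?_, hI.k_pos, ?_, ?_, ?_, ?_, ?_, ?_, ?_, ?_⟩ <;> simp only [n_eq, m_eq, D0_eq]
  · exact List.length_pos_iff.2 hI.F_ne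
  · intro i hi
    rw [df_eq hi hi, if_pos rfl]
  · intro i hi e he h
    rw [df_eq hi he, if_neg h]
    exact (rd_bounds hB _ _).1
  · intro i hi e he
    rw [df_eq hi he, df_eq he hi, hI.symm _ _ (pF hi) (pF he)]
    simp only [eq_comm]
  · intro i hi e he
    rw [df_eq hi he]
    split_ifs
    · omega
    · exact (rd_bounds hB _ _).2
  · intro j hj i hi
    rw [dc_eq hj hi]
    exact (rd_bounds hB _ _).1
  · intro j hj i hi
    rw [dc_eq hj hi]
    exact (rd_bounds hB _ _).2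
  · intro j hj i hi e he
    rw [df_eq hi he, dc_eq hj hi, dc_eq hj he]
    split_ifs
    · omega
    · refine rd_tri hB hμ (hI.nonneg _ _ (pF hi) (pF he)) ?_
      rw [hI.symm _ _ (pJ hj) (pF hi)]
      exact hI.tri _ _ _ (pF hi) (pJ hj) (pF he)
  · intro j hj i hi e he
    rw [df_eq hi he, dc_eq hj hi, dc_eq hj he]
    split_ifs with h
    · rw [h]
      omega
    · refine rd_tri hB hμ (hI.nonneg _ _ (pJ hj) (pF hi)) ?_
      rw [hI.symm _ _ (pF hi) (pF he), add_comm]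
      exact hI.tri _ _ _ (pJ hj) (pF he) (pF hi)

lemma dS_le_costL (hI : WF I) {O : List ℕ} (hO : O ≠ []) (hF : ∀ i ∈ O, i ∈ I.F) {j : ℕ}
    (hj : j ∈ I.J) : dS I O j ≤ costL I O :=
  List.single_le_sum (fun x hx => by
    obtain ⟨j, hj, rfl⟩ := List.mem_map.1 hx
    exact dS_nonneg hI hO hF (Or.inl hj)) _ (List.mem_map.2 ⟨j, hj, rfl⟩)

lemma hasOpt (hI : WF I) (hq : 1 ≤ q) {O : List ℕ} (hO : Feas 0 I O) (hL : costL I O ≤ L) :
    HasOpt q (mkCore q I L) := by
  have hB : 1 ≤ 3 * ((q + 1) * sz0 I) := by have := B_pos q I; omega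
  have h0 := costL_nonneg hI hO.1 hO.2.1
  have hL0 : 0 ≤ L := h0.trans hL
  have hqs : (0 : ℚ) < (q * sz0 I : ℕ) := by
    unfold sz0
    exact_mod_cast Nat.mul_pos (by omega) (by omega)
  have hμ : 0 ≤ L / (q * sz0 I : ℕ) := by positivity
  refine ⟨O.map fun o => I.F.idxOf o, by simpa using hO.1, fun o ho => ?_,
    (List.length_map _).trans_le hO.2.2, ?_⟩
  · obtain ⟨x, hx, rfl⟩ := List.mem_map.1 ho
    rw [n_eq]
    exact List.idxOf_lt_length_of_mem (hO.2.1 x hx)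
  · have h1 : ∀ j ∈ range I.J.length,
        minL (fun i => ((mkCore q I L).dc j i : ℚ)) (O.map fun o => I.F.idxOf o) ≤
          dS I O (g1n I.J j) / (L / (q * sz0 I : ℕ)) + 1 := by
      intro j hj
      have hj' := mem_range.1 hj
      obtain ⟨o, ho, e⟩ := dS_mem I hO.1 (g1n I.J j)
      refine (minL_le _ (List.mem_map.2 ⟨o, ho, rfl⟩)).trans ?_
      rw [dc_eq hj' (List.idxOf_lt_length_of_mem (hO.2.1 o ho)), g1n_idxOf (hO.2.1 o ho), ← e]
      refine rd_le hB hμ (dS_nonneg hI hO.1 hO.2.1 (Or.inl (g1n_mem hj'))) fun h => ?_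
      have h2 : L = 0 := by
        rcases div_eq_zero_iff.1 h with h | h
        · exact h
        · exact absurd h hqs.ne'
      exact (dS_le_costL hI hO.1 hO.2.1 (g1n_mem hj')).trans (hL.trans h2.le)
    have h2 := sum_le_sum h1
    rw [sum_add_distrib, ← sum_div, ← sum_g1n, sum_const, card_range] at h2
    have h3 : (I.J.map (dS I O)).sum / (L / (q * sz0 I : ℕ)) ≤ (q * sz0 I : ℕ) := by
      rcases hL0.eq_or_lt with h | h
      · rw [← h, zero_div, div_zero]
        exact hqs.le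
      · refine (div_le_div_of_nonneg_right hL hμ).trans (le_of_eq ?_)
        field_simp
    unfold coreCost
    rw [m_eq, L0_eq]
    have h4 : (I.J.length : ℚ) ≤ sz0 I := by
      unfold sz0
      exact_mod_cast (by omega)
    push_cast at h2 h3 ⊢
    simp only [nsmul_eq_mul, mul_one] at h2
    linarith

lemma cost_back (hL : 0 ≤ L) {S : List ℕ} (hS : S ≠ []) (hlt : ∀ i ∈ S, i < I.F.length)
    (hc : coreCost (mkCore q I L) S ≤ 2 * ((q + 1) * sz0 I : ℕ)) :
    costL I (S.map (g1n I.F)) ≤ L / (q * sz0 I : ℕ) * coreCost (mkCore q I L) S := by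
  have hB1 := B_pos q I
  have hB : 1 ≤ 3 * ((q + 1) * sz0 I) := by omega
  have hμ : 0 ≤ L / (q * sz0 I : ℕ) := by positivity
  unfold costL
  unfold coreCost at hc ⊢
  rw [m_eq] at hc ⊢
  rw [sum_g1n, mul_sum]
  refine sum_le_sum fun j hj => ?_
  have hj' := mem_range.1 hj
  have h1 := (single_le_sum (f := fun j => minL (fun i => ((mkCore q I L).dc j i : ℚ)) S)
    (fun j _ => le_minL _ hS fun i _ => by positivity) hj).trans hc
  obtain ⟨i, hi, e⟩ := minL_mem (fun i => ((mkCore q I L).dc j i : ℚ)) hS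
  rw [e, dc_eq hj' (hlt i hi)] at h1 ⊢
  refine (dS_le I _ (List.mem_map.2 ⟨i, hi, rfl⟩)).trans (le_mul_rd hB hμ ?_)
  have h2 : rr q I L (I.d (g1n I.J j) (g1n I.F i)) ≤ 2 * ((q + 1) * sz0 I) := by
    exact_mod_cast h1
  unfold rr at h2
  omega

lemma guess (hI : WF I) (hq : 1 ≤ q) (hJ : I.J ≠ []) {O : List ℕ} (hO : Feas 0 I O) :
    ∃ L ∈ guesses q I, costL I O ≤ L ∧ L ≤ (1 + 1 / q) * costL I O := by
  have hq' : (0 : ℚ) < q := by exact_mod_cast hq
  have hj := argmin_mem (fun j => -dS I O j) (headD_mem hJ 0)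
  have hm := fun x hx => argmin_le (fun j => -dS I O j) (l := I.J) (I.J.headD 0) (x := x) hx
  generalize argmin (fun j => -dS I O j) I.J (I.J.headD 0) = j at hj hm
  obtain ⟨i, hi, e⟩ := dS_mem I hO.1 j
  have h0 := dS_nonneg hI hO.1 hO.2.1 (Or.inl hj)
  have h1 := dS_le_costL hI hO.1 hO.2.1 hj
  have h2 : costL I O ≤ I.J.length * dS I O j := by
    have := List.sum_le_card_nsmul (I.J.map (dS I O)) (dS I O j) fun x hx => by
      obtain ⟨y, hy, rfl⟩ := List.mem_map.1 hx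
      have := hm y hy
      simpa using this
    simpa [costL] using this
  rw [e] at h0 h1 h2
  refine ⟨I.d j i * (⌈q * costL I O / I.d j i⌉₊ : ℕ) / q, List.mem_flatMap.2 ⟨j, hj,
    List.mem_flatMap.2 ⟨i, hO.2.1 i hi, List.mem_map.2 ⟨_, List.mem_range.2 ?_, rfl⟩⟩⟩, ?_⟩
  · refine Nat.lt_succ_of_le (Nat.ceil_le.2 ?_)
    push_cast
    exact div_le_of_le_mul₀ h0 (by positivity) (by nlinarith)
  · rcases h0.eq_or_lt with h | h
    · rw [← h] at h1 h2 ⊢
      simp only [zero_mul, zero_div, mul_zero] at h2 ⊢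
      exact ⟨h2, by positivity⟩
    · have a1 := Nat.le_ceil (q * costL I O / I.d j i)
      have a2 := Nat.ceil_lt_add_one (a := q * costL I O / I.d j i)
        (div_nonneg (mul_nonneg hq'.le (h.le.trans h1)) h.le)
      rw [div_le_iff₀ h] at a1
      rw [← sub_lt_iff_lt_add, lt_div_iff₀ h] at a2
      constructor
      · rw [le_div_iff₀ hq']
        linarith
      · rw [div_le_iff₀ hq']
        have : (1 + 1 / (q : ℚ)) * costL I O * q = q * costL I O + costL I O := by field_simp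
        linarith

end Round

open Round in
theorem roundS (h : CoreS) : RoundS := by
  intro q hq I hI
  refine ⟨(best_spec hI _).1, fun O hO => ?_⟩
  have hq' : (2000 : ℝ) ≤ q := by exact_mod_cast hq
  by_cases hJ : I.J = []
  · simp [costL, hJ]
  obtain ⟨L, hL, l1, l2⟩ := guess (q := q) hI (by omega) hJ hO
  have h0 := costL_nonneg hI hO.1 hO.2.1
  have hL0 : 0 ≤ L := h0.trans l1
  obtain ⟨c1, c2, c3, c4⟩ := h q (mkCore q I L) hq (coreWF hI hL0) (hasOpt hI (by omega) hO l1)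
  rw [n_eq] at c2
  rw [L0_eq] at c4
  have he : 2 / Real.exp 1 ≤ 0.75 := by
    rw [div_le_iff₀ (Real.exp_pos 1)]
    linarith [Real.exp_one_gt_d9]
  have he0 : 0 ≤ 2 / Real.exp 1 := by positivity
  have hq1 : 1 / (q : ℝ) ≤ 1 / 2000 := one_div_le_one_div_of_le (by norm_num) hq'
  have hq0 : 0 ≤ 1 / (q : ℝ) := by positivity
  have e20 : 20 / (q : ℝ) = 20 * (1 / q) := by ring
  have e30 : 30 / (q : ℝ) = 30 * (1 / q) := by ring
  have c5 : coreCost (mkCore q I L) (coreAlg q (mkCore q I L)) ≤ 2 * ((q + 1) * sz0 I : ℕ) := by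
    have : (coreCost (mkCore q I L) (coreAlg q (mkCore q I L)) : ℝ) ≤
        2 * ((q + 1) * sz0 I : ℕ) :=
      c4.trans (mul_le_mul_of_nonneg_right (by linarith) (by positivity))
    exact_mod_cast this
  have c6 := cost_back hL0 c1 c2 c5
  have c7 : costL I (pseudo q I) ≤ costL I ((coreAlg q (mkCore q I L)).map (g1n I.F)) := by
    refine (best_spec hI _).2 _ (List.mem_map.2 ⟨L, hL, rfl⟩) ⟨by simpa using c1, fun i hi => ?_,
      (List.length_map _).trans_le c3⟩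
    obtain ⟨x, hx, rfl⟩ := List.mem_map.1 hi
    exact g1n_mem (c2 x hx)
  have c8 := (Rat.cast_le (K := ℝ)).2 (c7.trans c6)
  have l3 := (Rat.cast_le (K := ℝ)).2 l2
  have h0' : (0 : ℝ) ≤ costL I O := by exact_mod_cast h0
  have hL0' : (0 : ℝ) ≤ L := by exact_mod_cast hL0
  have hs : (0 : ℝ) < sz0 I := by
    unfold sz0
    positivity
  push_cast at c8 l3 c4
  have c9 : (L : ℝ) / (q * sz0 I) * coreCost (mkCore q I L) (coreAlg q (mkCore q I L)) ≤
      (L : ℝ) / (q * sz0 I) * ((1 + 2 / Real.exp 1 + 20 / q) * ((q + 1) * sz0 I)) :=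
    mul_le_mul_of_nonneg_left c4 (by positivity)
  have e1 : (L : ℝ) / (q * sz0 I) * ((1 + 2 / Real.exp 1 + 20 / q) * ((q + 1) * sz0 I)) =
      L * ((1 + 1 / q) * (1 + 2 / Real.exp 1 + 20 / q)) := by field_simp
  have e2 : (L : ℝ) * ((1 + 1 / q) * (1 + 2 / Real.exp 1 + 20 / q)) ≤
      (1 + 1 / q) * costL I O * ((1 + 1 / q) * (1 + 2 / Real.exp 1 + 20 / q)) :=
    mul_le_mul_of_nonneg_right l3 (by positivity)
  have e3 : (1 + 1 / (q : ℝ)) * ((1 + 1 / q) * (1 + 2 / Real.exp 1 + 20 / q)) ≤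
      1 + 2 / Real.exp 1 + 30 / q := by
    rw [e20, e30]
    generalize 1 / (q : ℝ) = x at *
    generalize 2 / Real.exp 1 = a at *
    have a1 : (1 + x) * (1 + x) ≤ 1 + 3 * x := by nlinarith
    have a2 : (1 + x) * (1 + x) * (1 + a + 20 * x) ≤ (1 + 3 * x) * (1 + a + 20 * x) :=
      mul_le_mul_of_nonneg_right a1 (by positivity)
    nlinarith
  have e4 := mul_le_mul_of_nonneg_right e3 h0'
  nlinarith

end Vale.Agent.P334
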