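import Vale.Agent.P334.Stmt

/-!
Running time of the pseudo-approximation algorithm.
-/

namespace Vale.Agent.P334

open Vale.Agent.Lib.TM Vale.Agent.P049

attribute [local irreducible] CT

namespace RoundCode

variable {α : Type} [Enc α] {e : ℕ} {I : α → Inst}

@[fun_prop]
theorem ct_rd {B : α → ℕ} {μ x : α → ℚ} (hB : CT e B) (hμ : CT e μ) (hx : CT e x) :
    CT e fun a => rd (B a) (μ a) (x a) := by
  unfold rd; fun_prop

@[fun_prop]
theorem ct_tabl {β γ : Type} [Enc β] [Enc γ] {l : α → List γ} {f : α → ℕ → β} (hl : CT e l)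
    (hf : CT e fun p : α × ℕ => f p.1 p.2) : CT e fun a => tab (l a).length (f a) :=
  ct_tab hl.length hl.bd_length hf

@[fun_prop]
theorem ct_mkCore (q : ℕ) {L : α → ℚ} (hI : CT e I) (hL : CT e L) :
    CT e fun a => mkCore q (I a) (L a) := by
  unfold mkCore; fun_prop

@[fun_prop]
theorem ct_rangeq (q : ℕ) {γ : Type} [Enc γ] {l : α → List γ} (hl : CT e l) :
    CT e fun a => List.range (q * (l a).length + 1) :=
  (((CT.const q).mul hl.length).add (CT.const 1)).range
    (((Bd.const q).mul hl.bd_length).add (Bd.const 1))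

@[fun_prop]
theorem ct_guesses (q : ℕ) (hI : CT e I) : CT e fun a => guesses q (I a) := by
  unfold guesses; fun_prop

end RoundCode

open RoundCode in
theorem roundCodeS (h : CoreCodeS) : RoundCodeS := by
  intro q
  have h1 : CT 0 fun p : Inst × ℚ => coreAlg q (mkCore q p.1 p.2) :=
    (h q).comp (g := fun p : Inst × ℚ => mkCore q p.1 p.2) (by fun_prop)
  exact ct_best (cq q) CT.id (CT.map
    (f := fun I L => (coreAlg q (mkCore q I L)).map (g1n I.F))
    (CT.map (f := fun (p : Inst × ℚ) i => g1n p.1.F i) (by fun_prop) h1) (ct_guesses q CT.id))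

end Vale.Agent.P334
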