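import Vale.Agent.P334.Stmt

/-!
Properties of the radii found by search.
-/

namespace Vale.Agent.P334

open Finset

namespace Rule

lemma min_add {a b c : ℝ} (h : a ≤ b + c) (hc : 0 ≤ c) : min 1 a ≤ min 1 b + c := by
  rcases le_total 1 b with h1 | h1
  · rw [min_eq_left h1]
    linarith [min_le_left 1 a]
  · rw [min_eq_right h1]
    exact (min_le_right _ _).trans h

lemma Sf_zero (x : ℝ) : Sf (0 : ℝ) x = 0 := by simp [Sf]

lemma Sf_far {l x : ℝ} (h : l ≤ x) : Sf l x = 0 := by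
  simp [Sf, max_eq_right (sub_nonpos.2 h)]

lemma T2f_far {l z x : ℝ} (hz : z ≤ l) (h : l ≤ x) : T2f l z x = 0 := by
  simp [T2f, Tf, Sf_far h, max_eq_right (sub_nonpos.2 h), max_eq_right (sub_nonpos.2 (hz.trans h))]

lemma T2f_zero {l x : ℝ} (hl : 0 ≤ l) (hx : 0 ≤ x) : T2f l 0 x ≤ t2 ℝ * Sf l x := by
  obtain ⟨-, -, h3, -⟩ := g_factsR
  have h : Tf l 0 x ≤ Sf l x := by
    unfold Tf Sf
    rw [max_eq_right (sub_nonpos.2 hx), mul_zero, add_zero]
    have := le_max_right (l - x) 0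
    gcongr
  have e : t2 ℝ = 1 - t1 ℝ := rfl
  unfold T2f
  rw [e]
  linarith

lemma T2f_self {l : ℝ} (hl : 0 < l) (z : ℝ) : T2f l z 0 ≤ t2 ℝ := by
  obtain ⟨h1, -, h3, -⟩ := g_factsR
  have h : Sf l 0 = 1 := by
    unfold Sf
    rw [sub_zero, max_eq_left hl.le, mul_div_assoc, div_self hl.ne', mul_one]
    exact min_eq_left (by linarith)
  have e : t2 ℝ = 1 - t1 ℝ := rfl
  unfold T2f
  rw [e, h]
  linarith [Tf_le_one l z 0]

lemma max_succ (l x : ℝ) : max (l + 1 - x) 0 ≤ max (l - x) 0 + 1 :=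
  max_le (by linarith [le_max_left (l - x) 0]) (by linarith [le_max_right (l - x) 0])

lemma Sf_succ {l : ℝ} (hl : 0 < l) (x : ℝ) : Sf (l + 1) x ≤ Sf l x + 2 / l := by
  obtain ⟨h1, -, h3, h4, -⟩ := g_factsR
  refine min_add ?_ (by positivity)
  have h0 : (0 : ℝ) ≤ G0 := by linarith
  have h5 := le_max_right (l + 1 - x) 0
  rw [← add_div]
  refine (div_le_div_of_nonneg_left (by positivity) hl (by linarith)).trans ?_
  refine div_le_div_of_nonneg_right ?_ hl.le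
  have := mul_le_mul_of_nonneg_left (max_succ l x) h0
  linarith

lemma T2f_succ {l : ℝ} (hl : 0 < l) (z x : ℝ) : T2f l (z + 1) x ≤ T2f l z x + 2 / l := by
  obtain ⟨-, -, -, -, -, h6, h7⟩ := g_factsR
  have h : Tf l (z + 1) x ≤ Tf l z x + 2 / l := by
    refine min_add ?_ (by positivity)
    rw [← add_div]
    refine div_le_div_of_nonneg_right ?_ hl.le
    have := mul_le_mul_of_nonneg_left (max_succ z x) h6
    linarith
  unfold T2f
  linarith

lemma Sf_le_Tf {l : ℝ} (hl : 0 ≤ l) (x : ℝ) : Sf l x ≤ Tf l l x := by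
  obtain ⟨-, -, -, -, h5, -⟩ := g_factsR
  unfold Sf Tf
  rw [← add_mul]
  have := le_max_right (l - x) 0
  gcongr

lemma sum_step {n : ℕ} {y f g : ℕ → ℝ} {s c : ℝ} (hy : ∀ e, 0 ≤ y e)
    (hs : ∑ e ∈ range n, y e ≤ s) (hc : 0 ≤ c) (h : ∀ e, f e ≤ g e + c) :
    ∑ e ∈ range n, y e * f e ≤ ∑ e ∈ range n, y e * g e + s * c := by
  refine le_trans ?_ (add_le_add le_rfl (mul_le_mul_of_nonneg_right hs hc))
  rw [sum_mul, ← sum_add_distrib]
  refine sum_le_sum fun e _ => ?_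
  rw [← mul_add]
  exact mul_le_mul_of_nonneg_left (h e) (hy e)

lemma sum_one {n i : ℕ} (hi : i < n) {y f : ℕ → ℝ} {c : ℝ} (h0 : 0 ≤ y i) (h1 : y i ≤ 1)
    (hc : 0 ≤ c) (hf : f i ≤ c) (h : ∀ e < n, e ≠ i → f e = 0) :
    ∑ e ∈ range n, y e * f e ≤ c := by
  rw [sum_eq_single_of_mem i (mem_range.2 hi) fun e he hne => by
    rw [h e (mem_range.1 he) hne, mul_zero]]
  nlinarith

variable {q : ℕ} {C : Core} {σ : PS}

lemma cast_yq (e : ℕ) : ((yq q C σ e : ℚ) : ℝ) = yR q C σ e := by simp [yq, yR]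

lemma sumS_le (i l : ℕ) : sumS q C σ i l ≤ 1 ↔
    ∑ e ∈ range C.n, yR q C σ e * Sf (l : ℝ) (xf q C i e) ≤ 1 := by
  rw [← Rat.cast_le (K := ℝ)]
  simp only [sumS, sum_tab, Rat.cast_sum, Rat.cast_mul, cast_yq, cast_Sf, Rat.cast_natCast,
    Rat.cast_one]

lemma sumT2_le (i l z : ℕ) : sumT2 q C σ i l z ≤ t2 ℚ ↔
    ∑ e ∈ range C.n, yR q C σ e * T2f (l : ℝ) z (xf q C i e) ≤ t2 ℝ := by
  rw [← Rat.cast_le (K := ℝ)]
  simp only [sumT2, sum_tab, Rat.cast_sum, Rat.cast_mul, cast_yq, cast_T2f, Rat.cast_natCast,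
    cast_t2]

lemma last_spec (p r : ℕ → Prop) [DecidablePred p] [DecidablePred r] (B : ℕ) {a : ℕ}
    (h : a = lastOk (fun l => decide (p l) && decide (r l)) B) :
    a ≤ B ∧ (p a ∧ r a ∨ a = 0) ∧ ∀ l ≤ B, p l ∧ r l → l ≤ a := by
  subst h
  simpa only [Bool.and_eq_true, decide_eq_true_eq] using
    lastOk_spec (fun l => decide (p l) && decide (r l)) B

lemma lam_spec (i : ℕ) : lam q C σ i ≤ DD q C ∧
    (lam q C σ i ≤ lamMax q C σ i ∧ sumS q C σ i (lam q C σ i) ≤ 1 ∨ lam q C σ i = 0) ∧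
    ∀ l ≤ DD q C, l ≤ lamMax q C σ i ∧ sumS q C σ i l ≤ 1 → l ≤ lam q C σ i :=
  last_spec (fun l => l ≤ lamMax q C σ i) (fun l => sumS q C σ i l ≤ 1) _ rfl

lemma xi_spec (i : ℕ) : (xi q C σ i ≤ lam q C σ i ∧
      sumT2 q C σ i (lam q C σ i) (xi q C σ i) ≤ t2 ℚ ∨ xi q C σ i = 0) ∧
    ∀ l ≤ DD q C, l ≤ lam q C σ i ∧ sumT2 q C σ i (lam q C σ i) l ≤ t2 ℚ → l ≤ xi q C σ i :=
  (last_spec (fun l => l ≤ lam q C σ i) (fun l => sumT2 q C σ i (lam q C σ i) l ≤ t2 ℚ) _ rfl).2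

lemma yR_nonneg (e : ℕ) : 0 ≤ yR q C σ e := by unfold yR; positivity

lemma s_pos : 1 ≤ C.s := by unfold Core.s; omega

lemma NN_pos (hq : 1 ≤ q) : (0 : ℝ) < NN q C := by
  have := s_pos (C := C)
  unfold NN
  positivity

lemma yR_le (hq : 1 ≤ q) (hG : Good q C σ) {e : ℕ} (he : e < C.n) : yR q C σ e ≤ 1 :=
  (div_le_one (NN_pos hq)).2 (by exact_mod_cast hG.Y_le e he)

lemma sum_yR (hq : 1 ≤ q) (hG : Good q C σ) : ∑ e ∈ range C.n, yR q C σ e ≤ C.s := by
  have h := hG.sum_le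
  have hk : C.k ≤ C.s := (min_le_right _ _).trans (by unfold Core.s; omega)
  unfold sumY at h
  rw [sum_tab] at h
  unfold yR
  rw [← sum_div, div_le_iff₀ (NN_pos hq)]
  exact_mod_cast h.trans (Nat.mul_le_mul_right _ hk)

lemma QQ_ge (hq : 1 ≤ q) : 400 * q ≤ QQ q C := by
  have h := s_pos (C := C)
  have h1 : 1 ≤ D0 q C := by
    unfold D0 L0
    exact Nat.succ_le_of_lt (by positivity)
  unfold QQ
  calc 400 * q = 400 * q * 1 * 1 := by ring
    _ ≤ _ := by gcongr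

lemma xf_ge (hC : CoreWF q C) {i e : ℕ} (hi : i < C.n) (he : e < C.n) (h : e ≠ i) :
    QQ q C ≤ xf q C i e :=
  Nat.le_mul_of_pos_right _ (hC.df_pos i hi e he h.symm)

lemma xf_self (hC : CoreWF q C) {i : ℕ} (hi : i < C.n) : xf q C i i = 0 := by
  simp [xf, hC.df_self i hi]

lemma num1 {q b d M : ℝ} (hq : 1 ≤ q) (h1 : b < 100 * q * (d + 1)) (e : M + d + 1 = b) :
    M ≤ (1 - 1 / q / 100) * b := by
  have h : b / (100 * q) ≤ d + 1 := by
    rw [div_le_iff₀ (by positivity)]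
    linarith
  have e1 : (1 - 1 / q / 100) * b = b - b / (100 * q) := by
    field_simp
  linarith

lemma num2 {q b d M : ℝ} (hq : 1 ≤ q) (hd : 0 ≤ d) (h1 : 100 * q * d ≤ b) (h2 : 400 * q ≤ b)
    (e : M + d + 1 = b) : b ≤ (1 + 1 / q / 50) * M := by
  have e1 : (1 + 1 / q / 50) * M = (50 * q + 1) * M / (50 * q) := by
    field_simp
  rw [e1, le_div_iff₀ (by positivity), show M = b - d - 1 by linarith]
  nlinarith

end Rule

open Rule in
theorem ruleS : RuleS := by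
  intro q C σ hq hC hG i hi
  obtain ⟨hl1, hl2, hl3⟩ := lam_spec (q := q) (C := C) (σ := σ) i
  obtain ⟨hx2, hx3⟩ := xi_spec (q := q) (C := C) (σ := σ) i
  simp only [sumS_le, sumT2_le] at hl2 hl3 hx2 hx3
  set l := lam q C σ i
  set z := xi q C σ i
  obtain ⟨t10, t11, -, t12, t20⟩ := t1_facts
  have hzl : z ≤ l := hx2.elim And.left fun h => by omega
  have hS : ∑ e ∈ range C.n, yR q C σ e * Sf (l : ℝ) (xf q C i e) ≤ 1 :=
    hl2.elim And.right fun h => by simp [h, Sf_zero]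
  have hT : ∑ e ∈ range C.n, yR q C σ e * T2f (l : ℝ) z (xf q C i e) ≤ t2 ℝ := by
    refine hx2.elim And.right fun h => ?_
    refine le_trans (sum_le_sum fun e _ => ?_)
      ((mul_sum _ _ _).ge.trans (mul_le_of_le_one_right t20 hS))
    rw [h, Nat.cast_zero, mul_left_comm]
    exact mul_le_mul_of_nonneg_left (T2f_zero (Nat.cast_nonneg _) (Nat.cast_nonneg _))
      (yR_nonneg e)
  have hmem := argmin_mem (fun e => (xf q C i e : ℚ)) (headD_mem hG.S_ne 0)
  refine ⟨hzl, hl1, hS, hT, ⟨_, hmem, rfl⟩, fun o ho => ?_, fun hiS => ?_⟩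
  · exact_mod_cast argmin_le (fun e => (xf q C i e : ℚ)) (σ.1.headD 0) ho
  have hQ := QQ_ge (C := C) hq
  have hb1 : QQ q C ≤ bOpen q C σ i :=
    xf_ge hC hi (hG.S_lt _ hmem) fun e => hiS (e ▸ hmem)
  have hb2 : bOpen q C σ i ≤ DD q C := by
    unfold DD
    exact Nat.mul_le_mul_left _ (hC.df_le i hi _ (hG.S_lt _ hmem))
  set b := bOpen q C σ i with hb
  have hd1 := Nat.mul_div_le b (100 * q)
  have hd2 := Nat.lt_mul_div_succ b (show 0 < 100 * q by omega)
  set d := b / (100 * q) with hd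
  have hd3 : 100 * d ≤ 100 * q * d := Nat.mul_le_mul_right _ (by omega)
  have hM : lamMax q C σ i + d + 1 = b := by
    unfold lamMax
    rw [← hb, ← hd]
    omega
  set M := lamMax q C σ i
  have hlM : l ≤ M := hl2.elim And.left fun h => by omega
  have hsmall : ∀ l' ≤ QQ q C, ∑ e ∈ range C.n, yR q C σ e * Sf (l' : ℝ) (xf q C i e) ≤ 1 :=
    fun l' hl' => sum_one hi (yR_nonneg i) (yR_le hq hG hi) zero_le_one (Sf_le_one _ _)
      fun e he hne => Sf_far (by exact_mod_cast hl'.trans (xf_ge hC hi he hne))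
  have hl0 : 0 < l := hl3 1 (by omega) ⟨by omega, hsmall 1 (by omega)⟩
  have hl0' : (0 : ℝ) < l := by exact_mod_cast hl0
  have hqR : (1 : ℝ) ≤ q := by exact_mod_cast hq
  have hMR : (M : ℝ) + d + 1 = b := by exact_mod_cast hM
  have hQ0 : (0 : ℝ) < QQ q C := by exact_mod_cast (show 0 < QQ q C by omega)
  have hδ : QQ q C ≤ l → (C.s : ℝ) * (2 / l) ≤ 2 * C.s / QQ q C := fun h => by
    rw [mul_comm, div_mul_eq_mul_div]
    exact div_le_div_of_nonneg_left (by positivity) hQ0 (by exact_mod_cast h)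
  have hA : z < l → t2 ℝ - 2 * C.s / QQ q C ≤
      ∑ e ∈ range C.n, yR q C σ e * T2f (l : ℝ) z (xf q C i e) := by
    intro hz
    have h1 : t2 ℝ < ∑ e ∈ range C.n, yR q C σ e * T2f (l : ℝ) (z + 1 : ℕ) (xf q C i e) := by
      by_contra h1
      have := hx3 (z + 1) (by omega) ⟨hz, not_lt.1 h1⟩
      omega
    have h2 : QQ q C ≤ l := by
      by_contra h2
      refine h1.not_ge (sum_one hi (yR_nonneg i) (yR_le hq hG hi) t20 ?_ fun e he hne => ?_)
      · rw [xf_self hC hi, Nat.cast_zero]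
        exact T2f_self hl0' _
      · exact T2f_far (by exact_mod_cast hz)
          (by exact_mod_cast (not_le.1 h2).le.trans (xf_ge hC hi he hne))
    rw [Nat.cast_succ] at h1
    have h3 := sum_step yR_nonneg (sum_yR hq hG) (by positivity)
      fun e => T2f_succ hl0' z (xf q C i e)
    linarith [hδ h2]
  refine ⟨hl0, le_trans (by exact_mod_cast hlM) (num1 hqR (by exact_mod_cast hd2) hMR), hA, ?_⟩
  rcases hlM.lt_or_eq with hlM | hlM
  · left
    have h1 : 1 < ∑ e ∈ range C.n, yR q C σ e * Sf ((l + 1 : ℕ) : ℝ) (xf q C i e) := by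
      by_contra h1
      have := hl3 (l + 1) (by omega) ⟨hlM, not_lt.1 h1⟩
      omega
    have h2 : QQ q C ≤ l := by
      by_contra h2
      exact h1.not_ge (hsmall _ (by omega))
    rw [Nat.cast_succ] at h1
    have h3 := sum_step yR_nonneg (sum_yR hq hG) (by positivity)
      fun e => Sf_succ hl0' (xf q C i e)
    have h4 := hδ h2
    have h5 : (0 : ℝ) ≤ 2 * C.s / QQ q C := by positivity
    rcases hzl.lt_or_eq with hz | hz
    · have h6 := hA hz
      have h7 : ∑ e ∈ range C.n, yR q C σ e * Tf (l : ℝ) z (xf q C i e) =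
          t1 ℝ * ∑ e ∈ range C.n, yR q C σ e * Sf (l : ℝ) (xf q C i e) +
            ∑ e ∈ range C.n, yR q C σ e * T2f (l : ℝ) z (xf q C i e) := by
        rw [mul_sum, ← sum_add_distrib]
        refine sum_congr rfl fun e _ => ?_
        rw [Tf_eq]
        ring
      have h8 : t1 ℝ * (1 - 2 * C.s / QQ q C) ≤
          t1 ℝ * ∑ e ∈ range C.n, yR q C σ e * Sf (l : ℝ) (xf q C i e) :=
        mul_le_mul_of_nonneg_left (by linarith) t10.le
      have h9 := mul_le_mul_of_nonneg_right t11 h5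
      linarith
    · have h6 : ∑ e ∈ range C.n, yR q C σ e * Sf (l : ℝ) (xf q C i e) ≤
          ∑ e ∈ range C.n, yR q C σ e * Tf (l : ℝ) z (xf q C i e) := by
        rw [hz]
        exact sum_le_sum fun e _ => mul_le_mul_of_nonneg_left (Sf_le_Tf hl0'.le _) (yR_nonneg e)
      linarith
  · right
    rw [hlM]
    exact num2 hqR (Nat.cast_nonneg d) (by exact_mod_cast hd1)
      (by exact_mod_cast hQ.trans hb1) hMR

end Vale.Agent.P334
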