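import Vale.Agent.P334.RuleDefs

/-!
Splitting the drift of a client into charges.
-/

namespace Vale.Agent.P334

open Finset

namespace Split

/-- One term of an event outside the client. -/
lemma out_term {ε m R R1 A di D D' x T β κ : ℝ} (hε : 0 < ε) (hε4 : ε ≤ 1 / 4) (hm : 0 < m)
    (hm1 : m ≤ 1) (hR : 0 ≤ R) (hR1 : 0 ≤ R1) (hA : 0 ≤ A) (hd : 0 ≤ di) (hD' : 0 ≤ D')
    (hle : D' ≤ di + min (D - di) x) (hT : 0 ≤ T) (hκ1 : κ ≤ 1)
    (hw0 : 1 - ε ≤ β * κ) (hw1 : β * κ ≤ 1 + ε) :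
    β * (κ * T * ((1 + 2 * ε * (2 * m - 1)) * D' - R * di - R1 * (m * A)) +
        R1 * ((κ * T) ^ 2 * ((m * di + m * A) / 2))) ≤
      T * ((1 + 4 * ε) * (di + min (D - di) x) - (1 - ε) * (R * di + m * R1 * A) +
        (1 + ε) * (m * R1 * (di + A) / 2 * T)) := by
  have hw : 0 ≤ β * κ := by linarith
  have h1 : β * κ * ((1 + 2 * ε * (2 * m - 1)) * D') ≤ (1 + 4 * ε) * (di + min (D - di) x) := by
    have h2 : 1 + 2 * ε * (2 * m - 1) ≤ 1 + 2 * ε := by nlinarith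
    have h3 : 0 ≤ 1 + 2 * ε * (2 * m - 1) := by nlinarith
    have h4 : β * κ * (1 + 2 * ε * (2 * m - 1)) ≤ (1 + ε) * (1 + 2 * ε) :=
      mul_le_mul hw1 h2 h3 (by linarith)
    have h5 : (1 + ε) * (1 + 2 * ε) ≤ 1 + 4 * ε := by nlinarith
    rw [← mul_assoc]
    exact mul_le_mul (h4.trans h5) hle hD' (by linarith)
  have h2 : (1 - ε) * (R * di + m * R1 * A) ≤ β * κ * (R * di + m * R1 * A) :=
    mul_le_mul_of_nonneg_right hw0 (by positivity)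
  have h3 : β * κ * κ * (m * R1 * (di + A) / 2 * T) ≤ (1 + ε) * (m * R1 * (di + A) / 2 * T) :=
    mul_le_mul_of_nonneg_right ((mul_le_of_le_one_right hw hκ1).trans hw1) (by positivity)
  have h4 := mul_le_mul_of_nonneg_left (add_le_add (sub_le_sub h1 h2) h3) hT
  refine le_trans (le_of_eq ?_) h4
  ring

variable {ι : Type} {s : Finset ι}

lemma sum_le {m : ℝ} {u T : ι → ℝ} (hu : ∀ i ∈ s, 0 ≤ u i) (hm : m = ∑ e ∈ s, u e)
    (hT : ∀ i ∈ s, 0 ≤ T i ∧ T i ≤ 1) : 0 ≤ ∑ i ∈ s, u i * T i ∧ ∑ i ∈ s, u i * T i ≤ m :=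
  ⟨sum_nonneg fun i hi => mul_nonneg (hu i hi) (hT i hi).1,
    hm ▸ sum_le_sum fun i hi => mul_le_of_le_one_right (hu i hi) (hT i hi).2⟩

lemma gm_nonneg {ε m : ℝ} (hε : 0 < ε) (hm : 0 < m) (hm1 : m ≤ 1) : 0 ≤ gm (2 * ε) m :=
  mul_nonneg (sub_nonneg.2 hm1) (by positivity)

/-- An event outside the client. -/
lemma outside (h : EventS) {ρ R1 : ℝ → ℝ} {η ε D de m A β κ : ℝ} {u d x T : ι → ℝ}
    (hρ : RhoOK η ρ R1) (hη : 0 ≤ η) (hε : 0 < ε) (hε4 : ε ≤ 1 / 4)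
    (hu : ∀ i ∈ s, 0 ≤ u i ∧ 0 ≤ d i) (hD : 0 ≤ D) (hde : 0 ≤ de) (hm : m = ∑ e ∈ s, u e)
    (hm0 : 0 < m) (hm1 : m ≤ 1) (hA : m * A = ∑ e ∈ s, u e * d e)
    (hT : ∀ i ∈ s, 0 ≤ T i ∧ T i ≤ 1 ∧ de ≤ x i + d i) (hκ0 : 0 ≤ κ) (hκ1 : κ ≤ 1)
    (hw0 : 1 - ε ≤ β * κ) (hw1 : β * κ ≤ 1 + ε) (hβ : 1 - ε ≤ β) :
    β * (Fc ρ (2 * ε) s d (fun i => u i * (1 - κ * T i)) (min D de) - Fc ρ (2 * ε) s d u D) ≤
      ∑ i ∈ s, u i * (T i * (-((1 - ε) * gm (2 * ε) m * max (D - d i - x i) 0 / m) +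
        (1 + 4 * ε) * (d i + min (D - d i) (x i)) - (1 - ε) * (ρ m * d i + m * R1 m * A) +
        (1 + ε) * (m * R1 m * (d i + A) / 2 * T i))) := by
  have hD' : 0 ≤ min D de := le_min hD hde
  have hg := gm_nonneg hε hm0 hm1
  have hA0 : 0 ≤ A := by
    refine nonneg_of_mul_nonneg_right ?_ hm0
    rw [hA]
    exact sum_nonneg fun i hi => mul_nonneg (hu i hi).1 (hu i hi).2
  have hR : 0 ≤ ρ m := by linarith [hρ.low m hm0.le hm1]
  have hR1 := hρ.R1_nonneg m hm0.le hm1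
  have h1 := (h s ρ R1 η (2 * ε) D (min D de) m (m * A) d u (fun i => κ * T i) hρ (by linarith)
    (by linarith) hD' (fun i hi => ⟨(hu i hi).2, (hu i hi).1, mul_nonneg hκ0 (hT i hi).1,
      mul_le_one₀ hκ1 (hT i hi).1 (hT i hi).2.1⟩) hm hm1 hA).1
  refine (mul_le_mul_of_nonneg_left h1 (by linarith)).trans ?_
  have hz := sum_le (fun i hi => (hu i hi).1) hm fun i hi => ⟨(hT i hi).1, (hT i hi).2.1⟩
  have hδ : 0 ≤ D - min D de := sub_nonneg.2 (min_le_left _ _)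
  have h2 : ∑ i ∈ s, u i * (T i * ((1 - ε) * gm (2 * ε) m * max (D - d i - x i) 0 / m)) ≤
      β * (gm (2 * ε) m * (D - min D de)) := by
    have h3 : ∑ i ∈ s, u i * (T i * ((1 - ε) * gm (2 * ε) m * max (D - d i - x i) 0 / m)) ≤
        ∑ i ∈ s, u i * T i * ((1 - ε) * gm (2 * ε) m * (D - min D de) / m) := by
      refine sum_le_sum fun i hi => ?_
      rw [← mul_assoc]
      refine mul_le_mul_of_nonneg_left (div_le_div_of_nonneg_right (mul_le_mul_of_nonneg_left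
        (max_le ?_ hδ) (mul_nonneg (by linarith) hg)) hm0.le) (mul_nonneg (hu i hi).1 (hT i hi).1)
      linarith [min_le_right D de, (hT i hi).2.2]
    rw [← sum_mul] at h3
    refine h3.trans ((mul_le_mul_of_nonneg_right hz.2
      (div_nonneg (mul_nonneg (mul_nonneg (by linarith) hg) hδ) hm0.le)).trans ?_)
    rw [mul_div_cancel₀ _ hm0.ne', mul_assoc]
    exact mul_le_mul_of_nonneg_right hβ (mul_nonneg hg hδ)
  have h3 : ∑ i ∈ s, u i * (β * (κ * T i * ((1 + 2 * ε * (2 * m - 1)) * min D de - ρ m * d i -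
      R1 m * (m * A)) + R1 m * ((κ * T i) ^ 2 * ((m * d i + m * A) / 2)))) ≤
      ∑ i ∈ s, u i * (T i * ((1 + 4 * ε) * (d i + min (D - d i) (x i)) -
        (1 - ε) * (ρ m * d i + m * R1 m * A) + (1 + ε) * (m * R1 m * (d i + A) / 2 * T i))) := by
    refine sum_le_sum fun i hi => mul_le_mul_of_nonneg_left (out_term hε hε4 hm0 hm1 hR hR1 hA0
      (hu i hi).2 hD' ?_ (hT i hi).1 hκ1 hw0 hw1) (hu i hi).1
    rw [← min_add_add_left, add_sub_cancel]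
    exact min_le_min le_rfl (by linarith [(hT i hi).2.2])
  have h4 := sub_le_sub h3 h2
  rw [← sum_sub_distrib] at h4
  refine le_trans (le_of_eq ?_) (h4.trans (le_of_eq (sum_congr rfl fun i _ => by ring)))
  rw [mul_add, mul_add, mul_sum, mul_sum, mul_sum, add_assoc, ← sum_add_distrib, mul_neg,
    neg_add_eq_sub]
  congr 1
  exact sum_congr rfl fun i _ => by ring

/-- An event inside the client. -/
lemma inside (h : EventS) {ρ R1 : ℝ → ℝ} {η ε D de m A β κ : ℝ} {u d T : ι → ℝ}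
    (hρ : RhoOK η ρ R1) (hε : 0 < ε) (hε4 : ε ≤ 1 / 4)
    (hu : ∀ i ∈ s, 0 ≤ u i ∧ 0 ≤ d i) (hD : de ≤ D) (hde : 0 ≤ de) (hm : m = ∑ e ∈ s, u e)
    (hm0 : 0 < m) (hm1 : m ≤ 1) (hA : m * A = ∑ e ∈ s, u e * d e)
    (hT : ∀ i ∈ s, 0 ≤ T i ∧ T i ≤ 1) (hκ0 : 0 ≤ κ) (hκ1 : κ ≤ 1)
    (hw1 : β * κ ≤ 1 + ε) (hβ : 1 - ε * (1 - ∑ i ∈ s, u i * T i) ≤ β) :
    β * (Fc ρ (2 * ε) s d (fun i => if ρ m * d i < (1 + 2 * ε) * de then
        u i * (1 - κ * T i) else 0) de - Fc ρ (2 * ε) s d u D) ≤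
      -(gm (2 * ε) m * D) + gm (2 * ε) m * de + ε * gm (2 * ε) m * D * (1 - ∑ i ∈ s, u i * T i) +
      ∑ i ∈ s, u i * (-((1 - ε) * max (ρ m * d i - (1 + 2 * ε) * de) 0) +
        (1 + ε) * T i * max ((1 + 2 * ε) * de - ρ m * d i) 0) := by
  have hg := gm_nonneg hε hm0 hm1
  have hz := sum_le (fun i hi => (hu i hi).1) hm hT
  have hβ1 : 1 - ε ≤ β := by nlinarith [hz.1]
  have h1 := (h s ρ R1 η (2 * ε) D de m (m * A) d u (fun i => κ * T i) hρ (by linarith)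
    (by linarith) hde (fun i hi => ⟨(hu i hi).2, (hu i hi).1, mul_nonneg hκ0 (hT i hi).1,
      mul_le_one₀ hκ1 (hT i hi).1 (hT i hi).2⟩) hm hm1 hA).2
  refine (mul_le_mul_of_nonneg_left h1 (by linarith)).trans ?_
  have h2 := mul_le_mul_of_nonneg_right hβ (mul_nonneg hg (sub_nonneg.2 hD))
  have h3 : 0 ≤ ε * (1 - ∑ i ∈ s, u i * T i) * (gm (2 * ε) m * de) :=
    mul_nonneg (mul_nonneg hε.le (by linarith [hz.2])) (mul_nonneg hg hde)
  have h4 : ∑ i ∈ s, (β * (u i * (κ * T i) * max ((1 + 2 * ε) * de - ρ m * d i) 0) -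
      β * (u i * max (ρ m * d i - (1 + 2 * ε) * de) 0)) ≤
      ∑ i ∈ s, u i * (-((1 - ε) * max (ρ m * d i - (1 + 2 * ε) * de) 0) +
        (1 + ε) * T i * max ((1 + 2 * ε) * de - ρ m * d i) 0) := by
    refine sum_le_sum fun i hi => ?_
    have h5 := mul_le_mul_of_nonneg_right hβ1
      (mul_nonneg (hu i hi).1 (le_max_right (ρ m * d i - (1 + 2 * ε) * de) 0))
    have h6 := mul_le_mul_of_nonneg_right hw1 (mul_nonneg (mul_nonneg (hu i hi).1 (hT i hi).1)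
      (le_max_right ((1 + 2 * ε) * de - ρ m * d i) 0))
    linarith
  rw [sum_sub_distrib, ← mul_sum, ← mul_sum] at h4
  linarith

/-- The null event. -/
lemma null (h : EventS) {ρ R1 : ℝ → ℝ} {η ε η1 D m A : ℝ} {u d sl : ι → ℝ}
    (hρ : RhoOK η ρ R1) (hε : 0 < ε) (hε4 : ε ≤ 1 / 4) (h0 : 0 < η1) (h1 : η1 ≤ 1)
    (hu : ∀ i ∈ s, 0 ≤ u i ∧ 0 ≤ d i) (hD : 0 ≤ D) (hm : m = ∑ e ∈ s, u e)
    (hm0 : 0 < m) (hm1 : m ≤ 1) (hA : m * A = ∑ e ∈ s, u e * d e)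
    (hs : ∀ i ∈ s, 0 ≤ sl i ∧ sl i ≤ 1) :
    (Fc ρ (2 * ε) s d (fun i => u i * (1 - η1 * sl i)) D - Fc ρ (2 * ε) s d u D) / η1 ≤
      ∑ i ∈ s, u i * (sl i * ((1 + 2 * ε * (2 * m - 1)) * D - ρ m * d i - m * R1 m * A)) +
        η1 * (m * A) := by
  have hA1 : 0 ≤ m * A := hA ▸ sum_nonneg fun i hi => mul_nonneg (hu i hi).1 (hu i hi).2
  have hR1 := hρ.R1_nonneg m hm0.le hm1
  have hr : m * R1 m ≤ 1 := by
    have h2 : 0 ≤ th m := mul_nonneg (sub_nonneg.2 hm1) (by linarith)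
    linarith [hρ.up2 m hm0.le hm1]
  have h2 := (h s ρ R1 η (2 * ε) D D m (m * A) d u (fun i => η1 * sl i) hρ (by linarith)
    (by linarith) hD (fun i hi => ⟨(hu i hi).2, (hu i hi).1, mul_nonneg h0.le (hs i hi).1,
      mul_le_one₀ h1 (hs i hi).1 (hs i hi).2⟩) hm hm1 hA).1
  rw [div_le_iff₀ h0]
  refine h2.trans ?_
  have h3 : ∑ i ∈ s, u i * (η1 * sl i) ^ 2 * ((m * d i + m * A) / 2) ≤
      ∑ i ∈ s, η1 ^ 2 / 2 * (m * (u i * d i) + m * A * u i) := by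
    refine sum_le_sum fun i hi => ?_
    have h4 : sl i ^ 2 ≤ 1 := pow_le_one₀ (hs i hi).1 (hs i hi).2
    have h5 : 0 ≤ u i * η1 ^ 2 * ((m * d i + m * A) / 2) := by
      have := mul_nonneg hm0.le (hu i hi).2
      have := (hu i hi).1
      positivity
    have h6 := mul_le_of_le_one_left h5 h4
    linarith
  rw [← mul_sum, sum_add_distrib, ← mul_sum, ← mul_sum, ← hA, ← hm] at h3
  have h4 := mul_le_mul_of_nonneg_left h3 hR1
  have h5 := mul_le_of_le_one_left (mul_nonneg (sq_nonneg η1) hA1) hr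
  have h6 : ∑ i ∈ s, u i * (η1 * sl i) *
      ((1 + 2 * ε * (2 * m - 1)) * D - ρ m * d i - R1 m * (m * A)) =
      (∑ i ∈ s, u i * (sl i * ((1 + 2 * ε * (2 * m - 1)) * D - ρ m * d i - m * R1 m * A))) * η1 := by
    rw [sum_mul]
    exact sum_congr rfl fun i _ => by ring
  rw [h6]
  linarith

end Split

theorem splitS (h : EventS) : SplitS := by
  intro ι s ρ R1 η ε η1 D G' m A y u d β κ G x T hρ hη hε hε4 h0 h1 hu hD hm hm0 hm1 hA hT hy hκ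
    hG hG'
  have hu' : ∀ i ∈ s, 0 ≤ u i ∧ 0 ≤ d i := fun i hi => ⟨(hu i hi).1, (hu i hi).2.2.1⟩
  obtain ⟨F, hF⟩ : ∃ F, F = Fc ρ (2 * ε) s d u D := ⟨_, rfl⟩
  obtain ⟨g, hg⟩ : ∃ g, g = gm (2 * ε) m := ⟨_, rfl⟩
  obtain ⟨I, hI⟩ : ∃ I : ι → ι → ℝ, I = fun i e =>
    -((1 - ε) * max (ρ m * d i - (1 + 2 * ε) * d e) 0) +
      (1 + ε) * T i e * max ((1 + 2 * ε) * d e - ρ m * d i) 0 := ⟨_, rfl⟩
  obtain ⟨O, hO⟩ : ∃ O : ι → ι → ℝ, O = fun i e =>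
    T i e * (-((1 - ε) * gm (2 * ε) m * max (D - d i - x i e) 0 / m) +
      (1 + 4 * ε) * (d i + min (D - d i) (x i e)) - (1 - ε) * (ρ m * d i + m * R1 m * A) +
      (1 + ε) * (m * R1 m * (d i + A) / 2 * T i e)) := ⟨_, rfl⟩
  obtain ⟨N, hN⟩ : ∃ N : ι → ℝ, N = fun i => (1 - ∑ e ∈ s, y e * T i e) *
    ((1 + 2 * ε * (2 * m - 1)) * D - ρ m * d i - m * R1 m * A) := ⟨_, rfl⟩
  have hn := Split.null h (sl := fun i => 1 - ∑ e ∈ s, y e * T i e) hρ hε hε4 h0 h1 hu' hD hm hm0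
    hm1 hA fun i hi => ⟨sub_nonneg.2 (hy i hi), sub_le_self _ (sum_nonneg fun e he =>
      mul_nonneg ((hu e he).1.trans (hu e he).2.1) (hT i hi e he).1)⟩
  have hn' : (G' - F) / η1 ≤ ∑ i ∈ s, u i * N i + η1 * (m * A) := by
    rw [hF, hN]
    exact (div_le_div_of_nonneg_right (sub_le_sub_right hG' _) h0.le).trans hn
  have he : ∀ e ∈ s, y e * β e * (G e - F) ≤
      u e * (-(g * D) + g * d e + ε * g * D * (1 - ∑ i ∈ s, u i * T i e) + ∑ i ∈ s, u i * I i e) +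
        (y e - u e) * ∑ i ∈ s, u i * O i e := by
    intro e he
    obtain ⟨k0, k1, w0, w1, hβ⟩ := hκ e he
    have hz := Split.sum_le (fun i hi => (hu i hi).1) hm
      fun i hi => ⟨(hT i hi e he).1, (hT i hi e he).2.1⟩
    have hβ1 : 1 - ε ≤ β e := by nlinarith [hz.1]
    have hβ0 : 0 ≤ β e := by linarith
    have a1 : β e * (G e - F) ≤ ∑ i ∈ s, u i * O i e := by
      rw [hF, hO]
      exact (mul_le_mul_of_nonneg_left (sub_le_sub_right (hG e he).1 _) hβ0).trans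
        (Split.outside h (x := fun i => x i e) (T := fun i => T i e) hρ hη hε hε4 hu' hD
          (hu e he).2.2.1 hm hm0 hm1 hA (fun i hi => hT i hi e he) k0 k1 w0 w1 hβ1)
    have a2 : u e * (β e * (G e - F)) ≤ u e * (-(g * D) + g * d e +
        ε * g * D * (1 - ∑ i ∈ s, u i * T i e) + ∑ i ∈ s, u i * I i e) := by
      rcases (hu e he).1.eq_or_lt with h2 | h2
      · rw [← h2, zero_mul, zero_mul]
      refine mul_le_mul_of_nonneg_left ?_ h2.le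
      have h3 := ((hu e he).2.2.2 h2).le
      have h4 := (hG e he).2
      rw [min_eq_right h3] at h4
      rw [hF, hg, hI]
      exact (mul_le_mul_of_nonneg_left (sub_le_sub_right h4 _) hβ0).trans
        (Split.inside h (T := fun i => T i e) hρ hε hε4 hu' h3 (hu e he).2.2.1 hm hm0 hm1 hA
          (fun i hi => ⟨(hT i hi e he).1, (hT i hi e he).2.1⟩) k0 k1 w1 hβ)
    have a3 := mul_le_mul_of_nonneg_left a1 (sub_nonneg.2 (hu e he).2.1)
    linarith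
  have hV : ∀ i, Vp s y u d (x i) (T i) ε η1 m (ρ m) (m * R1 m) A (d i) D =
      -(g * D) + ε * g * D * (1 - ∑ e ∈ s, u e * T i e) + g * A + ∑ e ∈ s, u e * I i e +
        ∑ e ∈ s, (y e - u e) * O i e + N i + η1 * A := by
    intro i
    rw [hg, hI, hO, hN]
    rfl
  have c1 : ∀ (a : ι → ℝ) (B : ι → ι → ℝ), ∑ e ∈ s, a e * ∑ i ∈ s, u i * B i e =
      ∑ i ∈ s, u i * ∑ e ∈ s, a e * B i e := by
    intro a B
    simp only [mul_sum]
    rw [sum_comm]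
    exact sum_congr rfl fun i _ => sum_congr rfl fun e _ => by ring
  have e1 : ∑ e ∈ s, (u e * (-(g * D) + g * d e + ε * g * D * (1 - ∑ i ∈ s, u i * T i e) +
      ∑ i ∈ s, u i * I i e) + (y e - u e) * ∑ i ∈ s, u i * O i e) =
      (ε * g * D - g * D) * ∑ e ∈ s, u e + g * ∑ e ∈ s, u e * d e -
        ε * g * D * ∑ e ∈ s, u e * ∑ i ∈ s, u i * T i e + ∑ e ∈ s, u e * ∑ i ∈ s, u i * I i e +
        ∑ e ∈ s, (y e - u e) * ∑ i ∈ s, u i * O i e := by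
    rw [mul_sum, mul_sum, mul_sum, ← sum_add_distrib, ← sum_sub_distrib, ← sum_add_distrib,
      ← sum_add_distrib]
    exact sum_congr rfl fun e _ => by ring
  have e2 : ∑ i ∈ s, u i * (-(g * D) + ε * g * D * (1 - ∑ e ∈ s, u e * T i e) + g * A +
      ∑ e ∈ s, u e * I i e + ∑ e ∈ s, (y e - u e) * O i e + N i + η1 * A) =
      (ε * g * D - g * D + g * A + η1 * A) * ∑ i ∈ s, u i -
        ε * g * D * ∑ i ∈ s, u i * ∑ e ∈ s, u e * T i e + ∑ i ∈ s, u i * ∑ e ∈ s, u e * I i e +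
        ∑ i ∈ s, u i * ∑ e ∈ s, (y e - u e) * O i e + ∑ i ∈ s, u i * N i := by
    rw [mul_sum, mul_sum, ← sum_sub_distrib, ← sum_add_distrib, ← sum_add_distrib,
      ← sum_add_distrib]
    exact sum_congr rfl fun e _ => by ring
  have h2 := sum_le_sum he
  rw [e1, c1 u T, c1 u I, c1 (fun e => y e - u e) O, ← hm, ← hA] at h2
  simp only [hV]
  rw [e2, ← hm, ← hF]
  linarith

end Vale.Agent.P334
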