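import Vale.Agent.P334.Stmt

/-!
One step of the process keeps the invariant and decreases the potential.
-/

namespace Vale.Agent.P334

open Finset

namespace Step

lemma shrink_le (a : ℕ) (f : ℚ) : shrink a f ≤ a := min_le_left _ _

lemma shrink_mono {a b : ℕ} {f : ℚ} (h : a ≤ b) (hf : f ≤ 1) : shrink a f ≤ shrink b f := by
  unfold shrink
  refine min_le_min h (Nat.floor_le_floor ?_)
  have : (a : ℚ) ≤ b := by exact_mod_cast h
  exact mul_le_mul_of_nonneg_right this (by linarith)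

lemma shrink_up (a : ℕ) {f : ℚ} (hf : f ≤ 1) : (shrink a f : ℝ) ≤ a * (1 - (f : ℝ)) := by
  have h0 : (0 : ℚ) ≤ a * (1 - f) := mul_nonneg (Nat.cast_nonneg _) (by linarith)
  have h1 : (shrink a f : ℚ) ≤ a * (1 - f) :=
    le_trans (by exact_mod_cast min_le_right _ _) (Nat.floor_le h0)
  exact_mod_cast h1

lemma shrink_low (a : ℕ) {f : ℚ} (hf : 0 ≤ f) : a * (1 - (f : ℝ)) - 1 ≤ (shrink a f : ℝ) := by
  have h1 : (a : ℚ) * (1 - f) - 1 ≤ (shrink a f : ℚ) := by
    unfold shrink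
    rw [Nat.cast_min]
    refine le_min ?_ ?_
    · have : (0 : ℚ) ≤ a * f := mul_nonneg (Nat.cast_nonneg _) hf
      linarith
    · have := Nat.lt_floor_add_one ((a : ℚ) * (1 - f))
      linarith
  exact_mod_cast h1

lemma opens_facts {n : ℕ} {S : List ℕ} (h1 : S ≠ []) (h2 : S.Nodup) (h3 : ∀ i ∈ S, i < n)
    (c : ℕ) : opens n S c ≠ [] ∧ (opens n S c).Nodup ∧ (∀ i ∈ opens n S c, i < n) ∧
      (opens n S c).length ≤ S.length + 1 := by
  unfold opens
  by_cases h : c < n ∧ c ∉ S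
  · have e : (decide (c < n) && !memB c S) = true := by
      have : memB c S = false := by
        rw [Bool.eq_false_iff]
        exact fun hh => h.2 (memB_iff.1 hh)
      simp [h.1, this]
    rw [e]
    refine ⟨by simp, List.nodup_cons.2 ⟨h.2, h2⟩, fun i hi => ?_, by simp⟩
    rcases List.mem_cons.1 hi with rfl | hi
    · exact h.1
    · exact h3 i hi
  · have e : (decide (c < n) && !memB c S) = false := by
      by_cases hc : c < n
      · have : memB c S = true := memB_iff.2 (by by_contra hh; exact h ⟨hc, hh⟩)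
        simp [this]
      · simp [hc]
    rw [e]
    exact ⟨h1, h2, h3, by simp⟩

lemma opens_null (n : ℕ) (S : List ℕ) : opens n S n = S := by simp [opens]

variable {q : ℕ} {C : Core} {σ : PS}

lemma s_pos (C : Core) : 1 ≤ C.s := by unfold Core.s; omega

lemma NN_pos (hq : 1 ≤ q) (C : Core) : 0 < NN q C := by
  have := s_pos C
  unfold NN
  positivity

lemma pp_ge (hq : 1 ≤ q) : (2 : ℝ) ≤ pp q := by
  have h : 2 ≤ pp q := by
    unfold pp
    nlinarith
  exact_mod_cast h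

lemma HH_ge (q : ℕ) (C : Core) : C.s ≤ HH q C := by unfold HH; omega

/-- The real killing rule. -/
noncomputable def TR (q : ℕ) (C : Core) (σ : PS) (i e : ℕ) : ℝ :=
  Tf (lam q C σ i : ℝ) (xi q C σ i) (xf q C i e)

lemma cast_yq (i : ℕ) : ((yq q C σ i : ℚ) : ℝ) = yR q C σ i := by simp [yq, yR]

lemma cast_Tm (i e : ℕ) : ((Tm q C σ i e : ℚ) : ℝ) = TR q C σ i e := by
  unfold Tm TR
  rw [cast_Tf]
  simp

lemma cast_KK (e : ℕ) :
    ((KK q C σ e : ℚ) : ℝ) = ∑ i ∈ range C.n, yR q C σ i * TR q C σ i e := by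
  unfold KK
  rw [sum_tab]
  push_cast
  simp only [cast_yq, cast_Tm]

lemma cast_slot (i : ℕ) :
    ((slot q C σ i : ℚ) : ℝ) = 1 - ∑ e ∈ range C.n, yR q C σ e * TR q C σ i e := by
  unfold slot
  rw [sum_tab]
  push_cast
  simp only [cast_yq, cast_Tm]

lemma kill_lt {c : ℕ} (h : c < C.n) (i : ℕ) : ((kill q C σ c i : ℚ) : ℝ) =
    kap (pp q : ℝ) (KK q C σ c) * TR q C σ i c := by
  unfold kill
  simp only [h, decide_true, cond_true]
  push_cast
  rw [cast_kap, cast_Tm]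
  simp

lemma kill_ge {c : ℕ} (h : ¬c < C.n) (i : ℕ) : ((kill q C σ c i : ℚ) : ℝ) =
    (slot q C σ i : ℝ) / HH q C := by
  unfold kill
  simp only [h, decide_false, cond_false]
  push_cast
  rfl

lemma yR_nonneg (i : ℕ) : 0 ≤ yR q C σ i := by unfold yR; positivity

lemma uR_nonneg (j i : ℕ) : 0 ≤ uR q C σ j i := by unfold uR; positivity

lemma TR_mem (i e : ℕ) : 0 ≤ TR q C σ i e ∧ TR q C σ i e ≤ 1 :=
  ⟨Tf_nonneg (Nat.cast_nonneg _) _ _, Tf_le_one _ _ _⟩

lemma KK_nonneg (e : ℕ) : (0 : ℝ) ≤ (KK q C σ e : ℚ) := by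
  rw [cast_KK]
  exact sum_nonneg fun i _ => mul_nonneg (yR_nonneg i) (TR_mem i e).1

lemma slot_mem (h1 : RuleS) (hq : 1 ≤ q) (hC : CoreWF q C) (hσ : Good q C σ) {i : ℕ}
    (hi : i < C.n) : (0 : ℝ) ≤ (slot q C σ i : ℚ) ∧ ((slot q C σ i : ℚ) : ℝ) ≤ 1 := by
  obtain ⟨-, -, a3, a4, -⟩ := h1 q C σ hq hC hσ i hi
  obtain ⟨b1, -, -, b4, -⟩ := t1_facts
  rw [cast_slot]
  have e : ∑ e ∈ range C.n, yR q C σ e * TR q C σ i e =
      t1 ℝ * ∑ e ∈ range C.n, yR q C σ e * Sf (lam q C σ i : ℝ) (xf q C i e) +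
        ∑ e ∈ range C.n, yR q C σ e * T2f (lam q C σ i : ℝ) (xi q C σ i) (xf q C i e) := by
    rw [mul_sum, ← sum_add_distrib]
    refine sum_congr rfl fun e _ => ?_
    unfold TR
    rw [Tf_eq]
    ring
  have h0 : 0 ≤ ∑ e ∈ range C.n, yR q C σ e * TR q C σ i e :=
    sum_nonneg fun e _ => mul_nonneg (yR_nonneg e) (TR_mem i e).1
  have := mul_le_mul_of_nonneg_left a3 b1.le
  constructor <;> linarith

lemma kill_mem (h1 : RuleS) (h2 : CountS) (hq : 1 ≤ q) (hC : CoreWF q C) (hσ : Good q C σ)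
    (c : ℕ) {i : ℕ} (hi : i < C.n) : 0 ≤ kill q C σ c i ∧ kill q C σ c i ≤ 1 := by
  have key : (0 : ℝ) ≤ (kill q C σ c i : ℚ) ∧ ((kill q C σ c i : ℚ) : ℝ) ≤ 1 := by
    by_cases h : c < C.n
    · rw [kill_lt h]
      obtain ⟨a1, a2, -⟩ := h2.1 (pp q) (KK q C σ c) 0 (pp_ge hq) le_rfl (KK_nonneg c) zero_le_one
      obtain ⟨b1, b2⟩ := TR_mem (q := q) (C := C) (σ := σ) i c
      exact ⟨mul_nonneg a1 b1, mul_le_one₀ a2 b1 b2⟩
    · rw [kill_ge h]
      obtain ⟨a1, a2⟩ := slot_mem h1 hq hC hσ hi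
      have b : (1 : ℝ) ≤ HH q C := by exact_mod_cast (s_pos C).trans (HH_ge q C)
      exact ⟨div_nonneg a1 (by linarith), (div_le_one (by linarith)).2 (by linarith)⟩
  exact ⟨by exact_mod_cast key.1, by exact_mod_cast key.2⟩

lemma next_y (c : ℕ) {i : ℕ} (hi : i < C.n) :
    g1n (next q C σ c).2.1 i = shrink (g1n σ.2.1 i) (kill q C σ c i) := g1n_tab _ hi

lemma next_u (c : ℕ) {j i : ℕ} (hj : j < C.m) (hi : i < C.n) :
    g2n (next q C σ c).2.2 j i = shrink (g2n σ.2.2 j i) (kill q C σ c i) :=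
  g2n_tab (fun j i => shrink (g2n σ.2.2 j i) (kill q C σ c i)) hj hi

lemma good_next (h1 : RuleS) (h2 : CountS) (hq : 1 ≤ q) (hC : CoreWF q C) (hσ : Good q C σ)
    (c : ℕ) : Good q C (next q C σ c) := by
  obtain ⟨a1, a2, a3, -⟩ := opens_facts hσ.S_ne hσ.S_nodup hσ.S_lt c
  refine ⟨a1, a2, a3, fun i hi => ?_, fun j hj i hi => ?_, fun j hj => ?_, ?_⟩
  · rw [next_y c hi]
    exact (shrink_le _ _).trans (hσ.Y_le i hi)
  · rw [next_y c hi, next_u c hj hi]
    exact shrink_mono (hσ.U_le j hj i hi) (kill_mem h1 h2 hq hC hσ c hi).2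
  · refine le_trans (sum_le_sum fun i hi => ?_) (hσ.row_le j hj)
    rw [next_u c hj (mem_range.1 hi)]
    exact shrink_le _ _
  · refine le_trans ?_ hσ.sum_le
    unfold sumY
    rw [sum_tab, sum_tab]
    refine sum_le_sum fun i hi => ?_
    rw [next_y c (mem_range.1 hi)]
    exact shrink_le _ _

/-- The real potential after the candidate `c` without rounding. -/
noncomputable def Wc (q : ℕ) (C : Core) (σ : PS) (c : ℕ) : ℝ :=
  WR q C (opens C.n σ.1 c) (fun i => yR q C σ i * (1 - kill q C σ c i))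
    (fun j i => uR q C σ j i * (1 - kill q C σ c i))

lemma WW_next (h1 : RuleS) (h2 : CountS) (h4 : BridgeS) (hq : 2000 ≤ q) (hC : CoreWF q C)
    (hσ : Good q C σ) (c : ℕ) :
    (WW q C (next q C σ c) : ℝ) ≤ Wc q C σ c + 2 * C.n * C.m * DD q C / NN q C := by
  have hq1 : 1 ≤ q := by omega
  obtain ⟨b1, b2, -⟩ := h4 q C hq hC
  obtain ⟨a1, -, a3, -⟩ := opens_facts hσ.S_ne hσ.S_nodup hσ.S_lt c
  have hN : (0 : ℝ) < NN q C := by exact_mod_cast NN_pos hq1 C
  rw [b1 _ (good_next h1 h2 hq1 hC hσ c)]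
  refine b2 (opens C.n σ.1 c) _ _ _ _ a1 a3 (fun i hi => ?_) (fun j hj i hi => ?_) fun j hj => ?_
  · unfold yR
    rw [next_y c hi, div_mul_eq_mul_div]
    exact div_le_div_of_nonneg_right (shrink_up _ (kill_mem h1 h2 hq1 hC hσ c hi).2) hN.le
  · refine ⟨uR_nonneg j i, ?_, ?_⟩
    · unfold uR
      rw [next_u c hj hi, div_mul_eq_mul_div]
      exact div_le_div_of_nonneg_right (shrink_up _ (kill_mem h1 h2 hq1 hC hσ c hi).2) hN.le
    · unfold uR
      rw [next_u c hj hi, div_mul_eq_mul_div, ← sub_div]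
      exact div_le_div_of_nonneg_right (shrink_low _ (kill_mem h1 h2 hq1 hC hσ c hi).1) hN.le
  · have e : ∑ i ∈ range C.n, uR q C σ j i ≤ 1 := by
      unfold uR
      rw [← sum_div, div_le_one hN]
      exact_mod_cast hσ.row_le j hj
    refine le_trans (sum_le_sum fun i hi => ?_) e
    have k0 : (0 : ℝ) ≤ (kill q C σ c i : ℚ) := by
      exact_mod_cast (kill_mem h1 h2 hq1 hC hσ c (mem_range.1 hi)).1
    have := mul_nonneg (uR_nonneg (q := q) (C := C) (σ := σ) j i) k0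
    linarith

lemma sum_yR : ∑ i ∈ range C.n, yR q C σ i = (sumY C σ : ℝ) / NN q C := by
  unfold yR sumY
  rw [sum_tab, ← sum_div]
  push_cast
  rfl

lemma mass_lt {c : ℕ} (h : c < C.n) :
    ∑ i ∈ range C.n, yR q C σ i * (1 - kill q C σ c i) =
      ∑ i ∈ range C.n, yR q C σ i - kap (pp q : ℝ) (KK q C σ c) * KK q C σ c := by
  nth_rewrite 2 [cast_KK]
  rw [mul_sum, ← sum_sub_distrib]
  refine sum_congr rfl fun i _ => ?_
  rw [kill_lt h]
  ring

lemma mass_null : ∑ i ∈ range C.n, yR q C σ i * (1 - kill q C σ C.n i) =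
    ∑ i ∈ range C.n, yR q C σ i -
      1 / HH q C * ∑ i ∈ range C.n, yR q C σ i * slot q C σ i := by
  rw [mul_sum, ← sum_sub_distrib]
  refine sum_congr rfl fun i _ => ?_
  rw [kill_ge (lt_irrefl _)]
  ring

/-- The weighted sum of the changes of the potential, in abstract form. -/
lemma drift_abs {n m : ℕ} (w z a : ℕ → ℝ) (F : ℕ → ℕ → ℝ) (F0 : ℕ → ℝ)
    (H l k θ s M zb : ℝ) (hw : ∀ e < n, 0 ≤ w e) (hH : 0 < H) (hl : 0 ≤ l) (hk : 0 < k)
    (hθ : 0 ≤ θ) (ha : ∀ e < n, a e ≤ s + 1)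
    (hF : ∀ j < m, ∑ e ∈ range n, w e * (F e j - F0 j) + H * (F n j - F0 j) ≤ 0)
    (hE : ∑ e ∈ range n, w e * (Real.exp (θ * (1 - z e)) - 1) +
      (Real.exp (-(θ * (1 / H * zb))) - 1) / (1 / H) ≤ 0)
    (hM : M / 2 ≤ ∑ e ∈ range n, w e * z e + zb) :
    ∑ e ∈ range n, w e * ((∑ j ∈ range m, F e j + l * ((M - z e) / k +
        Real.exp (θ * (a e + (M - z e) - k)))) -
        (∑ j ∈ range m, F0 j + l * (M / k + Real.exp (θ * (s + M - k))))) +
      H * ((∑ j ∈ range m, F n j + l * ((M - 1 / H * zb) / k +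
        Real.exp (θ * (s + (M - 1 / H * zb) - k)))) -
        (∑ j ∈ range m, F0 j + l * (M / k + Real.exp (θ * (s + M - k))))) ≤
      -(l * (M / 2 / k)) := by
  set Λ := Real.exp (θ * (s + M - k)) with hΛ
  have hΛ0 : 0 < Λ := Real.exp_pos _
  have t1 : ∀ e ∈ range n, w e * ((∑ j ∈ range m, F e j + l * ((M - z e) / k +
        Real.exp (θ * (a e + (M - z e) - k)))) - (∑ j ∈ range m, F0 j + l * (M / k + Λ))) ≤
      ∑ j ∈ range m, w e * (F e j - F0 j) - l / k * (w e * z e) +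
        l * Λ * (w e * (Real.exp (θ * (1 - z e)) - 1)) := by
    intro e he
    have he' := mem_range.1 he
    have x1 : Real.exp (θ * (a e + (M - z e) - k)) ≤ Λ * Real.exp (θ * (1 - z e)) := by
      rw [hΛ, ← Real.exp_add]
      refine Real.exp_le_exp.2 ?_
      have := mul_le_mul_of_nonneg_left (ha e he') hθ
      nlinarith
    have x2 := mul_le_mul_of_nonneg_left x1 (mul_nonneg (hw e he') hl)
    rw [← mul_sum, sum_sub_distrib]
    linear_combination x2
  have t2 : H * ((∑ j ∈ range m, F n j + l * ((M - 1 / H * zb) / k +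
        Real.exp (θ * (s + (M - 1 / H * zb) - k)))) - (∑ j ∈ range m, F0 j + l * (M / k + Λ))) =
      ∑ j ∈ range m, H * (F n j - F0 j) - l / k * zb +
        l * Λ * ((Real.exp (-(θ * (1 / H * zb))) - 1) / (1 / H)) := by
    have x1 : Real.exp (θ * (s + (M - 1 / H * zb) - k)) =
        Λ * Real.exp (-(θ * (1 / H * zb))) := by
      rw [hΛ, ← Real.exp_add]
      congr 1
      ring
    rw [x1, ← mul_sum, sum_sub_distrib]
    field_simp
    ring
  have t3 := sum_le_sum t1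
  rw [sum_add_distrib, sum_sub_distrib, sum_comm, ← mul_sum, ← mul_sum] at t3
  have t4 : ∑ j ∈ range m, ∑ e ∈ range n, w e * (F e j - F0 j) +
      ∑ j ∈ range m, H * (F n j - F0 j) ≤ 0 := by
    rw [← sum_add_distrib]
    exact sum_nonpos fun j hj => hF j (mem_range.1 hj)
  have t5 := mul_le_mul_of_nonneg_left hE (mul_nonneg hl hΛ0.le)
  have t6 := mul_le_mul_of_nonneg_left hM (div_nonneg hl hk.le)
  have t7 : l * (M / 2 / k) = l / k * (M / 2) := by ring
  rw [t2, t7]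
  nlinarith

lemma mass_le (hq : 1 ≤ q) (hσ : Good q C σ) : ∑ i ∈ range C.n, yR q C σ i ≤ C.k := by
  have hN : (0 : ℝ) < NN q C := by exact_mod_cast NN_pos hq C
  rw [sum_yR, div_le_iff₀ hN]
  exact_mod_cast hσ.sum_le

lemma k_le (C : Core) : (C.k : ℝ) + 1 ≤ C.s := by
  have : C.k + 1 ≤ C.s := by
    unfold Core.k Core.s
    omega
  exact_mod_cast this

lemma drift (h1 : RuleS) (h2 : CountS) (h3 : ThreshS) (h4 : BridgeS) (hq : 2000 ≤ q)
    (hC : CoreWF q C) (hσ : Good q C σ) :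
    (∀ e < C.n, 0 ≤ yR q C σ e * bet (pp q : ℝ) (KK q C σ e)) ∧
    ∑ e ∈ range C.n, yR q C σ e * bet (pp q : ℝ) (KK q C σ e) ≤ (C.s : ℝ) ^ 2 ∧
    ∑ e ∈ range C.n, yR q C σ e * bet (pp q : ℝ) (KK q C σ e) * (Wc q C σ e - WW q C σ) +
      HH q C * (Wc q C σ C.n - WW q C σ) ≤
      -((LL q C : ℝ) / q * ((∑ i ∈ range C.n, yR q C σ i) / 2 / (C.k + 1))) := by
  have hq1 : 1 ≤ q := by omega
  obtain ⟨b1, -, b3, b4⟩ := h4 q C hq hC
  have hp := pp_ge hq1
  have hθ : 0 < thC q C := lt_of_lt_of_le (by positivity) b3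
  have hs : (1 : ℝ) ≤ C.s := by exact_mod_cast s_pos C
  have hH : (C.s : ℝ) ≤ HH q C := by exact_mod_cast HH_ge q C
  have hM := mass_le hq1 hσ
  have hk := k_le C
  have hM0 : 0 ≤ ∑ i ∈ range C.n, yR q C σ i := sum_nonneg fun i _ => yR_nonneg i
  have hw : ∀ e < C.n, 0 ≤ yR q C σ e * bet (pp q : ℝ) (KK q C σ e) := by
    intro e _
    obtain ⟨-, -, -, -, a5⟩ :=
      h2.1 (pp q) (KK q C σ e) 0 hp le_rfl (KK_nonneg e) zero_le_one
    have : 1 / (pp q : ℝ) ≤ 1 := (div_le_one (by linarith)).2 (by linarith)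
    exact mul_nonneg (yR_nonneg e) (by linarith)
  obtain ⟨c1, c2, c3⟩ := h2.2 (range C.n) (pp q) (thC q C) (1 / HH q C) (yR q C σ)
    (fun i => slot q C σ i) (fun e => KK q C σ e) (TR q C σ) hp hθ b4
    (one_div_pos.2 (by linarith))
    (by rw [one_div_mul_eq_div, div_le_one (by linarith)]; linarith)
    (fun i _ => yR_nonneg i) (fun i _ e _ => TR_mem i e)
    (fun i hi => ⟨cast_slot i, (slot_mem h1 hq1 hC hσ (mem_range.1 hi)).1⟩)
    (fun e _ => cast_KK e)
  refine ⟨hw, c3.trans (by nlinarith), ?_⟩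
  have key := drift_abs (n := C.n) (m := C.m)
    (fun e => yR q C σ e * bet (pp q : ℝ) (KK q C σ e))
    (fun e => kap (pp q : ℝ) (KK q C σ e) * KK q C σ e)
    (fun e => ((opens C.n σ.1 e).length : ℝ))
    (fun e j => FR q C (opens C.n σ.1 e) j fun i => uR q C σ j i * (1 - kill q C σ e i))
    (fun j => FR q C σ.1 j (uR q C σ j)) (HH q C) ((LL q C : ℝ) / q) (C.k + 1) (thC q C)
    σ.1.length (∑ i ∈ range C.n, yR q C σ i) (∑ i ∈ range C.n, yR q C σ i * slot q C σ i)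
    hw (by linarith) (by positivity) (by positivity) hθ.le
    (fun e _ => by exact_mod_cast (opens_facts hσ.S_ne hσ.S_nodup hσ.S_lt e).2.2.2)
    (fun j hj => by simpa only [opens_null] using h3 q C σ hq hC hσ j hj) c1 c2
  rw [b1 σ hσ]
  refine le_trans (le_of_eq ?_) key
  congr 1
  · refine sum_congr rfl fun e he => ?_
    unfold Wc WR
    rw [mass_lt (mem_range.1 he)]
  · unfold Wc WR
    rw [mass_null, opens_null]

lemma err_le (hq : 1 ≤ q) (C : Core) :
    (2 * C.n * C.m * DD q C / NN q C : ℝ) ≤ (LL q C : ℝ) / (48 * q ^ 3 * C.s ^ 3) := by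
  have hN : (0 : ℝ) < NN q C := by exact_mod_cast NN_pos hq C
  have hs : (1 : ℝ) ≤ C.s := by exact_mod_cast s_pos C
  have hq' : (1 : ℝ) ≤ q := by exact_mod_cast hq
  have e1 : (DD q C : ℝ) = 3 * LL q C := by
    unfold DD LL D0
    push_cast
    ring
  have e2 : (NN q C : ℝ) = 300 * q ^ 4 * C.s ^ 5 := by
    unfold NN
    push_cast
    ring
  have hn : (C.n : ℝ) ≤ C.s := by
    have : C.n ≤ C.s := by unfold Core.s; omega
    exact_mod_cast this
  have hm : (C.m : ℝ) ≤ C.s := by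
    have : C.m ≤ C.s := by unfold Core.s; omega
    exact_mod_cast this
  have hnm : (C.n : ℝ) * C.m ≤ C.s * C.s := mul_le_mul hn hm (by positivity) (by positivity)
  rw [div_le_div_iff₀ hN (by positivity), e1, e2]
  have hL : (0 : ℝ) ≤ LL q C * q ^ 3 * C.s ^ 3 := by positivity
  have x1 : 288 * ((C.n : ℝ) * C.m) ≤ 300 * q * (C.s * C.s) := by nlinarith
  have x2 := mul_le_mul_of_nonneg_left x1 hL
  nlinarith

end Step

open Step in
theorem stepS (h1 : RuleS) (h2 : CountS) (h3 : ThreshS) (h4 : BridgeS) : StepS := by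
  intro q C σ hq hC hσ
  have hq1 : 1 ≤ q := by omega
  by_cases h : q * sumY C σ ≤ NN q C
  · have e : step q C σ = σ := by simp [step, h]
    exact ⟨by rw [e]; exact hσ, fun _ => e, fun h' => absurd h (not_le.2 h')⟩
  set c := argmin (fun c => WW q C (next q C σ c)) (List.range (C.n + 1)) 0 with hc
  have e : step q C σ = next q C σ c := by simp [step, h, hc]
  rw [e]
  refine ⟨good_next h1 h2 hq1 hC hσ c, fun h' => absurd h' h, fun h' => ?_⟩
  obtain ⟨a1, a2, a3⟩ := drift h1 h2 h3 h4 hq hC hσ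
  have hN : (0 : ℝ) < NN q C := by exact_mod_cast NN_pos hq1 C
  have hs : (1 : ℝ) ≤ C.s := by exact_mod_cast s_pos C
  have hq' : (1 : ℝ) ≤ q := by exact_mod_cast hq1
  have herr := err_le hq1 C
  set err : ℝ := 2 * C.n * C.m * DD q C / NN q C with herr'
  set δ : ℝ := (LL q C : ℝ) / (48 * q ^ 3 * C.s ^ 3) with hδ
  have hδ0 : 0 ≤ δ := by positivity
  set w : ℝ := WW q C (next q C σ c) - err - WW q C σ with hw
  have hmin : ∀ d ≤ C.n, w ≤ Wc q C σ d - WW q C σ := by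
    intro d hd
    have x1 : WW q C (next q C σ c) ≤ WW q C (next q C σ d) :=
      argmin_le (fun c => WW q C (next q C σ c)) 0 (List.mem_range.2 (by omega))
    have x2 : (WW q C (next q C σ c) : ℝ) ≤ WW q C (next q C σ d) := by exact_mod_cast x1
    have x3 := WW_next h1 h2 h4 hq hC hσ d
    linarith
  have hH : (HH q C : ℝ) = 8 * q + C.s := by
    unfold HH
    push_cast
    ring
  set t : ℝ := ∑ e ∈ range C.n, yR q C σ e * bet (pp q : ℝ) (KK q C σ e) with ht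
  have ht0 : 0 ≤ t := sum_nonneg fun e he => a1 e (mem_range.1 he)
  have y1 : t * w ≤ ∑ e ∈ range C.n,
      yR q C σ e * bet (pp q : ℝ) (KK q C σ e) * (Wc q C σ e - WW q C σ) := by
    rw [ht, sum_mul]
    exact sum_le_sum fun e he => mul_le_mul_of_nonneg_left (hmin e (mem_range.1 he).le)
      (a1 e (mem_range.1 he))
  have y2 : (HH q C : ℝ) * w ≤ HH q C * (Wc q C σ C.n - WW q C σ) :=
    mul_le_mul_of_nonneg_left (hmin _ le_rfl) (by positivity)
  have y3 : 1 / (q : ℝ) ≤ ∑ i ∈ range C.n, yR q C σ i := by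
    rw [sum_yR, div_le_div_iff₀ (by linarith) hN]
    have : (NN q C : ℝ) ≤ q * sumY C σ := by exact_mod_cast h'.le
    linarith
  have y4 : 24 * q * C.s ^ 2 * δ ≤
      (LL q C : ℝ) / q * ((∑ i ∈ range C.n, yR q C σ i) / 2 / (C.k + 1)) := by
    have x1 : 24 * q * C.s ^ 2 * δ = (LL q C : ℝ) / q * (1 / q / 2 / C.s) := by
      rw [hδ]
      field_simp
      ring
    rw [x1]
    refine mul_le_mul_of_nonneg_left ?_ (by positivity)
    have x2 : 0 < 1 / (q : ℝ) := by positivity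
    exact div_le_div₀ (by linarith) (by linarith) (by positivity) (k_le C)
  have y5 : t + HH q C ≤ 12 * q * C.s ^ 2 := by
    have x1 : (1 : ℝ) ≤ C.s ^ 2 := one_le_pow₀ hs
    have x2 : (C.s : ℝ) ≤ C.s ^ 2 := by nlinarith
    have x3 : (C.s : ℝ) ^ 2 ≤ q * C.s ^ 2 := by nlinarith
    have x4 : (q : ℝ) ≤ q * C.s ^ 2 := by nlinarith
    rw [hH]
    nlinarith
  have y6 : w ≤ -(2 * δ) := by
    by_contra hcon
    have x1 : -(2 * δ) < w := not_le.1 hcon
    have x2 : 0 < t + HH q C := by rw [hH]; linarith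
    have x3 := mul_lt_mul_of_pos_left x1 x2
    have x4 := mul_le_mul_of_nonneg_right y5 hδ0
    nlinarith
  linarith

end Vale.Agent.P334
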