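import Vale.Agent.P334.Stmt

/-!
The drift of the real potential of a client in the process.
-/

namespace Vale.Agent.P334

open Finset

namespace Thresh

lemma ite_thr (a τ : ℕ) {R X : ℝ} (hR : 0 < R) (v : ℝ) :
    (if a < min τ ⌈X / R⌉₊ then v else 0) =
      if R * (a : ℝ) < X then (if a < τ then v else 0) else 0 := by
  have h : a < ⌈X / R⌉₊ ↔ R * (a : ℝ) < X := by
    rw [Nat.lt_ceil, lt_div_iff₀ hR, mul_comm]
  by_cases h1 : a < τ <;> by_cases h2 : R * (a : ℝ) < X <;> simp [h1, h2, h]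

lemma Dj_opens (q : ℕ) (C : Core) {S : List ℕ} (hS : S ≠ []) (j : ℕ) {e : ℕ} (he : e < C.n) :
    Dj q C (opens C.n S e) j = min (Dj q C S j) (xc q C j e) := by
  unfold opens
  by_cases h : e ∈ S
  · have h1 : memB e S = true := memB_iff.2 h
    have h2 : Dj q C S j ≤ xc q C j e := minL_le (fun i => (xc q C j i : ℚ)) h
    simp [h1, min_eq_left h2]
  · have h1 : memB e S = false := by
      rw [← Bool.not_eq_true, memB_iff]; exact h
    simp only [h1, he, decide_true, Bool.not_false, Bool.and_self, cond_true]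
    refine le_antisymm (le_min ?_ ?_) ?_
    · refine le_minL _ hS fun x hx => ?_
      exact minL_le (fun i => (xc q C j i : ℚ)) (List.mem_cons_of_mem _ hx)
    · exact minL_le (fun i => (xc q C j i : ℚ)) List.mem_cons_self
    · refine le_minL _ (List.cons_ne_nil _ _) fun x hx => ?_
      rcases List.mem_cons.1 hx with rfl | hx
      · exact min_le_right _ _
      · exact (min_le_left _ _).trans (minL_le (fun i => (xc q C j i : ℚ)) hx)

lemma cast_yq (q : ℕ) (C : Core) (σ : PS) (i : ℕ) : ((yq q C σ i : ℚ) : ℝ) = yR q C σ i := by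
  simp [yq, yR]

lemma cast_Tm (q : ℕ) (C : Core) (σ : PS) (i e : ℕ) :
    ((Tm q C σ i e : ℚ) : ℝ) = Tf (lam q C σ i : ℝ) (xi q C σ i) (xf q C i e) := by
  unfold Tm
  rw [cast_Tf]
  simp

lemma cast_KK (q : ℕ) (C : Core) (σ : PS) (e : ℕ) :
    ((KK q C σ e : ℚ) : ℝ) =
      ∑ i ∈ range C.n, yR q C σ i * Tf (lam q C σ i : ℝ) (xi q C σ i) (xf q C i e) := by
  unfold KK
  rw [sum_tab]
  push_cast
  exact sum_congr rfl fun i _ => by rw [cast_yq, cast_Tm]

lemma cast_kill (q : ℕ) (C : Core) (σ : PS) {e : ℕ} (he : e < C.n) (i : ℕ) :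
    ((kill q C σ e i : ℚ) : ℝ) =
      kap (pp q : ℝ) (KK q C σ e) * Tf (lam q C σ i : ℝ) (xi q C σ i) (xf q C i e) := by
  unfold kill
  simp only [he, decide_true, cond_true]
  push_cast
  rw [cast_kap, cast_Tm]
  simp

lemma cast_kill_null (q : ℕ) (C : Core) (σ : PS) (i : ℕ) :
    ((kill q C σ C.n i : ℚ) : ℝ) = 1 / (HH q C : ℝ) *
      (1 - ∑ e ∈ range C.n, yR q C σ e * Tf (lam q C σ i : ℝ) (xi q C σ i) (xf q C i e)) := by
  unfold kill slot
  simp only [lt_irrefl, decide_false, cond_false]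
  rw [sum_tab]
  push_cast
  rw [sum_congr rfl fun e _ => show ((yq q C σ e : ℚ) : ℝ) * ((Tm q C σ i e : ℚ) : ℝ) = _ by
    rw [cast_yq, cast_Tm]]
  ring

lemma FR_le (q : ℕ) (C : Core) (S : List ℕ) (j : ℕ) (u : ℕ → ℝ) {τ : ℕ} (h : τ < DD q C + 2) :
    FR q C S j u ≤ FtR q C S j u τ :=
  inf'_le _ (mem_range.2 h)

lemma exists_thr (h2 : EventS) (q : ℕ) (C : Core) (S : List ℕ) (j : ℕ) (u : ℕ → ℝ) {R1 : ℝ → ℝ}
    {η : ℝ} (hρ : RhoOK η (rhoR q C) R1) (hc0 : (0 : ℝ) ≤ 2 * (1 / pp q))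
    (hcη : (2 : ℝ) * (1 / pp q) ≤ η) (hc1 : (2 : ℝ) * (1 / pp q) ≤ 1)
    (hD : (0 : ℝ) ≤ Dj q C S j) (hu : ∀ i, 0 ≤ u i) (hs : ∑ i ∈ range C.n, u i ≤ 1) :
    ∃ τ, τ < DD q C + 2 ∧ FR q C S j u = FtR q C S j u τ ∧
      ∀ i, xc q C j i < τ → (xc q C j i : ℝ) < Dj q C S j := by
  obtain ⟨τ0, hτ0, e0⟩ := exists_mem_eq_inf' (s := range (DD q C + 2)) ⟨0, by simp⟩
    (FtR q C S j u)
  have hτ0' := mem_range.1 hτ0
  set c : ℝ := 2 * (1 / pp q) with hc
  set D : ℝ := (Dj q C S j : ℝ) with hDdef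
  set v : ℕ → ℝ := fun i => if xc q C j i < τ0 then u i else 0 with hv
  have hv0 : ∀ i, 0 ≤ v i := fun i => by
    simp only [hv]; split_ifs
    · exact hu i
    · exact le_rfl
  have hvu : ∀ i, v i ≤ u i := fun i => by
    simp only [hv]; split_ifs
    · exact le_rfl
    · exact hu i
  set m : ℝ := ∑ i ∈ range C.n, v i with hm
  have hm0 : 0 ≤ m := sum_nonneg fun i _ => hv0 i
  have hm1 : m ≤ 1 := (sum_le_sum fun i _ => hvu i).trans hs
  have hR : 1 + c ≤ rhoR q C m := by linarith [hρ.low m hm0 hm1]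
  have hR0 : 0 < rhoR q C m := by linarith
  have key := (h2 (range C.n) (rhoR q C) R1 η c D D m (∑ i ∈ range C.n, v i * (xc q C j i : ℝ))
    (fun i => (xc q C j i : ℝ)) v (fun _ => 0) hρ hc0 hc1 hD
    (fun i _ => ⟨Nat.cast_nonneg _, hv0 i, le_rfl, zero_le_one⟩) rfl hm1 rfl).2
  have hle : min τ0 ⌈(1 + c) * D / rhoR q C m⌉₊ < DD q C + 2 :=
    lt_of_le_of_lt (min_le_left _ _) hτ0'
  refine ⟨min τ0 ⌈(1 + c) * D / rhoR q C m⌉₊, hle, le_antisymm (FR_le q C S j u hle) ?_, ?_⟩
  · have e1 : FR q C S j u = FtR q C S j u τ0 := e0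
    rw [e1]
    have e2 : (fun i => if xc q C j i < min τ0 ⌈(1 + c) * D / rhoR q C m⌉₊ then u i else 0) =
        fun i => if rhoR q C m * (xc q C j i : ℝ) < (1 + c) * D then v i * (1 - 0) else 0 := by
      funext i
      rw [ite_thr _ _ hR0]
      simp [hv]
    unfold FtR
    rw [e2]
    have hn : 0 ≤ ∑ i ∈ range C.n, v i * max (rhoR q C m * (xc q C j i : ℝ) - (1 + c) * D) 0 :=
      sum_nonneg fun i _ => mul_nonneg (hv0 i) (le_max_right _ _)
    simp only [sub_self, mul_zero, neg_zero, zero_mul, sum_const_zero, add_zero] at key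
    exact le_of_sub_nonpos (key.trans (by linarith))
  · intro i hi
    have h1 : xc q C j i < ⌈(1 + c) * D / rhoR q C m⌉₊ := lt_of_lt_of_le hi (min_le_right _ _)
    rw [Nat.lt_ceil, lt_div_iff₀ hR0] at h1
    by_contra h3
    have h4 : D ≤ (xc q C j i : ℝ) := not_lt.1 h3
    nlinarith [mul_le_mul h4 hR (by linarith) (Nat.cast_nonneg (xc q C j i))]

end Thresh

open Thresh

theorem threshS (h1 : RhoS) (h2 : EventS) (h3 : ClientS) (h4 : CountS) (h5 : RuleS) : ThreshS := by
  intro q C σ hq hC hG j hj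
  have hq0 : (2000 : ℝ) ≤ q := by exact_mod_cast hq
  have hqpos : (0 : ℝ) < q := by linarith
  have hs1 : 1 ≤ C.s := by unfold Core.s; omega
  have hsR : (1 : ℝ) ≤ C.s := by exact_mod_cast hs1
  have hNN : 100000 ≤ NN q C := by
    unfold NN
    have a1 : 2000 ^ 4 ≤ q ^ 4 := Nat.pow_le_pow_left hq 4
    have a2 : 1 ≤ C.s ^ 5 := Nat.one_le_pow _ _ hs1
    nlinarith
  have hNpos : (0 : ℝ) < NN q C := by exact_mod_cast (by omega : 0 < NN q C)
  have hη0 : (0 : ℝ) < 1 / q := by positivity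
  have hη1 : (1 : ℝ) / q ≤ 1 / 2000 := one_div_le_one_div_of_le (by norm_num) hq0
  have hρ : RhoOK (1 / q) (rhoR q C) (rho1 (thN (NN q C))) := (h1 (NN q C) (1 / q) hNN hη0 hη1).1
  have hpp : (pp q : ℝ) = 100000 * q ^ 2 := by unfold pp; push_cast; ring
  have hpp2 : (2 : ℝ) ≤ pp q := by rw [hpp]; nlinarith
  have hε0 : (0 : ℝ) < 1 / pp q := by positivity
  have hε1 : (1 : ℝ) / pp q ≤ (1 / q) ^ 2 / 100000 := by
    rw [hpp]; apply le_of_eq; field_simp
  have hcη : (2 : ℝ) * (1 / pp q) ≤ 1 / q := by nlinarith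
  have hc1 : (2 : ℝ) * (1 / pp q) ≤ 1 := by linarith
  have hHH : (HH q C : ℝ) = 8 * q + C.s := by unfold HH; push_cast; ring
  have hHpos : (0 : ℝ) < HH q C := by rw [hHH]; positivity
  have hH0 : (0 : ℝ) < 1 / HH q C := by positivity
  have hH1 : (1 : ℝ) / HH q C ≤ 1 / q / 8 := by
    rw [div_div]
    exact one_div_le_one_div_of_le (by positivity) (by rw [hHH]; linarith)
  have hD0 : 1 ≤ D0 q C := by
    unfold D0 L0
    have : 0 < (q + 1) * C.s := Nat.mul_pos (Nat.succ_pos q) hs1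
    omega
  have hD0R : (1 : ℝ) ≤ D0 q C := by exact_mod_cast hD0
  have hQQ : (QQ q C : ℝ) = 400 * q * C.s * D0 q C := by unfold QQ; push_cast; ring
  have hQpos : (0 : ℝ) < QQ q C := by rw [hQQ]; positivity
  have hDD : (DD q C : ℝ) = QQ q C * D0 q C := by unfold DD; push_cast; ring
  have hδ0 : (0 : ℝ) ≤ 2 * C.s / QQ q C := by positivity
  obtain ⟨o, ho, eo⟩ := minL_mem (fun i => (xc q C j i : ℚ)) hG.S_ne
  have hon := hG.S_lt o ho
  have hDo : (Dj q C σ.1 j : ℝ) = xc q C j o := by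
    have : Dj q C σ.1 j = xc q C j o := eo
    rw [this]; simp
  have hDle : ∀ i ∈ σ.1, (Dj q C σ.1 j : ℝ) ≤ xc q C j i := fun i hi => by
    have : Dj q C σ.1 j ≤ xc q C j i := minL_le (fun i => (xc q C j i : ℚ)) hi
    exact_mod_cast this
  have hD : (0 : ℝ) ≤ Dj q C σ.1 j := by rw [hDo]; positivity
  have hDΔ : (Dj q C σ.1 j : ℝ) ≤ DD q C := by
    rw [hDo]
    have : xc q C j o ≤ DD q C := by
      unfold xc DD; exact Nat.mul_le_mul_left _ (hC.dc_le j hj o hon)
    exact_mod_cast this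
  have t1' : ∀ i < C.n, ∀ e < C.n, (xf q C i e : ℝ) ≤ xc q C j i + xc q C j e := by
    intro i hi e he
    have : xf q C i e ≤ xc q C j i + xc q C j e := by
      unfold xf xc; rw [← mul_add]; exact Nat.mul_le_mul_left _ (hC.tri1 j hj i hi e he)
    exact_mod_cast this
  have t2' : ∀ i < C.n, ∀ e < C.n, (xc q C j i : ℝ) ≤ xf q C i e + xc q C j e := by
    intro i hi e he
    have : xc q C j i ≤ xf q C i e + xc q C j e := by
      unfold xf xc; rw [← mul_add]; exact Nat.mul_le_mul_left _ (hC.tri2 j hj i hi e he)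
    exact_mod_cast this
  have t3' : ∀ i < C.n, ∀ e < C.n, (xc q C j e : ℝ) ≤ xf q C i e + xc q C j i := by
    intro i hi e he
    have := t2' e he i hi
    have e1 : xf q C e i = xf q C i e := by unfold xf; rw [hC.df_symm e he i hi]
    rwa [e1] at this
  have hu0 : ∀ i, 0 ≤ uR q C σ j i := fun i => by unfold uR; positivity
  have huy : ∀ i < C.n, uR q C σ j i ≤ yR q C σ i := fun i hi => by
    unfold uR yR
    exact div_le_div_of_nonneg_right (by exact_mod_cast hG.U_le j hj i hi) hNpos.le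
  have hrow : ∑ i ∈ range C.n, uR q C σ j i ≤ 1 := by
    unfold uR
    rw [← sum_div, div_le_one hNpos]
    exact_mod_cast hG.row_le j hj
  obtain ⟨τ, hτ, eτ, hlt⟩ := exists_thr h2 q C σ.1 j (uR q C σ j) hρ (by positivity) hcη hc1 hD
    hu0 hrow
  set v : ℕ → ℝ := fun i => if xc q C j i < τ then uR q C σ j i else 0 with hv
  have hv0 : ∀ i, 0 ≤ v i := fun i => by
    simp only [hv]; split_ifs
    · exact hu0 i
    · exact le_rfl
  have hvu : ∀ i, v i ≤ uR q C σ j i := fun i => by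
    simp only [hv]; split_ifs
    · exact le_rfl
    · exact hu0 i
  have hm0 : 0 ≤ ∑ i ∈ range C.n, v i := sum_nonneg fun i _ => hv0 i
  have hm1 : ∑ i ∈ range C.n, v i ≤ 1 := (sum_le_sum fun i _ => hvu i).trans hrow
  have hR0 : 0 < rhoR q C (∑ i ∈ range C.n, v i) := by linarith [hρ.low _ hm0 hm1]
  have hT0 : ∀ i e, 0 ≤ Tf (lam q C σ i : ℝ) (xi q C σ i) (xf q C i e) := fun i e =>
    Tf_nonneg (Nat.cast_nonneg _) _ _
  have hrule := h5 q C σ (by omega) hC hG
  have main := h3 (range C.n) (rhoR q C) (rho1 (thN (NN q C))) (1 / q) (1 / pp q) (1 / HH q C)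
    (2 * C.s / QQ q C) (DD q C) (Dj q C σ.1 j)
    (FR q C σ.1 j fun i => uR q C σ j i * (1 - kill q C σ C.n i))
    (yR q C σ) v (fun i => xc q C j i) (fun i => lam q C σ i) (fun i => xi q C σ i)
    (fun e => bet (pp q : ℝ) (KK q C σ e)) (fun e => kap (pp q : ℝ) (KK q C σ e))
    (fun e => FR q C (opens C.n σ.1 e) j fun i => uR q C σ j i * (1 - kill q C σ e i))
    (fun i e => xf q C i e) hρ hη0 hη1 hε0 hε1 hH0 hH1 hδ0
    (fun i hi => ⟨hv0 i, (hvu i).trans (huy i (mem_range.1 hi)), Nat.cast_nonneg _⟩) hm1 hD hDΔ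
    (fun i hi e he => ⟨Nat.cast_nonneg _, t1' i (mem_range.1 hi) e (mem_range.1 he),
      t2' i (mem_range.1 hi) e (mem_range.1 he), t3' i (mem_range.1 hi) e (mem_range.1 he)⟩)
    (fun i hi => by
      obtain ⟨a1, a2, a3, a4, -⟩ := hrule i (mem_range.1 hi)
      exact ⟨Nat.cast_nonneg _, by exact_mod_cast a1, by exact_mod_cast a2, a3, a4⟩)
    (fun i hi hvi => by
      have hin := mem_range.1 hi
      have hiτ : xc q C j i < τ := by
        by_contra h
        simp [hv, h] at hvi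
      have hd := hlt i hiτ
      have hiS : i ∉ σ.1 := fun h => absurd (hDle i h) (not_le.2 hd)
      obtain ⟨-, -, -, -, ⟨o', ho', eo'⟩, a6, a7⟩ := hrule i hin
      obtain ⟨b1, b2, b3, b4⟩ := a7 hiS
      have hb1 : (bOpen q C σ i : ℝ) ≤ Dj q C σ.1 j + xc q C j i := by
        have c1 : (bOpen q C σ i : ℝ) ≤ xf q C i o := by exact_mod_cast a6 o ho
        have c2 := t1' i hin o hon
        rw [hDo]; linarith
      have hb2 : (Dj q C σ.1 j : ℝ) - xc q C j i ≤ bOpen q C σ i := by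
        have c1 := hDle o' ho'
        have c2 := t3' i hin o' (hG.S_lt o' ho')
        rw [eo']; linarith
      refine ⟨hd, ?_, by exact_mod_cast b1, ?_, fun h => b3 (by exact_mod_cast h),
        b4.imp id fun h => hb2.trans h⟩
      · have c1 : (QQ q C : ℝ) ≤ xc q C j i := by
          have : QQ q C ≤ xc q C j i := by
            unfold xc; exact Nat.le_mul_of_pos_right _ (hC.dc_pos j hj i hin)
          exact_mod_cast this
        have c2 : 2 * C.s / (QQ q C : ℝ) * DD q C = 1 / q * QQ q C / 200 := by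
          rw [hDD]
          field_simp
          rw [hQQ]; ring
        rw [c2]
        exact div_le_div_of_nonneg_right (mul_le_mul_of_nonneg_left c1 hη0.le) (by norm_num)
      · exact b2.trans (mul_le_mul_of_nonneg_left hb1 (by linarith)))
    (fun e he => by
      refine h4.1 (pp q) (KK q C σ e) _ hpp2
        (sum_nonneg fun i _ => mul_nonneg (hv0 i) (hT0 i e)) ?_ ?_
      · rw [cast_KK]
        exact sum_le_sum fun i hi => mul_le_mul_of_nonneg_right
          ((hvu i).trans (huy i (mem_range.1 hi))) (hT0 i e)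
      · refine le_trans (sum_le_sum fun i _ => ?_) hm1
        exact mul_le_of_le_one_right (hv0 i) (Tf_le_one _ _ _))
    (fun e he => by
      have hen := mem_range.1 he
      have eD : (Dj q C (opens C.n σ.1 e) j : ℝ) = min (Dj q C σ.1 j : ℝ) (xc q C j e) := by
        rw [Dj_opens q C hG.S_ne j hen]; push_cast; rfl
      constructor
      · refine (FR_le q C _ j _ hτ).trans (le_of_eq ?_)
        unfold FtR
        rw [eD]
        congr 1
        funext i
        beta_reduce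
        rw [cast_kill q C σ hen]
        simp only [hv]
        split_ifs <;> simp
      · refine (FR_le q C _ j _ (lt_of_le_of_lt (min_le_left τ
          ⌈(1 + 2 * (1 / (pp q : ℝ))) * min (Dj q C σ.1 j : ℝ) (xc q C j e) /
            rhoR q C (∑ i ∈ range C.n, v i)⌉₊) hτ)).trans (le_of_eq ?_)
        unfold FtR
        rw [eD]
        congr 1
        funext i
        beta_reduce
        rw [ite_thr _ _ hR0, cast_kill q C σ hen]
        simp only [hv]
        split_ifs <;> simp)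
    (by
      refine (FR_le q C _ j _ hτ).trans (le_of_eq ?_)
      unfold FtR
      congr 1
      funext i
      beta_reduce
      rw [cast_kill_null]
      simp only [hv]
      split_ifs <;> simp)
  rw [eτ]
  unfold FtR
  rw [div_div_eq_mul_div, div_one, mul_comm _ (HH q C : ℝ)] at main
  exact main

end Vale.Agent.P334
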