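import Vale.Agent.P334.RuleDefs

/-!
The ideal inequality for one victim.
-/

namespace Vale.Agent.P334

open Finset

namespace Victim

theorem max_div {l : ℝ} (h : 0 < l) (a x : ℝ) : max (a / l - x / l) 0 = max (a - x) 0 / l := by
  rw [← sub_div, ← max_div_div_right h.le, zero_div]

theorem max_one {l : ℝ} (h : 0 < l) (x : ℝ) : max (1 - x / l) 0 = max (l - x) 0 / l := by
  rw [← max_div h, div_self h.ne']

theorem Sf_sc {l : ℝ} (h : 0 < l) (x : ℝ) : Sf 1 (x / l) = Sf l x := by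
  rw [Sf, Sf, max_one h, div_one, mul_div_assoc]

theorem Tf_sc {l : ℝ} (h : 0 < l) (z x : ℝ) : Tf 1 (z / l) (x / l) = Tf l z x := by
  rw [Tf, Tf, max_one h, max_div h, div_one, add_div, mul_div_assoc, mul_div_assoc]

theorem T2f_sc {l : ℝ} (h : 0 < l) (z x : ℝ) : T2f 1 (z / l) (x / l) = T2f l z x := by
  rw [T2f, T2f, Sf_sc h, Tf_sc h]

theorem T2f_nonneg {l : ℝ} (h : 0 < l) (z x : ℝ) : 0 ≤ T2f l z x := by
  obtain ⟨t0, t1', t3, -, -⟩ := t1_facts
  have h6 := g_factsR.2.2.2.2.2.1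
  refine sub_nonneg.2 (le_min (mul_le_one₀ t1' (Sf_nonneg h.le x) (Sf_le_one _ _)) ?_)
  refine (mul_le_mul_of_nonneg_left (min_le_right _ _) t0.le).trans ?_
  rw [← mul_div_assoc, ← mul_assoc, t3]
  exact div_le_div_of_nonneg_right (le_add_of_nonneg_right (by positivity)) h.le

/-- The certificate for an arbitrary radius. -/
theorem cert {Ψ : ℝ → ℝ → ℝ} (hΨ : CertP Ψ) {d A w l z : ℝ} (hd : 0 ≤ d) (hA : 0 ≤ A) (hw : 0 ≤ w)
    (hwl : w ≤ l) (hl : 0 < l) (hz : 0 ≤ z) (hzl : z ≤ l) :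
    ∃ a0 b0 k0 a1 b1 k1 : ℝ, 0 ≤ a1 ∧ 10 / 7 * a1 ≤ a0 ∧ 10 / 7 * b1 ≤ b0 ∧ 13 / 10 * b1 ≤ b0 ∧
      -10 ≤ b0 ∧ -10 ≤ b1 ∧ (z = l → 0 ≤ b0 ∧ 0 ≤ b1) ∧
      (∀ x, 0 ≤ x → Tf l z x * (2645 / 10000 * (d + A) * Tf l z x - max (w - x) 0) ≤
        l * (a1 * Sf l x + b1 * T2f l z x)) ∧
      (∀ x, 0 ≤ x → Tf l z x * (1 / 2 * (d + A) * Tf l z x - 3 * max (w - x) 0) ≤
        l * (a0 * Sf l x + b0 * T2f l z x)) ∧
      (∀ x e, 0 ≤ x → 0 ≤ e → x ≤ d + e → d ≤ x + e → e ≤ x + d →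
        w - d - e - (w - 737 / 1000 * d - 529 / 1000 * A) * Tf l z x -
          (1 - Tf l z x) * max (e - 1737 / 1000 * d) 0 + l * (a1 * (1 - Sf l x) +
          b1 * (t2 ℝ - T2f l z x)) ≤ Ψ A e - Ψ A d + k1 * (e - A)) ∧
      (∀ x e, 0 ≤ x → 0 ≤ e → x ≤ d + e → d ≤ x + e → e ≤ x + d →
        w - d - e - (w - 4 / 100 * d - 245 / 1000 * A) * Tf l z x -
          (1 - Tf l z x) * max (e - 1737 / 1000 * d) 0 + l * (a0 + b0 * t2 ℝ) ≤ k0 * (e - A)) := by
  obtain ⟨a0, b0, k0, a1, b1, k1, h1, h2, h3, h4, h5, h6, h7, o1, o0, i1, i0⟩ :=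
    hΨ.2 (d / l) (A / l) (w / l) (z / l) (by positivity) (by positivity) (by positivity)
      ((div_le_one hl).2 hwl) (by positivity) ((div_le_one hl).2 hzl)
  have hm : ∀ e, max (e / l - 1737 / 1000 * (d / l)) 0 = max (e - 1737 / 1000 * d) 0 / l :=
    fun e => by rw [← mul_div_assoc, max_div hl]
  have hp : ∀ e, Ψ (A / l) (e / l) = Ψ A e / l := fun e => by
    rw [eq_div_iff hl.ne', mul_comm, ← hΨ.1 l _ _ hl, mul_div_cancel₀ _ hl.ne',
      mul_div_cancel₀ _ hl.ne']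
  have ht : ∀ {x y e : ℝ}, x ≤ y + e → x / l ≤ y / l + e / l := fun h => by
    rw [← add_div]
    exact div_le_div_of_nonneg_right h hl.le
  refine ⟨a0, b0, k0, a1, b1, k1, h1, h2, h3, h4, h5, h6, fun e => h7 (by rw [e, div_self hl.ne']),
    fun x hx => ?_, fun x hx => ?_, fun x e hx he t1 t2 t3 => ?_, fun x e hx he t1 t2 t3 => ?_⟩
  · have h := mul_le_mul_of_nonneg_left (o1 (x / l) (by positivity)) hl.le
    rw [Tf_sc hl, Sf_sc hl, T2f_sc hl, max_div hl] at h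
    exact le_of_eq_of_le (by field_simp) h
  · have h := mul_le_mul_of_nonneg_left (o0 (x / l) (by positivity)) hl.le
    rw [Tf_sc hl, Sf_sc hl, T2f_sc hl, max_div hl] at h
    exact le_of_eq_of_le (by field_simp) h
  · have h := mul_le_mul_of_nonneg_left (i1 (x / l) (e / l) (by positivity) (by positivity)
      (ht t1) (ht t2) (ht t3)) hl.le
    rw [Tf_sc hl, Sf_sc hl, T2f_sc hl, hm, hp, hp] at h
    exact le_of_eq_of_le (by field_simp; ring) (h.trans_eq (by field_simp))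
  · have h := mul_le_mul_of_nonneg_left (i0 (x / l) (e / l) (by positivity) (by positivity)
      (ht t1) (ht t2) (ht t3)) hl.le
    rw [Tf_sc hl, hm] at h
    exact le_of_eq_of_le (by field_simp; ring) (h.trans_eq (by field_simp))

theorem th_mem {m : ℝ} (h0 : 0 ≤ m) (h1 : m ≤ 1) : 0 ≤ th m ∧ th m ≤ 1 := by
  unfold th
  constructor <;> nlinarith

theorem coef {m c0 c1 : ℝ} (h0 : 0 ≤ m) (h1 : m ≤ 1) (h2 : 10 / 7 * c1 ≤ c0)
    (h3 : 13 / 10 * c1 ≤ c0) : (1 - th m) * (1 - m) * c1 ≤ th m * m * c0 := by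
  have h4 : 0 ≤ (1 - m) * (c0 - 13 / 10 * c1) + m * (7 / 10) * (c0 - 10 / 7 * c1) :=
    add_nonneg (mul_nonneg (by linarith) (by linarith)) (mul_nonneg (by linarith) (by linarith))
  have h5 := mul_nonneg (mul_nonneg h0 (sub_nonneg.2 h1)) h4
  unfold th
  linarith

end Victim

open Victim in
theorem victimS : VictimS := by
  intro Ψ hΨ ι s ρ R1 η δ m A di w lam xi y u d x hρ hδ hs hm hm0 hm1 hA hdi hw hwl hl hxi hxl
    hS hT hT'
  have hA0 : 0 ≤ A := by
    refine nonneg_of_mul_nonneg_right ?_ hm0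
    rw [hA]
    exact sum_nonneg fun e he => mul_nonneg (hs e he).1 (hs e he).2.2.1
  obtain ⟨a0, b0, k0, a1, b1, k1, h1, h2, h3, h4, h5, h6, h7, o1, o0, i1, i0⟩ :=
    cert hΨ hdi hA0 hw hwl hl hxi hxl
  obtain ⟨t0, t1⟩ := th_mem hm0.le hm1
  have t1' := sub_nonneg.2 t1
  have u1 := hρ.up1 m hm0.le hm1
  have u2 := hρ.up2 m hm0.le hm1
  have u3 := hρ.up3 m hm0.le hm1
  obtain ⟨α, hα⟩ : ∃ α, α = (1 - th m) * a1 + th m * a0 := ⟨_, rfl⟩
  obtain ⟨β, hβ⟩ : ∃ β, β = (1 - th m) * b1 + th m * b0 := ⟨_, rfl⟩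
  have hα0 : 0 ≤ α := hα ▸ add_nonneg (mul_nonneg t1' h1) (mul_nonneg t0 (by linarith))
  have hβ1 : β * ∑ e ∈ s, y e * T2f lam xi (x e) ≤ β * t2 ℝ + 10 * δ := by
    rcases le_or_gt 0 β with hb | hb
    · linarith [mul_le_mul_of_nonneg_left hT hb]
    have h8 : xi < lam := lt_of_le_of_ne hxl fun e =>
      hb.not_ge (hβ ▸ add_nonneg (mul_nonneg t1' (h7 e).2) (mul_nonneg t0 (h7 e).1))
    have h9 : -10 ≤ β := by
      rw [hβ]
      linarith [mul_le_mul_of_nonneg_left h6 t1', mul_le_mul_of_nonneg_left h5 t0]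
    linarith [mul_le_mul_of_nonpos_left (hT' h8) hb.le, mul_le_mul_of_nonneg_right h9 hδ]
  have key : ∀ e ∈ s, u e * (w - di - d e - (w - (ρ m - 1) * di - m * R1 m * A) * Tf lam xi (x e) -
      (1 - Tf lam xi (x e)) * max (d e - ρ m * di) 0) + (y e - u e) * (Tf lam xi (x e) *
        (m * R1 m * (di + A) / 2 * Tf lam xi (x e) - m * (1 + 2 * th m) * max (w - x e) 0)) ≤
      (1 - th m) * (u e * (Ψ A (d e) - Ψ A di)) +
        ((1 - th m) * k1 + th m * k0) * (u e * d e) - ((1 - th m) * k1 + th m * k0) * A * u e -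
        lam * (α + β * t2 ℝ) * u e + m * lam * α * (y e * Sf lam (x e)) +
        m * lam * β * (y e * T2f lam xi (x e)) := by
    intro e he
    obtain ⟨e1, e2, e3, e4, e5, e6, e7⟩ := hs e he
    have p1 := o1 _ e4
    have p0 := o0 _ e4
    have q1 := i1 _ _ e4 e3 e5 e6 e7
    have q0 := i0 _ _ e4 e3 e5 e6 e7
    have T0 := Tf_nonneg hl.le xi (x e)
    have T1 := sub_nonneg.2 (Tf_le_one lam xi (x e))
    have S0 := Sf_nonneg hl.le (x e)
    have U0 := T2f_nonneg hl xi (x e)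
    have hmax : max (d e - 1737 / 1000 * di) 0 ≤ max (d e - ρ m * di) 0 :=
      max_le_max_right _ (sub_le_sub_left (mul_le_mul_of_nonneg_right (by linarith) hdi) _)
    generalize Tf lam xi (x e) = T at *
    generalize Sf lam (x e) = S at *
    generalize T2f lam xi (x e) = U at *
    generalize max (w - x e) 0 = M at *
    generalize max (d e - 1737 / 1000 * di) 0 = M1 at *
    generalize max (d e - ρ m * di) 0 = M2 at *
    have out : T * (m * R1 m * (di + A) / 2 * T - m * (1 + 2 * th m) * M) ≤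
        m * lam * (α * S + β * U) := by
      have c1 := mul_le_mul_of_nonneg_right u3 (show 0 ≤ T * (di + A) * T by positivity)
      have c2 := mul_le_mul_of_nonneg_left p1 t1'
      have c3 := mul_le_mul_of_nonneg_left p0 t0
      have c4 : T * (R1 m * (di + A) / 2 * T - (1 + 2 * th m) * M) ≤ lam * (α * S + β * U) := by
        rw [hα, hβ]
        linarith
      linarith [mul_le_mul_of_nonneg_left c4 hm0.le]
    have ins : w - di - d e - (w - (ρ m - 1) * di - m * R1 m * A) * T - (1 - T) * M2 ≤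
        (1 - th m) * (Ψ A (d e) - Ψ A di) + ((1 - th m) * k1 + th m * k0) * (d e - A) -
          lam * (α + β * t2 ℝ) + m * lam * (α * S + β * U) := by
      have c1 := mul_le_mul_of_nonneg_right u1 (mul_nonneg hdi T0)
      have c2 := mul_le_mul_of_nonneg_right u2 (mul_nonneg hA0 T0)
      have c3 := mul_le_mul_of_nonneg_left hmax T1
      have c4 := mul_le_mul_of_nonneg_left q1 t1'
      have c5 := mul_le_mul_of_nonneg_left q0 t0
      have c6 := mul_le_mul_of_nonneg_right (coef hm0.le hm1 h2 (by linarith))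
        (mul_nonneg hl.le S0)
      have c7 := mul_le_mul_of_nonneg_right (coef hm0.le hm1 h3 h4) (mul_nonneg hl.le U0)
      rw [hα, hβ]
      linarith
    linarith [mul_le_mul_of_nonneg_left out (sub_nonneg.2 e2), mul_le_mul_of_nonneg_left ins e1]
  have hsum := sum_le_sum key
  simp only [sum_add_distrib, sum_sub_distrib, ← mul_sum] at hsum
  rw [← hA, ← hm] at hsum
  have c1 := mul_le_mul_of_nonneg_left hS (show 0 ≤ m * lam * α by positivity)
  have c2 := mul_le_mul_of_nonneg_left hβ1 (show 0 ≤ m * lam by positivity)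
  have c3 := mul_le_mul_of_nonneg_right hm1 (show 0 ≤ 10 * δ * lam by positivity)
  unfold V0
  linarith

end Vale.Agent.P334
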