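import Vale.Agent.P334.CertAll
import Vale.Agent.P334.Rho
import Vale.Agent.P334.Event
import Vale.Agent.P334.Split
import Vale.Agent.P334.Victim
import Vale.Agent.P334.Pert
import Vale.Agent.P334.Client
import Vale.Agent.P334.Count
import Vale.Agent.P334.LP
import Vale.Agent.P334.Rule
import Vale.Agent.P334.Thresh
import Vale.Agent.P334.Bridge
import Vale.Agent.P334.Step
import Vale.Agent.P334.CoreMain
import Vale.Agent.P334.Round
import Vale.Agent.P334.LS1
import Vale.Agent.P334.LS2
import Vale.Agent.P334.LS3
import Vale.Agent.P334.LSSpec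
import Vale.Agent.P334.LSCode
import Vale.Agent.P334.LPCode
import Vale.Agent.P334.KillCode
import Vale.Agent.P334.PotCode
import Vale.Agent.P334.CoreCode
import Vale.Agent.P334.RoundCode
import Vale.Agent.P334.Main

/-!
Assembly of the main theorem.
-/

namespace Vale.Agent.P334

theorem final : MainS :=
  have hth := threshS rhoS eventS (clientS certS victimS pertS (splitS eventS)) countS ruleS
  have hb := bridgeS rhoS
  mainS (lsSpecS ls1S ls2S ls3S) lsCodeS
    (roundS (coreS rhoS lpS hb (stepS ruleS countS hth hb)))
    (roundCodeS (coreCodeS lpCodeS killCodeS potCodeS))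

end Vale.Agent.P334
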