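import Vale.Agent.P334.Basic

/-!
The reduction of Li and Svensson from pseudo-approximation to approximation: program and statements.
-/

namespace Vale.Agent.P334

open Vale.Agent.Lib.TM Vale.Agent.P049

/-- The instance with the facility list replaced. -/
def withF (I : Inst) (G : List ℕ) : Inst := (I.1, I.J, G, I.k)

/-- Facilities that remain after removing the open balls given by a list of pairs. -/
def keepF (I : Inst) (P : List (ℕ × ℕ)) : List ℕ :=
  I.F.filter fun f => P.all fun r => !decide (I.d r.1 f < I.d r.1 r.2)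

/-- All pairs of facilities. -/
def pairsF (I : Inst) : List (ℕ × ℕ) := I.F.flatMap fun i => I.F.map fun i' => (i, i')

/-- The list without the element `i`. -/
def rem (T : List ℕ) (i : ℕ) : List ℕ := T.filter fun x => !(x == i)

/-- Remove repetitions. -/
def ded (T : List ℕ) : List ℕ := T.foldl (fun s x => bif memB x s then s else x :: s) []

/-- Remove the facility whose removal is cheapest. -/
def drop1 (I : Inst) (T : List ℕ) : List ℕ :=
  rem T (argmin (fun i => costL I (rem T i)) T (T.headD 0))

/-- The list after `s` removals. -/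
def drops (I : Inst) (T : List ℕ) : ℕ → List ℕ
  | 0 => T
  | s + 1 => drop1 I (drops I T s)

/-- Distance from `i` to the other facilities of `T`. -/
def sepL (I : Inst) (T : List ℕ) (i : ℕ) : ℚ := dS I (rem T i) i

/-- The best replacement of `i` near `i` for the clients near `i`. -/
def repl (I : Inst) (T V : List ℕ) (i : ℕ) : ℕ :=
  argmin (fun f => ((I.J.filter fun j => decide (I.d j i ≤ sepL I T i / 3)).map
      (dS I (f :: V))).sum)
    (I.F.filter fun f => decide (I.d i f ≤ sepL I T i / 12)) i

/-- The candidate built from `T`, a removed part `R` and a guessed part `V`. -/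
def candRV (I : Inst) (T R V : List ℕ) : List ℕ :=
  V ++ (T.filter fun i => !memB i R).map (repl I T V)

/-- All candidates built from `T`. -/
def candsT (t : ℕ) (I : Inst) (T : List ℕ) : List (List ℕ) :=
  T :: (subs T t).flatMap fun R => (subs I.F t).map fun V => candRV I T R V

/-- All candidates built from a pseudo-solution. -/
def candsA (c t : ℕ) (I : Inst) (T : List ℕ) : List (List ℕ) :=
  (List.range (c + 1)).flatMap fun s => candsT t I (drops I (ded T) s)

/-- The algorithm. -/
def lsAlg (c t : ℕ) (A : Inst → List ℕ) (I : Inst) : List ℕ :=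
  best 0 I ((subs (pairsF I) t).flatMap fun P => candsA c t I (A (withF I (keepF I P))))

/-- No facility of `G` is dense with respect to `O`. -/
def Sparse (I : Inst) (O G : List ℕ) (a : ℚ) : Prop :=
  ∀ i ∈ G, 3 / 4 * dS I O i * (I.J.countP fun j => decide (I.d j i ≤ dS I O i / 4)) ≤ a

/-- Sparsification. -/
def LS1S : Prop :=
  ∀ (I : Inst) (O : List ℕ) (t : ℕ), WF I → Feas 0 I O → 1 ≤ t →
    ∃ P ∈ subs (pairsF I) t, (∀ o ∈ O, o ∈ keepF I P) ∧ Sparse I O (keepF I P) (costL I O / t)

/-- Few facilities are undetermined when no removal is cheap. -/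
def LS2S : Prop :=
  ∀ (I : Inst) (O T : List ℕ) (a B : ℚ) (t : ℕ), WF I → O ≠ [] → (∀ o ∈ O, o ∈ I.F) →
    (∀ i ∈ T, i ∈ I.F) → T.Nodup → 2 ≤ T.length → Sparse I O T a → 1 ≤ t →
    16 * a + 48 * costL I T / t ≤ B → (∀ i ∈ T, costL I T + B < costL I (rem T i)) →
    (T.countP fun i => decide (sepL I T i / 12 < dS I O i)) < t

/-- The candidate for the right guess. -/
def LS3S : Prop :=
  ∀ (I : Inst) (O T : List ℕ) (t : ℕ), WF I → Feas 0 I O → (∀ i ∈ T, i ∈ I.F) → T.Nodup →
    I.k < T.length → (∀ i ∈ T, costL I T < costL I (rem T i)) →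
    (T.countP fun i => decide (sepL I T i / 12 < dS I O i)) < t →
    ∃ R ∈ subs T t, ∃ V ∈ subs I.F t, Feas 0 I (candRV I T R V) ∧
      costL I (candRV I T R V) ≤ 5 / 3 * costL I O

/-- Correctness of the reduction. -/
def LSSpecS : Prop :=
  ∀ (α ε : ℝ) (c t : ℕ) (A : Inst → List ℕ), 5 / 3 ≤ α → α ≤ 2 → 0 < ε → ε ≤ 1 →
    160 * (c + 1) ≤ ε * t → PApprox α c A → PApprox (α + ε) 0 (lsAlg c t A)

/-- Running time of the reduction. -/
def LSCodeS : Prop := ∀ (c t : ℕ) (A : Inst → List ℕ), CT 0 A → CT 0 (lsAlg c t A)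

end Vale.Agent.P334
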