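import Vale.Agent.P334.Stmt

/-!
Correctness of the reduction of Li and Svensson: removal loop and assembly.
-/

namespace Vale.Agent.P334

namespace LSSpec

lemma ded_aux (T : List ℕ) : ∀ s : List ℕ, s.Nodup →
    (T.foldl (fun s x => bif memB x s then s else x :: s) s).Nodup ∧
    (∀ x, x ∈ T.foldl (fun s x => bif memB x s then s else x :: s) s ↔ x ∈ s ∨ x ∈ T) ∧
    (T.foldl (fun s x => bif memB x s then s else x :: s) s).length ≤ s.length + T.length := by
  induction T with
  | nil => intro s hs; simp [hs]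
  | cons y T ih =>
    intro s hs
    rw [List.foldl_cons]
    by_cases h : y ∈ s
    · have e : memB y s = true := memB_iff.2 h
      rw [e, cond_true]
      obtain ⟨a, b, c⟩ := ih s hs
      refine ⟨a, fun x => (b x).trans ?_, by simp only [List.length_cons]; omega⟩
      simp only [List.mem_cons]
      constructor
      · tauto
      · rintro (h1 | rfl | h1)
        · exact Or.inl h1
        · exact Or.inl h
        · exact Or.inr h1
    · have e : memB y s = false := by
        rw [← Bool.not_eq_true, memB_iff]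
        exact h
      rw [e, cond_false]
      obtain ⟨a, b, c⟩ := ih (y :: s) (List.nodup_cons.2 ⟨h, hs⟩)
      refine ⟨a, fun x => (b x).trans ?_, by simp only [List.length_cons] at c ⊢; omega⟩
      simp only [List.mem_cons]
      tauto

lemma ded_nodup (T : List ℕ) : (ded T).Nodup := (ded_aux T [] List.nodup_nil).1

lemma mem_ded {T : List ℕ} {x : ℕ} : x ∈ ded T ↔ x ∈ T := by
  have := (ded_aux T [] List.nodup_nil).2.1 x
  simpa [ded] using this

lemma length_ded (T : List ℕ) : (ded T).length ≤ T.length := by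
  have := (ded_aux T [] List.nodup_nil).2.2
  simpa [ded] using this

lemma mem_rem {T : List ℕ} {i x : ℕ} (h : x ∈ rem T i) : x ∈ T := (List.mem_filter.1 h).1

lemma length_rem {T : List ℕ} (hT : T.Nodup) {i : ℕ} (hi : i ∈ T) :
    (rem T i).length + 1 = T.length := by
  have e : rem T i = T.erase i := by
    rw [hT.erase_eq_filter]
    rfl
  have := List.length_pos_of_mem hi
  rw [e, List.length_erase_of_mem hi]
  omega

lemma wf_withF {I : Inst} (h : WF I) {G : List ℕ} (hG : G ≠ []) (hF : ∀ i ∈ G, i ∈ I.F) :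
    WF (withF I G) := by
  have p : ∀ x, Pt (withF I G) x → Pt I x := fun x hx => hx.imp id (hF x)
  exact ⟨fun x hx => h.self x (p x hx), fun x y hx hy => h.nonneg x y (p x hx) (p y hy),
    fun x y hx hy => h.symm x y (p x hx) (p y hy),
    fun x y z hx hy hz => h.tri x y z (p x hx) (p y hy) (p z hz), hG, h.k_pos⟩

/-- Invariant of the removal loop. -/
def Inv (I : Inst) (G T : List ℕ) (c s : ℕ) (c0 B : ℚ) : Prop :=
  T.Nodup ∧ T ≠ [] ∧ (∀ i ∈ T, i ∈ G) ∧ T.length + s ≤ I.k + c ∧ costL I T ≤ c0 + s * B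

lemma step (h2 : LS2S) (h3 : LS3S) {I : Inst} (hI : WF I) {O G T : List ℕ} (hO : Feas 0 I O)
    (hG : ∀ i ∈ G, i ∈ I.F) {c s t : ℕ} (ht : 1 ≤ t) (hsp : Sparse I O G (costL I O / t))
    {c0 : ℚ} (hc : c0 + s * (160 * costL I O / t) ≤ 3 * costL I O)
    (h : Inv I G T c s c0 (160 * costL I O / t)) :
    (∃ S ∈ candsT t I T, Feas 0 I S ∧ (costL I S ≤ c0 + s * (160 * costL I O / t) ∨
      costL I S ≤ 5 / 3 * costL I O)) ∨
    (s < c ∧ Inv I G (drop1 I T) c (s + 1) c0 (160 * costL I O / t)) := by
  obtain ⟨a1, a2, a3, a4, a5⟩ := h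
  have hTF : ∀ i ∈ T, i ∈ I.F := fun i hi => hG i (a3 i hi)
  have h0 : 0 ≤ costL I O := costL_nonneg hI hO.1 hO.2.1
  have ht' : (0 : ℚ) < t := by exact_mod_cast ht
  rcases le_or_gt T.length I.k with hk | hk
  · exact Or.inl ⟨T, List.mem_cons_self, ⟨a2, hTF, hk⟩, Or.inl a5⟩
  have hk1 := hI.k_pos
  by_cases hex : ∃ i ∈ T, costL I (rem T i) ≤ costL I T + 160 * costL I O / t
  · obtain ⟨i, hi, hc⟩ := hex
    have m := argmin_mem (fun i => costL I (rem T i)) (headD_mem a2 0)
    have l := length_rem a1 m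
    have c1 := argmin_le (fun i => costL I (rem T i)) (T.headD 0) hi
    refine Or.inr ⟨by omega, a1.filter _, ?_, fun i hi => a3 i (mem_rem hi), ?_, ?_⟩
    · intro e
      unfold drop1 at e
      rw [e] at l
      simp at l
      omega
    · unfold drop1
      omega
    · unfold drop1
      push_cast
      linarith
  · push Not at hex
    have hB : 0 ≤ 160 * costL I O / t := by positivity
    have c1 := h2 I O T (costL I O / t) (160 * costL I O / t) t hI hO.1 hO.2.1 hTF a1
      (by omega) (fun i hi => hsp i (a3 i hi)) ht ?_ hex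
    · obtain ⟨R, hR, V, hV, f1, f2⟩ := h3 I O T t hI hO hTF a1 hk
        (fun i hi => lt_of_le_of_lt (by linarith) (hex i hi)) c1
      refine Or.inl ⟨_, List.mem_cons_of_mem _ (List.mem_flatMap.2 ⟨R, hR,
        List.mem_map.2 ⟨V, hV, rfl⟩⟩), f1, Or.inr f2⟩
    · have : 48 * costL I T / t ≤ 144 * costL I O / t :=
        div_le_div_of_nonneg_right (by linarith) ht'.le
      have e : 160 * costL I O / t = 16 * (costL I O / t) + 144 * costL I O / t := by ring
      linarith

end LSSpec

open LSSpec in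
theorem lsSpecS (h1 : LS1S) (h2 : LS2S) (h3 : LS3S) : LSSpecS := by
  intro α ε c t A hα hα2 hε hε1 hct hA I hI
  refine ⟨(best_spec hI _).1, fun O hO => ?_⟩
  have hc0 : (0 : ℝ) ≤ c := by positivity
  have ht' : (0 : ℝ) < t := by
    by_contra h
    have : ε * t ≤ 0 := mul_nonpos_of_nonneg_of_nonpos hε.le (not_lt.1 h)
    linarith
  have ht : 1 ≤ t := by exact_mod_cast ht'
  obtain ⟨P, hP, hOP, hsp⟩ := h1 I O t hI hO ht
  have hG : ∀ i ∈ keepF I P, i ∈ I.F := fun i hi => (List.mem_filter.1 hi).1
  have hI' : WF (withF I (keepF I P)) :=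
    wf_withF hI (List.ne_nil_of_mem (hOP _ (headD_mem hO.1 0))) hG
  obtain ⟨⟨f1, f2, f3⟩, f4⟩ := hA _ hI'
  have f5 : (costL I (A (withF I (keepF I P))) : ℝ) ≤ α * costL I O := f4 O ⟨hO.1, hOP, hO.2.2⟩
  generalize hT : A (withF I (keepF I P)) = T at f1 f2 f3 f5
  have h0 : (0 : ℝ) ≤ costL I O := by exact_mod_cast costL_nonneg hI hO.1 hO.2.1
  have hB : ∀ s ≤ c, ((costL I T + s * (160 * costL I O / t) : ℚ) : ℝ) ≤ (α + ε) * costL I O := by
    intro s hs
    have hs' : (s : ℝ) ≤ c := by exact_mod_cast hs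
    have e1 : (s : ℝ) * (160 * costL I O / t) = (160 * s / t) * costL I O := by ring
    have e2 : (160 * s / t : ℝ) ≤ ε := by
      rw [div_le_iff₀ ht']
      linarith
    have e3 := mul_le_mul_of_nonneg_right e2 h0
    push_cast
    linarith
  have hB3 : ∀ s ≤ c, costL I T + s * (160 * costL I O / t) ≤ 3 * costL I O := by
    intro s hs
    have e1 := hB s hs
    have e2 : (α + ε) * costL I O ≤ 3 * (costL I O : ℝ) :=
      mul_le_mul_of_nonneg_right (by linarith) h0
    exact_mod_cast e1.trans e2
  have found : ∀ s ≤ c, (∃ S ∈ candsT t I (drops I (ded T) s), Feas 0 I S ∧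
      (costL I S ≤ costL I T + s * (160 * costL I O / t) ∨ costL I S ≤ 5 / 3 * costL I O)) →
      (costL I (lsAlg c t A I) : ℝ) ≤ (α + ε) * costL I O := by
    rintro s hs ⟨S, hS, hF, hc⟩
    have m : S ∈ (subs (pairsF I) t).flatMap fun P => candsA c t I (A (withF I (keepF I P))) := by
      refine List.mem_flatMap.2 ⟨P, hP, ?_⟩
      rw [hT]
      exact List.mem_flatMap.2 ⟨s, List.mem_range.2 (by omega), hS⟩
    have e1 : (costL I (lsAlg c t A I) : ℝ) ≤ costL I S := by
      exact_mod_cast (best_spec hI _).2 S m hF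
    rcases hc with hc | hc
    · have e2 : (costL I S : ℝ) ≤ ((costL I T + s * (160 * costL I O / t) : ℚ) : ℝ) := by
        exact_mod_cast hc
      exact e1.trans (e2.trans (hB s hs))
    · have e2 : (costL I S : ℝ) ≤ 5 / 3 * costL I O := by
        have := (Rat.cast_le (K := ℝ)).2 hc
        push_cast at this
        exact this
      exact e1.trans (e2.trans (mul_le_mul_of_nonneg_right (by linarith) h0))
  have key : ∀ s ≤ c, (costL I (lsAlg c t A I) : ℝ) ≤ (α + ε) * costL I O ∨
      Inv I (keepF I P) (drops I (ded T) s) c s (costL I T) (160 * costL I O / t) := by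
    intro s
    induction s with
    | zero =>
      intro _
      refine Or.inr ⟨ded_nodup T, List.ne_nil_of_mem (mem_ded.2 (headD_mem f1 0)),
        fun i hi => f2 i (mem_ded.1 hi), (length_ded T).trans f3, ?_⟩
      have := costL_mono I f1 fun i hi => mem_ded.2 hi
      simpa [drops] using this
    | succ s ih =>
      intro hs
      rcases ih (by omega) with h | h
      · exact Or.inl h
      · rcases LSSpec.step h2 h3 hI hO hG ht hsp (hB3 s (by omega)) h with h | h
        · exact Or.inl (found s (by omega) h)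
        · exact Or.inr h.2
  rcases key c le_rfl with h | h
  · exact h
  · rcases LSSpec.step h2 h3 hI hO hG ht hsp (hB3 c le_rfl) h with h | h
    · exact found c le_rfl h
    · exact absurd h.1 (lt_irrefl c)

end Vale.Agent.P334
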