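import Vale.Agent.P334.CoreDefs

/-!
The parameters of the core algorithm are computable and polynomially bounded.
-/

namespace Vale.Agent.P334

open Vale.Agent.Lib.TM Vale.Agent.P049

attribute [local irreducible] CT

variable {α : Type} [Enc α] {e : ℕ}

lemma bd_pow {t : α → ℕ} (h : Bd 0 t) (k : ℕ) : Bd 0 fun a => t a ^ k := by
  induction k with
  | zero => exact Bd.const 1
  | succ k ih => exact (ih.mul h).of_le fun a => by rw [pow_succ]

theorem ct_npow (k : ℕ) {t : α → ℕ} (h : CT e t) : CT e fun a => t a ^ k := by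
  induction k with
  | zero => exact CT.const 1
  | succ k ih => exact (ih.mul h).of_eq fun a => by rw [pow_succ]

@[fun_prop]
theorem ct_g1n {l : α → List ℕ} {i : α → ℕ} (hl : CT e l) (hi : CT e i) :
    CT e fun a => g1n (l a) (i a) := by
  unfold g1n; fun_prop

@[fun_prop]
theorem ct_g2n {M : α → List (List ℕ)} {i j : α → ℕ} (hM : CT e M) (hi : CT e i) (hj : CT e j) :
    CT e fun a => g2n (M a) (i a) (j a) := by
  unfold g2n; fun_prop

variable {C : α → Core}

@[fun_prop]
theorem ct_n (h : CT e C) : CT e fun a => (C a).n := by unfold Core.n; fun_prop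

@[fun_prop]
theorem ct_m (h : CT e C) : CT e fun a => (C a).m := by unfold Core.m; fun_prop

@[fun_prop]
theorem ct_ck (h : CT e C) : CT e fun a => (C a).k := by unfold Core.k; fun_prop

@[fun_prop]
theorem ct_s (h : CT e C) : CT e fun a => (C a).s := by unfold Core.s; fun_prop

@[fun_prop]
theorem ct_df {i j : α → ℕ} (h : CT e C) (hi : CT e i) (hj : CT e j) :
    CT e fun a => (C a).df (i a) (j a) := by unfold Core.df; fun_prop

@[fun_prop]
theorem ct_dc {i j : α → ℕ} (h : CT e C) (hi : CT e i) (hj : CT e j) :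
    CT e fun a => (C a).dc (i a) (j a) := by unfold Core.dc; fun_prop

variable (q : ℕ)

@[fun_prop]
theorem ct_L0 (h : CT e C) : CT e fun a => L0 q (C a) := by unfold L0; fun_prop

@[fun_prop]
theorem ct_D0 (h : CT e C) : CT e fun a => D0 q (C a) := by unfold D0; fun_prop

@[fun_prop]
theorem ct_QQ (h : CT e C) : CT e fun a => QQ q (C a) := by unfold QQ; fun_prop

@[fun_prop]
theorem ct_NN (h : CT e C) : CT e fun a => NN q (C a) := by
  unfold NN; exact (CT.const _).mul (ct_npow 5 (ct_s h))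

@[fun_prop]
theorem ct_PP (h : CT e C) : CT e fun a => PP q (C a) := by
  unfold PP; exact (CT.const _).mul (ct_npow 3 (ct_s h))

@[fun_prop]
theorem ct_HH (h : CT e C) : CT e fun a => HH q (C a) := by unfold HH; fun_prop

@[fun_prop]
theorem ct_TT (h : CT e C) : CT e fun a => TT q (C a) := by
  unfold TT; exact (CT.const _).mul (ct_npow 3 (ct_s h))

@[fun_prop]
theorem ct_LL (h : CT e C) : CT e fun a => LL q (C a) := by unfold LL; fun_prop

@[fun_prop]
theorem ct_DD (h : CT e C) : CT e fun a => DD q (C a) := by unfold DD; fun_prop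

@[fun_prop]
theorem ct_BB (h : CT e C) : CT e fun a => BB q (C a) := by
  unfold BB; exact (CT.const _).mul (ct_NN q h)

theorem ct_powB {B k : α → ℕ} (hB : CT e B) (hk : CT e k) (h : Bd 0 k) :
    CT e fun a => powB (B a) (k a) :=
  ct_qdiv (ct_natCast ((hB.add (CT.const 1)).pow hk h)) (ct_natCast (hB.pow hk h))

@[fun_prop]
theorem ct_sqn {x : α → ℕ} (h : CT e x) : CT e fun a => sqn (x a) := h.mul h

@[fun_prop]
theorem ct_xf {i j : α → ℕ} (h : CT e C) (hi : CT e i) (hj : CT e j) :
    CT e fun a => xf q (C a) (i a) (j a) := by unfold xf; fun_prop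

@[fun_prop]
theorem ct_xc {i j : α → ℕ} (h : CT e C) (hi : CT e i) (hj : CT e j) :
    CT e fun a => xc q (C a) (i a) (j a) := by unfold xc; fun_prop

lemma bd_n (h : CT e C) : Bd 0 fun a => (C a).n := h.fst.bd_length

lemma bd_m (h : CT e C) : Bd 0 fun a => (C a).m := h.snd.fst.bd_length

lemma bd_ck (h : CT e C) : Bd 0 fun a => (C a).k := (bd_n h).of_le fun _ => min_le_right _ _

lemma bd_s (h : CT e C) : Bd 0 fun a => (C a).s := ((bd_n h).add (bd_m h)).add (Bd.const 1)

lemma bd_L0 (h : CT e C) : Bd 0 fun a => L0 q (C a) := by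
  unfold L0; exact (Bd.const _).mul (bd_s h)

lemma bd_D0 (h : CT e C) : Bd 0 fun a => D0 q (C a) := by
  unfold D0; exact (Bd.const _).mul (bd_L0 q h)

lemma bd_QQ (h : CT e C) : Bd 0 fun a => QQ q (C a) := by
  unfold QQ; exact ((Bd.const _).mul (bd_s h)).mul (bd_D0 q h)

lemma bd_NN (h : CT e C) : Bd 0 fun a => NN q (C a) := by
  unfold NN; exact (Bd.const _).mul (bd_pow (bd_s h) 5)

lemma bd_TT (h : CT e C) : Bd 0 fun a => TT q (C a) := by
  unfold TT; exact (Bd.const _).mul (bd_pow (bd_s h) 3)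

lemma bd_DD (h : CT e C) : Bd 0 fun a => DD q (C a) := by
  unfold DD; exact (bd_QQ q h).mul (bd_D0 q h)

/-- Tables indexed by the facilities. -/
@[fun_prop]
theorem ct_tabn {β : Type} [Enc β] {f : α → ℕ → β} (h : CT e C)
    (hf : CT e fun p : α × ℕ => f p.1 p.2) : CT e fun a => tab (C a).n (f a) :=
  ct_tab (ct_n h) (bd_n h) hf

/-- Tables indexed by the clients. -/
@[fun_prop]
theorem ct_tabm {β : Type} [Enc β] {f : α → ℕ → β} (h : CT e C)
    (hf : CT e fun p : α × ℕ => f p.1 p.2) : CT e fun a => tab (C a).m (f a) :=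
  ct_tab (ct_m h) (bd_m h) hf

lemma sz_tab_le {β : Type} [Enc β] {n B : ℕ} {f : ℕ → β} (h : ∀ i < n, sz (f i) ≤ B) :
    sz (tab n f) ≤ n * (B + 1) + 1 := by
  have := sz_list_le (l := tab n f) (B := B) fun x hx => by
    obtain ⟨i, hi, rfl⟩ := List.mem_map.1 hx
    exact h i (List.mem_range.1 hi)
  simpa using this

lemma g1n_tab {n i : ℕ} (f : ℕ → ℕ) (h : i < n) : g1n (tab n f) i = f i := getD_tab f 0 h

lemma g2n_tab {m n j i : ℕ} (f : ℕ → ℕ → ℕ) (hj : j < m) (hi : i < n) :
    g2n (tab m fun j => tab n (f j)) j i = f j i := by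
  unfold g2n
  rw [getD_tab _ _ hj, getD_tab _ _ hi]

lemma lastOk_spec (ok : ℕ → Bool) (B : ℕ) : lastOk ok B ≤ B ∧
    (ok (lastOk ok B) = true ∨ lastOk ok B = 0) ∧ ∀ l ≤ B, ok l = true → l ≤ lastOk ok B := by
  induction B with
  | zero => cases h : ok 0 <;> simp [lastOk, h]
  | succ B ih =>
    have e1 : lastOk ok (B + 1) = bif ok (B + 1) then B + 1 else lastOk ok B := by
      unfold lastOk
      rw [List.range_succ, List.foldl_append]
      rfl
    obtain ⟨h1, h2, h3⟩ := ih
    rw [e1]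
    cases h : ok (B + 1)
    · refine ⟨by simp; omega, by simpa using h2, fun l hl ho => ?_⟩
      rcases Nat.lt_or_eq_of_le hl with hl | rfl
      · simpa using h3 l (by omega) ho
      · simp [h] at ho
    · exact ⟨by simp, by simp [h], fun l hl _ => by simpa using hl⟩

end Vale.Agent.P334
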