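import Vale.Agent.P334.Par
import Vale.Agent.P334.LSDefs

/-!
The final statement.
-/

namespace Vale.Agent.P334

open Vale.Agent.Lib.PCP

/-- The main theorem. -/
def MainS : Prop :=
  ∀ ε : ℝ, 0 < ε → ∃ A : Inst → List ℕ, PolyTime A ∧ ∀ I : Inst, I.Valid →
    ∃ h : (A I).toFinset.Nonempty, I.Feasible (A I).toFinset ∧
      ∀ (O : Finset ℕ) (hO : O.Nonempty), I.Feasible O →
        (I.cost (A I).toFinset h : ℝ) ≤ (1 + 2 / Real.exp 1 + ε) * I.cost O hO

end Vale.Agent.P334
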